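import Claimed.Agent.R256.Soft.Mono

/-!
# Row 256 (S0496), unit SOFT, A2 COND (= RESTR of helper189)      (chief helper19)      leaf L-256-SOFT-COND
Conditioning of the FINAL law on an event `U` of mass `≥ s^t` (partial assignment: no state changes, the earlier laws are the same).   `P'(A) ≤ s^-t P(A)`.
`hmass`: `mass' = mass * pr U`.   `reg, sp, tp` at `j = 1`: one more factor `s^-t`; `s^(1/t - t) ≤ s^(1/(2t))` since `t ≤ 1/2`.   `mincost` at `j = 1`: `2t ≤ (κ0/2)(1-i)` gives `s^-t s^(κ0 (1-i)) ≤ s^((κ0/2)(1-i))`;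
all other gates: monotonicity (`Soft/Mono.lean`) and `s^(-(κ0/2) h) ≤ s^(-κ0 h)`.
-/

set_option autoImplicit false

namespace Claimed.Agent.R256

open Claimed.Agent.R255

theorem sf_cond_pr_nonneg {Ω : Type} [Fintype Ω] (P : FLaw Ω) (A : Ω → Prop) : 0 ≤ P.pr A := by
  classical
  unfold FLaw.pr
  refine Finset.sum_nonneg fun ω _ => ?_
  split_ifs
  · exact P.nonneg ω
  · exact le_rfl

theorem sf_cond_pr_le_one {Ω : Type} [Fintype Ω] (P : FLaw Ω) (A : Ω → Prop) : P.pr A ≤ 1 := by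
  classical
  rw [← P.sum_one]
  unfold FLaw.pr
  refine Finset.sum_le_sum fun ω _ => ?_
  split_ifs
  · exact le_rfl
  · exact P.nonneg ω

/-- `P(A | U) ≤ P(A) / P(U)` -/
theorem sf_cond_pr_le {Ω : Type} [Fintype Ω] (P : FLaw Ω) (U : Ω → Prop) (h : 0 < P.pr U) (A : Ω → Prop) :
    (P.cond U h).pr A ≤ P.pr A / P.pr U := by
  classical
  unfold FLaw.pr FLaw.cond
  rw [Finset.sum_div]
  refine Finset.sum_le_sum fun ω _ => ?_
  have h' : 0 < ∑ ω, if U ω then P.p ω else 0 := h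
  by_cases hA : A ω
  · simp only [hA, if_true]
    refine div_le_div_of_nonneg_right ?_ h'.le
    split_ifs
    · exact le_rfl
    · exact P.nonneg ω
  · simp only [hA, if_false, zero_div, le_refl]

theorem sf_cond_p_pos {Ω : Type} [Fintype Ω] (P : FLaw Ω) (U : Ω → Prop) (h : 0 < P.pr U) (ω : Ω)
    (hω : 0 < (P.cond U h).p ω) : 0 < P.p ω := by
  classical
  have h1 : 0 < (if U ω then P.p ω else 0) / P.pr U := hω
  by_cases hU : U ω
  · rw [if_pos hU] at h1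
    exact (div_pos_iff_of_pos_right h).1 h1
  · rw [if_neg hU, zero_div] at h1
    exact absurd h1 (lt_irrefl 0)

/-- the abstract form: the laws are replaced by laws dominated by `s^-t` times the old ones, unchanged before the final gate -/
theorem sf_cond_aux (D : SfDoc) (π : SfPar) (C0 τ κ0 t : ℝ) (ht : 0 < t) (ht2 : t ≤ 1 / 2) (hD : D.Ok π C0 τ κ0 t)
    (P' : ∀ i, @FLaw (D.Row i) (D.fin i)) (mass' : ℝ → ℝ) (hPne : ∀ i, i ≠ 1 → P' i = D.P i)
    (hPle : ∀ i (A : D.Row i → Prop), (P' i).pr A ≤ D.s ^ (-t) * (D.P i).pr A)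
    (hPpos : ∀ i ρ, 0 < (P' i).p ρ → 0 < (D.P i).p ρ)
    (hmass : ∀ i ∈ D.G, D.s ^ (2 * t) ≤ mass' i ∧ mass' i ≤ D.s ^ (-(2 * t))) :
    SfDoc.Ok { D with P := P', mass := mass' } π C0 τ (κ0 / 2) (2 * t) := by
  have hc := hD.core
  have ha := hD.aff
  have hs0 : 0 < D.s := hc.hs.1
  have hs1 : D.s < 1 := hc.hs.2
  have anti : ∀ {x y : ℝ}, x ≤ y → D.s ^ y ≤ D.s ^ x := fun h => Real.rpow_le_rpow_of_exponent_ge hs0 hs1.le h
  have pos : ∀ x : ℝ, 0 < D.s ^ x := fun x => Real.rpow_pos_of_pos hs0 x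
  have h1t : 1 / (2 * t) ≤ 1 / t := one_div_le_one_div_of_le ht (by linarith)
  have h2t : 1 / (2 * t) ≤ 1 / t - t := by
    have e1 : 1 / t = 2 * (1 / (2 * t)) := by field_simp
    have e2 : t ≤ 1 / (2 * t) := by
      rw [le_div_iff₀ (by positivity)]
      nlinarith
    linarith
  have hsq : D.s ^ (-(2 * t)) = D.s ^ (-t) * D.s ^ (-t) := by
    rw [← Real.rpow_add hs0]
    congr 1
    ring
  have hsub : D.s ^ (1 / t - t) = D.s ^ (-t) * D.s ^ (1 / t) := by
    rw [← Real.rpow_add hs0]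
    congr 1
    ring
  have hn2 : -(2 * t) ≤ -t := by linarith
  have hap : D.AffP π (2 * t) := sf_affp_mono D π t (2 * t) hc.hs (by linarith)
    ⟨ha.hr, ha.hf, ha.cmpA, ha.cmpB, ha.eqK, ha.stK, ha.linP⟩
  refine ⟨{ hs := hc.hs, gate := hc.gate, hlen := ?_, hw := hc.hw, hek := hc.hek, hmass := hmass, bdd := hc.bdd, own := hc.own,
            grid := hc.grid, base := ?_, normC := hc.normC, normH := ?_, trans := hc.trans, split := hc.split, reg := ?_,
            cnt := ?_, sp := ?_, tp := ?_, clPath := ?_, clUniq := hc.clUniq, clConn := hc.clConn },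
          { hr := hap.hr, hf := hap.hf, cmpA := hap.cmpA, cmpB := hap.cmpB, eqK := hap.eqK, stK := hap.stK, linP := hap.linP,
            mincost := ?_, spg := ?_ }⟩
  · -- hlen
    refine ⟨hc.hlen.1, fun i hi => ⟨(anti (by linarith)).trans (hc.hlen.2 i hi).1, (hc.hlen.2 i hi).2.trans (anti (by linarith))⟩⟩
  · -- base
    intro i hi j hj hij ρ ρ' hcn
    obtain ⟨b1, b2, b3, b4⟩ := hc.base i hi j hj hij ρ ρ' hcn
    exact ⟨b1, b2, b3, b4.trans (anti h1t)⟩
  · -- normH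
    intro hh i hi j hj hij ρ ρ' hcn
    obtain ⟨b1, b2⟩ := hc.normH hh i hi j hj hij ρ ρ' hcn
    have hfj : 0 < D.f j := ((hc.hw.2.2 j hj).2)
    have hfi : 0 < D.f i := ((hc.hw.2.2 i hi).2)
    have hli : 0 < D.len i := lt_of_lt_of_le (pos _) (hc.hlen.2 i hi).1
    exact ⟨b1.trans (mul_le_mul_of_nonneg_right (anti hn2) hfj.le),
      b2.trans (mul_le_mul_of_nonneg_right (anti hn2) (mul_pos hli hfi).le)⟩
  · -- reg
    intro i hi Q hQ
    obtain ⟨q1, q2, q3, q4, q5, q6⟩ := hQ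
    have hQ' : D.Adm π t i Q := ⟨(anti h1t).trans q1, q2.trans (anti (neg_le_neg h1t)), (anti h1t).trans q3,
      q4.trans (anti (neg_le_neg h1t)), q5.trans (anti (neg_le_neg h1t)), q6⟩
    have h0 := hc.reg i hi Q hQ'
    calc (P' i).pr (fun ρ => D.T i ρ = Q.T ∧ Q.Mem (D.len i) (D.ray i ρ))
        ≤ D.s ^ (-t) * (D.P i).pr (fun ρ => D.T i ρ = Q.T ∧ Q.Mem (D.len i) (D.ray i ρ)) := hPle i _
      _ ≤ D.s ^ (-t) * (D.s ^ (-t) * D.s ^ ((π.p + π.d) * i) / D.ek * Q.w π.η) :=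
          mul_le_mul_of_nonneg_left h0 (pos _).le
      _ = D.s ^ (-(2 * t)) * D.s ^ ((π.p + π.d) * i) / D.ek * Q.w π.η := by
          rw [hsq]
          ring
  · -- cnt
    intro i hi
    have hek : 0 < D.ek := lt_of_lt_of_le (pos _) hc.hek.1
    refine (hc.cnt i hi).trans ?_
    exact mul_le_mul_of_nonneg_right (mul_le_mul_of_nonneg_right (anti hn2) hek.le) (pos _).le
  · -- sp
    intro i hi j hj hij U' S hPred
    have hi1 : i ≠ 1 := ne_of_lt (lt_of_lt_of_le hij (hc.gate.2 j hj).2)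
    have h0 := hc.sp i hi j hj hij U' S hPred
    show (P' j).pr U' ≤ D.s ^ (-(2 * t)) * (P' i).pr S ^ ((2 : ℝ) / 3) + D.s ^ (1 / (2 * t))
    rw [hPne i hi1]
    calc (P' j).pr U' ≤ D.s ^ (-t) * (D.P j).pr U' := hPle j U'
      _ ≤ D.s ^ (-t) * (D.s ^ (-t) * (D.P i).pr S ^ ((2 : ℝ) / 3) + D.s ^ (1 / t)) :=
          mul_le_mul_of_nonneg_left h0 (pos _).le
      _ = D.s ^ (-(2 * t)) * (D.P i).pr S ^ ((2 : ℝ) / 3) + D.s ^ (1 / t - t) := by
          rw [hsq, hsub]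
          ring
      _ ≤ _ := add_le_add le_rfl (anti h2t)
  · -- tp
    intro i hi j hj hij U' S M hPred hM
    have hi1 : i ≠ 1 := ne_of_lt (lt_of_lt_of_le hij (hc.gate.2 j hj).2)
    have h0 := hc.tp i hi j hj hij U' S M hPred hM
    show (P' j).pr U' ≤ D.s ^ (-(2 * t)) * M * D.s ^ (π.d * (j - i)) * (P' i).pr S + D.s ^ (1 / (2 * t))
    rw [hPne i hi1]
    calc (P' j).pr U' ≤ D.s ^ (-t) * (D.P j).pr U' := hPle j U'
      _ ≤ D.s ^ (-t) * (D.s ^ (-t) * M * D.s ^ (π.d * (j - i)) * (D.P i).pr S + D.s ^ (1 / t)) :=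
          mul_le_mul_of_nonneg_left h0 (pos _).le
      _ = D.s ^ (-(2 * t)) * M * D.s ^ (π.d * (j - i)) * (D.P i).pr S + D.s ^ (1 / t - t) := by
          rw [hsq, hsub]
          ring
      _ ≤ _ := add_le_add le_rfl (anti h2t)
  · -- clPath
    intro hh i hi j hj hij ρ' hρ'
    have hi1 : i ≠ 1 := ne_of_lt (lt_of_lt_of_le hij (hc.gate.2 j hj).2)
    obtain ⟨ρ, r1, r2⟩ := hc.clPath hh i hi j hj hij ρ' (hPpos j ρ' hρ')
    refine ⟨ρ, r1, ?_⟩
    show 0 < (P' i).p ρ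
    rw [hPne i hi1]
    exact r2
  · -- mincost
    intro i hi j hj hij htk ι _ Sb Ub sg h1 h2 h3 h4 h5 h6 h7
    have e1 : κ0 / 2 * (j - i) ≤ κ0 * (j - i) := by linarith
    have h0 := ha.mincost i hi j hj hij (by linarith) ι Sb Ub sg h1 h2
      (fun ρ => (h3 ρ).trans (anti (neg_le_neg e1)))
      (fun lam => (h4 lam).trans (anti (neg_le_neg e1)))
      (fun b => (h5 b).trans (anti (neg_le_neg h1t)))
      h6
      (fun hc2 b ρ' hb => ⟨((h7 hc2 b ρ' hb).1).trans (anti (neg_le_neg e1)), (h7 hc2 b ρ' hb).2⟩)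
    calc (P' j).pr (fun ρ' => ∃ b, Ub b ρ') ≤ D.s ^ (-t) * (D.P j).pr (fun ρ' => ∃ b, Ub b ρ') := hPle j _
      _ ≤ D.s ^ (-t) * D.s ^ (κ0 * (j - i)) := mul_le_mul_of_nonneg_left h0 (pos _).le
      _ = D.s ^ (κ0 * (j - i) - t) := by
          rw [← Real.rpow_add hs0]
          congr 1
          ring
      _ ≤ D.s ^ (κ0 / 2 * (j - i)) := anti (by linarith)
  · -- spg
    intro hh i hi j hj hij htk ι _ Sb sg U' S h1 h2 h3 h4 h5 h6
    have hi1 : i ≠ 1 := ne_of_lt (lt_of_lt_of_le hij (hc.gate.2 j hj).2)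
    have e1 : κ0 / 2 * (j - i) ≤ κ0 * (j - i) := by linarith
    have h0 := ha.spg hh i hi j hj hij (by linarith) ι Sb sg U' S h1 h2
      (fun lam => (h3 lam).trans (anti (neg_le_neg e1)))
      (fun b => (h4 b).trans (anti (neg_le_neg h1t)))
      h5
      (fun hc2 b ρ ρ' a1 a2 a3 => ⟨((h6 hc2 b ρ ρ' a1 a2 a3).1).trans (anti (neg_le_neg e1)), (h6 hc2 b ρ ρ' a1 a2 a3).2⟩)
    have hsk : D.s ^ (κ0 * (j - i) - t) = D.s ^ (-t) * D.s ^ (κ0 * (j - i)) := by
      rw [← Real.rpow_add hs0]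
      congr 1
      ring
    show (P' j).pr U' ≤ D.s ^ (-(2 * t)) * (P' i).pr S ^ ((2 : ℝ) / 3) + D.s ^ (κ0 / 2 * (j - i))
    rw [hPne i hi1]
    calc (P' j).pr U' ≤ D.s ^ (-t) * (D.P j).pr U' := hPle j U'
      _ ≤ D.s ^ (-t) * (D.s ^ (-t) * (D.P i).pr S ^ ((2 : ℝ) / 3) + D.s ^ (κ0 * (j - i))) :=
          mul_le_mul_of_nonneg_left h0 (pos _).le
      _ = D.s ^ (-(2 * t)) * (D.P i).pr S ^ ((2 : ℝ) / 3) + D.s ^ (κ0 * (j - i) - t) := by
          rw [hsq, hsk]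
          ring
      _ ≤ _ := add_le_add le_rfl (anti (by linarith))

/-- **(A2 COND = RESTR)** `Ok` is stable under conditioning of the final law on an event of mass `≥ s^t` -/
theorem sf_cond (D : SfDoc) (π : SfPar) (C0 τ κ0 t : ℝ) (ht : 0 < t) (ht2 : t ≤ 1 / 2) (hD : D.Ok π C0 τ κ0 t)
    (U : D.Row 1 → Prop) (hU : D.s ^ t ≤ (D.P 1).pr U) (hU0 : 0 < (D.P 1).pr U) :
    SfDoc.Ok { D with P := fun i => if h : i = 1 then h ▸ (D.P 1).cond U hU0 else D.P i
                      mass := fun i => if i = 1 then D.mass 1 * (D.P 1).pr U else D.mass i } π C0 τ (κ0 / 2) (2 * t) := by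
  have hc := hD.core
  have hs0 : 0 < D.s := hc.hs.1
  have hs1 : D.s < 1 := hc.hs.2
  have anti : ∀ {x y : ℝ}, x ≤ y → D.s ^ y ≤ D.s ^ x := fun h => Real.rpow_le_rpow_of_exponent_ge hs0 hs1.le h
  have pos : ∀ x : ℝ, 0 < D.s ^ x := fun x => Real.rpow_pos_of_pos hs0 x
  have hone : 1 ≤ D.s ^ (-t) := by
    have := anti (x := -t) (y := 0) (by linarith)
    rwa [Real.rpow_zero] at this
  refine sf_cond_aux D π C0 τ κ0 t ht ht2 hD _ _ (fun i hi => dif_neg hi) ?_ ?_ ?_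
  · intro i A
    by_cases h : i = 1
    · subst h
      rw [dif_pos rfl]
      refine (sf_cond_pr_le (D.P 1) U hU0 A).trans ?_
      rw [div_le_iff₀ hU0]
      have hA := sf_cond_pr_nonneg (D.P 1) A
      calc (D.P 1).pr A = D.s ^ (-t) * (D.P 1).pr A * D.s ^ t := by
            rw [mul_right_comm, ← Real.rpow_add hs0, neg_add_cancel, Real.rpow_zero, one_mul]
        _ ≤ D.s ^ (-t) * (D.P 1).pr A * (D.P 1).pr U :=
            mul_le_mul_of_nonneg_left hU (mul_nonneg (pos _).le hA)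
    · rw [dif_neg h]
      exact le_mul_of_one_le_left (sf_cond_pr_nonneg _ A) hone
  · intro i ρ hρ
    by_cases h : i = 1
    · subst h
      rw [dif_pos rfl] at hρ
      exact sf_cond_p_pos (D.P 1) U hU0 ρ hρ
    · rw [dif_neg h] at hρ
      exact hρ
  · intro i hi
    by_cases h : i = 1
    · subst h
      rw [if_pos rfl]
      obtain ⟨m1, m2⟩ := hc.hmass 1 hi
      have hU1 := sf_cond_pr_le_one (D.P 1) U
      constructor
      · calc D.s ^ (2 * t) = D.s ^ t * D.s ^ t := by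
              rw [← Real.rpow_add hs0]
              congr 1
              ring
          _ ≤ D.mass 1 * (D.P 1).pr U := mul_le_mul m1 hU (pos _).le ((pos _).le.trans m1)
      · calc D.mass 1 * (D.P 1).pr U ≤ D.s ^ (-t) * 1 := mul_le_mul m2 hU1 hU0.le (pos _).le
          _ = D.s ^ (-t) := mul_one _
          _ ≤ D.s ^ (-(2 * t)) := anti (by linarith)
    · rw [if_neg h]
      obtain ⟨m1, m2⟩ := hc.hmass i hi
      exact ⟨(anti (by linarith)).trans m1, m2.trans (anti (by linarith))⟩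

end Claimed.Agent.R256
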