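import Claimed.Agent.R256.Soft.Voc
import Claimed.Agent.R255.Ent.Basic

/-!
# Row 256 (S0496), unit SOFT, A1 MONO: monotonicity in the tolerance      (chief helper19)      leaf L-256-SOFT-MONO
All statements are elementary: `0 < s < 1`, `s^x` is antitone in `x`; `Adm` shrinks when `t` grows; in `tp` use `M * pr S ≥ 0` (if `pr S ≠ 0` then `S` is inhabited and `M ≥ ncard ≥ 0`).
-/

set_option autoImplicit false

namespace Claimed.Agent.R256

open Claimed.Agent.R255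

theorem sf_core_same (D : SfDoc) (π π' : SfPar) (C0 t : ℝ) (hs : π'.Same π) (h : D.Core π C0 t) : D.Core π' C0 t := by
  obtain ⟨η, Γ, p, d, c2, c1, J, q, hyb⟩ := π
  obtain ⟨η', Γ', p', d', c2', c1', J', q', hyb'⟩ := π'
  obtain ⟨e1, e2, e3, e4, e5⟩ := hs
  have e1' : η' = η := e1
  have e3' : p' = p := e3
  have e4' : d' = d := e4
  have e5' : hyb' = hyb := e5
  subst e1' e3' e4' e5'
  exact ⟨h.hs, h.gate, h.hlen, h.hw, h.hek, h.hmass, h.bdd, h.own, h.grid, h.base, h.normC, h.normH, h.trans, h.split,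
    h.reg, h.cnt, h.sp, h.tp, h.clPath, h.clUniq, h.clConn⟩

/-- `s^x` is antitone in `x` for `0 < s < 1` -/
theorem sf_mono_aux_le {s x y : ℝ} (hs : 0 < s ∧ s < 1) (h : x ≤ y) : s ^ y ≤ s ^ x :=
  Real.rpow_le_rpow_of_exponent_ge hs.1 hs.2.le h

/-- `Adm` shrinks when the tolerance grows -/
theorem sf_mono_aux_adm (D : SfDoc) (π : SfPar) (t t' i : ℝ) (hs : 0 < D.s ∧ D.s < 1) (ht : 0 < t) (htt : t ≤ t') (Q : SfTest)
    (h : D.Adm π t' i Q) : D.Adm π t i Q := by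
  have h1 : 1 / t' ≤ 1 / t := one_div_le_one_div_of_le ht htt
  obtain ⟨a1, a2, a3, a4, a5, a6⟩ := h
  exact ⟨(sf_mono_aux_le hs h1).trans a1, a2.trans (sf_mono_aux_le hs (by linarith)), (sf_mono_aux_le hs h1).trans a3,
    a4.trans (sf_mono_aux_le hs (by linarith)), a5.trans (sf_mono_aux_le hs (by linarith)), a6⟩

/-- `Core` is monotone in the tolerance -/
theorem sf_mono_aux_core (D : SfDoc) (π : SfPar) (C0 t t' : ℝ) (ht : 0 < t) (htt : t ≤ t') (h : D.Core π C0 t) :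
    D.Core π C0 t' := by
  have hs := h.hs
  have h1 : 1 / t' ≤ 1 / t := one_div_le_one_div_of_le ht htt
  have hneg : D.s ^ (-t) ≤ D.s ^ (-t') := sf_mono_aux_le hs (by linarith)
  have hinv : D.s ^ (1 / t) ≤ D.s ^ (1 / t') := sf_mono_aux_le hs h1
  have hek : 0 < D.ek := lt_of_lt_of_le (Real.rpow_pos_of_pos hs.1 _) h.hek.1
  have hpos : ∀ x : ℝ, 0 < D.s ^ x := fun x => Real.rpow_pos_of_pos hs.1 x
  refine ⟨h.hs, h.gate, ⟨h.hlen.1, fun i hi => ?_⟩, h.hw, h.hek, fun i hi => ?_, h.bdd, h.own, h.grid, ?_, h.normC, ?_,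
    h.trans, h.split, ?_, ?_, ?_, ?_, h.clPath, h.clUniq, h.clConn⟩
  · exact ⟨(sf_mono_aux_le hs (by linarith)).trans (h.hlen.2 i hi).1, (h.hlen.2 i hi).2.trans (sf_mono_aux_le hs (by linarith))⟩
  · exact ⟨(sf_mono_aux_le hs htt).trans (h.hmass i hi).1, (h.hmass i hi).2.trans hneg⟩
  · intro i hi j hj hij ρ ρ' hc
    obtain ⟨b1, b2, b3, b4⟩ := h.base i hi j hj hij ρ ρ' hc
    exact ⟨b1, b2, b3, b4.trans hinv⟩
  · intro hh i hi j hj hij ρ ρ' hc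
    obtain ⟨b1, b2⟩ := h.normH hh i hi j hj hij ρ ρ' hc
    have hfj := (h.hw.2.2 j hj).2
    have hfi := (h.hw.2.2 i hi).2
    have hli : 0 < D.len i := lt_of_lt_of_le (hpos _) (h.hlen.2 i hi).1
    exact ⟨b1.trans (mul_le_mul_of_nonneg_right hneg hfj.le),
      b2.trans (mul_le_mul_of_nonneg_right hneg (mul_pos hli hfi).le)⟩
  · intro i hi Q hQ
    have b1 := h.reg i hi Q (sf_mono_aux_adm D π t t' i hs ht htt Q hQ)
    have hr : 0 ≤ Q.r := (hpos _).le.trans hQ.1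
    have hf : 0 ≤ Q.f := (hpos _).le.trans hQ.2.2.1
    have hw : 0 ≤ Q.w π.η := mul_nonneg (Real.rpow_nonneg hr _) (Real.rpow_nonneg hf _)
    refine b1.trans (mul_le_mul_of_nonneg_right ?_ hw)
    exact div_le_div_of_nonneg_right (mul_le_mul_of_nonneg_right hneg (hpos _).le) hek.le
  · intro i hi
    refine (h.cnt i hi).trans ?_
    exact mul_le_mul_of_nonneg_right (mul_le_mul_of_nonneg_right hneg hek.le) (hpos _).le
  · intro i hi j hj hij U S hP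
    refine (h.sp i hi j hj hij U S hP).trans ?_
    exact add_le_add (mul_le_mul_of_nonneg_right hneg (Real.rpow_nonneg (ent_pr_nonneg _ _) _)) hinv
  · intro i hi j hj hij U S M hP hM
    refine (h.tp i hi j hj hij U S M hP hM).trans ?_
    have hMS : 0 ≤ M * (D.P i).pr S := by
      by_cases h0 : (D.P i).pr S = 0
      · rw [h0, mul_zero]
      · have hp : 0 < (D.P i).pr S := lt_of_le_of_ne (ent_pr_nonneg _ _) (Ne.symm h0)
        obtain ⟨ρ, hρ, _⟩ := (ent_pr_pos_iff _ _).1 hp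
        exact mul_nonneg ((Nat.cast_nonneg _).trans (hM ρ hρ)) hp.le
    have e : ∀ a : ℝ, a * M * D.s ^ (π.d * (j - i)) * (D.P i).pr S = a * (D.s ^ (π.d * (j - i)) * (M * (D.P i).pr S)) := by
      intro a
      ring
    rw [e, e]
    exact add_le_add (mul_le_mul_of_nonneg_right hneg (mul_nonneg (hpos _).le hMS)) hinv

/-- `Mat` is monotone in the tolerance -/
theorem sf_mono_aux_mat (D : SfDoc) (Ls t t' : ℝ) (hs : 0 < D.s ∧ D.s < 1) (hw : ∀ i ∈ D.G, 0 < D.r i ∧ 0 < D.f i)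
    (htt : t ≤ t') (h : D.Mat Ls t) : D.Mat Ls t' := by
  refine ⟨?_, ?_⟩
  · intro i hi j hj hij
    obtain ⟨b1, b2, b3, b4⟩ := h.wr i hi j hj hij
    exact ⟨(sf_mono_aux_le hs (by linarith)).trans b1, b2, (sf_mono_aux_le hs (by linarith)).trans b3,
      b4.trans (sf_mono_aux_le hs (by linarith))⟩
  · intro i hi j hj hij ρ ρ' hc
    obtain ⟨b1, b2⟩ := h.mm i hi j hj hij ρ ρ' hc
    obtain ⟨hr, hf⟩ := hw j hj
    have hle : D.s ^ (-((3 * Ls + 1) * (j - i) + t)) ≤ D.s ^ (-((3 * Ls + 1) * (j - i) + t')) :=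
      sf_mono_aux_le hs (by linarith)
    exact ⟨b1.trans (mul_le_mul_of_nonneg_left hle (div_pos hf (pow_pos hr 2)).le),
      b2.trans (mul_le_mul_of_nonneg_left hle (div_pos hf hr).le)⟩

theorem sf_good_mono (D : SfDoc) (π : SfPar) (Ls C0 t t' : ℝ) (ht : 0 < t) (htt : t ≤ t') (h : D.Good π Ls C0 t) : D.Good π Ls C0 t' := by
  exact ⟨sf_mono_aux_core D π C0 t t' ht htt h.1, sf_mono_aux_mat D Ls t t' h.1.hs h.1.hw.2.2 htt h.2⟩

theorem sf_affp_mono (D : SfDoc) (π : SfPar) (t t' : ℝ) (hs : 0 < D.s ∧ D.s < 1) (htt : t ≤ t') (h : D.AffP π t) : D.AffP π t' := by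
  have hm : ∀ x : ℝ, D.s ^ (x - t) ≤ D.s ^ (x - t') := fun x => sf_mono_aux_le hs (by linarith)
  have hp : ∀ x : ℝ, D.s ^ (x + t') ≤ D.s ^ (x + t) := fun x => sf_mono_aux_le hs (by linarith)
  refine ⟨?_, ?_, ?_, ?_, ?_, ?_, ?_⟩
  · exact fun i hi => ⟨(hp _).trans (h.hr i hi).1, (h.hr i hi).2.trans (hm _)⟩
  · exact fun i hi => ⟨(hp _).trans (h.hf i hi).1, (h.hf i hi).2.trans (hm _)⟩
  · intro i hi j hj hij ρ ρ' hc
    obtain ⟨b1, b2, b3⟩ := h.cmpA i hi j hj hij ρ ρ' hc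
    exact ⟨b1.trans (hm _), b2.trans (hm _), b3.trans (hm _)⟩
  · exact fun i hi ρ => (h.cmpB i hi ρ).trans (hm _)
  · exact fun a1 a2 a3 i hi ρ => (h.eqK a1 a2 a3 i hi ρ).trans (hm _)
  · exact fun a1 a2 i hi ρ => (h.stK a1 a2 i hi ρ).trans (sf_mono_aux_le hs (by linarith))
  · intro a1
    obtain ⟨b1, b2⟩ := h.linP a1
    exact ⟨fun i hi j hj hij ρ ρ' hc => (b1 i hi j hj hij ρ ρ' hc).trans (hm _), fun ρ => (b2 ρ).trans (hm _)⟩

theorem sf_zero_mono (D : SfDoc) (t t' : ℝ) (hs : 0 < D.s ∧ D.s < 1) (htt : t ≤ t') (h : D.Zero t) : D.Zero t' := by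
  have hneg : D.s ^ (-t) ≤ D.s ^ (-t') := sf_mono_aux_le hs (by linarith)
  exact fun ρ => ⟨(h ρ).1.trans hneg, (h ρ).2.trans hneg⟩

theorem sf_gap_exists (F : Finset ℝ) : ∃ h : ℝ, 0 < h ∧ ∀ i ∈ F, ∀ j ∈ F, i < j → h ≤ j - i := by
  by_cases hne : ((F ×ˢ F).filter (fun p : ℝ × ℝ => p.1 < p.2)).Nonempty
  · obtain ⟨p₀, hp₀, hmin⟩ := Finset.exists_min_image _ (fun p : ℝ × ℝ => p.2 - p.1) hne
    refine ⟨p₀.2 - p₀.1, by linarith [(Finset.mem_filter.1 hp₀).2], fun i hi j hj hij => ?_⟩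
    exact hmin (i, j) (Finset.mem_filter.2 ⟨Finset.mem_product.2 ⟨hi, hj⟩, hij⟩)
  · refine ⟨1, one_pos, fun i hi j hj hij => ?_⟩
    exact absurd ⟨(i, j), Finset.mem_filter.2 ⟨Finset.mem_product.2 ⟨hi, hj⟩, hij⟩⟩ hne

end Claimed.Agent.R256
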