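import Claimed.Agent.R256.Soft.Doc

/-!
# Row 256 (S0496), unit SOFT: **(SPG)** RARITY TRANSPORT MODULO COST-IMPROVED GROUPS      (chief of the block: helper206; ruling of helper243, 00:10Z)

LEMMAS ONLY (step 1 done, helper118): the definition `SfDoc.Spg` is in `Soft/Doc.lean`, it is the field `spg : π.hyb = true → D.Spg π τ κ0 t` of `SfDoc.Aff`, with the SAME `κ0` as `mincost`.
Design note: `git show origin/helper206:notes/R256/E2_hybrid_206.md`.      Paper: Lemma cyl:group-extraction in its ORIGINAL (partition) form, 02 l.765-818, + minimality of the cost, as used in 06 l.596-640 (discard step of act:strict-boundary, hybrid).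

`D.Spg π τ κ0 t`:  gates `i < j`, `t ≤ κ0 (j - i)`.   DATA: groups `Sb b` = pairwise DISJOINT sets of rows of the gate `i`, with shears `sg b`; a set `U` of rows of the gate `j`; a set `S` of rows of the gate `i`.   HYPOTHESES:
* every `Conn`-predecessor of `U` lies in `S` or in a group;
* every label of `U` is reachable from `≤ s^(-κ0 (j-i))` groups;
* the cost of every row of `U` reachable from the group `b` is improved by `τ` after subtraction of `sg b`.
CONCLUSION: `P_j(U) ≤ s^(-t) P_i(S)^(2/3) + s^(κ0 (j-i))`      = the field `sp` in which the predecessors lying in the groups are FREE.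
(`U = univ`, `S` = complement of the groups: the rows in no group have the mass `≥ s^(2t)`.)      The groups need NOT contain all the predecessors of the rows they reach (this is the difference with `mincost`, which fails here: 06 l.596).
-/

set_option autoImplicit false

namespace Claimed.Agent.R256

open Claimed.Agent.R255

/-- `Spg` is monotone: larger tolerance, larger improvement, smaller rigidity exponent -/
theorem sf_spg_mono (D : SfDoc) (π : SfPar) (τ τ' κ0 κ0' t t' : ℝ) (hs : 0 < D.s ∧ D.s < 1) (ht : 0 < t) (htt : t ≤ t') (hτ : τ ≤ τ') (hκ : κ0' ≤ κ0)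
    (h : D.Spg π τ κ0 t) : D.Spg π τ' κ0' t' := by
  intro i hi j hj hij htk ι _ Sb sg U S h1 h2 h3 h4 h5 h6
  have hd : 0 < j - i := by linarith
  have hm : κ0' * (j - i) ≤ κ0 * (j - i) := mul_le_mul_of_nonneg_right hκ hd.le
  have anti : ∀ {x y : ℝ}, x ≤ y → D.s ^ y ≤ D.s ^ x := fun hxy => Real.rpow_le_rpow_of_exponent_ge hs.1 hs.2.le hxy
  have hinv : 1 / t' ≤ 1 / t := one_div_le_one_div_of_le ht htt
  have hpr : 0 ≤ (D.P i).pr S ^ ((2 : ℝ) / 3) := by
    refine Real.rpow_nonneg ?_ _
    classical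
    unfold FLaw.pr
    exact Finset.sum_nonneg fun ω _ => by
      split_ifs
      · exact (D.P i).nonneg ω
      · exact le_rfl
  refine (h i hi j hj hij (by linarith) ι Sb sg U S h1 h2 (fun lam => (h3 lam).trans (anti (by linarith)))
    (fun b => (h4 b).trans (anti (by linarith))) ?_ ?_).trans ?_
  · intro hc b ρ ρ' a1 a2 a3
    refine (h5 hc b ρ ρ' a1 a2 a3).trans (anti ?_)
    have : (π.c2 - τ') * (j - i) ≤ (π.c2 - τ) * (j - i) := mul_le_mul_of_nonneg_right (by linarith) hd.le
    linarith
  · intro hc b ρ ρ' a1 a2 a3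
    obtain ⟨b1, b2⟩ := h6 hc b ρ ρ' a1 a2 a3
    refine ⟨b1.trans (anti (by linarith)), b2.trans (anti ?_)⟩
    have : (π.c1 - τ') * (j - i) ≤ (π.c1 - τ) * (j - i) := mul_le_mul_of_nonneg_right (by linarith) hd.le
    linarith
  · exact add_le_add (mul_le_mul_of_nonneg_right (anti (by linarith)) hpr) (anti hm)

/-- `Spg` is void when `κ0 < t` -/
theorem sf_spg_vac (D : SfDoc) (π : SfPar) (τ κ0 t : ℝ) (hG : ∀ i ∈ D.G, 0 ≤ i ∧ i ≤ 1) (h0 : 0 ≤ κ0) (hκ : κ0 < t) : D.Spg π τ κ0 t := by
  intro i hi j hj hij ht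
  exfalso
  have h1 : j - i ≤ 1 := by linarith [(hG i hi).1, (hG j hj).2]
  have : κ0 * (j - i) ≤ κ0 * 1 := mul_le_mul_of_nonneg_left h1 h0
  linarith

/-- `Spg` is void for a nonpositive rigidity exponent -/
theorem sf_spg_neg (D : SfDoc) (π : SfPar) (τ κ0 t : ℝ) (ht : 0 < t) (hk : κ0 ≤ 0) : D.Spg π τ κ0 t := by
  intro i _ j _ hij htk
  have : κ0 * (j - i) ≤ 0 := mul_nonpos_of_nonpos_of_nonneg hk (by linarith)
  exact absurd htk (by linarith)

end Claimed.Agent.R256
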