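import Claimed.Agent.R255.Base.Law

/-!
# Row 256 (S0496), unit SOFT, file 5: THE OPERATOR-FREE DOCUMENTED CONFIGURATION      (chief helper19; agreed with helper207)

= the exit interface of secs. 2-3 of the paper for secs. 3-6 (reports 836 `Doc`, 846 G1-G9, 848 P0-P5, 855 D1-D5, 873 P6).      DEFINITIONS ONLY.
No state, no mask, no operator, no package: finite row sets with finite laws, real coordinates, labels (= cylinder tests), one geometric relation `Conn`.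

## Vocabulary (Def. cyl:def-test, 02-cylinder.tex l.72-101)
* `SfRay` = `(X, B, Y, N, D)` TIME-ZERO coordinates of a classical ray; `z.Bt t = B + t X`, `z.Yt t = Y + t X²`, `z.Dt t = D + t N`.
  A hybrid row with analysed centre `(D_inst, N)` at the time `T` is recorded by the ray through it: `D = D_inst - T N`.
* `SfTest` = `(T; x, b, y; c, d, al, be, K; r, f)`: time (left end point of its interval), base centre, shear (`be = β(T)`, `d = d(T)`), widths.  `Q.Mem l z` = the five inequalities at the time `Q.T`, interval length `l`.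
  `Q.w η = r^(3+η) f^(1-η)`;  `Q.beAt t = β(t)`;  `Q.Pd z = P(F)` (cyl:derivative, time independent);  `Q.Pc` = derivative at the centre;  `Q.PdAt x b t` = derivative of the shear of `Q` at the base point `(x, b)` at time `t`.
  `sfR2 lam sg l`, `sfR1 lam sg` = the costs (cyl:costs) of the label `lam` AFTER subtraction of the shear of `sg`  (`sg = sfZero` : the costs themselves).
* `SfPar` = `(η, Γ, p, d, c2, c1, J, q, hyb)`.   UNIFIED affine profiles (F):  `u i = J (1-i)`, `b2 i = q (i-1)`, `b1 = b2 + u`, `n = b2 + 2 u`   (`r_i = s^(u i)`, `f_i = s^(n i)`, `r_1 = f_1 = 1`).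
  The three families: EQ `0 < c2 = q`;  ST `c2 = 1, q < 1`;  LIN `c2 = 0 < c1, q = c1 + J` (so `b1 i = c1 (i-1)`).   Hybrid (strict gap, (Pl)): `n i = (1-i)/2`, i.e. `q - 2 J = -1/2`.

## `SfDoc`, `SfDoc.Core π C0 t`, `SfDoc.Aff π τ κ0 t`, `SfDoc.Ok = Core ∧ Aff`      (`t` = tolerance, every `s^(±o(1))` is `s^(∓t)`, every "negligible" is `s^(1/t)`)
`Core` = what holds for every documented configuration at `(Γ, p)` (uses only `η, p, d, hyb` of `π`; also serves the zero-cost case of sec. 3);   `Aff` = affine profiles (F), comparisons (A), (B), cost rigidity P6.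
Gates = a finite set `G ⊆ [0,1]` of depths, `1 ∈ G`.  For `i ∈ G`: finite type `Row i` (retained pre-synthesis rows: interval × atom of the exact index × atom of `(D,N)`), law `P i` (raw row mass / total), `mass i` = total / `E_i`,
`ray`, `lab` (documented label, with its time), `idx` (exact index).   `ek = e/κ`.
`Conn i j` = existence of a connecting chain through retained rows of ALL intermediate gates (so `trans` and `split` hold); between neighbouring gates it is the truncated geometric correspondence (cyl:correspondence) between atoms: it CONTAINS every physical predecessor relation.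
`Row i` = the MASK-retained atoms (zero `P`-mass allowed), NOT only the charged ones: restricting the input may undo cancellations (02 l.1290, l.1540), `sp`, `tp`, `mincost` quantify over all geometric predecessors.
Fields: see the docstrings.   `Core`, `Aff` are monotone in `t` (unit L-256-SOFT-MONO).   (mem) of sec. 3 is a separate predicate on `SfDoc` owned by R256/Chan.
-/

set_option autoImplicit false

namespace Claimed.Agent.R256

open Claimed.Agent.R255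

/-- time-zero coordinates of a ray -/
structure SfRay where
  X : ℝ
  B : ℝ
  Y : ℝ
  N : ℝ
  D : ℝ

namespace SfRay

/-- `B_t = B + t X` -/
def Bt (z : SfRay) (t : ℝ) : ℝ := z.B + t * z.X
/-- `Y_t = Y + t X²` -/
def Yt (z : SfRay) (t : ℝ) : ℝ := z.Y + t * z.X ^ 2
/-- `D_t = D + t N` -/
def Dt (z : SfRay) (t : ℝ) : ℝ := z.D + t * z.N
/-- the largest coordinate -/
def size (z : SfRay) : ℝ := max |z.X| (max |z.B| (max |z.Y| (max |z.N| |z.D|)))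
/-- sup distance of two rays -/
def dist (z z' : SfRay) : ℝ :=
  max |z.X - z'.X| (max |z.B - z'.B| (max |z.Y - z'.Y| (max |z.N - z'.N| |z.D - z'.D|)))
/-- sup distance of the base parts -/
def bdist (z z' : SfRay) : ℝ := max |z.X - z'.X| (max |z.B - z'.B| |z.Y - z'.Y|)

end SfRay

/-- a cylinder test with its time -/
structure SfTest where
  T : ℝ
  x : ℝ
  b : ℝ
  y : ℝ
  c : ℝ
  d : ℝ
  al : ℝ
  be : ℝ
  K : ℝ
  r : ℝ
  f : ℝ

namespace SfTest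

/-- the ray `z` lies in the test `Q`, at the time `Q.T`, for the interval length `l`      (cyl:base-test), (cyl:velocity-test), (cyl:position-test) -/
def Mem (Q : SfTest) (l : ℝ) (z : SfRay) : Prop :=
  |z.X - Q.x| ≤ Q.r ∧ |z.Bt Q.T - Q.b| ≤ l * Q.r ∧
  |z.Yt Q.T - Q.y - 2 * Q.x * (z.Bt Q.T - Q.b)| ≤ l * Q.r ^ 2 ∧
  |z.N - Q.c - Q.al * z.X - Q.be * z.X ^ 2 - Q.K * (z.Yt Q.T - 2 * z.X * z.Bt Q.T)| ≤ Q.f ∧
  |z.Dt Q.T - Q.d - Q.al * z.Bt Q.T - Q.be * z.Yt Q.T + Q.K * z.Bt Q.T ^ 2| ≤ l * Q.f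

/-- the weight `r^(3+η) f^(1-η)` -/
noncomputable def w (η : ℝ) (Q : SfTest) : ℝ := Q.r ^ (3 + η) * Q.f ^ (1 - η)
/-- `β(t) = β(T) + (t - T) K` -/
def beAt (Q : SfTest) (t : ℝ) : ℝ := Q.be + (t - Q.T) * Q.K
/-- `P(F) = α + 2 β(t) X - 2 K B_t` -/
def Pd (Q : SfTest) (z : SfRay) : ℝ := Q.al + 2 * Q.be * z.X - 2 * Q.K * z.Bt Q.T
/-- the derivative of the shear of `Q` at the base point `(x, b)` at the time `t` -/
def PdAt (Q : SfTest) (x b t : ℝ) : ℝ := Q.al + 2 * Q.beAt t * x - 2 * Q.K * b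
/-- the derivative at the own centre -/
def Pc (Q : SfTest) : ℝ := Q.al + 2 * Q.be * Q.x - 2 * Q.K * Q.b
/-- the largest parameter (centres and shear) -/
def size (Q : SfTest) : ℝ :=
  max |Q.x| (max |Q.b| (max |Q.y| (max |Q.c| (max |Q.d| (max |Q.al| (max |Q.be| |Q.K|))))))

end SfTest

/-- the zero shear -/
def sfZero : SfTest := ⟨0, 0, 0, 0, 0, 0, 0, 0, 0, 0, 0⟩

/-- curvature cost of the label `lam` (interval length `l`) after subtraction of the shear of `sg` -/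
noncomputable def sfR2 (lam sg : SfTest) (l : ℝ) : ℝ :=
  lam.r ^ 2 / lam.f * (|lam.be - sg.beAt lam.T| + l * |lam.K - sg.K|)

/-- linear cost of the label `lam` after subtraction of the shear of `sg` -/
noncomputable def sfR1 (lam sg : SfTest) : ℝ :=
  lam.r / lam.f * |lam.Pc - sg.PdAt lam.x lam.b lam.T|

/-- the exponents of an affine extremal family -/
structure SfPar where
  η : ℝ
  Γ : ℝ
  p : ℝ
  d : ℝ
  c2 : ℝ
  c1 : ℝ
  J : ℝ
  q : ℝ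
  hyb : Bool

namespace SfPar

/-- `u(i) = log_s r_i` -/
def u (π : SfPar) (i : ℝ) : ℝ := π.J * (1 - i)
/-- `b_2(i) = n - 2u` -/
def b2 (π : SfPar) (i : ℝ) : ℝ := π.q * (i - 1)
/-- `b_1(i) = n - u` -/
def b1 (π : SfPar) (i : ℝ) : ℝ := (π.q - π.J) * (i - 1)
/-- `n(i) = log_s f_i` -/
def n (π : SfPar) (i : ℝ) : ℝ := (π.q - 2 * π.J) * (i - 1)

/-- the numerical relations (cyl:pd), (F), (Pl) -/
structure Valid (π : SfPar) : Prop where
  eta : 0 < π.η ∧ π.η < 1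
  gam : π.η / 2 < π.Γ
  pd : π.Γ = π.d + (1 - π.p) / 2
  p1 : 1 ≤ π.p ∧ π.p < 3
  d1 : 0 < π.d ∧ π.d ≤ 1
  J0 : 0 ≤ π.J
  fam : (0 < π.c2 ∧ π.q = π.c2) ∨ (π.c2 = 1 ∧ π.q < 1) ∨ (π.c2 = 0 ∧ 0 < π.c1 ∧ π.q = π.c1 + π.J)
  pl : π.hyb = true → π.q - 2 * π.J = -1 / 2

end SfPar

/-- the data of an operator-free documented configuration -/
structure SfDoc where
  s : ℝ
  G : Finset ℝ
  Row : ℝ → Type
  fin : ∀ i, Fintype (Row i)
  P : ∀ i, @FLaw (Row i) (fin i)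
  mass : ℝ → ℝ
  len : ℝ → ℝ
  r : ℝ → ℝ
  f : ℝ → ℝ
  ek : ℝ
  ray : ∀ i, Row i → SfRay
  lab : ∀ i, Row i → SfTest
  Idx : Type
  idx : ∀ i, Row i → Idx
  Conn : ∀ i j, Row i → Row j → Prop

instance sfDocFintype (D : SfDoc) (i : ℝ) : Fintype (D.Row i) := D.fin i

namespace SfDoc

/-- the time of a row -/
def T (D : SfDoc) (i : ℝ) (ρ : D.Row i) : ℝ := (D.lab i ρ).T

/-- `S` contains every `Conn`-predecessor of `U` -/
def Pred (D : SfDoc) (i j : ℝ) (U : D.Row j → Prop) (S : D.Row i → Prop) : Prop :=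
  ∀ ρ', U ρ' → ∀ ρ, D.Conn i j ρ ρ' → S ρ

/-- a test that may be used in `reg` at the gate `i` with the tolerance `t` -/
def Adm (D : SfDoc) (π : SfPar) (t i : ℝ) (Q : SfTest) : Prop :=
  D.s ^ (1 / t) ≤ Q.r ∧ Q.r ≤ D.s ^ (-(1 / t)) ∧ D.s ^ (1 / t) ≤ Q.f ∧ Q.f ≤ D.s ^ (-(1 / t)) ∧
    Q.size ≤ D.s ^ (-(1 / t)) ∧ (π.hyb = true → D.f i ≤ Q.f)

/-- **core properties** of a documented configuration at `(Γ, p)`, support constant `C0`, tolerance `t` -/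
structure Core (D : SfDoc) (π : SfPar) (C0 t : ℝ) : Prop where
  /-- scale -/
  hs : 0 < D.s ∧ D.s < 1
  /-- gates -/
  gate : (1 : ℝ) ∈ D.G ∧ ∀ i ∈ D.G, 0 ≤ i ∧ i ≤ 1
  /-- interval lengths `ℓ_i = s^(i ± t)`, `ℓ_1 = s` -/
  hlen : D.len 1 = D.s ∧ ∀ i ∈ D.G, D.s ^ (i + t) ≤ D.len i ∧ D.len i ≤ D.s ^ (i - t)
  /-- normalisation `r_1 = f_1 = 1`, positive widths -/
  hw : D.r 1 = 1 ∧ D.f 1 = 1 ∧ ∀ i ∈ D.G, 0 < D.r i ∧ 0 < D.f i
  /-- `e/κ` is polynomial -/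
  hek : D.s ^ C0 ≤ D.ek ∧ D.ek ≤ D.s ^ (-C0)
  /-- (cyl:law-normalization): read mass `= s^(± t) E_i` -/
  hmass : ∀ i ∈ D.G, D.s ^ t ≤ D.mass i ∧ D.mass i ≤ D.s ^ (-t)
  /-- P0: support and reachable shear parameters are polynomial -/
  bdd : ∀ i ∈ D.G, ∀ ρ, (D.ray i ρ).size ≤ D.s ^ (-C0) ∧ (D.lab i ρ).size ≤ D.s ^ (-C0)
  /-- OWN: a retained row lies in its documented test; common widths; times in `[0,1)` -/
  own : ∀ i ∈ D.G, ∀ ρ, (D.lab i ρ).r = D.r i ∧ (D.lab i ρ).f = D.f i ∧ (D.lab i ρ).Mem (D.len i) (D.ray i ρ) ∧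
    0 ≤ D.T i ρ ∧ D.T i ρ + D.len i ≤ 1
  /-- GRID: the times of a gate are separated by the interval length (dyadic intervals) -/
  grid : ∀ i ∈ D.G, ∀ ρ ρ', D.T i ρ ≠ D.T i ρ' → D.len i ≤ |D.T i ρ - D.T i ρ'|
  /-- BASE: connected rows have nested intervals, the same exact index, the same base ray (up to a negligible error) -/
  base : ∀ i ∈ D.G, ∀ j ∈ D.G, i < j → ∀ ρ ρ', D.Conn i j ρ ρ' →
    D.T i ρ ≤ D.T j ρ' ∧ D.T j ρ' + D.len j ≤ D.T i ρ + D.len i ∧ D.idx i ρ = D.idx j ρ' ∧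
      (D.ray i ρ).bdist (D.ray j ρ') ≤ D.s ^ (1 / t)
  /-- NORM, classical: the same ray -/
  normC : π.hyb = false → ∀ i ∈ D.G, ∀ j ∈ D.G, i < j → ∀ ρ ρ', D.Conn i j ρ ρ' → D.ray i ρ = D.ray j ρ'
  /-- NORM, hybrid: (cyl:correspondence) along chains, with `d_ℓ ≤ f`, `q_ℓ ≤ ℓ f` -/
  normH : π.hyb = true → ∀ i ∈ D.G, ∀ j ∈ D.G, i < j → ∀ ρ ρ', D.Conn i j ρ ρ' →
    |(D.ray j ρ').N - (D.ray i ρ).N| ≤ D.s ^ (-t) * D.f j ∧
      |(D.ray j ρ').Dt (D.T j ρ') - (D.ray i ρ).Dt (D.T j ρ')| ≤ D.s ^ (-t) * (D.len i * D.f i)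
  /-- concatenation of connecting chains -/
  trans : ∀ i ∈ D.G, ∀ j ∈ D.G, ∀ k ∈ D.G, i < j → j < k → ∀ ρ ρ' ρ'', D.Conn i j ρ ρ' → D.Conn j k ρ' ρ'' → D.Conn i k ρ ρ''
  /-- a connecting chain passes through a retained row of every intermediate gate -/
  split : ∀ i ∈ D.G, ∀ j ∈ D.G, ∀ k ∈ D.G, i < j → j < k → ∀ ρ ρ'', D.Conn i k ρ ρ'' → ∃ ρ', D.Conn i j ρ ρ' ∧ D.Conn j k ρ' ρ''
  /-- REG: ordinary pre-gate regularity `κ_i`, divided by the read mass -/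
  reg : ∀ i ∈ D.G, ∀ Q : SfTest, D.Adm π t i Q →
    (D.P i).pr (fun ρ => D.T i ρ = Q.T ∧ Q.Mem (D.len i) (D.ray i ρ))
      ≤ D.s ^ (-t) * D.s ^ ((π.p + π.d) * i) / D.ek * Q.w π.η
  /-- CNT: gate weight count `∑ w ≤ s^(-t) E_i / κ_i` (labels = pairs time/test) -/
  cnt : ∀ i ∈ D.G, ((Set.range (D.lab i)).ncard : ℝ) * (D.r i ^ (3 + π.η) * D.f i ^ (1 - π.η))
      ≤ D.s ^ (-t) * D.ek * D.s ^ (-((π.p + π.d) * i))
  /-- (Sp): rarity transport -/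
  sp : ∀ i ∈ D.G, ∀ j ∈ D.G, i < j → ∀ (U : D.Row j → Prop) (S : D.Row i → Prop), D.Pred i j U S →
    (D.P j).pr U ≤ D.s ^ (-t) * (D.P i).pr S ^ ((2 : ℝ) / 3) + D.s ^ (1 / t)
  /-- TP: contraction + locality with time multiplicity `M` (causal counting step of cyl:time-prediction) -/
  tp : ∀ i ∈ D.G, ∀ j ∈ D.G, i < j → ∀ (U : D.Row j → Prop) (S : D.Row i → Prop) (M : ℝ), D.Pred i j U S →
    (∀ ρ, S ρ → (({t' | ∃ ρ', U ρ' ∧ D.Conn i j ρ ρ' ∧ D.T j ρ' = t'} : Set ℝ).ncard : ℝ) ≤ M) →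
    (D.P j).pr U ≤ D.s ^ (-t) * M * D.s ^ (π.d * (j - i)) * (D.P i).pr S + D.s ^ (1 / t)
  /-- classical: every charged row has a charged ancestor at every earlier gate -/
  clPath : π.hyb = false → ∀ i ∈ D.G, ∀ j ∈ D.G, i < j → ∀ ρ', 0 < (D.P j).p ρ' → ∃ ρ, D.Conn i j ρ ρ' ∧ 0 < (D.P i).p ρ
  /-- classical: before the final assignment a row is determined by its exact particle and its time (ownership `λ_i = f(y_0, t_i)`; the final label is still sampled) -/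
  clUniq : π.hyb = false → ∀ i ∈ D.G, i < 1 → ∀ ρ ρ' : D.Row i, D.idx i ρ = D.idx i ρ' → D.T i ρ = D.T i ρ' → ρ = ρ'
  /-- classical: `Conn` = same particle, nested times -/
  clConn : π.hyb = false → ∀ i ∈ D.G, ∀ j ∈ D.G, i < j → ∀ ρ ρ', D.idx i ρ = D.idx j ρ' → D.T i ρ ≤ D.T j ρ' →
    D.T j ρ' + D.len j ≤ D.T i ρ + D.len i → D.Conn i j ρ ρ'

/-- **(SPG)**: `sp` modulo disjoint cost-improved groups of starting rows -/
def Spg (D : SfDoc) (π : SfPar) (τ κ0 t : ℝ) : Prop :=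
  ∀ i ∈ D.G, ∀ j ∈ D.G, i < j → t ≤ κ0 * (j - i) →
    ∀ (ι : Type) [Finite ι] (Sb : ι → D.Row i → Prop) (sg : ι → SfTest) (U : D.Row j → Prop) (S : D.Row i → Prop),
    (∀ b b' ρ, Sb b ρ → Sb b' ρ → b = b') →
    (∀ ρ', U ρ' → ∀ ρ, D.Conn i j ρ ρ' → S ρ ∨ ∃ b, Sb b ρ) →
    (∀ lam, (({b | ∃ ρ ρ', Sb b ρ ∧ D.Conn i j ρ ρ' ∧ U ρ' ∧ D.lab j ρ' = lam} : Set ι).ncard : ℝ) ≤ D.s ^ (-(κ0 * (j - i)))) →
    (∀ b, (sg b).size ≤ D.s ^ (-(1 / t))) →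
    (0 < π.c2 → ∀ b ρ ρ', Sb b ρ → D.Conn i j ρ ρ' → U ρ' → sfR2 (D.lab j ρ') (sg b) (D.len j) ≤ D.s ^ (-((π.c2 - τ) * (j - i)))) →
    (π.c2 = 0 → ∀ b ρ ρ', Sb b ρ → D.Conn i j ρ ρ' → U ρ' → sfR2 (D.lab j ρ') (sg b) (D.len j) ≤ D.s ^ (-(κ0 * (j - i))) ∧
      sfR1 (D.lab j ρ') (sg b) ≤ D.s ^ (-((π.c1 - τ) * (j - i)))) →
    (D.P j).pr U ≤ D.s ^ (-t) * (D.P i).pr S ^ ((2 : ℝ) / 3) + D.s ^ (κ0 * (j - i))

/-- **affine properties**: profiles (F), comparisons (A), (B), cost rigidity `(τ, κ0)`, tolerance `t` -/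
structure Aff (D : SfDoc) (π : SfPar) (τ κ0 t : ℝ) : Prop where
  /-- (F): widths -/
  hr : ∀ i ∈ D.G, D.s ^ (π.u i + t) ≤ D.r i ∧ D.r i ≤ D.s ^ (π.u i - t)
  hf : ∀ i ∈ D.G, D.s ^ (π.n i + t) ≤ D.f i ∧ D.f i ≤ D.s ^ (π.n i - t)
  /-- (A): comparison of the shears of two connected labels (affine profiles: the minima sit at the end points) -/
  cmpA : ∀ i ∈ D.G, ∀ j ∈ D.G, i < j → ∀ ρ ρ', D.Conn i j ρ ρ' →
    |(D.lab i ρ).beAt (D.T j ρ') - (D.lab j ρ').be| ≤ D.s ^ (min (π.b2 i) (π.b2 j) - t) ∧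
    |(D.lab i ρ).K - (D.lab j ρ').K| ≤ D.s ^ (min (π.b2 i - i) (π.b2 j - j) - t) ∧
    |(D.lab i ρ).Pd (D.ray i ρ) - (D.lab j ρ').Pd (D.ray j ρ')| ≤ D.s ^ (min (π.b1 i) (π.b1 j) - t)
  /-- (B): individual curvature bound; at `i = 1` it is the terminal cost `R_2 ≤ s^(-c2-t)` -/
  cmpB : ∀ i ∈ D.G, ∀ ρ, |(D.lab i ρ).be| + D.len i * |(D.lab i ρ).K| ≤ D.s ^ (min (-π.c2) (min (π.b2 i) 0) - t)
  /-- (F), family EQ with `c2 ≤ 1`: `ℓ_l |K_l| ≤ s^(b_2(l))` -/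
  eqK : 0 < π.c2 → π.c2 ≤ 1 → π.q = π.c2 → ∀ i ∈ D.G, ∀ ρ, D.len i * |(D.lab i ρ).K| ≤ D.s ^ (π.b2 i - t)
  /-- (F), family ST: `s |K_l| ≤ s^(-t)` at every gate -/
  stK : π.c2 = 1 → π.q < 1 → ∀ i ∈ D.G, ∀ ρ, D.s * |(D.lab i ρ).K| ≤ D.s ^ (-t)
  /-- (F), family LIN: centre derivatives of connected labels; terminal linear cost -/
  linP : π.c2 = 0 → (∀ i ∈ D.G, ∀ j ∈ D.G, i < j → ∀ ρ ρ', D.Conn i j ρ ρ' →
      |(D.lab i ρ).Pc - (D.lab j ρ').Pc| ≤ D.s ^ (π.b1 i - t)) ∧ ∀ ρ, |(D.lab 1 ρ).Pc| ≤ D.s ^ (-π.c1 - t)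
  /-- P6 = MINCOST: cost rigidity (group extraction + minimality of `c2`, resp. `c1`).   Bins `b : ι` with shears `sg b`, starting sets `Sb b`, disjoint marked end sets `Ub b`. -/
  mincost : ∀ i ∈ D.G, ∀ j ∈ D.G, i < j → t ≤ κ0 * (j - i) →
    ∀ (ι : Type) [Finite ι] (Sb : ι → D.Row i → Prop) (Ub : ι → D.Row j → Prop) (sg : ι → SfTest),
    (∀ b b' ρ', Ub b ρ' → Ub b' ρ' → b = b') → (∀ b, D.Pred i j (Ub b) (Sb b)) →
    (∀ ρ, (({b | Sb b ρ} : Set ι).ncard : ℝ) ≤ D.s ^ (-(κ0 * (j - i)))) →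
    (∀ lam, (({b | ∃ ρ', Ub b ρ' ∧ D.lab j ρ' = lam} : Set ι).ncard : ℝ) ≤ D.s ^ (-(κ0 * (j - i)))) →
    (∀ b, (sg b).size ≤ D.s ^ (-(1 / t))) →
    (0 < π.c2 → ∀ b ρ', Ub b ρ' → sfR2 (D.lab j ρ') (sg b) (D.len j) ≤ D.s ^ (-((π.c2 - τ) * (j - i)))) →
    (π.c2 = 0 → ∀ b ρ', Ub b ρ' → sfR2 (D.lab j ρ') (sg b) (D.len j) ≤ D.s ^ (-(κ0 * (j - i))) ∧
      sfR1 (D.lab j ρ') (sg b) ≤ D.s ^ (-((π.c1 - τ) * (j - i)))) →
    (D.P j).pr (fun ρ' => ∃ b, Ub b ρ') ≤ D.s ^ (κ0 * (j - i))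
  /-- SPG (hybrid): `sp` modulo disjoint cost-improved groups of starting rows (group extraction in PARTITION form + minimality; consumer: hybrid act:strict-boundary, Act/E2H) -/
  spg : π.hyb = true → D.Spg π τ κ0 t

/-- a documented configuration of the affine family `π` -/
structure Ok (D : SfDoc) (π : SfPar) (C0 τ κ0 t : ℝ) : Prop where
  core : D.Core π C0 t
  aff : D.Aff π τ κ0 t

/-- zero-cost terminal labels (`c2 = c1 = 0`, sec. 3) -/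
def Zero (D : SfDoc) (t : ℝ) : Prop :=
  ∀ ρ, |(D.lab 1 ρ).be| + D.s * |(D.lab 1 ρ).K| ≤ D.s ^ (-t) ∧ |(D.lab 1 ρ).Pc| ≤ D.s ^ (-t)

end SfDoc

theorem sf_doc_eqns_cite : True := by
  have := @SfRay.Bt.eq_1
  have := @SfRay.Yt.eq_1
  have := @SfRay.Dt.eq_1
  have := @SfRay.size.eq_1
  have := @SfRay.dist.eq_1
  have := @SfRay.bdist.eq_1
  have := @SfTest.Mem.eq_1
  have := @SfTest.w.eq_1
  have := @SfTest.beAt.eq_1
  have := @SfTest.Pd.eq_1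
  have := @SfTest.PdAt.eq_1
  have := @SfTest.Pc.eq_1
  have := @SfTest.size.eq_1
  have := @sfZero.eq_1
  have := @sfR2.eq_1
  have := @sfR1.eq_1
  have := @SfPar.u.eq_1
  have := @SfPar.b2.eq_1
  have := @SfPar.b1.eq_1
  have := @SfPar.n.eq_1
  have := @SfDoc.T.eq_1
  have := @SfDoc.Pred.eq_1
  have := @SfDoc.Adm.eq_1
  have := @SfDoc.Spg.eq_1
  have := @SfDoc.Zero.eq_1
  trivial

/-- **EXIT of secs. 2-3, positive cost** (Prop. cyl:affine + causal laws + P6): one affine family `π`, one support constant, one rigidity function `κ0 : τ ↦ κ0 τ > 0` (cost improvement `τ`), such that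
documented configurations exist for every finite list of gates, every tolerance, at arbitrarily small scales; ONE configuration is good for ALL `τ` (`mincost` is vacuous when `t > κ0 τ`).
`X D t` = further RIGID properties supplied by other units (e.g. (mem) of R256/Chan). -/
def SfExit (hyb : Bool) (η Γ : ℝ) (X : SfPar → SfDoc → ℝ → Prop) : Prop :=
  ∃ π : SfPar, π.Valid ∧ π.hyb = hyb ∧ π.η = η ∧ π.Γ = Γ ∧ ∃ (C0 : ℝ) (κ0 : ℝ → ℝ), (∀ τ : ℝ, 0 < τ → 0 < κ0 τ) ∧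
    ∀ (F : Finset ℝ), (∀ i ∈ F, 0 ≤ i ∧ i ≤ 1) → ∀ t s0 : ℝ, 0 < t → 0 < s0 →
      ∃ D : SfDoc, D.s < s0 ∧ F ⊆ D.G ∧ (∀ τ : ℝ, 0 < τ → D.Ok π C0 τ (κ0 τ) t) ∧ X π D t

/-- **EXIT of sec. 2, zero cost** (`c2 = c1 = 0`): core configurations with zero-cost terminal labels -/
def SfExit0 (hyb : Bool) (η Γ : ℝ) (X : SfPar → SfDoc → ℝ → Prop) : Prop :=
  ∃ π : SfPar, π.hyb = hyb ∧ π.η = η ∧ π.Γ = Γ ∧ π.Γ = π.d + (1 - π.p) / 2 ∧ (1 ≤ π.p ∧ π.p < 3) ∧ (0 < π.d ∧ π.d ≤ 1) ∧ ∃ C0 : ℝ,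
    ∀ (F : Finset ℝ), (∀ i ∈ F, 0 ≤ i ∧ i ≤ 1) → ∀ t s0 : ℝ, 0 < t → 0 < s0 →
      ∃ D : SfDoc, D.s < s0 ∧ F ⊆ D.G ∧ D.Core π C0 t ∧ D.Zero t ∧ X π D t

theorem sf_exit_eqns_cite : True := by
  have := @SfExit.eq_1
  have := @SfExit0.eq_1
  trivial

end Claimed.Agent.R256
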