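import Claimed.Agent.R256.Soft.Cal
import Claimed.Agent.R256.Soft.Spg

/-!
# Row 256 (S0496), unit SOFT, file 9a: vocabulary of the exits      (chief helper19)      DEFINITIONS ONLY
`AffP` (= `Aff` without cost rigidity), `MinC` (= the field `mincost`), queries and flattening (`SfQuery`, `FlatQ`, `SfFlatX`), `SfPar.Same`, `SfPar.Pd`,
RIGID predicates on a class (`Rig`, `Rig0`), the zero-cost alternative (`ZeroAlt`), feasibility of costs and the minimal costs (`Feas2`, `Feas1`, `c2`, `c1`).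
-/

set_option autoImplicit false

namespace Claimed.Agent.R256

open Claimed.Agent.R255

/-! ### vocabulary of the exits -/

namespace SfDoc

/-- `Aff` without cost rigidity -/
structure AffP (D : SfDoc) (π : SfPar) (t : ℝ) : Prop where
  hr : ∀ i ∈ D.G, D.s ^ (π.u i + t) ≤ D.r i ∧ D.r i ≤ D.s ^ (π.u i - t)
  hf : ∀ i ∈ D.G, D.s ^ (π.n i + t) ≤ D.f i ∧ D.f i ≤ D.s ^ (π.n i - t)
  cmpA : ∀ i ∈ D.G, ∀ j ∈ D.G, i < j → ∀ ρ ρ', D.Conn i j ρ ρ' →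
    |(D.lab i ρ).beAt (D.T j ρ') - (D.lab j ρ').be| ≤ D.s ^ (min (π.b2 i) (π.b2 j) - t) ∧
    |(D.lab i ρ).K - (D.lab j ρ').K| ≤ D.s ^ (min (π.b2 i - i) (π.b2 j - j) - t) ∧
    |(D.lab i ρ).Pd (D.ray i ρ) - (D.lab j ρ').Pd (D.ray j ρ')| ≤ D.s ^ (min (π.b1 i) (π.b1 j) - t)
  cmpB : ∀ i ∈ D.G, ∀ ρ, |(D.lab i ρ).be| + D.len i * |(D.lab i ρ).K| ≤ D.s ^ (min (-π.c2) (min (π.b2 i) 0) - t)
  eqK : 0 < π.c2 → π.c2 ≤ 1 → π.q = π.c2 → ∀ i ∈ D.G, ∀ ρ, D.len i * |(D.lab i ρ).K| ≤ D.s ^ (π.b2 i - t)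
  stK : π.c2 = 1 → π.q < 1 → ∀ i ∈ D.G, ∀ ρ, D.s * |(D.lab i ρ).K| ≤ D.s ^ (-t)
  linP : π.c2 = 0 → (∀ i ∈ D.G, ∀ j ∈ D.G, i < j → ∀ ρ ρ', D.Conn i j ρ ρ' →
      |(D.lab i ρ).Pc - (D.lab j ρ').Pc| ≤ D.s ^ (π.b1 i - t)) ∧ ∀ ρ, |(D.lab 1 ρ).Pc| ≤ D.s ^ (-π.c1 - t)

/-- cost rigidity = the field `mincost` of `Aff` -/
def MinC (D : SfDoc) (π : SfPar) (τ κ0 t : ℝ) : Prop :=
  ∀ i ∈ D.G, ∀ j ∈ D.G, i < j → t ≤ κ0 * (j - i) →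
    ∀ (ι : Type) [Finite ι] (Sb : ι → D.Row i → Prop) (Ub : ι → D.Row j → Prop) (sg : ι → SfTest),
    (∀ b b' ρ', Ub b ρ' → Ub b' ρ' → b = b') → (∀ b, D.Pred i j (Ub b) (Sb b)) →
    (∀ ρ, (({b | Sb b ρ} : Set ι).ncard : ℝ) ≤ D.s ^ (-(κ0 * (j - i)))) →
    (∀ lam, (({b | ∃ ρ', Ub b ρ' ∧ D.lab j ρ' = lam} : Set ι).ncard : ℝ) ≤ D.s ^ (-(κ0 * (j - i)))) →
    (∀ b, (sg b).size ≤ D.s ^ (-(1 / t))) →
    (0 < π.c2 → ∀ b ρ', Ub b ρ' → sfR2 (D.lab j ρ') (sg b) (D.len j) ≤ D.s ^ (-((π.c2 - τ) * (j - i)))) →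
    (π.c2 = 0 → ∀ b ρ', Ub b ρ' → sfR2 (D.lab j ρ') (sg b) (D.len j) ≤ D.s ^ (-(κ0 * (j - i))) ∧
      sfR1 (D.lab j ρ') (sg b) ≤ D.s ^ (-((π.c1 - τ) * (j - i)))) →
    (D.P j).pr (fun ρ' => ∃ b, Ub b ρ') ≤ D.s ^ (κ0 * (j - i))

theorem sf_aff_of (D : SfDoc) (π : SfPar) (τ κ0 t : ℝ) (h1 : D.AffP π t) (h2 : D.MinC π τ κ0 t)
    (h3 : π.hyb = true → D.Spg π τ κ0 t) : D.Aff π τ κ0 t :=
  ⟨h1.hr, h1.hf, h1.cmpA, h1.cmpB, h1.eqK, h1.stK, h1.linP, h2, h3⟩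

end SfDoc

/-- a query: at the gate `i`, the score of the name `N` given the name `C` (and the exact index if `y`).   A name is a function of the scale, the ray and the label (with its time) of a row. -/
structure SfQuery where
  i : ℝ
  N : ℝ → SfRay → SfTest → List ℤ
  C : ℝ → SfRay → SfTest → List ℤ
  y : Bool

/-- the observed name has polynomially many values -/
def SfQuery.Poly (q : SfQuery) : Prop :=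
  ∀ C0 : ℝ, ∃ Cq : ℝ, ∀ s : ℝ, 0 < s → s < 1 →
    ({v | ∃ (z : SfRay) (Q : SfTest), z.size ≤ s ^ (-C0) ∧ Q.size ≤ s ^ (-C0) ∧ 0 ≤ Q.T ∧ Q.T ≤ 1 ∧ s ^ C0 ≤ Q.r ∧ Q.r ≤ s ^ (-C0) ∧
        s ^ C0 ≤ Q.f ∧ Q.f ≤ s ^ (-C0) ∧ q.N s z Q = v} : Set (List ℤ)).Finite ∧
    (({v | ∃ (z : SfRay) (Q : SfTest), z.size ≤ s ^ (-C0) ∧ Q.size ≤ s ^ (-C0) ∧ 0 ≤ Q.T ∧ Q.T ≤ 1 ∧ s ^ C0 ≤ Q.r ∧ Q.r ≤ s ^ (-C0) ∧
        s ^ C0 ≤ Q.f ∧ Q.f ≤ s ^ (-C0) ∧ q.N s z Q = v} : Set (List ℤ)).ncard : ℝ) ≤ s ^ (-Cq)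

/-- the score of a query is `z log(1/s)` up to `t log(1/s)` outside an event of probability `s^(t/8)` -/
def SfDoc.FlatQ (D : SfDoc) (q : SfQuery) (t : ℝ) : Prop :=
  q.i ∈ D.G → ∃ z : ℝ, 0 ≤ z ∧
    (D.P q.i).pr (fun ρ => t * Real.log (1 / D.s) <
      |(D.P q.i).surC (fun ρ' => q.N D.s (D.ray q.i ρ') (D.lab q.i ρ'))
          (fun ρ' => (q.C D.s (D.ray q.i ρ') (D.lab q.i ρ'), if q.y then some (D.idx q.i ρ') else none)) ρ - z * Real.log (1 / D.s)|)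
      ≤ D.s ^ (t / 8)

/-- flattening of a countable list of queries: the first `1/t` queries at the tolerance `t` -/
def SfFlatX (nm : SfPar → ℕ → SfQuery) (π : SfPar) (D : SfDoc) (t : ℝ) : Prop :=
  ∀ k : ℕ, (k : ℝ) ≤ 1 / t → D.FlatQ (nm π k) t

/-- `π'` has the same `(η, Γ, p, d, hyb)` as `π` -/
def SfPar.Same (π' π : SfPar) : Prop := π'.η = π.η ∧ π'.Γ = π.Γ ∧ π'.p = π.p ∧ π'.d = π.d ∧ π'.hyb = π.hyb

/-- the numerical relations (cyl:pd) -/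
def SfPar.Pd (π : SfPar) : Prop :=
  (0 < π.η ∧ π.η < 1) ∧ π.η / 2 < π.Γ ∧ π.Γ = π.d + (1 - π.p) / 2 ∧ (1 ≤ π.p ∧ π.p < 3) ∧ (0 < π.d ∧ π.d ≤ 1)

namespace SfCls

variable (K : SfCls)

/-- `X` is RIGID on affine configurations of the class -/
def Rig (π : SfPar) (Ls : ℝ) (X : SfPar → SfDoc → ℝ → Prop) : Prop :=
  ∀ π' : SfPar, π'.Same π → π'.Valid → ∀ t C0 : ℝ, 0 < t → ∃ a : ℝ, 0 < a ∧
    SfAll K.ob K.sc (fun c => K.Gd π Ls C0 a c → (K.doc c).AffP π' a → X π' (K.doc c) t)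

/-- `X0` is RIGID on zero-cost configurations of the class -/
def Rig0 (π : SfPar) (Ls : ℝ) (X0 : SfPar → SfDoc → ℝ → Prop) : Prop :=
  ∀ t C0 : ℝ, 0 < t → ∃ a : ℝ, 0 < a ∧
    SfAll K.ob K.sc (fun c => K.Gd π Ls C0 a c → (K.doc c).Zero a → X0 π (K.doc c) t)

/-- the zero-cost alternative, class form -/
def ZeroAlt (π : SfPar) (Ls : ℝ) : Prop :=
  ∃ C0 : ℝ, ∀ (F : Finset ℝ), (∀ i ∈ F, 0 ≤ i ∧ i ≤ 1) → ∀ t : ℝ, 0 < t →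
    SfEx K.ob K.sc (fun c => F ⊆ (K.doc c).G ∧ K.Gd π Ls C0 t c ∧ (K.doc c).Zero t)

/-- curvature cost `c` is feasible at `(Γ, p)` -/
def Feas2 (π : SfPar) (Ls c : ℝ) : Prop :=
  ∀ t : ℝ, 0 < t → ∃ C0 : ℝ, SfEx K.ob K.sc (fun cf => K.Gd π Ls C0 t cf ∧
    ∀ ρ, sfR2 ((K.doc cf).lab 1 ρ) sfZero (K.doc cf).s ≤ (K.doc cf).s ^ (-(c + t)))

/-- zero curvature cost and linear cost `c` are feasible -/
def Feas1 (π : SfPar) (Ls c : ℝ) : Prop :=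
  ∀ t : ℝ, 0 < t → ∃ C0 : ℝ, SfEx K.ob K.sc (fun cf => K.Gd π Ls C0 t cf ∧
    ∀ ρ, sfR2 ((K.doc cf).lab 1 ρ) sfZero (K.doc cf).s ≤ (K.doc cf).s ^ (-t) ∧
      sfR1 ((K.doc cf).lab 1 ρ) sfZero ≤ (K.doc cf).s ^ (-(c + t)))

/-- `c_2` -/
noncomputable def c2 (π : SfPar) (Ls : ℝ) : ℝ := sInf {c | 0 ≤ c ∧ K.Feas2 π Ls c}

/-- `c_1` -/
noncomputable def c1 (π : SfPar) (Ls : ℝ) : ℝ := sInf {c | 0 ≤ c ∧ K.Feas1 π Ls c}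

end SfCls

theorem sf_contract_eqns_cite : True := by
  have := @SfDoc.MinC.eq_1
  have := @SfQuery.Poly.eq_1
  have := @SfDoc.FlatQ.eq_1
  have := @SfFlatX.eq_1
  have := @SfPar.Same.eq_1
  have := @SfPar.Pd.eq_1
  have := @SfCls.Rig.eq_1
  have := @SfCls.Rig0.eq_1
  have := @SfCls.ZeroAlt.eq_1
  have := @SfCls.Feas2.eq_1
  have := @SfCls.Feas1.eq_1
  have := @SfCls.c2.eq_1
  have := @SfCls.c1.eq_1
  trivial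

end Claimed.Agent.R256
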