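import Claimed.Agent.R256.Soft.Doc

/-!
# Row 256 (S0496), unit SOFT, file 6: FRAMES      (chief helper19)

Frames instead of symmetries (report 855 S1, 909 B5): a frame `φ` = (root time `T0`, time unit `L`, base centre `x0 b0 y0` at the time `T0`, units `r0`, `F0`, one common shear `sg`).
`φ.ray`, `φ.tst` = the coordinates of a ray / the parameters of a test in the frame.   No operator is ever transformed.   Formulas (Lemma cyl:localization, first paragraph of the proof):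
`t' = (t - T0)/L`,  `X' = (X - x0)/r0`,  `B'_{t'} = (B_t - b0(t))/(L r0)`,  `Y'_{t'} = (Y_t - y0(t) - 2 x0 (B_t - b0(t)))/(L r0²)`  with `b0(t) = b0 + (t-T0) x0`, `y0(t) = y0 + (t-T0) x0²`;
`N' = (N - A_sg)/F0`,  `D'_{t'} = (D_t - S_{sg,t})/(L F0)`.
Leaves (pure algebra, `L-256-SOFT-FRAME`): `sf_frame_mem` (membership is invariant), `sf_frame_R2`, `sf_frame_R1` (costs in the frame = costs after subtraction of the shear), `sf_frame_cmp` (differences of shears are covariant).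
-/

set_option autoImplicit false

namespace Claimed.Agent.R256

/-- velocity part `A(F)` of the shear of `Q` (time independent) -/
def SfTest.shA (Q : SfTest) (z : SfRay) : ℝ :=
  Q.c + Q.al * z.X + Q.be * z.X ^ 2 + Q.K * (z.Yt Q.T - 2 * z.X * z.Bt Q.T)

/-- position part `S_t(F)` of the shear of `Q` at the time `t` -/
def SfTest.shS (Q : SfTest) (t : ℝ) (z : SfRay) : ℝ :=
  (Q.d + (t - Q.T) * Q.c) + Q.al * z.Bt t + Q.beAt t * z.Yt t - Q.K * z.Bt t ^ 2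

/-- a frame -/
structure SfFrame where
  T0 : ℝ
  L : ℝ
  x0 : ℝ
  b0 : ℝ
  y0 : ℝ
  r0 : ℝ
  F0 : ℝ
  sg : SfTest

namespace SfFrame

/-- position of the centre ray -/
def bc (φ : SfFrame) (t : ℝ) : ℝ := φ.b0 + (t - φ.T0) * φ.x0
/-- vertical position of the centre ray -/
def yc (φ : SfFrame) (t : ℝ) : ℝ := φ.y0 + (t - φ.T0) * φ.x0 ^ 2

/-- the ray in the frame -/
noncomputable def ray (φ : SfFrame) (z : SfRay) : SfRay where
  X := (z.X - φ.x0) / φ.r0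
  B := (z.Bt φ.T0 - φ.b0) / (φ.L * φ.r0)
  Y := (z.Yt φ.T0 - φ.y0 - 2 * φ.x0 * (z.Bt φ.T0 - φ.b0)) / (φ.L * φ.r0 ^ 2)
  N := (z.N - φ.sg.shA z) / φ.F0
  D := (z.Dt φ.T0 - φ.sg.shS φ.T0 z) / (φ.L * φ.F0)

/-- the test in the frame -/
noncomputable def tst (φ : SfFrame) (Q : SfTest) : SfTest where
  T := (Q.T - φ.T0) / φ.L
  x := (Q.x - φ.x0) / φ.r0
  b := (Q.b - φ.bc Q.T) / (φ.L * φ.r0)
  y := (Q.y - φ.yc Q.T - 2 * φ.x0 * (Q.b - φ.bc Q.T)) / (φ.L * φ.r0 ^ 2)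
  c := ((Q.c - φ.sg.c) + (Q.al - φ.sg.al) * φ.x0 + (Q.be - φ.sg.beAt Q.T) * φ.x0 ^ 2
        + (Q.K - φ.sg.K) * (φ.yc Q.T - 2 * φ.x0 * φ.bc Q.T)) / φ.F0
  d := ((Q.d - (φ.sg.d + (Q.T - φ.sg.T) * φ.sg.c)) + (Q.al - φ.sg.al) * φ.bc Q.T + (Q.be - φ.sg.beAt Q.T) * φ.yc Q.T
        - (Q.K - φ.sg.K) * φ.bc Q.T ^ 2) / (φ.L * φ.F0)
  al := φ.r0 * ((Q.al - φ.sg.al) + 2 * (Q.be - φ.sg.beAt Q.T) * φ.x0 - 2 * (Q.K - φ.sg.K) * φ.bc Q.T) / φ.F0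
  be := (Q.be - φ.sg.beAt Q.T) * φ.r0 ^ 2 / φ.F0
  K := (Q.K - φ.sg.K) * φ.L * φ.r0 ^ 2 / φ.F0
  r := Q.r / φ.r0
  f := Q.f / φ.F0

/-- positive units -/
def Pos (φ : SfFrame) : Prop := 0 < φ.L ∧ 0 < φ.r0 ∧ 0 < φ.F0

end SfFrame

/-- the trivial frame -/
def sfFrame1 : SfFrame := ⟨0, 1, 0, 0, 0, 1, 1, sfZero⟩

/-- pure dilation -/
def sfFrameDil (r0 F0 : ℝ) : SfFrame := ⟨0, 1, 0, 0, 0, r0, F0, sfZero⟩

theorem sf_frame_eqns_cite : True := by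
  have := @SfTest.shA.eq_1
  have := @SfTest.shS.eq_1
  have := @SfFrame.bc.eq_1
  have := @SfFrame.yc.eq_1
  have := @SfFrame.ray.eq_1
  have := @SfFrame.tst.eq_1
  have := @SfFrame.Pos.eq_1
  have := @sfFrame1.eq_1
  have := @sfFrameDil.eq_1
  trivial

/-- the five quantities of a test membership in the frame -/
theorem sf_frame_aux_five (φ : SfFrame) (hφ : φ.Pos) (Q : SfTest) (z : SfRay) :
    (φ.ray z).X - (φ.tst Q).x = (z.X - Q.x) / φ.r0 ∧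
    (φ.ray z).Bt (φ.tst Q).T - (φ.tst Q).b = (z.Bt Q.T - Q.b) / (φ.L * φ.r0) ∧
    (φ.ray z).Yt (φ.tst Q).T - (φ.tst Q).y - 2 * (φ.tst Q).x * ((φ.ray z).Bt (φ.tst Q).T - (φ.tst Q).b)
      = (z.Yt Q.T - Q.y - 2 * Q.x * (z.Bt Q.T - Q.b)) / (φ.L * φ.r0 ^ 2) ∧
    (φ.ray z).N - (φ.tst Q).c - (φ.tst Q).al * (φ.ray z).X - (φ.tst Q).be * (φ.ray z).X ^ 2
        - (φ.tst Q).K * ((φ.ray z).Yt (φ.tst Q).T - 2 * (φ.ray z).X * (φ.ray z).Bt (φ.tst Q).T)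
      = (z.N - Q.c - Q.al * z.X - Q.be * z.X ^ 2 - Q.K * (z.Yt Q.T - 2 * z.X * z.Bt Q.T)) / φ.F0 ∧
    (φ.ray z).Dt (φ.tst Q).T - (φ.tst Q).d - (φ.tst Q).al * (φ.ray z).Bt (φ.tst Q).T - (φ.tst Q).be * (φ.ray z).Yt (φ.tst Q).T
        + (φ.tst Q).K * (φ.ray z).Bt (φ.tst Q).T ^ 2
      = (z.Dt Q.T - Q.d - Q.al * z.Bt Q.T - Q.be * z.Yt Q.T + Q.K * z.Bt Q.T ^ 2) / (φ.L * φ.F0) := by
  obtain ⟨hL, hr, hF⟩ := hφ
  have hL' := hL.ne'
  have hr' := hr.ne'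
  have hF' := hF.ne'
  refine ⟨?_, ?_, ?_, ?_, ?_⟩
  · simp only [SfFrame.ray, SfFrame.tst]
    field_simp
    ring
  · simp only [SfFrame.ray, SfFrame.tst, SfRay.Bt, SfFrame.bc]
    field_simp
    ring
  · simp only [SfFrame.ray, SfFrame.tst, SfRay.Bt, SfRay.Yt, SfFrame.bc, SfFrame.yc]
    field_simp
    ring
  · simp only [SfFrame.ray, SfFrame.tst, SfRay.Bt, SfRay.Yt, SfFrame.bc, SfFrame.yc, SfTest.shA, SfTest.beAt]
    field_simp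
    ring
  · simp only [SfFrame.ray, SfFrame.tst, SfRay.Bt, SfRay.Yt, SfRay.Dt, SfFrame.bc, SfFrame.yc, SfTest.shA, SfTest.shS, SfTest.beAt]
    field_simp
    ring

/-- **(FRAME-1)** membership is frame invariant -/
theorem sf_frame_mem (φ : SfFrame) (hφ : φ.Pos) (Q : SfTest) (l : ℝ) (z : SfRay) :
    (φ.tst Q).Mem (l / φ.L) (φ.ray z) ↔ Q.Mem l z := by
  obtain ⟨e1, e2, e3, e4, e5⟩ := sf_frame_aux_five φ hφ Q z
  obtain ⟨hL, hr, hF⟩ := hφ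
  have hL' := hL.ne'
  have hr' := hr.ne'
  have hF' := hF.ne'
  unfold SfTest.Mem
  rw [e3, e4, e5, e2, e1]
  have r1 : (φ.tst Q).r = Q.r / φ.r0 := rfl
  have f1 : (φ.tst Q).f = Q.f / φ.F0 := rfl
  have t2 : l / φ.L * (Q.r / φ.r0) = l * Q.r / (φ.L * φ.r0) := by field_simp
  have t3 : l / φ.L * (Q.r / φ.r0) ^ 2 = l * Q.r ^ 2 / (φ.L * φ.r0 ^ 2) := by field_simp
  have t5 : l / φ.L * (Q.f / φ.F0) = l * Q.f / (φ.L * φ.F0) := by field_simp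
  rw [r1, f1, t2, t3, t5, abs_div, abs_div, abs_div, abs_div, abs_div, abs_of_pos hr, abs_of_pos (mul_pos hL hr),
    abs_of_pos (mul_pos hL (pow_pos hr 2)), abs_of_pos hF, abs_of_pos (mul_pos hL hF),
    div_le_div_iff_of_pos_right hr, div_le_div_iff_of_pos_right (mul_pos hL hr),
    div_le_div_iff_of_pos_right (mul_pos hL (pow_pos hr 2)), div_le_div_iff_of_pos_right hF,
    div_le_div_iff_of_pos_right (mul_pos hL hF)]

/-- **(FRAME-2)** the curvature cost in the frame = the cost after subtraction of the shear of the frame -/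
theorem sf_frame_R2 (φ : SfFrame) (hφ : φ.Pos) (Q : SfTest) (l : ℝ) :
    sfR2 (φ.tst Q) sfZero (l / φ.L) = sfR2 Q φ.sg l := by
  obtain ⟨hL, hr, hF⟩ := hφ
  have hL' := hL.ne'
  have hr' := hr.ne'
  have hF' := hF.ne'
  have hu : 0 < φ.r0 ^ 2 / φ.F0 := div_pos (pow_pos hr 2) hF
  have a1 : (φ.tst Q).be - sfZero.beAt (φ.tst Q).T = (Q.be - φ.sg.beAt Q.T) * (φ.r0 ^ 2 / φ.F0) := by
    simp only [SfFrame.tst, sfZero, SfTest.beAt]
    ring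
  have a2 : (φ.tst Q).K - sfZero.K = (Q.K - φ.sg.K) * (φ.L * (φ.r0 ^ 2 / φ.F0)) := by
    simp only [SfFrame.tst, sfZero]
    ring
  have a3 : (φ.tst Q).r ^ 2 / (φ.tst Q).f = Q.r ^ 2 / Q.f * (φ.F0 / φ.r0 ^ 2) := by
    simp only [SfFrame.tst]
    rw [div_pow, div_div_div_eq]
    ring
  unfold sfR2
  rw [a1, a2, a3, abs_mul, abs_mul, abs_of_pos hu, abs_of_pos (mul_pos hL hu)]
  field_simp

/-- **(FRAME-3)** the linear cost in the frame -/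
theorem sf_frame_R1 (φ : SfFrame) (hφ : φ.Pos) (Q : SfTest) :
    sfR1 (φ.tst Q) sfZero = sfR1 Q φ.sg := by
  obtain ⟨hL, hr, hF⟩ := hφ
  have hL' := hL.ne'
  have hr' := hr.ne'
  have hF' := hF.ne'
  have hu : 0 < φ.r0 / φ.F0 := div_pos hr hF
  have a1 : (φ.tst Q).Pc - sfZero.PdAt (φ.tst Q).x (φ.tst Q).b (φ.tst Q).T = (Q.Pc - φ.sg.PdAt Q.x Q.b Q.T) * (φ.r0 / φ.F0) := by
    simp only [SfFrame.tst, sfZero, SfTest.beAt, SfTest.Pc, SfTest.PdAt, SfFrame.bc]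
    field_simp
    ring
  have a3 : (φ.tst Q).r / (φ.tst Q).f = Q.r / Q.f * (φ.F0 / φ.r0) := by
    simp only [SfFrame.tst]
    rw [div_div_div_eq]
    ring
  unfold sfR1
  rw [a1, a3, abs_mul, abs_of_pos hu]
  field_simp

/-- **(FRAME-4)** differences of shears are covariant -/
theorem sf_frame_cmp (φ : SfFrame) (hφ : φ.Pos) (Q Q' : SfTest) (z : SfRay) (t : ℝ) :
    (φ.tst Q).beAt ((t - φ.T0) / φ.L) - (φ.tst Q').beAt ((t - φ.T0) / φ.L) = (Q.beAt t - Q'.beAt t) * φ.r0 ^ 2 / φ.F0 ∧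
    (φ.tst Q).K - (φ.tst Q').K = (Q.K - Q'.K) * φ.L * φ.r0 ^ 2 / φ.F0 ∧
    (φ.tst Q).Pd (φ.ray z) - (φ.tst Q').Pd (φ.ray z) = (Q.Pd z - Q'.Pd z) * φ.r0 / φ.F0 := by
  obtain ⟨hL, hr, hF⟩ := hφ
  have hL' := hL.ne'
  have hr' := hr.ne'
  have hF' := hF.ne'
  refine ⟨?_, ?_, ?_⟩
  · simp only [SfFrame.tst, SfTest.beAt]
    field_simp
    ring
  · simp only [SfFrame.tst]
    field_simp
    ring
  · simp only [SfFrame.tst, SfFrame.ray, SfTest.beAt, SfTest.Pd, SfRay.Bt, SfFrame.bc]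
    field_simp
    ring

end Claimed.Agent.R256
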