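import Mathlib

/-!
# Row 256 (S0496), unit SOFT, file 1: the two quantifier patterns      (helper19)

Paper free, Mathlib only.   `Cfg` = finite-scale configurations (experiments with all their extra data), `Pkg` = bound packages ("fixed polynomial setups", Def. fw-setup),
`ob S E` = "`E` obeys the package `S`", `sc E` = the scale `s` of `E`.

* `SfEx ob sc A`  = the EXIST pattern  `∃ S, ∀ s0 > 0, ∃ E, ob S E ∧ sc E < s0 ∧ A E`      ("there is an admissible sequence in one fixed setup with `A`");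
* `SfAll ob sc A` = the RIGID pattern  `∀ S, ∃ s0 > 0, ∀ E, ob S E → sc E < s0 → A E`      ("`A` holds uniformly within every fixed setup", Lemma fw-uniform).

`¬ SfEx A ↔ SfAll (¬ A)`;  `SfEx` is monotone and PRIME (`sf_ex_or`, `sf_ex_finset`: zero-cost pigeonhole over finitely many classes);  `SfEx A → SfAll B → SfEx (A ∧ B)`;
`sf_ex_map` = transport along a construction of new configurations (sub-experiments at the scale `g s`).
-/

set_option autoImplicit false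

namespace Claimed.Agent.R256

universe u v u' v'

variable {Cfg : Type u} {Pkg : Type v}

/-- the EXIST pattern -/
def SfEx (ob : Pkg → Cfg → Prop) (sc : Cfg → ℝ) (A : Cfg → Prop) : Prop :=
  ∃ S, ∀ s0 : ℝ, 0 < s0 → ∃ E, ob S E ∧ sc E < s0 ∧ A E

/-- the RIGID pattern -/
def SfAll (ob : Pkg → Cfg → Prop) (sc : Cfg → ℝ) (A : Cfg → Prop) : Prop :=
  ∀ S, ∃ s0 : ℝ, 0 < s0 ∧ ∀ E, ob S E → sc E < s0 → A E

variable {ob : Pkg → Cfg → Prop} {sc : Cfg → ℝ}

theorem sf_ex_mono {A B : Cfg → Prop} (h : ∀ E, A E → B E) (hA : SfEx ob sc A) : SfEx ob sc B := by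
  obtain ⟨S, hS⟩ := hA
  refine ⟨S, fun s0 h0 => ?_⟩
  obtain ⟨E, h1, h2, h3⟩ := hS s0 h0
  exact ⟨E, h1, h2, h E h3⟩

theorem sf_all_mono {A B : Cfg → Prop} (h : ∀ E, A E → B E) (hA : SfAll ob sc A) : SfAll ob sc B := by
  intro S
  obtain ⟨s0, h0, hS⟩ := hA S
  exact ⟨s0, h0, fun E h1 h2 => h E (hS E h1 h2)⟩

theorem sf_all_of_forall {A : Cfg → Prop} (h : ∀ E, A E) : SfAll ob sc A :=
  fun _ => ⟨1, one_pos, fun E _ _ => h E⟩

theorem sf_not_ex_iff {A : Cfg → Prop} : ¬ SfEx ob sc A ↔ SfAll ob sc (fun E => ¬ A E) := by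
  constructor
  · intro h S
    by_contra hc
    apply h
    refine ⟨S, fun s0 h0 => ?_⟩
    by_contra hE
    apply hc
    refine ⟨s0, h0, fun E h1 h2 h3 => hE ⟨E, h1, h2, h3⟩⟩
  · rintro h ⟨S, hS⟩
    obtain ⟨s0, h0, hA⟩ := h S
    obtain ⟨E, h1, h2, h3⟩ := hS s0 h0
    exact hA E h1 h2 h3

theorem sf_not_all_iff {A : Cfg → Prop} : ¬ SfAll ob sc A ↔ SfEx ob sc (fun E => ¬ A E) := by
  rw [← not_iff_not, not_not, sf_not_ex_iff]
  simp only [not_not]

theorem sf_all_and {A B : Cfg → Prop} (hA : SfAll ob sc A) (hB : SfAll ob sc B) :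
    SfAll ob sc (fun E => A E ∧ B E) := by
  intro S
  obtain ⟨s1, h1, hS1⟩ := hA S
  obtain ⟨s2, h2, hS2⟩ := hB S
  refine ⟨min s1 s2, lt_min h1 h2, fun E hE hs => ⟨hS1 E hE ?_, hS2 E hE ?_⟩⟩
  · exact lt_of_lt_of_le hs (min_le_left _ _)
  · exact lt_of_lt_of_le hs (min_le_right _ _)

theorem sf_all_mp {A B : Cfg → Prop} (hAB : SfAll ob sc (fun E => A E → B E)) (hA : SfAll ob sc A) :
    SfAll ob sc B :=
  sf_all_mono (fun _ h => h.1 h.2) (sf_all_and hAB hA)

theorem sf_all_finset {ι : Type*} (I : Finset ι) {A : ι → Cfg → Prop} (h : ∀ i ∈ I, SfAll ob sc (A i)) :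
    SfAll ob sc (fun E => ∀ i ∈ I, A i E) := by
  classical
  induction I using Finset.induction_on with
  | empty => exact sf_all_of_forall (fun E i hi => absurd hi (Finset.notMem_empty i))
  | insert a I ha ih =>
    have h1 := h a (Finset.mem_insert_self a I)
    have h2 := ih (fun i hi => h i (Finset.mem_insert_of_mem hi))
    refine sf_all_mono (fun E hE i hi => ?_) (sf_all_and h1 h2)
    rcases Finset.mem_insert.1 hi with rfl | hi
    · exact hE.1
    · exact hE.2 i hi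

/-- an EXIST statement can be intersected with any RIGID statement -/
theorem sf_ex_and_all {A B : Cfg → Prop} (hA : SfEx ob sc A) (hB : SfAll ob sc B) :
    SfEx ob sc (fun E => A E ∧ B E) := by
  obtain ⟨S, hS⟩ := hA
  obtain ⟨s1, h1, hS1⟩ := hB S
  refine ⟨S, fun s0 h0 => ?_⟩
  obtain ⟨E, hE, hs, hAE⟩ := hS (min s0 s1) (lt_min h0 h1)
  exact ⟨E, hE, lt_of_lt_of_le hs (min_le_left _ _), hAE, hS1 E hE (lt_of_lt_of_le hs (min_le_right _ _))⟩

theorem sf_ex_mp {A B : Cfg → Prop} (hA : SfEx ob sc A) (hB : SfAll ob sc (fun E => A E → B E)) :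
    SfEx ob sc B :=
  sf_ex_mono (fun _ h => h.2 h.1) (sf_ex_and_all hA hB)

theorem sf_ex_all_false {A : Cfg → Prop} (hA : SfEx ob sc A) (hB : SfAll ob sc (fun E => ¬ A E)) : False :=
  sf_not_ex_iff.2 hB hA

/-- small scales may be added to an EXIST statement -/
theorem sf_ex_small {A : Cfg → Prop} (hA : SfEx ob sc A) (s1 : ℝ) (h1 : 0 < s1) :
    SfEx ob sc (fun E => A E ∧ sc E < s1) :=
  sf_ex_and_all hA (fun _ => ⟨s1, h1, fun _ _ h => h⟩)

theorem sf_ex_false : ¬ SfEx ob sc (fun _ => False) := by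
  rintro ⟨S, hS⟩
  obtain ⟨E, -, -, h⟩ := hS 1 one_pos
  exact h

/-- `SfEx` is prime -/
theorem sf_ex_or {A B : Cfg → Prop} (h : SfEx ob sc (fun E => A E ∨ B E)) : SfEx ob sc A ∨ SfEx ob sc B := by
  by_contra hc
  rw [not_or, sf_not_ex_iff, sf_not_ex_iff] at hc
  refine sf_ex_all_false h (sf_all_mono (fun E hE => ?_) (sf_all_and hc.1 hc.2))
  rintro (h1 | h1)
  · exact hE.1 h1
  · exact hE.2 h1

/-- zero-cost pigeonhole over finitely many classes (Lemma fw-finite-extraction at the level of the patterns) -/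
theorem sf_ex_finset {ι : Type*} (I : Finset ι) {A : ι → Cfg → Prop} (h : SfEx ob sc (fun E => ∃ i ∈ I, A i E)) :
    ∃ i ∈ I, SfEx ob sc (A i) := by
  by_contra hc
  have h1 : ∀ i ∈ I, SfAll ob sc (fun E => ¬ A i E) := by
    intro i hi
    rw [← sf_not_ex_iff]
    exact fun hi' => hc ⟨i, hi, hi'⟩
  refine sf_ex_all_false h (sf_all_mono (fun E hE => ?_) (sf_all_finset I h1))
  rintro ⟨i, hi, hA⟩
  exact hE i hi hA

/-- transport of an EXIST statement along a construction: every configuration with `A`, at a small scale, produces a configuration of another class obeying a package `S'` that depends only on `S`,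
at a scale `≤ g (sc E)`, `g → 0`. -/
theorem sf_ex_map {Cfg' : Type u'} {Pkg' : Type v'} {ob' : Pkg' → Cfg' → Prop} {sc' : Cfg' → ℝ}
    {A : Cfg → Prop} {A' : Cfg' → Prop} (g : ℝ → ℝ)
    (hg : ∀ t : ℝ, 0 < t → ∃ s1 : ℝ, 0 < s1 ∧ ∀ s, s < s1 → g s < t)
    (hc : ∀ S, ∃ S', ∃ s1 : ℝ, 0 < s1 ∧ ∀ E, ob S E → sc E < s1 → A E → ∃ E', ob' S' E' ∧ sc' E' ≤ g (sc E) ∧ A' E')
    (hA : SfEx ob sc A) : SfEx ob' sc' A' := by
  obtain ⟨S, hS⟩ := hA
  obtain ⟨S', s1, h1, hS'⟩ := hc S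
  refine ⟨S', fun t ht => ?_⟩
  obtain ⟨s2, h2, hg2⟩ := hg t ht
  obtain ⟨E, hE, hs, hAE⟩ := hS (min s1 s2) (lt_min h1 h2)
  obtain ⟨E', hE', hs', hA'⟩ := hS' E hE (lt_of_lt_of_le hs (min_le_left _ _)) hAE
  exact ⟨E', hE', lt_of_le_of_lt hs' (hg2 _ (lt_of_lt_of_le hs (min_le_right _ _))), hA'⟩

theorem sf_pat_eqns_cite : True := by
  have := @SfEx.eq_1.{0, 0}
  have := @SfAll.eq_1.{0, 0}
  trivial

end Claimed.Agent.R256
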