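import Claimed.Agent.R256.Base.Cyl
import Claimed.Agent.R256.Soft.Frame
import Claimed.Agent.R256.Soft.Pat

/-!
# Row 256 (S0496), unit SOFT, file 7: MODEL-LEVEL DOCUMENTED EXPERIMENTS AND THEIR SHADOWS      (chief helper19)

DEFINITIONS ONLY.   The bridge between `Base/Cyl.lean` (states, masks, experiments; helper207) and `Soft/Doc.lean` (operator free).

* `SfCy`            a cylinder model with its coordinates; the two instances `sfCl η`, `sfHy η`.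
* `SfMD P`          a DOCUMENTED EXPERIMENT: an experiment `E : Xp P`, a frame `Q0`, a finite set of gates `G ∋ 1`; the gate `i < 1` is the stage number `pos i` of `E.st`, its mask is the sum of the
                    `0/1` weights `th i l` of its labels `l : Lb i` (interval `iv`, test `ts`);   the gate `1` is the final assignment of `E`.
* `SfMD.pre`        the state entering the gate;  `SfMD.m` the mass read by a label;  `SfMD.tot` the read mass of a gate.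
* `SfMD.Str`        structural validity;     `sfCn` = (cyl:correspondence) at the truncation `s^-ε` (report 874 D7).
* `SfMD.Ext`        (i)-(iv) of Prop. cyl:matched-chain at the accuracy `a`   = EXIT FORMAT OF R256/Cyl (E8 of report 874).
* `SfSh`            `D : SfDoc` is a SHADOW of `W : SfMD`: rows = atoms (finite measurable partition of the MASK-retained rows of every label, zero mass allowed), laws = atom masses / read mass, rays = frame coordinates of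
                    a representative (a row of the documented test, `s^μ`-close to the atom), labels = frame parameters of the documented test, `Conn` = chains of `sfCn` between atoms of consecutive gates.
* `sfCls Y π`       the class of all shadows, as configurations for the two patterns of `Soft/Pat.lean`: package = `C`, scale = `max s (1/(A+1))`  (`A` = tail order).
-/

set_option autoImplicit false

namespace Claimed.Agent.R256

open MeasureTheory Claimed.Agent.R255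

/-- a cylinder model with its coordinates -/
structure SfCy where
  M : Mdl
  hyb : Bool
  η : ℝ
  /-- instantaneous coordinates of a row at the time `T` -/
  co : (p : M.Par) → ℝ → (M.sys p).X → Cy5
  /-- parameters of a test -/
  tq : (p : M.Par) → (M.sys p).Tst → CyT
  /-- exact index -/
  Ix : M.Par → Type
  ix : (p : M.Par) → (M.sys p).X → Ix p
  /-- `d_ℓ` at `ℓ = 2^-k` (`0` in the classical model) -/
  dl : (p : M.Par) → ℕ → ℝ
  /-- the Planck parameter `H` (`0` in the classical model) -/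
  H : M.Par → ℝ
  /-- good parameters + the setup in an EXPLICIT frame:  `M.gd p ∧ M.adm C A p E ↔ ∃ Q0, af C A p E Q0` -/
  af : ℕ → ℕ → (p : M.Par) → Xp (M.sys p) → CyT → Prop

/-- the classical cylinder -/
noncomputable def sfCl (η : ℝ) : SfCy where
  M := cylCl η
  hyb := false
  η := η
  co := fun p => CclPar.co p
  tq := fun _ Q => Q
  Ix := fun p => CclPar.Om p
  ix := fun _ ω => ω
  dl := fun _ _ => 0
  H := fun _ => 0
  af := fun C A p E Q0 => CclPar.Ok p ∧ CySet (CclPar.sys η p) (CclPar.co p) η True C A E Q0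

/-- the hybrid cylinder -/
noncomputable def sfHy (η : ℝ) : SfCy where
  M := cylHyb η
  hyb := true
  η := η
  co := fun p => ChyPar.co p
  tq := fun _ Q => Q
  Ix := fun p => ChyPar.Om p
  ix := fun _ x => x.1
  dl := fun p k => ChyPar.dl p k
  H := fun p => ChyPar.H p
  af := fun C A p E Q0 => ChyPar.Ok p ∧ CySet (ChyPar.sys p η) (ChyPar.co p) η False C A E Q0 ∧
    E.s ^ (C : ℝ) ≤ ChyPar.H p * 2 ^ E.k0 / Q0.f ^ 2 ∧ ChyPar.H p * 2 ^ E.k0 / Q0.f ^ 2 ≤ E.s ^ (-(C : ℝ))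

/-- time-zero ray of a row with the instantaneous coordinates `z` at the time `T` -/
def sfRayAt (T : ℝ) (z : Cy5) : SfRay := ⟨z.X, z.B - T * z.X, z.Y - T * z.X ^ 2, z.N, z.D - T * z.N⟩

/-- a test used at the time `T` -/
def sfTestAt (T : ℝ) (Q : CyT) : SfTest := ⟨T, Q.x, Q.b, Q.y, Q.c, Q.d, Q.al, Q.be, Q.K, Q.r, Q.f⟩

/-- the frame given by a test `Q0` at the time `T0`, time unit `L` -/
def sfFrameOf (T0 L : ℝ) (Q0 : CyT) : SfFrame := ⟨T0, L, Q0.x, Q0.b, Q0.y, Q0.r, Q0.f, sfTestAt T0 Q0⟩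

/-- a documented experiment (data) -/
structure SfMD (P : PkSys) where
  E : Xp P
  Q0 : CyT
  G : Finset ℝ
  /-- absolute depth of a gate -/
  k : ℝ → ℕ
  /-- position of the gate in the list of stages (`pos 1 = E.st.length`) -/
  pos : ℝ → ℕ
  /-- generation of the analysis at the gate -/
  gb : ℝ → ℕ
  Lb : ℝ → Type
  fLb : ∀ i, Fintype (Lb i)
  iv : ∀ i, Lb i → ℕ
  ts : ∀ i, Lb i → P.Tst
  th : ∀ i, Lb i → P.X → ℝ
  /-- common widths -/
  r : ℝ → ℝ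
  f : ℝ → ℝ

instance sfMDFintype {P : PkSys} (W : SfMD P) (i : ℝ) : Fintype (W.Lb i) := W.fLb i

namespace SfMD

variable {P : PkSys} (W : SfMD P)

/-- time of a label -/
noncomputable def T (i : ℝ) (l : W.Lb i) : ℝ := tmL (W.k i) (W.iv i l)

/-- the state entering the gate `i` on the interval `m` of depth `k i` -/
noncomputable def pre (i : ℝ) (m : ℕ) : P.Kc := Xp.run (W.k i) m (W.E.st.take (W.pos i)) W.E.v

/-- the mass read by a label -/
noncomputable def m (i : ℝ) (l : W.Lb i) : ℝ := P.en (W.T i l) (W.k i) (W.gb i) (W.th i l) (W.pre i (W.iv i l))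

/-- the read mass of a gate -/
noncomputable def tot (i : ℝ) : ℝ := ∑ l, W.m i l

/-- the intervals of depth `k i` below the root -/
def ivs (i : ℝ) : Finset ℕ := Finset.Ico (W.E.i0 * 2 ^ (W.k i - W.E.k0)) ((W.E.i0 + 1) * 2 ^ (W.k i - W.E.k0))

/-- the row `x` of the label `l` of the gate `i` is retained, on the ancestor interval, at every earlier gate -/
def Anc (i : ℝ) (l : W.Lb i) (x : P.X) : Prop :=
  ∀ g ∈ W.G, g < i → ∃ l0 : W.Lb g, W.iv g l0 = ancI (W.k i) (W.k g) (W.iv i l) ∧ W.th g l0 x ≠ 0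

/-- structural validity -/
structure Str (tq : P.Tst → CyT) : Prop where
  valid : W.E.Valid
  gate : (1 : ℝ) ∈ W.G ∧ ∀ i ∈ W.G, 0 ≤ i ∧ i ≤ 1
  k_one : W.k 1 = W.E.kf ∧ W.pos 1 = W.E.st.length ∧ W.gb 1 = W.E.bT
  k_rg : ∀ i ∈ W.G, W.E.k0 ≤ W.k i ∧ W.k i ≤ W.E.kf
  k_mono : ∀ i ∈ W.G, ∀ j ∈ W.G, i < j → W.k i ≤ W.k j ∧ W.pos i < W.pos j
  /-- the gate `i < 1` is a stage of `E`; its mask is the sum of the weights of its labels -/
  stage : ∀ i ∈ W.G, i < 1 → ∃ σ : Stg P, W.E.st[W.pos i]? = some σ ∧ σ.k = W.k i ∧ σ.b = W.gb i ∧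
    ∀ m x, σ.M m x = ∑ l, if W.iv i l = m then W.th i l x else 0
  zero_one : ∀ i ∈ W.G, i < 1 → ∀ l x, W.th i l x = 0 ∨ W.th i l x = 1
  /-- the gate `1` is the final assignment -/
  final : ∃ e : W.Lb 1 ≃ Fin W.E.L, ∀ l, W.E.iv (e l) = W.iv 1 l ∧ W.E.ts (e l) = W.ts 1 l ∧ W.E.th (e l) = W.th 1 l
  meas : ∀ i ∈ W.G, ∀ l, Measurable (W.th i l)
  /-- no empty label -/
  ne : ∀ i ∈ W.G, ∀ l, ∃ x, W.th i l x ≠ 0
  /-- the types of labels are nonempty, also off the mesh (a shadow has a law on `Row i` and a map `Row i → Lb i` for EVERY `i`) -/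
  lb_ne : ∀ i, Nonempty (W.Lb i)
  nn : ∀ i ∈ W.G, ∀ l x, 0 ≤ W.th i l x
  sum_le : ∀ i ∈ W.G, ∀ m x, ∑ l, (if W.iv i l = m then W.th i l x else 0) ≤ 1
  supp : ∀ i ∈ W.G, ∀ l x, W.th i l x ≠ 0 → x ∈ P.cell (W.ts i l) (W.T i l) (W.k i)
  iv_in : ∀ i ∈ W.G, ∀ l, W.iv i l ∈ W.ivs i
  ok : ∀ i ∈ W.G, ∀ l, P.ok (W.ts i l) (W.k i)
  width : ∀ i ∈ W.G, ∀ l, (tq (W.ts i l)).r = W.r i ∧ (tq (W.ts i l)).f = W.f i
  /-- the frame has the terminal widths -/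
  frame : W.Q0.r = W.r 1 ∧ W.Q0.f = W.f 1 ∧ ∀ i ∈ W.G, 0 < W.r i ∧ 0 < W.f i

end SfMD

/-- (cyl:correspondence) at the truncation `Λ`: the row `x'` of the cut `(T', k')` is a geometric successor of the row `x` of the cut `(T, k)` -/
def sfCn (Y : SfCy) (p : Y.M.Par) (Λ : ℝ) (T : ℝ) (k : ℕ) (T' : ℝ) (k' : ℕ) (x x' : (Y.M.sys p).X) : Prop :=
  T ≤ T' ∧ T' + (2 : ℝ)⁻¹ ^ k' ≤ T + (2 : ℝ)⁻¹ ^ k ∧ Y.ix p x = Y.ix p x' ∧
  |(Y.co p T' x').N - (Y.co p T x).N| ≤ Λ * Y.dl p k' ∧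
  |(Y.co p T' x').D - (Y.co p T x).D - (T' - T) * (Y.co p T x).N| ≤ Λ * ((2 : ℝ)⁻¹ ^ k * Y.dl p k)

/-- consecutive gates -/
def sfNext (G : Finset ℝ) (i j : ℝ) : Prop := i ∈ G ∧ j ∈ G ∧ i < j ∧ ∀ k ∈ G, ¬ (i < k ∧ k < j)

/-- **(i)-(iv) of Prop. cyl:matched-chain** for the exponents `(p, d)`, accuracy `a`, correspondence truncation `s^-ε`, constant `Ls = L_*(η)` -/
structure SfMD.Ext (Y : SfCy) (p : Y.M.Par) (W : SfMD (Y.M.sys p)) (pe de Ls ε a : ℝ) : Prop where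
  str : W.Str (Y.tq p)
  /-- depths -/
  depth : ∀ i ∈ W.G, |((W.k i : ℝ) - W.E.k0) - i * W.E.n| ≤ a * W.E.n
  /-- (i) weight count -/
  cnt : ∀ i ∈ W.G, ∑ l, (Y.M.sys p).wt (W.ts i l) ≤ W.E.s ^ (-a) * (W.E.e / W.E.ka) * W.E.s ^ (-((pe + de) * i))
  /-- (ii) pre-gate energy -/
  en : ∀ i ∈ W.G, ∑ m ∈ W.ivs i, ‖W.pre i m‖ ^ 2 ≤ W.E.s ^ (-a) * W.E.e * W.E.s ^ (-(de * i))
  /-- (ii) pre-gate regularity -/
  reg : ∀ i ∈ W.G, ∀ m ∈ W.ivs i, (Y.M.sys p).Reg (tmL (W.k i) m) (W.k i) (W.gb i) (W.E.s ^ (-a) * W.E.ka * W.E.s ^ (pe * i)) (W.pre i m)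
  /-- (iii) read mass -/
  read : ∀ i ∈ W.G, W.E.s ^ a * W.E.e * W.E.s ^ (-(de * i)) ≤ W.tot i
  /-- (iv) width ratios -/
  wr : ∀ i j, sfNext W.G i j → W.E.s ^ (Ls * (j - i) + a) ≤ W.r i / W.r j ∧ W.r i / W.r j ≤ 1 ∧
    W.E.s ^ (Ls * (j - i) + a) ≤ W.f i / W.f j ∧ W.f i / W.f j ≤ W.E.s ^ (-(Ls * (j - i) + a))
  /-- (iv) = (M) -/
  mm : ∀ i j, sfNext W.G i j → ∀ (l : W.Lb i) (l' : W.Lb j) (x x' : (Y.M.sys p).X), W.th i l x ≠ 0 → W.th j l' x' ≠ 0 →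
    sfCn Y p (W.E.s ^ (-ε)) (W.T i l) (W.k i) (W.T j l') (W.k j) x x' →
    |(sfTestAt (W.T i l) (Y.tq p (W.ts i l))).be - (sfTestAt (W.T j l') (Y.tq p (W.ts j l'))).beAt (W.T i l)|
        + (2 : ℝ)⁻¹ ^ W.k i * |(Y.tq p (W.ts i l)).K - (Y.tq p (W.ts j l')).K| ≤ W.f j / W.r j ^ 2 * W.E.s ^ (-(Ls * (j - i) + a)) ∧
    |(sfTestAt (W.T i l) (Y.tq p (W.ts i l))).Pd (sfRayAt (W.T i l) (Y.co p (W.T i l) x))
        - (sfTestAt (W.T j l') (Y.tq p (W.ts j l'))).Pd (sfRayAt (W.T i l) (Y.co p (W.T i l) x))| ≤ W.f j / W.r j * W.E.s ^ (-(Ls * (j - i) + a))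

/-- **`D` is a shadow of `W`** (exponent `de` for the normalisation of the masses, truncation `s^-ε`, atoms of diameter `≤ s^μ` in the frame) -/
structure SfSh (Y : SfCy) (p : Y.M.Par) (W : SfMD (Y.M.sys p)) (de ε μ : ℝ) (D : SfDoc) where
  /-- label and atom of a row -/
  lb : ∀ i, D.Row i → W.Lb i
  atm : ∀ i, D.Row i → Set (Y.M.sys p).X
  rp : ∀ i, D.Row i → (Y.M.sys p).X
  /-- cells of the exact index -/
  ia : D.Idx → Set (Y.Ix p)
  hs : D.s = W.E.s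
  hG : D.G = W.G
  hlen : ∀ i ∈ W.G, D.len i = (2 : ℝ)⁻¹ ^ (W.k i - W.E.k0)
  hr : ∀ i ∈ W.G, D.r i = W.r i / W.Q0.r
  hf : ∀ i ∈ W.G, D.f i = W.f i / W.Q0.f
  hek : D.ek = W.E.e / (W.E.ka * cyWt Y.η W.Q0)
  hmass : ∀ i ∈ W.G, D.mass i = W.tot i / (W.E.e * W.E.s ^ (-(de * i)))
  /-- atoms: measurable, they partition the support of the weight of their label -/
  at_meas : ∀ i ∈ W.G, ∀ ρ, MeasurableSet (atm i ρ)
  at_disj : ∀ i ∈ W.G, ∀ ρ ρ', lb i ρ = lb i ρ' → ρ ≠ ρ' → Disjoint (atm i ρ) (atm i ρ')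
  at_ne : ∀ i ∈ W.G, ∀ ρ, (atm i ρ).Nonempty
  /-- classical model: only the rows that are retained at every earlier gate (the others carry no mass, whatever the input) -/
  at_cov : ∀ i ∈ W.G, ∀ l x, (W.th i l x ≠ 0 ∧ (Y.hyb = false → W.Anc i l x)) ↔ ∃ ρ, lb i ρ = l ∧ x ∈ atm i ρ
  /-- the representative lies in the documented test (NOT necessarily in the atom: refinements keep the old representatives) -/
  rp_cell : ∀ i ∈ W.G, ∀ ρ, rp i ρ ∈ (Y.M.sys p).cell (W.ts i (lb i ρ)) (W.T i (lb i ρ)) (W.k i)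
  /-- classical model: one representative for every cell of the exact index -/
  rp_cl : Y.hyb = false → ∀ i ∈ W.G, ∀ j ∈ W.G, ∀ ρ ρ', D.idx i ρ = D.idx j ρ' → rp i ρ = rp j ρ'
  /-- laws -/
  law : ∀ i ∈ W.G, ∀ ρ, (D.P i).p ρ * W.tot i =
    (Y.M.sys p).en (W.T i (lb i ρ)) (W.k i) (W.gb i) ((atm i ρ).indicator (W.th i (lb i ρ))) (W.pre i (W.iv i (lb i ρ)))
  /-- coordinates in the frame -/
  hray : ∀ i ∈ W.G, ∀ ρ, D.ray i ρ = (sfFrameOf (tmL W.E.k0 W.E.i0) ((2 : ℝ)⁻¹ ^ W.E.k0) W.Q0).ray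
    (sfRayAt (W.T i (lb i ρ)) (Y.co p (W.T i (lb i ρ)) (rp i ρ)))
  hlab : ∀ i ∈ W.G, ∀ ρ, D.lab i ρ = (sfFrameOf (tmL W.E.k0 W.E.i0) ((2 : ℝ)⁻¹ ^ W.E.k0) W.Q0).tst
    (sfTestAt (W.T i (lb i ρ)) (Y.tq p (W.ts i (lb i ρ))))
  small : ∀ i ∈ W.G, ∀ ρ, ∀ x ∈ atm i ρ, ((sfFrameOf (tmL W.E.k0 W.E.i0) ((2 : ℝ)⁻¹ ^ W.E.k0) W.Q0).ray
    (sfRayAt (W.T i (lb i ρ)) (Y.co p (W.T i (lb i ρ)) x))).dist (D.ray i ρ) ≤ W.E.s ^ μ
  /-- exact index -/
  ia_disj : ∀ a b, a ≠ b → Disjoint (ia a) (ia b)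
  ia_mem : ∀ i ∈ W.G, ∀ ρ, ∀ x ∈ atm i ρ, Y.ix p x ∈ ia (D.idx i ρ)
  /-- classical model: an atom is a full cell of the exact index -/
  ia_full : Y.hyb = false → ∀ i ∈ W.G, ∀ ρ x, Y.ix p x ∈ ia (D.idx i ρ) → x ∈ atm i ρ
  /-- `Conn` = chains of geometric correspondences between atoms of consecutive gates -/
  conn : ∀ i ∈ W.G, ∀ j ∈ W.G, ∀ ρ ρ', D.Conn i j ρ ρ' ↔
    Relation.TransGen (fun (u v : Σ i, D.Row i) => sfNext W.G u.1 v.1 ∧ ∃ x ∈ atm u.1 u.2, ∃ x' ∈ atm v.1 v.2,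
      sfCn Y p (W.E.s ^ (-ε)) (W.T u.1 (lb u.1 u.2)) (W.k u.1) (W.T v.1 (lb v.1 v.2)) (W.k v.1) x x') ⟨i, ρ⟩ ⟨j, ρ'⟩

/-- a configuration = a shadow with all its model-level data and its tail order -/
structure SfCfg (Y : SfCy) (de : ℝ) where
  p : Y.M.Par
  W : SfMD (Y.M.sys p)
  A : ℕ
  ε : ℝ
  μ : ℝ
  D : SfDoc
  sh : SfSh Y p W de ε μ D

/-- the configuration obeys the package `C` -/
def SfCfg.ob {Y : SfCy} {de : ℝ} (C : ℕ) (c : SfCfg Y de) : Prop :=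
  c.W.E.st.length ≤ C ∧ Y.af C c.A c.p c.W.E c.W.Q0 ∧ c.W.Str (Y.tq c.p) ∧ c.W.E.GenLe C ∧
    ∀ i ∈ c.D.G, ∀ ρ, (c.D.ray i ρ).size ≤ c.D.s ^ (-(C : ℝ)) ∧ (c.D.lab i ρ).size ≤ c.D.s ^ (-(C : ℝ))

/-- the Planck parameter in the frame, `H / (L F0²)` -/
noncomputable def SfCfg.hp {Y : SfCy} {de : ℝ} (c : SfCfg Y de) : ℝ := Y.H c.p * 2 ^ c.W.E.k0 / c.W.Q0.f ^ 2

/-- the scale: `s` small AND tail order large -/
noncomputable def SfCfg.sc {Y : SfCy} {de : ℝ} (c : SfCfg Y de) : ℝ := max c.D.s (1 / ((c.A : ℝ) + 1))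

theorem sf_model_eqns_cite : True := by
  have := @sfCl.eq_1
  have := @sfHy.eq_1
  have := @sfRayAt.eq_1
  have := @sfTestAt.eq_1
  have := @sfFrameOf.eq_1
  have := @SfMD.T.eq_1
  have := @SfMD.pre.eq_1
  have := @SfMD.m.eq_1
  have := @SfMD.tot.eq_1
  have := @SfMD.ivs.eq_1
  have := @SfMD.Anc.eq_1
  have := @sfCn.eq_1
  have := @sfNext.eq_1
  have := @SfCfg.ob.eq_1
  have := @SfCfg.sc.eq_1
  have := @SfCfg.hp.eq_1
  trivial

end Claimed.Agent.R256
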