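import Claimed.Agent.R256.Soft.Cal

/-!
# Row 256 (S0496), unit SOFT, file 8b: **GP** = GROUP EXTRACTION IN PARTITION FORM      (text helper196; design helper206; approved helper19)

DEFINITIONS ONLY.   Lemma cyl:group-extraction in its ORIGINAL form (02 l.765-818): the starting rows of a gap `[i,j]` are PARTITIONED into groups; every used label of the gate `j` is reachable from few groups.
Difference with `GeHyp` / `CalGe` (cover form): a group need NOT contain all the predecessors of the end rows that it reaches.      Design note: `git show origin/helper206:notes/R256/E2_hybrid_206.md`, sec. 3.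
DATA  groups `Sb b` = pairwise disjoint sets of rows of the gate `i`, each in one interval; an exceptional set `Sx` of rows of the gate `i`; a set `U` of rows of the gate `j`; frames `φ b`.
* `own`     every predecessor of `U` is exceptional or lies in a group
* `mass`    `s^(a (j-i)) + s^(-t1) P_i(Sx)^(2/3) ≤ P_j(U)`      (the exceptional predecessors cannot carry `U`: rarity transport at the accuracy `t1 / 32`)
* `lb_ovl`  every label is reachable (inside `U`) from `≤ s^(-a (j-i))` groups
* `fr*`     frames as in `GeHyp`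
CONCLUSION  a good configuration on `[i,j]` in the frame of ONE group `b`, kept gates `{j}`, all of whose terminal rows are rows of `U` whose LABEL is reachable from `b`.
Mesh independent, like `CalGe`: `a` depends only on the target accuracy `t'`.      Consumer: `sf_spg` (`Soft/ASpg*.lean`).   Supplier: `sf_cal_gp` (model level, `Soft/MGp*.lean`).
-/

set_option autoImplicit false

namespace Claimed.Agent.R256

open Claimed.Agent.R255

namespace SfCls

/-- the label `lam` is reachable from the group `b` inside `U` -/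
def GpRch (D : SfDoc) {ι : Type} (Sb : ι → D.Rw → Prop) (U : D.Rw → Prop) (b : ι) (lam : SfTest) : Prop :=
  ∃ u v : D.Rw, Sb b u ∧ U v ∧ D.Conn u.1 v.1 u.2 v.2 ∧ D.lab v.1 v.2 = lam

/-- hypotheses of group extraction in partition form on `[i,j]`: groups `Sb`, exceptional starting rows `Sx`, end rows `U`, frames `φ`; relative accuracy `a`, accuracy `t1` of the rarity transport, support power `C1` -/
structure GpHyp (D : SfDoc) (i j : ℝ) (ι : Type) (Sb : ι → D.Rw → Prop) (Sx U : D.Rw → Prop) (φ : ι → SfFrame) (a t1 C1 : ℝ) : Prop where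
  gi : i ∈ D.G
  gj : j ∈ D.G
  /-- end rows: at the gate `j` -/
  u_dep : ∀ v, U v → v.1 = j
  /-- groups: at the gate `i`, pairwise disjoint, each in one interval -/
  sb_dep : ∀ b u, Sb b u → u.1 = i
  sb_disj : ∀ b b' u, Sb b u → Sb b' u → b = b'
  sb_time : ∀ b u, Sb b u → (D.lab u.1 u.2).T = (φ b).T0
  /-- every predecessor of an end row is exceptional or lies in a group -/
  own : ∀ u v : D.Rw, U v → u.1 = i → D.Conn u.1 v.1 u.2 v.2 → Sx u ∨ ∃ b, Sb b u
  /-- the end rows are not carried by the exceptional rows -/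
  mass : D.s ^ (a * (j - i)) + D.s ^ (-t1) * (D.P i).pr (fun ρ => Sx ⟨i, ρ⟩) ^ ((2 : ℝ) / 3) ≤ (D.P j).pr (fun ρ' => U ⟨j, ρ'⟩)
  /-- every label is reachable from `≤ s^(-a (j-i))` groups -/
  lb_ovl : ∀ lam : SfTest, (({b | GpRch D Sb U b lam} : Set ι).ncard : ℝ) ≤ D.s ^ (-(a * (j - i)))
  /-- frames: units of the gap; support and reachable shear parameters are `≤ s^(-C1 (j-i))` in the frame -/
  fr : ∀ b, (φ b).L = D.len i ∧ (φ b).r0 = D.r j ∧ (φ b).F0 = D.f j
  fr_ray : ∀ b u, Sb b u → ((φ b).ray (D.ray u.1 u.2)).size ≤ D.s ^ (-(C1 * (j - i)))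
  fr_lab : ∀ b lam, GpRch D Sb U b lam → ((φ b).tst lam).size ≤ D.s ^ (-(C1 * (j - i)))

variable (K : SfCls)

/-- **GP: group extraction, partition form, frames, quantitative loss** -/
def CalGp (π : SfPar) (Ls : ℝ) : Prop :=
  ∃ cF : ℝ → ℝ, ∀ t' : ℝ, 0 < t' → ∃ a : ℝ, 0 < a ∧ ∀ C1 C0 h t1 : ℝ, 0 < h → 0 < t1 → ∀ S, ∃ S', ∀ σ' : ℝ, 0 < σ' → ∃ σ : ℝ, 0 < σ ∧
    ∀ c, K.ob S c → K.sc c < σ → ∀ i j : ℝ, h ≤ j - i → K.Gd π Ls C0 (a * (j - i)) c → K.Gd π Ls C0 (t1 / 32) c →
    ∀ (ι : Type) [Finite ι] (Sb : ι → (K.doc c).Rw → Prop) (Sx U : (K.doc c).Rw → Prop) (φ : ι → SfFrame),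
      GpHyp (K.doc c) i j ι Sb Sx U φ a t1 C1 →
    ∃ (c' : K.Cfg) (b : ι) (e : (K.doc c').Rw → (K.doc c).Rw), K.ob S' c' ∧ K.sc c' < σ' ∧ K.Gd π Ls (cF C1) t' c' ∧
      (K.doc c').Sub (K.doc c) i j (φ b) {j} t' e ∧
      (∀ u, u.1 = 1 → U (e u) ∧ GpRch (K.doc c) Sb U b ((K.doc c).lab (e u).1 (e u).2))

end SfCls

theorem sf_cal_gp_eqns_cite : True := by
  have := @SfCls.GpRch.eq_1
  have := @SfCls.CalGp.eq_1
  trivial

end Claimed.Agent.R256
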