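import Claimed.Agent.R256.Soft.MGeIface
import Claimed.Agent.R256.Soft.CalGp

/-!
# Row 256 (S0496), unit SOFT, block M6b GP (group extraction, PARTITION form), file 1: THE EXIT OF THE SELECTION AS A `Prop`      (helper288 for chief helper206)

DEFINITIONS ONLY.   `sf_cal_gp` (`Soft/MGpTop.lean`) is glued from `SfGpSel` (this file) and from the `Prop`s ROOT, FRAME, AF, DOC, CF of `Soft/MGeIface.lean` (reused verbatim).
Kept gates `Gk = {j}`.   The data of the group `b`:  marked end rows `sfGpU D Sb U b` = the rows of `U` with a predecessor in `Sb b`;  starting rows `S0 = Sb b`;  root interval `m0 b`.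
-/

set_option autoImplicit false

namespace Claimed.Agent.R256

open MeasureTheory Claimed.Agent.R255

/-- the rows of `U` reachable from the group `b` -/
def sfGpU (D : SfDoc) {ι : Type} (Sb : ι → D.Rw → Prop) (U : D.Rw → Prop) (b : ι) (v : D.Rw) : Prop :=
  U v ∧ ∃ w : D.Rw, Sb b w ∧ D.Conn w.1 v.1 w.2 v.2

/-- **the partition**: the combinatorial part of `SfCls.GpHyp` at the absolute accuracy `α`, accuracy `t1` of the rarity transport -/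
structure SfGpCov (D : SfDoc) (i j : ℝ) (ι : Type) (Sb : ι → D.Rw → Prop) (Sx U : D.Rw → Prop) (α t1 : ℝ) : Prop where
  gi : i ∈ D.G
  gj : j ∈ D.G
  u_dep : ∀ v, U v → v.1 = j
  sb_dep : ∀ b u, Sb b u → u.1 = i
  sb_disj : ∀ b b' u, Sb b u → Sb b' u → b = b'
  sb_time : ∀ b u u', Sb b u → Sb b u' → (D.lab u.1 u.2).T = (D.lab u'.1 u'.2).T
  own : ∀ u v : D.Rw, U v → u.1 = i → D.Conn u.1 v.1 u.2 v.2 → Sx u ∨ ∃ b, Sb b u
  mass : D.s ^ α + D.s ^ (-t1) * (D.P i).pr (fun ρ => Sx ⟨i, ρ⟩) ^ ((2 : ℝ) / 3) ≤ (D.P j).pr (fun ρ' => U ⟨j, ρ'⟩)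
  lb_ovl : ∀ lam : SfTest, (({b | SfCls.GpRch D Sb U b lam} : Set ι).ncard : ℝ) ≤ D.s ^ (-α)

variable (Y : SfCy) (π : SfPar) (Ls : ℝ)

/-- **SEL, partition form**: Lemma cyl:group-extraction (02 l.765-818).   `a` = relative accuracy (package free);  `Cb` = the order of the root error that the selection tolerates;  the old configuration is good at BOTH accuracies `a (j - i)` and `t1 / 32` -/
def SfGpSel : Prop :=
  ∀ τ a1 : ℝ, 0 < τ → 0 < a1 → ∃ a : ℝ, 0 < a ∧ ∀ (C0 h t1 : ℝ), 0 < h → 0 < t1 → ∀ S : ℕ, ∃ C' Cb : ℕ, ∀ A' : ℕ, ∃ A n0 : ℕ,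
    ∀ (c : SfCfg Y π.d) (i j : ℝ), h ≤ j - i → SfGeIn Y π Ls c S C0 (a * (j - i)) → SfGeIn Y π Ls c S C0 (t1 / 32) → A ≤ c.A → n0 ≤ c.W.E.n →
    ∀ (ι : Type) [Finite ι] (Sb : ι → c.D.Rw → Prop) (Sx U : c.D.Rw → Prop), SfGpCov c.D i j ι Sb Sx U (a * (j - i)) t1 →
    ∀ (m0 : ι → ℕ) (Nr : ι → ∀ g, c.D.Row g → Set (Y.M.sys c.p).X) (f0 : ℝ) (Q0 : ι → CyT), (∀ b u, Sb b u → c.im u.1 u.2 = m0 b) →
      (∀ b, (∃ v, sfGpU c.D Sb U b v) → ∀ e ka,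
        (SfGeD.mk i j {j} (sfGpU c.D Sb U b) (Sb b) (m0 b) (Nr b) f0 (Q0 b) e ka : SfGeD c).Root (c.W.E.s ^ (-(c.ε / 4))) (c.W.E.s ^ (Cb : ℝ))) →
    ∃ (b : ι) (e ka : ℝ), (∃ v, sfGpU c.D Sb U b v) ∧
      SfGeSelC Y π (SfGeD.mk i j {j} (sfGpU c.D Sb U b) (Sb b) (m0 b) (Nr b) f0 (Q0 b) e ka : SfGeD c) C' A' τ a1

theorem sf_gp_iface_eqns_cite : True := by
  have := @sfGpU.eq_1
  have := @SfGpSel.eq_1
  trivial

end Claimed.Agent.R256
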