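import Claimed.Agent.R256.Soft.MDocMk

/-!
# Row 256 (S0496), unit SOFT, M1 DISC, file 4: THE CLASSICAL MODEL HAS NO ORPHANS      (architect helper39; block BP-256-SOFT-DOC; prefix `sf_doc_`)

In the classical cylinder `An = id`, so `tz T k b M v = M · v` and the state along a branch is the root state times all the masks of the branch.   Hence the state entering a gate vanishes a.e. where the mask of an EARLIER gate vanishes:
rows of a label that are not retained at some earlier gate carry no mass (`SfMD.NoOrph`).      EXIT: `sf_doc_noorph`.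
LEAVES `L-256-DOC-C1`, `C2` (paper free; `Gen/BasA`: `gn_mulR_coe`, `gn_mask_memLp`; `Gen/BasC`: `StM`, `gn_valid_stm`).
-/

set_option autoImplicit false

namespace Claimed.Agent.R256

open MeasureTheory Claimed.Agent.R255

/-- a classical state is a square integrable function on the index space (`rfl`) -/
def sfClSt (η : ℝ) (p : CclPar) (v : (p.sys η).Kc) : Lp p.Fb 2 p.m := v

theorem sf_doc_cl_eqns_cite : True := by
  have := @sfClSt.eq_1
  trivial

/-! ## LEAF L-256-DOC-C1 -/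

/-- PLAN: unfold `PkSys.tz`, `CclPar.sys`: `An = ContinuousLinearMap.id`, `ContinuousLinearMap.adjoint_id` (or `ContinuousLinearMap.adjoint` of `id` via `ContinuousLinearMap.eq_adjoint_iff`), `ContinuousLinearMap.id_apply`. -/
theorem sf_doc_cl_tz (η : ℝ) (p : CclPar) (T : ℝ) (k b : ℕ) (M : (p.sys η).X → ℝ) (v : (p.sys η).Kc) :
    (p.sys η).tz T k b M v = (p.sys η).mulR k M v := by
  exact DFunLike.congr_fun (ContinuousLinearMap.adjoint_id (𝕜 := ℂ) (E := Lp p.Fb 2 p.m)) ((p.sys η).mulR k M v)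

/-- a mask does not create mass.   PLAN: `gn_mulR_coe k hM F : mulR k M F =ᵐ fun x => (M x : ℂ) • F x`; `filter_upwards`. -/
theorem sf_doc_cl_mul_zero (P : PkSys) (k : ℕ) {M : P.X → ℝ} (hM : IsMask M) (F : Lp P.Fb 2 (P.rho k)) :
    ∀ᵐ x ∂(P.rho k), (M x = 0 ∨ (F : P.X → P.Fb) x = 0) → (P.mulR k M F : P.X → P.Fb) x = 0 := by
  filter_upwards [gn_mulR_coe k hM F] with x hx h
  rw [hx]
  rcases h with h | h
  · rw [h]
    simp
  · rw [h, smul_zero]

/-- the state along a branch vanishes where the input vanishes.   PLAN: induction on `st` (generalising `v`): `Xp.run` unfolds to `run st (tz … v)`, `sf_doc_cl_tz`, `sf_doc_cl_mul_zero`, combine the two a.e. statements (`rho k = p.m` for all `k`, by `rfl`). -/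
theorem sf_doc_cl_run_keep (η : ℝ) (p : CclPar) (k' i : ℕ) (st : List (Stg (p.sys η))) (hst : StM st) (v : (p.sys η).Kc) :
    ∀ᵐ x ∂p.m, (sfClSt η p v : p.Om → p.Fb) x = 0 → (sfClSt η p (Xp.run k' i st v) : p.Om → p.Fb) x = 0 := by
  induction st generalizing v with
  | nil => exact Filter.Eventually.of_forall fun x h => h
  | cons σ l ih =>
    have hM : IsMask (σ.M (ancI k' σ.k i)) := hst σ List.mem_cons_self _
    have h1 := ih (fun τ hτ j => hst τ (List.mem_cons_of_mem _ hτ) j) ((p.sys η).mulR σ.k (σ.M (ancI k' σ.k i)) v)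
    have h2 : ∀ᵐ x ∂p.m, (σ.M (ancI k' σ.k i) x = 0 ∨ (sfClSt η p v : p.Om → p.Fb) x = 0) →
        (sfClSt η p ((p.sys η).mulR σ.k (σ.M (ancI k' σ.k i)) v) : p.Om → p.Fb) x = 0 := sf_doc_cl_mul_zero (p.sys η) σ.k hM v
    have e : Xp.run (P := p.sys η) k' i (σ :: l) v = Xp.run (P := p.sys η) k' i l ((p.sys η).mulR σ.k (σ.M (ancI k' σ.k i)) v) := by
      show Xp.run (P := p.sys η) k' i l ((p.sys η).tz (tmL σ.k (ancI k' σ.k i)) σ.k σ.b (σ.M (ancI k' σ.k i)) v) = _
      exact congrArg (Xp.run (P := p.sys η) k' i l) (sf_doc_cl_tz η p _ _ _ _ v)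
    rw [e]
    filter_upwards [h1, h2] with x a1 a2 hx
    exact a1 (a2 (Or.inr hx))

/-- the state along a branch vanishes where one of the masks of the branch vanishes.   PLAN: induction on `st`; `σ` is the head: `sf_doc_cl_mul_zero` (left alternative) then `sf_doc_cl_run_keep` for the tail; `σ` in the tail: induction hypothesis. -/
theorem sf_doc_cl_run_zero (η : ℝ) (p : CclPar) (k' i : ℕ) (st : List (Stg (p.sys η))) (hst : StM st) (σ : Stg (p.sys η)) (hσ : σ ∈ st) (v : (p.sys η).Kc) :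
    ∀ᵐ x ∂p.m, σ.M (ancI k' σ.k i) x = 0 → (sfClSt η p (Xp.run k' i st v) : p.Om → p.Fb) x = 0 := by
  induction st generalizing v with
  | nil => exact absurd hσ List.not_mem_nil
  | cons τ l ih =>
    have hl : StM l := fun ρ hρ j => hst ρ (List.mem_cons_of_mem _ hρ) j
    have e : Xp.run (P := p.sys η) k' i (τ :: l) v = Xp.run (P := p.sys η) k' i l ((p.sys η).mulR τ.k (τ.M (ancI k' τ.k i)) v) := by
      show Xp.run (P := p.sys η) k' i l ((p.sys η).tz (tmL τ.k (ancI k' τ.k i)) τ.k τ.b (τ.M (ancI k' τ.k i)) v) = _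
      exact congrArg (Xp.run (P := p.sys η) k' i l) (sf_doc_cl_tz η p _ _ _ _ v)
    rw [e]
    rcases List.mem_cons.1 hσ with h | h
    · subst h
      have hM : IsMask (σ.M (ancI k' σ.k i)) := hst σ List.mem_cons_self _
      have h2 : ∀ᵐ x ∂p.m, (σ.M (ancI k' σ.k i) x = 0 ∨ (sfClSt η p v : p.Om → p.Fb) x = 0) →
          (sfClSt η p ((p.sys η).mulR σ.k (σ.M (ancI k' σ.k i)) v) : p.Om → p.Fb) x = 0 := sf_doc_cl_mul_zero (p.sys η) σ.k hM v
      have h1 := sf_doc_cl_run_keep η p k' i l hl ((p.sys η).mulR σ.k (σ.M (ancI k' σ.k i)) v)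
      filter_upwards [h1, h2] with x a1 a2 hx
      exact a1 (a2 (Or.inl hx))
    · exact ih hl h _

/-! ## LEAF L-256-DOC-C2 -/

theorem sf_doc_noorph_aux (η : ℝ) (p : CclPar) (W : SfMD (p.sys η)) (tq : (p.sys η).Tst → CyT) (hS : W.Str tq) : W.NoOrph := by
  intro i hi l
  have hst : StM (W.E.st.take (W.pos i)) := fun σ hσ j => gn_valid_stm W.E hS.valid σ (List.mem_of_mem_take hσ) j
  have key : ∀ g ∈ W.G, ∀ᵐ x ∂p.m, g < i → (∀ l0 : W.Lb g, W.iv g l0 = ancI (W.k i) (W.k g) (W.iv i l) → W.th g l0 x = 0) →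
      (sfClSt η p (W.pre i (W.iv i l)) : p.Om → p.Fb) x = 0 := by
    intro g hg
    by_cases hgi : g < i
    · have hg1 : g < 1 := lt_of_lt_of_le hgi (hS.gate.2 i hi).2
      obtain ⟨σ, h1, h2, h3, h4⟩ := hS.stage g hg hg1
      have hpos := (hS.k_mono g hg i hi hgi).2
      have hmem : σ ∈ W.E.st.take (W.pos i) := by
        apply List.mem_of_getElem? (i := W.pos g)
        rw [List.getElem?_take, if_pos hpos]
        exact h1
      have h5 := sf_doc_cl_run_zero η p (W.k i) (W.iv i l) _ hst σ hmem W.E.v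
      filter_upwards [h5] with x hx _ hz
      apply hx
      rw [h4, h2]
      refine Finset.sum_eq_zero fun l0 _ => ?_
      split_ifs with h
      · exact hz l0 h
      · rfl
    · exact Filter.Eventually.of_forall fun x h => absurd h hgi
  have all : ∀ᵐ x ∂p.m, ∀ g ∈ W.G, g < i → (∀ l0 : W.Lb g, W.iv g l0 = ancI (W.k i) (W.k g) (W.iv i l) → W.th g l0 x = 0) →
      (sfClSt η p (W.pre i (W.iv i l)) : p.Om → p.Fb) x = 0 :=
    (Finset.eventually_all W.G).2 key
  unfold PkSys.en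
  apply integral_eq_zero_of_ae
  have all' : ∀ᵐ x ∂((p.sys η).rho (W.k i)), ∀ g ∈ W.G, g < i → (∀ l0 : W.Lb g, W.iv g l0 = ancI (W.k i) (W.k g) (W.iv i l) → W.th g l0 x = 0) →
      (sfClSt η p (W.pre i (W.iv i l)) : p.Om → p.Fb) x = 0 := all
  filter_upwards [all'] with x hx
  show _ * ‖(sfClSt η p (W.pre i (W.iv i l)) : p.Om → p.Fb) x‖ ^ 2 = 0
  by_cases hA : W.Anc i l x
  · have hn : x ∉ {x | ¬ W.Anc i l x} := fun h => h hA
    rw [Set.indicator_of_notMem hn, zero_mul]
  · unfold SfMD.Anc at hA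
    push Not at hA
    obtain ⟨g, hg, hgi, hz⟩ := hA
    rw [hx g hg hgi hz, norm_zero]
    simp


/-- **EXIT**.   PLAN: fix `i ∈ G`, `l`.   `en` = `∫ θ x * ‖(An pre) x‖²` with `An = id`; it suffices that the integrand vanishes a.e. (`integral_eq_zero_of_ae`).
For every gate `g ∈ G`, `g < i` (so `g < 1` by `Str.gate`): `Str.stage g` gives `σ` with `st[pos g]? = some σ`, `σ.k = k g`, `σ.M m x = ∑ l0, if iv g l0 = m then th g l0 x else 0`; `pos g < pos i` (`Str.k_mono`), so `σ ∈ st.take (pos i)` (`List.getElem?_take`, `List.mem_of_getElem?`);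
`sf_doc_cl_run_zero` with `k' = k i`, `i = iv i l`, `StM` of the prefix from `gn_valid_stm W.E hS.valid` (`List.mem_of_mem_take`).   Intersect over the finite set of gates (`(Finset.eventually_all _).2` / `ae_ball_iff` on `W.G`).
At such an `x`: if `θ x ≠ 0` then `¬ Anc i l x`: some `g` has `th g l0 x = 0` for all `l0` with `iv g l0 = ancI (k i) (k g) (iv i l)`, so the sum `σ.M … x` is `0` (`Finset.sum_eq_zero`) and `pre x = 0`. -/
theorem sf_doc_noorph (η : ℝ) (p : (sfCl η).M.Par) (W : SfMD ((sfCl η).M.sys p)) (hS : W.Str ((sfCl η).tq p)) : W.NoOrph := by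
  exact sf_doc_noorph_aux η p W _ hS

end Claimed.Agent.R256
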