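import Claimed.Agent.R256.Soft.MDocLat
import Claimed.Agent.R256.Soft.MDocCl

/-!
# Row 256 (S0496), unit SOFT, M1 DISC, file 5: EXISTENCE OF SHADOWS, SIZES      (architect helper39; block BP-256-SOFT-DOC; prefix `sf_doc_`)

* `sf_doc_disc`   **(M1 DISC)** every documented experiment with `Str` and positive read masses (classical: `NoOrph`) has a shadow with atoms of diameter `≤ s^μ`.
* `sf_doc_disc'`  the same for the two instances (`NoOrph` is automatic in the classical cylinder).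
* `sf_doc_sizes`  the rays of ANY shadow are polynomially bounded by the labels.
SORRY FREE (from the leaves of `MDocMk`, `MDocAt`, `MDocCl`).
-/

set_option autoImplicit false

namespace Claimed.Agent.R256

open MeasureTheory Claimed.Agent.R255

/-- every gate has a row to cover -/
theorem sf_doc_sup_ne (Y : SfCy) (p : Y.M.Par) (W : SfMD (Y.M.sys p)) (hS : W.Str (Y.tq p)) (hpos : ∀ i ∈ W.G, 0 < W.tot i)
    (hO : Y.hyb = false → W.NoOrph) : ∀ i ∈ W.G, ∃ l, (sfDocSup Y p W i l).Nonempty := by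
  intro i hi
  by_cases hc : Y.hyb = true
  · obtain ⟨l⟩ := hS.lb_ne i
    obtain ⟨x, hx⟩ := hS.ne i hi l
    exact ⟨l, x, hx, fun h => by rw [hc] at h; exact absurd h (by simp)⟩
  · have hc' : Y.hyb = false := by simpa using hc
    by_contra hcon
    simp only [not_exists, Set.not_nonempty_iff_eq_empty] at hcon
    have h0 : W.tot i = 0 := by
      unfold SfMD.tot
      refine Finset.sum_eq_zero fun l _ => ?_
      have e : W.th i l = {x | ¬ W.Anc i l x}.indicator (W.th i l) := by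
        funext x
        by_cases hx : W.Anc i l x
        · have h1 : W.th i l x = 0 := by
            by_contra h2
            have : x ∈ sfDocSup Y p W i l := ⟨h2, fun _ => hx⟩
            rw [hcon l] at this
            exact this
          rw [Set.indicator_of_notMem (by simpa using hx), h1]
        · rw [Set.indicator_of_mem (by simpa using hx)]
      unfold SfMD.m
      rw [e]
      exact hO hc' i hi l
    exact absurd h0 (hpos i hi).ne'

/-- **(M1 DISC)** -/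
theorem sf_doc_disc (Y : SfCy) (hg : SfGeo Y) (p : Y.M.Par) (hp : Y.M.gd p) (W : SfMD (Y.M.sys p)) (hS : W.Str (Y.tq p))
    (hpos : ∀ i ∈ W.G, 0 < W.tot i) (hO : Y.hyb = false → W.NoOrph) (de ε μ : ℝ) : ∃ D : SfDoc, Nonempty (SfSh Y p W de ε μ D) := by
  obtain ⟨l⟩ := hS.lb_ne 1
  obtain ⟨x0, -⟩ := hS.ne 1 hS.gate.1 l
  let a := sfLat Y hg p hp W hS μ x0 (sf_doc_sup_ne Y p W hS hpos hO)
  exact ⟨a.doc de ε, ⟨a.sh de ε (sf_doc_sum a hS hpos hO)⟩⟩

/-- `NoOrph` in the two instances -/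
theorem sf_doc_noorph' (Y : SfCy) (hY : (∃ η, Y = sfCl η) ∨ ∃ η, Y = sfHy η) (p : Y.M.Par) (W : SfMD (Y.M.sys p)) (hS : W.Str (Y.tq p)) :
    Y.hyb = false → W.NoOrph := by
  rcases hY with ⟨η, rfl⟩ | ⟨η, rfl⟩
  · exact fun _ => sf_doc_noorph η p W hS
  · intro h
    exact absurd h (by simp [sfHy])

/-- **(M1 DISC)** for the two cylinders -/
theorem sf_doc_disc' (Y : SfCy) (hY : (∃ η, Y = sfCl η) ∨ ∃ η, Y = sfHy η) (p : Y.M.Par) (hp : Y.M.gd p) (W : SfMD (Y.M.sys p)) (hS : W.Str (Y.tq p))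
    (hpos : ∀ i ∈ W.G, 0 < W.tot i) (de ε μ : ℝ) : ∃ D : SfDoc, Nonempty (SfSh Y p W de ε μ D) :=
  sf_doc_disc Y (sf_doc_geo Y hY) p hp W hS hpos (sf_doc_noorph' Y hY p W hS) de ε μ

/-- **the rays of a shadow are bounded by the labels** -/
theorem sf_doc_sizes (Y : SfCy) (hg : SfGeo Y) (p : Y.M.Par) (W : SfMD (Y.M.sys p)) (hS : W.Str (Y.tq p)) {de ε μ : ℝ} {D : SfDoc}
    (sh : SfSh Y p W de ε μ D) {B : ℝ} (hB : 1 ≤ B)
    (hl : ∀ i ∈ W.G, ∀ l, (sfDocLab Y p W i l).size ≤ B ∧ (sfDocLab Y p W i l).r ≤ B ∧ (sfDocLab Y p W i l).f ≤ B) :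
    ∀ i ∈ D.G, ∀ ρ, (D.ray i ρ).size ≤ 32 * B ^ 3 ∧ (D.lab i ρ).size ≤ B := by
  intro i hi ρ
  rw [sh.hG] at hi
  have e1 : D.ray i ρ = sfDocRay Y p W i (sh.lb i ρ) (sh.rp i ρ) := sh.hray i hi ρ
  have e2 : D.lab i ρ = sfDocLab Y p W i (sh.lb i ρ) := sh.hlab i hi ρ
  obtain ⟨b1, b2, b3⟩ := hl i hi (sh.lb i ρ)
  obtain ⟨t1, t2⟩ := sf_doc_time Y p W hS hi (sh.lb i ρ)
  have hpw : (0 : ℝ) < (2 : ℝ)⁻¹ ^ (W.k i - W.E.k0) := by positivity
  refine ⟨?_, by rw [e2]; exact b1⟩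
  rw [e1]
  refine sf_doc_mem_size (sf_doc_own Y hg p W hS hi (sh.lb i ρ) (sh.rp_cell i hi ρ)) hpw.le
    (pow_le_one₀ (by norm_num) (by norm_num)) ?_ hB b1 b2 b3
  rw [abs_of_nonneg t1]
  linarith

end Claimed.Agent.R256
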