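import Claimed.Agent.R256.Cyl.Frm
import Claimed.Agent.R256.Soft.MDocDisc

/-!
# Row 256 (S0496), unit SOFT, M3 EX/DOC, file 1: THE SETUP IN AN EXPLICIT FRAME      (architect helper39; block BP-256-SOFT-DOC; prefix `sf_doc_`)

`sf_doc_af_root` : `af` sees only the root data and the final scale;   `sf_doc_af_mono` : `af` grows with the package and shrinks with the tail order.
`sf_doc_cn_mono` : the correspondence grows with the truncation.      SORRY FREE.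
-/

set_option autoImplicit false

namespace Claimed.Agent.R256

open MeasureTheory Claimed.Agent.R255

theorem sf_doc_set_root {P : PkSys} {co : ℝ → P.X → Cy5} {η : ℝ} {jt : Prop} {C A : ℕ} {E E' : Xp P} {Q0 : CyT}
    (h : CySet P co η jt C A E Q0) (hroot : Mdl.SameRoot E E') (hn : E'.n = E.n) : CySet P co η jt C A E' Q0 := by
  obtain ⟨e1, e2, e3, e4, e5, e6⟩ := hroot
  have hs : E'.s = E.s := by unfold Xp.s; rw [hn]
  refine ⟨h.r_pos, h.f_pos, ?_, ?_, ?_, ?_, ?_, ?_⟩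
  · rw [hs, e5, e4]; exact h.ek_lo
  · rw [hs, e5, e4]; exact h.ek_hi
  · rw [hs, e1, e2, e3, e6]; exact h.supp
  · rw [hs, e1, e2, e3, e4, e6]; exact h.tail
  · rw [hs, e1, e2, e3, e4, e6]; exact h.dens
  · rw [hs, e1, e2, e3, e4, e6]; exact h.densJ

/-- `af` sees only the root data and the final scale -/
theorem sf_doc_af_root {Y : SfCy} (H : CyHyp Y) {C A : ℕ} {p : Y.M.Par} {E E' : Xp (Y.M.sys p)} {Q0 : CyT} (h : Y.af C A p E Q0)
    (hroot : Mdl.SameRoot E E') (hn : E'.n = E.n) : Y.af C A p E' Q0 := by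
  obtain ⟨h1, h2, h3⟩ := (H.af_def C A p E Q0).1 h
  refine (H.af_def C A p E' Q0).2 ⟨h1, sf_doc_set_root h2 hroot hn, ?_⟩
  have hs : E'.s = E.s := by unfold Xp.s; rw [hn]
  rw [hs, hroot.1]
  exact h3

theorem sf_doc_set_mono {P : PkSys} {co : ℝ → P.X → Cy5} {η : ℝ} {jt : Prop} {C A C' A' : ℕ} {E : Xp P} {Q0 : CyT}
    (hm : Measurable fun x => cyVec (co (tmL E.k0 E.i0) x)) (h : CySet P co η jt C A E Q0) (hC : C ≤ C') (hA : A' ≤ A) :
    CySet P co η jt C' A' E Q0 := by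
  have hsA : 0 < E.s ^ (A : ℝ) := Real.rpow_pos_of_pos (gn_s_pos E) _
  have he : 0 ≤ E.e := nonneg_of_mul_nonneg_right ((gn_ms_nonneg _ _ _ _ _).trans h.tail) hsA
  have hsC : 0 < E.s ^ (-(C : ℝ)) := Real.rpow_pos_of_pos (gn_s_pos E) _
  have hX : 0 ≤ E.ka * cyWt η Q0 := nonneg_of_mul_nonneg_right (he.trans h.ek_hi) hsC
  have hC' : (C : ℝ) ≤ (C' : ℝ) := by exact_mod_cast hC
  have hA' : (A' : ℝ) ≤ (A : ℝ) := by exact_mod_cast hA
  have p1 : E.s ^ (C' : ℝ) ≤ E.s ^ (C : ℝ) := gn_s_anti E hC'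
  have p2 : E.s ^ (-(C : ℝ)) ≤ E.s ^ (-(C' : ℝ)) := gn_s_anti E (by linarith)
  have p3 : E.s ^ (A : ℝ) ≤ E.s ^ (A' : ℝ) := gn_s_anti E hA'
  refine ⟨h.r_pos, h.f_pos, ?_, ?_, ?_, ?_, ?_, ?_⟩
  · exact (mul_le_mul_of_nonneg_right p1 hX).trans h.ek_lo
  · exact h.ek_hi.trans (mul_le_mul_of_nonneg_right p2 hX)
  · refine le_antisymm ?_ (gn_ms_nonneg _ _ _ _ _)
    rw [← h.supp]
    refine gn_ms_mono _ _ _ (measurableSet_lt measurable_const (cy_frm_meas_base hm _ _))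
      (measurableSet_lt measurable_const (cy_frm_meas_base hm _ _)) ?_ _
    intro x hx
    exact lt_of_le_of_lt p2 hx
  · refine le_trans ?_ (h.tail.trans (mul_le_mul_of_nonneg_right p3 he))
    refine gn_ms_mono _ _ _ (measurableSet_lt measurable_const (cy_frm_meas_nor hm _ _))
      (measurableSet_lt measurable_const (cy_frm_meas_nor hm _ _)) ?_ _
    intro x hx
    exact lt_of_le_of_lt p2 hx
  · intro S hS
    exact (h.dens S hS).trans (mul_le_mul' (ENNReal.ofReal_le_ofReal (mul_le_mul_of_nonneg_right p2 he)) le_rfl)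
  · intro hj S hS
    exact (h.densJ hj S hS).trans (mul_le_mul' (ENNReal.ofReal_le_ofReal (mul_le_mul_of_nonneg_right p2 he)) le_rfl)

/-- `af` grows with the package and shrinks with the tail order -/
theorem sf_doc_af_mono {Y : SfCy} (H : CyHyp Y) {C A C' A' : ℕ} {p : Y.M.Par} {E : Xp (Y.M.sys p)} {Q0 : CyT} (h : Y.af C A p E Q0)
    (hC : C ≤ C') (hA : A' ≤ A) : Y.af C' A' p E Q0 := by
  obtain ⟨h1, h2, h3⟩ := (H.af_def C A p E Q0).1 h
  refine (H.af_def C' A' p E Q0).2 ⟨h1, sf_doc_set_mono (H.co_meas p h1 _) h2 hC hA, fun hb => ?_⟩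
  obtain ⟨g1, g2⟩ := h3 hb
  have hC' : (C : ℝ) ≤ (C' : ℝ) := by exact_mod_cast hC
  exact ⟨(gn_s_anti E hC').trans g1, g2.trans (gn_s_anti E (by linarith))⟩

/-- the correspondence grows with the truncation -/
theorem sf_doc_cn_mono {Y : SfCy} (H : CyHyp Y) {p : Y.M.Par} {Λ Λ' : ℝ} (hΛ : Λ ≤ Λ') {T : ℝ} {k : ℕ} {T' : ℝ} {k' : ℕ} {x x' : (Y.M.sys p).X}
    (h : sfCn Y p Λ T k T' k' x x') : sfCn Y p Λ' T k T' k' x x' := by
  obtain ⟨h1, h2, h3, h4, h5⟩ := h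
  refine ⟨h1, h2, h3, h4.trans (mul_le_mul_of_nonneg_right hΛ (H.dl_nn p k')), h5.trans (mul_le_mul_of_nonneg_right hΛ ?_)⟩
  exact mul_nonneg (by positivity) (H.dl_nn p k)

end Claimed.Agent.R256
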