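import Claimed.Agent.R256.Soft.Model

/-!
# Row 256 (S0496), unit SOFT, file 8: THE OPERATOR-FREE CALCULUS OF DOCUMENTED CONFIGURATIONS      (chief helper19)

DEFINITIONS ONLY.   Sec. 2B of the paper (02 l.763-1262: costs, profiles, shape constraints, affine reduction, cost rigidity) uses states and operators ONLY through six operations on documented configurations.
`SfCls` = an abstract class of configurations with shadows `doc c : SfDoc`;   `SfCls.Cal π Ls` = the six ENTRY properties: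

* `ex`   near extremisers exist                                                   (not Rate + binning + (p,d); gate `1` only)
* `dc`   DOC: re-documentation on any finite mesh, terminal labels = a sub-family    (Prop. cyl:matched-chain)
* `rs`   RES: restriction of a gate to one class of a partition into `≤ s^-a` classes + forward re-preparation; laws before the gate unchanged, law at the gate conditioned     (peeling triangle inequality, cyl:split-saturation, cyl:forward-preparation)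
* `pr`   PRE: the prefix `[0,i]` is a good configuration                              (same rows, same laws, dilated frame)
* `fin`  FINE: the base errors along `Conn` beat every power (atoms fine AFTER the package)
* `ge`   GE:  group extraction in COVER form with marked end rows, frames, quantitative loss      (Lemma cyl:group-extraction + restoration of the root gate)
* `pl`   PL:  bottom Planck floor (hybrid, strict gap)                                (Prop. cyl:planck-floor)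

All accuracies are package free (chosen before `C0`, `C1`, `S`);  packages go forward (`S ↦ S'`), scales backward (`σ' ↦ σ`).     `Good = Core ∧ Mat`;  `K.Gd = Good (shadow) ∧ md (model level)` (helper130, msg 30801).      Audit: report 926 (helper286), D1, D2 repaired.
In `ge` the relative accuracy `a` depends only on the normalised gap `h'` of the kept gates and on the target `t'`; the support constant of the piece is `cF C1`, independent of `h'`, `t'`.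
The kept gates `Gk` are an UPPER SEGMENT of the gates of `[i,j]` (helper105 G1/P3: `{j}`, or all gates; consecutive kept gates are consecutive gates, so `Ext.wr`, `Ext.mm` are inherited verbatim; the skipped gates below stay as ordinary stages).
-/

set_option autoImplicit false

namespace Claimed.Agent.R256

open Claimed.Agent.R255

namespace SfDoc

/-- all rows -/
abbrev Rw (D : SfDoc) : Type := Σ k, D.Row k

/-- **matched gates**: (iv) of Prop. cyl:matched-chain in the frame, in SKIP-STABLE form (audit 926 D1): for ALL pairs of gates `i < j`, width ratios with `Ls`, (M) with `3 Ls + 1`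
(telescoping: `f_g / r_g² ≤ (f_l / r_l²) δ^(-3 Ls)`, `ℓ_i / ℓ_j = δ^-1`).   A sub-family of gates inherits `Mat` with the same tolerance. -/
structure Mat (D : SfDoc) (Ls t : ℝ) : Prop where
  wr : ∀ i ∈ D.G, ∀ j ∈ D.G, i < j → D.s ^ (Ls * (j - i) + t) ≤ D.r i / D.r j ∧ D.r i / D.r j ≤ 1 ∧
    D.s ^ (Ls * (j - i) + t) ≤ D.f i / D.f j ∧ D.f i / D.f j ≤ D.s ^ (-(Ls * (j - i) + t))
  mm : ∀ i ∈ D.G, ∀ j ∈ D.G, i < j → ∀ ρ ρ', D.Conn i j ρ ρ' →
    |(D.lab i ρ).be - (D.lab j ρ').beAt (D.T i ρ)| + D.len i * |(D.lab i ρ).K - (D.lab j ρ').K|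
        ≤ D.f j / D.r j ^ 2 * D.s ^ (-((3 * Ls + 1) * (j - i) + t)) ∧
    |(D.lab i ρ).Pd (D.ray i ρ) - (D.lab j ρ').Pd (D.ray i ρ)| ≤ D.f j / D.r j * D.s ^ (-((3 * Ls + 1) * (j - i) + t))

/-- a documented configuration at `(Γ, p)`: support power `C0`, accuracy `t` -/
def Good (D : SfDoc) (π : SfPar) (Ls C0 t : ℝ) : Prop := D.Core π C0 t ∧ D.Mat Ls t

/-- all gaps of the mesh are `≥ h`, no gate in `(0, h)`      (= `CyGap D.G h` of `Cyl/Defs.lean`) -/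
def Gap (D : SfDoc) (h : ℝ) : Prop := (∀ i ∈ D.G, ∀ j ∈ D.G, i < j → h ≤ j - i) ∧ ∀ i ∈ D.G, i = 0 ∨ h ≤ i

/-- **`D'` is a sub-configuration of `D` on `[i,j]` in the frame `φ`**, along the map `e` of rows; kept gates `Gk`; `t` = enlargement exponent of the restored root gate -/
structure Sub (D' D : SfDoc) (i j : ℝ) (φ : SfFrame) (Gk : Finset ℝ) (t : ℝ) (e : D'.Rw → D.Rw) : Prop where
  dep : ∀ u, (e u).1 = i + u.1 * (j - i)
  gate : ∀ k' ∈ D'.G, i + k' * (j - i) ∈ D.G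
  kept : ∀ k ∈ Gk, (k - i) / (j - i) ∈ D'.G
  hs : D'.s = D.len j / φ.L
  hlen : ∀ k' ∈ D'.G, D'.len k' = D.len (i + k' * (j - i)) / φ.L
  frame : φ.r0 = D.r j ∧ φ.F0 = D.f j
  hr : ∀ k' ∈ D'.G, D'.r k' = D.r (i + k' * (j - i)) / D.r j
  hf : ∀ k' ∈ D'.G, D.f (i + k' * (j - i)) / D.f j ≤ D'.f k' ∧ D'.f k' ≤ D'.s ^ (-t) * (D.f (i + k' * (j - i)) / D.f j) ∧
    (0 < k' → D'.f k' = D.f (i + k' * (j - i)) / D.f j)
  /-- labels: the documented test in the frame (widths: the common widths of `D'`) -/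
  hlab : ∀ u : D'.Rw, u.1 ∈ D'.G → D'.lab u.1 u.2 = { φ.tst (D.lab (e u).1 (e u).2) with r := D'.r u.1, f := D'.f u.1 }
  /-- the base ray in the frame -/
  hray : ∀ u : D'.Rw, u.1 ∈ D'.G → (D'.ray u.1 u.2).bdist (φ.ray (D.ray (e u).1 (e u).2)) = 0
  conn : ∀ u v : D'.Rw, D'.Conn u.1 v.1 u.2 v.2 → D.Conn (e u).1 (e v).1 (e u).2 (e v).2

end SfDoc

/-- an abstract class of configurations -/
structure SfCls where
  Cfg : Type 1
  Pkg : Type
  ob : Pkg → Cfg → Prop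
  sc : Cfg → ℝ
  doc : Cfg → SfDoc
  /-- the Planck parameter in the frame (`0` in the classical model) -/
  hp : Cfg → ℝ
  /-- MODEL-LEVEL accuracy: `md c a` = "the experiment behind `c` is documented and extremal at the accuracy `a`" (what the shadow does not see: pre-gate energy, regularity for ALL tests, fineness of the atoms) -/
  md : Cfg → ℝ → Prop

/-- the class of the shadows of a cylinder model.   The truncation exponent `ε` is bounded BELOW by the package, above by the accuracy (helper105 G2, helper169 D4, helper130);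
the fineness `μ` of the atoms goes BACKWARD with the scale, like the tail order `A` (helper105 P2, helper55 R1, helper10). -/
noncomputable def sfCls (Y : SfCy) (π : SfPar) (Ls : ℝ) : SfCls where
  Cfg := SfCfg Y π.d
  Pkg := ℕ
  ob := fun C c => c.ob C ∧ 1 / ((C : ℝ) + 1) ≤ c.ε
  sc := fun c => max c.D.s (max (1 / ((c.A : ℝ) + 1)) (1 / (c.μ + 1)))
  doc := fun c => c.D
  hp := fun c => c.hp
  md := fun c a => SfMD.Ext Y c.p c.W π.p π.d Ls c.ε a ∧ 0 < c.ε ∧ c.ε ≤ a ∧ 1 / a ≤ c.μ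

namespace SfCls

variable (K : SfCls)

/-- **good configuration**: the shadow is `Good` and the experiment behind it is documented at the accuracy `a` -/
def Gd (π : SfPar) (Ls C0 a : ℝ) (c : K.Cfg) : Prop := (K.doc c).Good π Ls C0 a ∧ K.md c a

/-- the pattern of an operation: `S ↦ S'` forward, `σ' ↦ σ` backward -/
def Op (R : K.Cfg → K.Cfg → Prop) (A : K.Cfg → Prop) : Prop :=
  ∀ S, ∃ S', ∀ σ' : ℝ, 0 < σ' → ∃ σ : ℝ, 0 < σ ∧ ∀ c, K.ob S c → K.sc c < σ → A c → ∃ c', K.ob S' c' ∧ K.sc c' < σ' ∧ R c' c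

/-- hypotheses of group extraction on `[i,j]` for the cover `(Sb, Ub)` with the frames `φ`: relative accuracy `a`, support power `C1` -/
structure GeHyp (D : SfDoc) (i j : ℝ) (Gk : Finset ℝ) (ι : Type) (Sb Ub : ι → D.Rw → Prop) (φ : ι → SfFrame) (a C1 : ℝ) : Prop where
  gi : i ∈ D.G
  gj : j ∈ D.G
  kept : j ∈ Gk ∧ ∀ k ∈ Gk, k ∈ D.G ∧ i ≤ k ∧ k ≤ j
  /-- marked end rows: disjoint, at the gate `j`, of mass `≥ s^(a (j-i))` -/
  ub_dep : ∀ b u, Ub b u → u.1 = j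
  ub_disj : ∀ b b' u, Ub b u → Ub b' u → b = b'
  ub_mass : D.s ^ (a * (j - i)) ≤ (D.P j).pr (fun ρ' => ∃ b, Ub b ⟨j, ρ'⟩)
  /-- starting sets: at the gate `i`, in one interval, contain all predecessors, overlap `≤ s^(-a (j-i))` -/
  sb_dep : ∀ b u, Sb b u → u.1 = i
  sb_time : ∀ b u, Sb b u → (D.lab u.1 u.2).T = (φ b).T0
  sb_pred : ∀ b (u v : D.Rw), Ub b v → u.1 = i → D.Conn u.1 v.1 u.2 v.2 → Sb b u
  sb_ovl : ∀ u, (({b | Sb b u} : Set ι).ncard : ℝ) ≤ D.s ^ (-(a * (j - i)))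
  /-- every label of a kept gate lies on chains of `≤ s^(-a (j-i))` bins      (`u.1 < v.1`, `u.1 ∈ Gk`: `Core` says nothing on `Conn j j` nor on rows off the gates; report 935 C2) -/
  lb_ovl : ∀ k ∈ Gk, ∀ lam : SfTest, (({b | ∃ u v : D.Rw, u.1 = k ∧ D.lab u.1 u.2 = lam ∧ Ub b v ∧ (u = v ∨ (u.1 < v.1 ∧ D.Conn u.1 v.1 u.2 v.2))} : Set ι).ncard : ℝ)
      ≤ D.s ^ (-(a * (j - i)))
  /-- frames: units of the gap; support and reachable shear parameters are `≤ s^(-C1 (j-i))` in the frame -/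
  fr : ∀ b, (φ b).L = D.len i ∧ (φ b).r0 = D.r j ∧ (φ b).F0 = D.f j
  fr_ray : ∀ b u, Sb b u → ((φ b).ray (D.ray u.1 u.2)).size ≤ D.s ^ (-(C1 * (j - i)))
  fr_lab : ∀ b (u v : D.Rw), Ub b v → u.1 ∈ Gk → (u = v ∨ (u.1 < v.1 ∧ D.Conn u.1 v.1 u.2 v.2)) → ((φ b).tst (D.lab u.1 u.2)).size ≤ D.s ^ (-(C1 * (j - i)))

/-- **EX: near extremisers exist** -/
def CalEx (π : SfPar) (Ls : ℝ) : Prop :=
  ∀ t : ℝ, 0 < t → ∃ C0 : ℝ, SfEx K.ob K.sc (fun c => K.Gd π Ls C0 t c)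

/-- **DOC: re-documentation on any finite mesh**.   The support constant `C0'` of the new gates depends on the PACKAGE (helper39 (4)); a package-free constant is restored by `ge` (`cF C1`). -/
def CalDc (π : SfPar) (Ls : ℝ) : Prop :=
  ∀ (F : Finset ℝ), (∀ i ∈ F, 0 ≤ i ∧ i ≤ 1) → ∀ t : ℝ, 0 < t → ∃ a : ℝ, 0 < a ∧ ∀ C0 : ℝ, ∀ S, ∃ (C0' : ℝ) (S' : K.Pkg), ∀ σ' : ℝ, 0 < σ' → ∃ σ : ℝ, 0 < σ ∧
    ∀ c, K.ob S c → K.sc c < σ → K.Gd π Ls C0 a c → ∃ c', K.ob S' c' ∧ K.sc c' < σ' ∧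
      (K.doc c').s = (K.doc c).s ∧ (K.doc c').G = insert 1 F ∧ K.Gd π Ls C0' t c' ∧ K.hp c' = K.hp c ∧
        ∀ ρ', ∃ ρ, (K.doc c').lab 1 ρ' = (K.doc c).lab 1 ρ

/-- **RES: restriction of a gate to one class + forward re-preparation** -/
def CalRs (π : SfPar) (Ls : ℝ) : Prop :=
  ∀ h t : ℝ, 0 < h → 0 < t → ∃ a : ℝ, 0 < a ∧ ∀ C0 : ℝ, ∀ S, ∃ S', ∀ σ' : ℝ, 0 < σ' → ∃ σ : ℝ, 0 < σ ∧
    ∀ c, K.ob S c → K.sc c < σ → K.Gd π Ls C0 a c → (K.doc c).Gap h →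
    ∀ i ∈ (K.doc c).G, ∀ (ι : Type) [Finite ι] (cl : (K.doc c).Row i → ι), (Nat.card ι : ℝ) ≤ (K.doc c).s ^ (-a) →
    ∃ (c' : K.Cfg) (b : ι) (e : (K.doc c').Rw → (K.doc c).Rw), K.ob S' c' ∧ K.sc c' < σ' ∧ K.Gd π Ls C0 t c' ∧ K.hp c' = K.hp c ∧
      (K.doc c').G = (K.doc c).G ∧ (K.doc c').ek = (K.doc c).ek ∧
      (K.doc c').Sub (K.doc c) 0 1 sfFrame1 (K.doc c).G 0 e ∧
      (∀ (u : (K.doc c').Rw) (ρ : (K.doc c).Row i), e u = ⟨i, ρ⟩ → cl ρ = b) ∧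
      (∀ l ∈ (K.doc c).G, l < i → ∀ ρ : (K.doc c).Row l, ((K.doc c').P l).pr (fun ρ' => e ⟨l, ρ'⟩ = ⟨l, ρ⟩) = ((K.doc c).P l).p ρ) ∧
      (∀ ρ : (K.doc c).Row i, cl ρ = b →
        ((K.doc c').P i).pr (fun ρ' => e ⟨i, ρ'⟩ = ⟨i, ρ⟩) * ((K.doc c).P i).pr (fun ρ0 => cl ρ0 = b) = ((K.doc c).P i).p ρ)

/-- **PRE: prefixes** -/
def CalPr (π : SfPar) (Ls : ℝ) : Prop :=
  ∀ i0 h t : ℝ, 0 < i0 → 0 < h → 0 < t → ∃ a : ℝ, 0 < a ∧ ∀ C0 : ℝ, ∀ S, ∃ (C0' : ℝ) (S' : K.Pkg), ∀ σ' : ℝ, 0 < σ' → ∃ σ : ℝ, 0 < σ ∧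
    ∀ c, K.ob S c → K.sc c < σ → K.Gd π Ls C0 a c → (K.doc c).Gap h → ∀ i ∈ (K.doc c).G, i0 ≤ i →
    ∃ (c' : K.Cfg) (e : (K.doc c').Rw → (K.doc c).Rw), K.ob S' c' ∧ K.sc c' < σ' ∧ K.Gd π Ls C0' t c' ∧
      (K.doc c').Sub (K.doc c) 0 i (sfFrameDil ((K.doc c).r i) ((K.doc c).f i)) ((K.doc c).G.filter (· ≤ i)) 0 e ∧
      Function.Injective e ∧ (∀ v : (K.doc c).Rw, v.1 ∈ (K.doc c).G → v.1 ≤ i → ∃ u, e u = v) ∧
      (∀ u, ((K.doc c').P u.1).p u.2 = ((K.doc c).P (e u).1).p (e u).2) ∧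
      (∀ u, (K.doc c').ray u.1 u.2 = (sfFrameDil ((K.doc c).r i) ((K.doc c).f i)).ray ((K.doc c).ray (e u).1 (e u).2)) ∧
      (∀ u v, (K.doc c).Conn (e u).1 (e v).1 (e u).2 (e v).2 → (K.doc c').Conn u.1 v.1 u.2 v.2) ∧
      (∀ u v, (K.doc c').idx u.1 u.2 = (K.doc c').idx v.1 v.2 ↔ (K.doc c).idx (e u).1 (e u).2 = (K.doc c).idx (e v).1 (e v).2) ∧
      (∀ k' ∈ (K.doc c').G, (K.doc c').mass k' = (K.doc c).mass (0 + k' * (i - 0)) * ((K.doc c).s ^ (-(π.d * (k' * i))) / (K.doc c').s ^ (-(π.d * k')))) ∧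
      (K.doc c').ek = (K.doc c).ek / ((K.doc c).r i ^ (3 + π.η) * (K.doc c).f i ^ (1 - π.η)) ∧
      K.hp c' = K.hp c / (K.doc c).f i ^ 2

/-- **GE: group extraction, cover form, marked end rows, frames, quantitative loss** -/
def CalGe (π : SfPar) (Ls : ℝ) : Prop :=
  ∃ cF : ℝ → ℝ, ∀ h' t' : ℝ, 0 < h' → 0 < t' → ∃ a : ℝ, 0 < a ∧ ∀ C1 C0 h : ℝ, 0 < h → ∀ S, ∃ S', ∀ σ' : ℝ, 0 < σ' → ∃ σ : ℝ, 0 < σ ∧
    ∀ c, K.ob S c → K.sc c < σ → ∀ i j : ℝ, h ≤ j - i → K.Gd π Ls C0 (a * (j - i)) c →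
    ∀ (Gk : Finset ℝ) (ι : Type) [Finite ι] (Sb Ub : ι → (K.doc c).Rw → Prop) (φ : ι → SfFrame),
      GeHyp (K.doc c) i j Gk ι Sb Ub φ a C1 → (∀ k ∈ Gk, ∀ l ∈ Gk, k < l → h' * (j - i) ≤ l - k) →
      (∀ k ∈ Gk, k = i ∨ h' * (j - i) ≤ k - i) → (∀ g ∈ (K.doc c).G, ∀ k ∈ Gk, k < g → g < j → g ∈ Gk) →
    ∃ (c' : K.Cfg) (b : ι) (e : (K.doc c').Rw → (K.doc c).Rw), K.ob S' c' ∧ K.sc c' < σ' ∧ K.Gd π Ls (cF C1) t' c' ∧
      (K.doc c').Sub (K.doc c) i j (φ b) Gk t' e ∧ (∀ k' ∈ (K.doc c').G, i + k' * (j - i) ∈ Gk) ∧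
      (∀ u, u.1 = 0 → Sb b (e u)) ∧ (∀ u, u.1 = 1 → Ub b (e u)) ∧
      K.hp c' = K.hp c / ((K.doc c).len i * (K.doc c).f j ^ 2)

/-- **FINE: base errors along `Conn` are `≤ s^N`** (helper55 R1, helper286, helper10) -/
def CalFin : Prop :=
  ∀ N : ℝ, SfAll K.ob K.sc (fun c => ∀ a, K.md c a → ∀ i ∈ (K.doc c).G, ∀ j ∈ (K.doc c).G, i < j → ∀ ρ ρ', (K.doc c).Conn i j ρ ρ' →
    ((K.doc c).ray i ρ).bdist ((K.doc c).ray j ρ') ≤ (K.doc c).s ^ N)

/-- **PL: bottom Planck floor** -/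
def CalPl (π : SfPar) (Ls : ℝ) : Prop :=
  π.hyb = true → ∀ i0 t : ℝ, 0 < i0 → 0 < t → ∃ a : ℝ, 0 < a ∧ ∀ C0 : ℝ, SfAll K.ob K.sc (fun c => K.Gd π Ls C0 a c →
    (K.doc c).s ^ (1 + t) ≤ K.hp c ∧ K.hp c ≤ (K.doc c).s ∧
    ∀ i ∈ (K.doc c).G, i0 ≤ i → (K.doc c).s ^ ((1 - i) / 2 + t) ≤ (K.doc c).f i ∧ (K.doc c).f i ≤ (K.doc c).s ^ ((1 - i) / 2 - t))

/-- **ENTRY of the operator-free part of SOFT** -/
structure Cal (π : SfPar) (Ls : ℝ) : Prop where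
  sc_le : ∀ c, (K.doc c).s ≤ K.sc c
  md_mono : ∀ c a a', 0 < a → a ≤ a' → K.md c a → K.md c a'
  ex : K.CalEx π Ls
  dc : K.CalDc π Ls
  rs : K.CalRs π Ls
  pr : K.CalPr π Ls
  ge : K.CalGe π Ls
  pl : K.CalPl π Ls
  fin : K.CalFin

end SfCls

theorem sf_cal_eqns_cite : True := by
  have := @SfDoc.Good.eq_1
  have := @SfDoc.Gap.eq_1
  have := @sfCls.eq_1
  have := @SfCls.Op.eq_1
  have := @SfCls.Gd.eq_1
  have := @SfCls.CalEx.eq_1
  have := @SfCls.CalDc.eq_1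
  have := @SfCls.CalRs.eq_1
  have := @SfCls.CalPr.eq_1
  have := @SfCls.CalGe.eq_1
  have := @SfCls.CalPl.eq_1
  have := @SfCls.CalFin.eq_1
  trivial

end Claimed.Agent.R256
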