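import Claimed.Agent.R256.Soft.MPrKit
import Claimed.Agent.R256.Soft.Cal

/-!
# Row 256 (S0496), unit SOFT, M5 PRE (prefix experiments), file 3: THE GLUE      (architect helper288; block BP-256-SOFT-PRE; prefix `sf_pr_`)

* `sfPrSh`       the shadow of the prefix is a shadow (`SfSh`) of the documented prefix
* `sfPrC`        the configuration of the prefix
* `sf_pr_rel`    the relations of `CalPr` between the prefix and the whole configuration (no smallness, no constants)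
* `sf_pr_ext`    `Ext` of the prefix
* `sf_pr_ob`     the package of the prefix
-/

set_option autoImplicit false

namespace Claimed.Agent.R256

open MeasureTheory Claimed.Agent.R255

section Sh

variable {Y : SfCy} {p : Y.M.Par} {W : SfMD (Y.M.sys p)} {de ε μ : ℝ} {D : SfDoc}

/-- the gates of the prefix are gates -/
theorem sf_pr_gt (W : SfMD (Y.M.sys p)) {i : ℝ} (hi0 : 0 < i) {g : ℝ} (hg : g ∈ (W.prW i).G) : sfPa i g ∈ W.G ∧ g ≤ 1 :=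
  (sf_pr_mem_G W.G hi0 g).1 hg

/-- the widths of the frame of the prefix -/
theorem sf_pr_rf (sh : SfSh Y p W de ε μ D) (h : W.Str (Y.tq p)) (i : ℝ) (hi : i ∈ W.G) :
    D.r i = W.r (sfPa i 1) / W.Q0.r ∧ D.f i = W.f (sfPa i 1) / W.Q0.f ∧ 0 < W.r (sfPa i 1) ∧ 0 < W.f (sfPa i 1) ∧ 0 < W.Q0.r ∧ 0 < W.Q0.f ∧
      0 < D.r i ∧ 0 < D.f i := by
  rw [sf_pr_pa_one]
  have h1 := h.frame.2.2 i hi
  have h2 := h.frame.2.2 1 h.gate.1
  have hr0 : 0 < W.Q0.r := by rw [h.frame.1]; exact h2.1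
  have hf0 : 0 < W.Q0.f := by rw [h.frame.2.1]; exact h2.2
  refine ⟨sh.hr i hi, sh.hf i hi, h1.1, h1.2, hr0, hf0, ?_, ?_⟩
  · rw [sh.hr i hi]; exact div_pos h1.1 hr0
  · rw [sh.hf i hi]; exact div_pos h1.2 hf0

/-- **the shadow of the prefix** -/
noncomputable def sfPrSh (sh : SfSh Y p W de ε μ D) (h : W.Str (Y.tq p)) (i : ℝ) (hi : i ∈ W.G) (hi0 : 0 < i) (ε' μ' : ℝ)
    (hε : (W.prE i).s ^ (-ε') = W.E.s ^ (-ε))
    (hμ : max (1 / D.r i) (max (1 / D.r i ^ 2) (1 / D.f i)) * W.E.s ^ μ ≤ (W.prE i).s ^ μ') :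
    SfSh Y p (W.prW i) de ε' μ' (sfPrD D de Y.η i) where
  lb := fun g => sh.lb (sfPa i g)
  atm := fun g => sh.atm (sfPa i g)
  rp := fun g => sh.rp (sfPa i g)
  ia := sh.ia
  hs := (sf_pr_sc sh h i hi hi0).1
  hG := by
    show sfPrG D.G i = sfPrG W.G i
    rw [sh.hG]
  hlen := (sf_pr_sc sh h i hi hi0).2.1
  hr := (sf_pr_sc sh h i hi hi0).2.2.1
  hf := (sf_pr_sc sh h i hi hi0).2.2.2.1
  hek := (sf_pr_sc sh h i hi hi0).2.2.2.2.1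
  hmass := (sf_pr_sc sh h i hi hi0).2.2.2.2.2
  at_meas := fun g hg ρ => sh.at_meas (sfPa i g) (sf_pr_gt W hi0 hg).1 ρ
  at_disj := fun g hg ρ ρ' => sh.at_disj (sfPa i g) (sf_pr_gt W hi0 hg).1 ρ ρ'
  at_ne := fun g hg ρ => sh.at_ne (sfPa i g) (sf_pr_gt W hi0 hg).1 ρ
  at_cov := fun g hg l x => by
    rw [sf_pr_anc W i hi0 g (sf_pr_gt W hi0 hg).2 l x]
    exact sh.at_cov (sfPa i g) (sf_pr_gt W hi0 hg).1 l x
  rp_cell := fun g hg ρ => sh.rp_cell (sfPa i g) (sf_pr_gt W hi0 hg).1 ρ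
  rp_cl := fun hh g hg g' hg' ρ ρ' => sh.rp_cl hh (sfPa i g) (sf_pr_gt W hi0 hg).1 (sfPa i g') (sf_pr_gt W hi0 hg').1 ρ ρ'
  law := fun g hg ρ => by
    rw [sf_pr_tot W h i hi hi0 g hg, sf_pr_pre W h i hi hi0 g hg]
    exact sh.law (sfPa i g) (sf_pr_gt W hi0 hg).1 ρ
  hray := fun g hg ρ => by
    obtain ⟨e1, e2, p1, p2, p3, p4, -, -⟩ := sf_pr_rf sh h i hi
    show (sfFrameDil (D.r i) (D.f i)).ray (D.ray (sfPa i g) ρ) = _
    rw [sh.hray (sfPa i g) (sf_pr_gt W hi0 hg).1 ρ, e1, e2]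
    exact sf_pr_dil_ray _ _ W.Q0 _ _ (by positivity) p3.ne' p4.ne' p1.ne' p2.ne' _
  hlab := fun g hg ρ => by
    obtain ⟨e1, e2, p1, p2, p3, p4, -, -⟩ := sf_pr_rf sh h i hi
    have hgg := (sf_pr_gt W hi0 hg).1
    have hw := h.width (sfPa i g) hgg (sh.lb (sfPa i g) ρ)
    have key := sf_pr_dil_tst (tmL W.E.k0 W.E.i0) ((2 : ℝ)⁻¹ ^ W.E.k0) W.Q0 (W.r (sfPa i 1)) (W.f (sfPa i 1)) (by positivity) p3.ne' p4.ne' p1.ne' p2.ne'
      (sfTestAt (W.T (sfPa i g) (sh.lb (sfPa i g) ρ)) (Y.tq p (W.ts (sfPa i g) (sh.lb (sfPa i g) ρ))))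
    show ({ (sfFrameDil (D.r i) (D.f i)).tst (D.lab (sfPa i g) ρ) with r := D.r (sfPa i g) / D.r i, f := D.f (sfPa i g) / D.f i } : SfTest) = _
    rw [sh.hlab (sfPa i g) hgg ρ, e1, e2, key, sh.hr _ hgg, sh.hf _ hgg]
    have r1 : W.r (sfPa i g) / W.Q0.r / (W.r (sfPa i 1) / W.Q0.r) = (Y.tq p (W.ts (sfPa i g) (sh.lb (sfPa i g) ρ))).r / W.r (sfPa i 1) := by
      rw [hw.1]; field_simp
    have f1 : W.f (sfPa i g) / W.Q0.f / (W.f (sfPa i 1) / W.Q0.f) = (Y.tq p (W.ts (sfPa i g) (sh.lb (sfPa i g) ρ))).f / W.f (sfPa i 1) := by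
      rw [hw.2]; field_simp
    rw [r1, f1]
    rfl
  small := fun g hg ρ x hx => by
    obtain ⟨e1, e2, p1, p2, p3, p4, q1, q2⟩ := sf_pr_rf sh h i hi
    have hgg := (sf_pr_gt W hi0 hg).1
    have key := sf_pr_dil_ray (tmL W.E.k0 W.E.i0) ((2 : ℝ)⁻¹ ^ W.E.k0) W.Q0 (W.r (sfPa i 1)) (W.f (sfPa i 1)) (by positivity) p3.ne' p4.ne' p1.ne' p2.ne'
      (sfRayAt (W.T (sfPa i g) (sh.lb (sfPa i g) ρ)) (Y.co p (W.T (sfPa i g) (sh.lb (sfPa i g) ρ)) x))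
    rw [← e1, ← e2] at key
    have h1 := sf_pr_dil_dist (D.r i) (D.f i) q1 q2 ((sfFrameOf (tmL W.E.k0 W.E.i0) ((2 : ℝ)⁻¹ ^ W.E.k0) W.Q0).ray
      (sfRayAt (W.T (sfPa i g) (sh.lb (sfPa i g) ρ)) (Y.co p (W.T (sfPa i g) (sh.lb (sfPa i g) ρ)) x))) (D.ray (sfPa i g) ρ)
    rw [key] at h1
    refine le_trans h1 (le_trans (mul_le_mul_of_nonneg_left (sh.small (sfPa i g) hgg ρ x hx) ?_) hμ)
    exact le_trans (by positivity) (le_max_left _ _)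
  ia_disj := sh.ia_disj
  ia_mem := fun g hg ρ => sh.ia_mem (sfPa i g) (sf_pr_gt W hi0 hg).1 ρ
  ia_full := fun hh g hg ρ => sh.ia_full hh (sfPa i g) (sf_pr_gt W hi0 hg).1 ρ
  conn := fun g hg g' hg' ρ ρ' => by
    show D.Conn (sfPa i g) (sfPa i g') ρ ρ' ↔ _
    rw [sh.conn (sfPa i g) (sf_pr_gt W hi0 hg).1 (sfPa i g') (sf_pr_gt W hi0 hg').1 ρ ρ']
    refine sf_pr_chain (α := D.Row) W.G i hi0 _ _ (fun u v huv => huv.1.2.2.1) (fun u v hv => ?_) g g' (sf_pr_gt W hi0 hg').2 ρ ρ'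
    have e0 : (W.prW i).E.s ^ (-ε') = W.E.s ^ (-ε) := hε
    rw [e0]
    exact and_congr (sf_pr_next W.G hi0 u.1 v.1 hv) Iff.rfl

end Sh

/-! ## the configuration of the prefix and its relations with the whole configuration -/

section Rel

variable {Y : SfCy} {de : ℝ}

/-- **the configuration of the prefix** -/
noncomputable def sfPrC (c : SfCfg Y de) (h : c.W.Str (Y.tq c.p)) (i : ℝ) (hi : i ∈ c.W.G) (hi0 : 0 < i) (ε' μ' : ℝ)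
    (hε : (c.W.prE i).s ^ (-ε') = c.W.E.s ^ (-c.ε))
    (hμ : max (1 / c.D.r i) (max (1 / c.D.r i ^ 2) (1 / c.D.f i)) * c.W.E.s ^ c.μ ≤ (c.W.prE i).s ^ μ') : SfCfg Y de where
  p := c.p
  W := c.W.prW i
  A := c.A
  ε := ε'
  μ := μ'
  D := sfPrD c.D de Y.η i
  sh := sfPrSh c.sh h i hi hi0 ε' μ' hε hμ

theorem sf_pr_bdist_self (z : SfRay) : z.bdist z = 0 := by
  simp [SfRay.bdist]

/-- the doc-level relations (they do not see the model) -/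
theorem sf_pr_sub (D : SfDoc) (η i : ℝ) (hi0 : 0 < i) :
    (sfPrD D de η i).Sub D 0 i (sfFrameDil (D.r i) (D.f i)) (D.G.filter (· ≤ i)) 0 (sfPrE D de η i) where
  dep := fun _ => rfl
  gate := fun k' hk => ((sf_pr_mem_G D.G hi0 k').1 hk).1
  kept := fun k hk => by
    rw [Finset.mem_filter] at hk
    refine (sf_pr_mem_G D.G hi0 _).2 ⟨?_, ?_⟩
    · have : sfPa i ((k - 0) / (i - 0)) = k := by
        rw [sub_zero, sub_zero]; exact sf_pr_pa_div hi0.ne' k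
      rw [this]; exact hk.1
    · rw [sub_zero, sub_zero]; exact (div_le_one hi0).2 hk.2
  hs := by
    show D.len i = D.len i / 1
    rw [div_one]
  hlen := fun k' _ => by
    show D.len (sfPa i k') = D.len (sfPa i k') / 1
    rw [div_one]
  frame := ⟨rfl, rfl⟩
  hr := fun _ _ => rfl
  hf := fun k' _ => by
    refine ⟨le_rfl, ?_, fun _ => rfl⟩
    rw [neg_zero, Real.rpow_zero, one_mul]
    exact le_rfl
  hlab := fun _ _ => rfl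
  hray := fun _ _ => sf_pr_bdist_self _
  conn := fun _ _ h => h

theorem sf_pr_e_inj (D : SfDoc) (η i : ℝ) (hi0 : 0 < i) : Function.Injective (sfPrE D de η i) := by
  rintro ⟨g, ρ⟩ ⟨g', ρ'⟩ h
  have h1 : sfPa i g = sfPa i g' := congrArg Sigma.fst h
  have h2 : g = g' := sf_pr_pa_inj hi0.ne' h1
  subst h2
  have h3 : (⟨sfPa i g, ρ⟩ : D.Rw) = ⟨sfPa i g, ρ'⟩ := h
  have h4 : ρ = ρ' := eq_of_heq (Sigma.mk.inj h3).2
  subst h4
  rfl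

theorem sf_pr_e_surj (D : SfDoc) (η i : ℝ) (hi0 : 0 < i) (v : D.Rw) : ∃ u, sfPrE D de η i u = v := by
  obtain ⟨k, ρ⟩ := v
  obtain ⟨ρ', h⟩ := sf_pr_row_lift (α := D.Row) i (k / i) k (sf_pr_pa_div hi0.ne' k) ρ
  exact ⟨⟨k / i, ρ'⟩, h⟩

/-- the Planck parameter of the prefix -/
theorem sf_pr_hp (c : SfCfg Y de) (h : c.W.Str (Y.tq c.p)) (i : ℝ) (hi : i ∈ c.W.G) (hi0 : 0 < i) (ε' μ' : ℝ)
    (hε : (c.W.prE i).s ^ (-ε') = c.W.E.s ^ (-c.ε))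
    (hμ : max (1 / c.D.r i) (max (1 / c.D.r i ^ 2) (1 / c.D.f i)) * c.W.E.s ^ c.μ ≤ (c.W.prE i).s ^ μ') :
    (sfPrC c h i hi hi0 ε' μ' hε hμ).hp = c.hp / c.D.f i ^ 2 := by
  obtain ⟨-, e2, -, p2, -, p4, -, -⟩ := sf_pr_rf c.sh h i hi
  show Y.H c.p * 2 ^ c.W.E.k0 / (c.W.f (sfPa i 1)) ^ 2 = Y.H c.p * 2 ^ c.W.E.k0 / c.W.Q0.f ^ 2 / c.D.f i ^ 2
  rw [e2]
  field_simp

end Rel

/-! ## numerics -/

/-- widths of a gate of a good configuration -/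
theorem sf_pr_wd (D : SfDoc) (π : SfPar) (Ls C0 a : ℝ) (ha1 : a ≤ 1) (hG : D.Good π Ls C0 a) (i : ℝ) (hi : i ∈ D.G) :
    D.s ^ (|Ls| + 1) ≤ D.r i ∧ D.r i ≤ 1 ∧ D.s ^ (|Ls| + 1) ≤ D.f i ∧ D.f i ≤ D.s ^ (-(|Ls| + 1)) := by
  obtain ⟨hc, hm⟩ := hG
  obtain ⟨hs0, hs1⟩ := hc.hs
  have hi1 := hc.gate.2 i hi
  have hw : 0 ≤ |Ls| + 1 := by positivity
  rcases eq_or_lt_of_le hi1.2 with e | hlt
  · rw [e, hc.hw.1, hc.hw.2.1]
    exact ⟨Real.rpow_le_one hs0.le hs1.le hw, le_rfl, Real.rpow_le_one hs0.le hs1.le hw,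
      Real.one_le_rpow_of_pos_of_le_one_of_nonpos hs0 hs1.le (by linarith)⟩
  · obtain ⟨h1, h2, h3, h4⟩ := hm.wr i hi 1 hc.gate.1 hlt
    rw [hc.hw.1, div_one] at h1 h2
    rw [hc.hw.2.1, div_one] at h3 h4
    have hx : Ls * (1 - i) + a ≤ |Ls| + 1 := by
      have h5 : Ls * (1 - i) ≤ |Ls| * (1 - i) := mul_le_mul_of_nonneg_right (le_abs_self _) (by linarith)
      have h6 : |Ls| * (1 - i) ≤ |Ls| * 1 := mul_le_mul_of_nonneg_left (by linarith) (abs_nonneg _)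
      linarith
    exact ⟨le_trans (Real.rpow_le_rpow_of_exponent_ge hs0 hs1.le hx) h1, h2, le_trans (Real.rpow_le_rpow_of_exponent_ge hs0 hs1.le hx) h3,
      le_trans h4 (Real.rpow_le_rpow_of_exponent_ge hs0 hs1.le (by linarith))⟩

/-- negative powers of the two scales -/
theorem sf_pr_scl {P : PkSys} (E E' : Xp P) (i0 : ℝ) (h0 : 0 < i0) (h1 : i0 / 2 * E.n ≤ E'.n) (x y : ℝ) (hx : 0 ≤ x) (hxy : x * (2 / i0) ≤ y) :
    E.s ^ (-x) ≤ E'.s ^ (-y) := by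
  rw [gn_s_rpow, gn_s_rpow]
  apply gn_two_mono
  have h2 : (E.n : ℝ) ≤ 2 / i0 * E'.n := by
    have : 2 / i0 * (i0 / 2 * E.n) = E.n := by field_simp
    rw [← this]
    exact mul_le_mul_of_nonneg_left h1 (by positivity)
  have h3 : x * (E.n : ℝ) ≤ x * (2 / i0 * E'.n) := mul_le_mul_of_nonneg_left h2 hx
  have h4 : x * (2 / i0) * (E'.n : ℝ) ≤ y * E'.n := mul_le_mul_of_nonneg_right hxy (Nat.cast_nonneg _)
  have h5 : x * (2 / i0 * E'.n) = x * (2 / i0) * (E'.n : ℝ) := by ring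
  linarith

/-- **the package of the prefix** -/
theorem sf_pr_pkg {Y : SfCy} (hAf : SfPrAf Y) (Ls i0 : ℝ) (h0 : 0 < i0) (S : ℕ) : ∃ S' : ℕ, S ≤ S' ∧
    ∀ (A : ℕ) (p : Y.M.Par) (W : SfMD (Y.M.sys p)) (de ε μ : ℝ) (D : SfDoc) (_ : SfSh Y p W de ε μ D) (i : ℝ), i ∈ W.G → 0 < i →
      W.E.st.length ≤ S → Y.af S A p W.E W.Q0 → W.Str (Y.tq p) → W.E.GenLe S →
      (∀ k ∈ D.G, ∀ ρ, (D.ray k ρ).size ≤ D.s ^ (-(S : ℝ)) ∧ (D.lab k ρ).size ≤ D.s ^ (-(S : ℝ))) →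
      i0 / 2 * W.E.n ≤ (W.prE i).n → (W.prE i).n ≤ W.E.n →
      D.s ^ (|Ls| + 1) ≤ D.r i → D.r i ≤ 1 → D.s ^ (|Ls| + 1) ≤ D.f i → D.f i ≤ D.s ^ (-(|Ls| + 1)) →
      (W.prE i).st.length ≤ S' ∧ Y.af S' A p (W.prE i) (W.prW i).Q0 ∧ (W.prE i).GenLe S' ∧
      ∀ g ∈ (sfPrD D de Y.η i).G, ∀ ρ, ((sfPrD D de Y.η i).ray g ρ).size ≤ (sfPrD D de Y.η i).s ^ (-(S' : ℝ)) ∧
        ((sfPrD D de Y.η i).lab g ρ).size ≤ (sfPrD D de Y.η i).s ^ (-(S' : ℝ)) := by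
  obtain ⟨C1, hC1⟩ := hAf S (⌈|Ls|⌉₊ + 1) (i0 / 2) (by positivity)
  refine ⟨max (max S C1) ⌈(3 * (|Ls| + 1) + S) * (2 / i0)⌉₊, le_trans (le_max_left _ _) (le_max_left _ _), ?_⟩
  intro A p W de ε μ D sh i hi hi0 hlen haf hstr hgen hsz hn1 hn2 hr1 hr2 hf1 hf2
  set S' : ℕ := max (max S C1) ⌈(3 * (|Ls| + 1) + S) * (2 / i0)⌉₊ with hS'
  have hSS' : S ≤ S' := le_trans (le_max_left _ _) (le_max_left _ _)
  have hCS' : C1 ≤ S' := le_trans (le_max_right _ _) (le_max_left _ _)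
  have hXS' : (3 * (|Ls| + 1) + S) * (2 / i0) ≤ (S' : ℝ) := le_trans (Nat.le_ceil _) (by exact_mod_cast le_max_right _ _)
  obtain ⟨e1, e2, p1, p2, p3, p4, q1, q2⟩ := sf_pr_rf sh hstr i hi
  have hs0 : 0 < W.E.s := gn_s_pos _
  have hs1 : W.E.s ≤ 1 := gn_s_le_one _
  have hDs : D.s = W.E.s := sh.hs
  rw [hDs] at hr1 hf1 hf2
  have hw : 0 ≤ |Ls| + 1 := by positivity
  have hDn : |Ls| + 1 ≤ ((⌈|Ls|⌉₊ + 1 : ℕ) : ℝ) := by
    push_cast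
    have := Nat.le_ceil |Ls|
    linarith
  have hlo : W.E.s ^ (((⌈|Ls|⌉₊ + 1 : ℕ) : ℝ)) ≤ W.E.s ^ (|Ls| + 1) := Real.rpow_le_rpow_of_exponent_ge hs0 hs1 hDn
  have hhi : W.E.s ^ (-(|Ls| + 1)) ≤ W.E.s ^ (-((⌈|Ls|⌉₊ + 1 : ℕ) : ℝ)) := Real.rpow_le_rpow_of_exponent_ge hs0 hs1 (by linarith)
  have h1hi : (1 : ℝ) ≤ W.E.s ^ (-(|Ls| + 1)) := Real.one_le_rpow_of_pos_of_le_one_of_nonpos hs0 hs1 (by linarith)
  refine ⟨?_, ?_, ?_, ?_⟩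
  · have : (W.prE i).st.length ≤ W.E.st.length := by
      show (W.E.st.take _).length ≤ _
      exact List.length_take_le' _ _
    exact this.trans (hlen.trans hSS')
  · refine hC1 S' hCS' A p W.E (W.prE i) W.Q0 (W.r (sfPa i 1)) (W.f (sfPa i 1)) haf ⟨rfl, rfl, rfl, rfl, rfl, rfl⟩ hn1 (by exact_mod_cast hn2) ?_ ?_ ?_ ?_
    · rw [e1] at hr1
      exact (le_div_iff₀ p3).1 (hlo.trans hr1)
    · rw [e1] at hr2
      exact (div_le_iff₀ p3).1 (hr2.trans (h1hi.trans hhi))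
    · rw [e2] at hf1
      exact (le_div_iff₀ p4).1 (hlo.trans hf1)
    · rw [e2] at hf2
      exact (div_le_iff₀ p4).1 (hf2.trans hhi)
  · have h := sf_pr_gen W hstr i hi hi0 S hgen
    exact ⟨h.1.trans hSS', h.2.1.trans hSS', fun σ hσ => (h.2.2 σ hσ).trans hSS'⟩
  · intro g hg ρ
    have hgg : sfPa i g ∈ D.G := ((sf_pr_mem_G D.G hi0 g).1 hg).1
    have es : (sfPrD D de Y.η i).s = (W.prE i).s := (sf_pr_sc sh hstr i hi hi0).1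
    have hv1 : 1 / D.r i ≤ W.E.s ^ (-(|Ls| + 1)) := by
      rw [Real.rpow_neg hs0.le, ← one_div]
      exact one_div_le_one_div_of_le (Real.rpow_pos_of_pos hs0 _) hr1
    have hv3 : 1 / D.f i ≤ W.E.s ^ (-(|Ls| + 1)) := by
      rw [Real.rpow_neg hs0.le, ← one_div]
      exact one_div_le_one_div_of_le (Real.rpow_pos_of_pos hs0 _) hf1
    obtain ⟨k1, k2⟩ := sf_pr_dil_size (D.r i) (D.f i) (W.E.s ^ (-(|Ls| + 1))) h1hi q1 q2 hv1 (hr2.trans h1hi) hv3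
      (D.r (sfPa i g) / D.r i) (D.f (sfPa i g) / D.f i)
    have hv : (W.E.s ^ (-(|Ls| + 1))) ^ 3 * W.E.s ^ (-(S : ℝ)) ≤ (W.prE i).s ^ (-(S' : ℝ)) := by
      have : (W.E.s ^ (-(|Ls| + 1))) ^ 3 * W.E.s ^ (-(S : ℝ)) = W.E.s ^ (-(3 * (|Ls| + 1) + S)) := by
        rw [← Real.rpow_natCast, ← Real.rpow_mul hs0.le, ← Real.rpow_add hs0]
        congr 1
        push_cast
        ring
      rw [this]
      exact sf_pr_scl W.E (W.prE i) i0 h0 hn1 _ _ (by positivity) hXS'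
    have hv0 : 0 ≤ (W.E.s ^ (-(|Ls| + 1))) ^ 3 := by positivity
    obtain ⟨z1, z2⟩ := hsz (sfPa i g) hgg ρ
    rw [hDs] at z1 z2
    rw [es]
    exact ⟨(k1 _).trans ((mul_le_mul_of_nonneg_left z1 hv0).trans hv), (k2 _).trans ((mul_le_mul_of_nonneg_left z2 hv0).trans hv)⟩

/-- **`Ext` of the prefix** -/
theorem sf_pr_ext {Y : SfCy} (hO : SfCyOk Y) {p : Y.M.Par} (W : SfMD (Y.M.sys p)) (pe de Ls ε ε' a t i0 i : ℝ) (ha : 0 < a) (h0 : 0 < i0) (ha2 : 2 * a ≤ i0)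
    (hat : 4 * a * (1 + |pe| + |de| + |Ls|) ≤ t * i0) (h : SfMD.Ext Y p W pe de Ls ε a) (hi : i ∈ W.G) (hi0 : i0 ≤ i)
    (hε : (W.prE i).s ^ (-ε') = W.E.s ^ (-ε)) : SfMD.Ext Y p (W.prW i) pe de Ls ε' t := by
  obtain ⟨a1, a2, a3, a4, a5⟩ := sf_pr_ext1 W pe de Ls ε a t i0 i ha h0 ha2 hat h hi hi0
  obtain ⟨b1, b2⟩ := sf_pr_ext2 W pe de Ls ε ε' a t i0 i ha h0 ha2 hat h hi hi0 hε
  exact ⟨sf_pr_str W hO h.str i hi (h0.trans_le hi0), a1, a2, a3, a4, a5, b1, b2⟩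

/-- the relations of `CalPr` between the prefix `c'` and `c` -/
structure SfPrRel {Y : SfCy} (π : SfPar) (c' c : SfCfg Y π.d) (i : ℝ) (e : c'.D.Rw → c.D.Rw) : Prop where
  sub : c'.D.Sub c.D 0 i (sfFrameDil (c.D.r i) (c.D.f i)) (c.D.G.filter (· ≤ i)) 0 e
  inj : Function.Injective e
  surj : ∀ v : c.D.Rw, ∃ u, e u = v
  law : ∀ u, (c'.D.P u.1).p u.2 = (c.D.P (e u).1).p (e u).2
  ray : ∀ u, c'.D.ray u.1 u.2 = (sfFrameDil (c.D.r i) (c.D.f i)).ray (c.D.ray (e u).1 (e u).2)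
  conn : ∀ u v, c.D.Conn (e u).1 (e v).1 (e u).2 (e v).2 → c'.D.Conn u.1 v.1 u.2 v.2
  idx : ∀ u v, c'.D.idx u.1 u.2 = c'.D.idx v.1 v.2 ↔ c.D.idx (e u).1 (e u).2 = c.D.idx (e v).1 (e v).2
  mass : ∀ k' ∈ c'.D.G, c'.D.mass k' = c.D.mass (0 + k' * (i - 0)) * (c.D.s ^ (-(π.d * (k' * i))) / c'.D.s ^ (-(π.d * k')))
  ek : c'.D.ek = c.D.ek / (c.D.r i ^ (3 + π.η) * c.D.f i ^ (1 - π.η))
  hp : c'.hp = c.hp / c.D.f i ^ 2
  gate : ∀ g, g ∈ c'.D.G ↔ sfPa i g ∈ c.D.G ∧ g ≤ 1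

/-- **PRE, explicit form**.   Accuracy `a` before the package;  `S ↦ S'`;  same tail order, `(i0/2) n ≤ n' ≤ n`;  `Ext` at the accuracy `t`, truncation exponent `ε ≤ ε' ≤ t`, atoms `1/t ≤ μ'`. -/
theorem sf_pr_main (Y : SfCy) (hO : SfCyOk Y) (hAf : SfPrAf Y) (π : SfPar) (Ls : ℝ) (hη : π.η = Y.η) (i0 t : ℝ) (h0 : 0 < i0) (ht : 0 < t) :
    ∃ a : ℝ, 0 < a ∧ a ≤ t ∧ ∀ S : ℕ, ∃ S' : ℕ, S ≤ S' ∧ ∀ (c : SfCfg Y π.d) (C0 : ℝ),
      c.W.E.st.length ≤ S → Y.af S c.A c.p c.W.E c.W.Q0 → c.W.E.GenLe S →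
      (∀ k ∈ c.D.G, ∀ ρ, (c.D.ray k ρ).size ≤ c.D.s ^ (-(S : ℝ)) ∧ (c.D.lab k ρ).size ≤ c.D.s ^ (-(S : ℝ))) →
      c.D.Good π Ls C0 a → SfMD.Ext Y c.p c.W π.p π.d Ls c.ε a → 0 < c.ε → c.ε ≤ a → 1 / a ≤ c.μ →
      ∀ i ∈ c.D.G, i0 ≤ i → ∃ (c' : SfCfg Y π.d) (e : c'.D.Rw → c.D.Rw),
        (c'.W.E.st.length ≤ S' ∧ Y.af S' c'.A c'.p c'.W.E c'.W.Q0 ∧ c'.W.Str (Y.tq c'.p) ∧ c'.W.E.GenLe S' ∧
          ∀ k ∈ c'.D.G, ∀ ρ, (c'.D.ray k ρ).size ≤ c'.D.s ^ (-(S' : ℝ)) ∧ (c'.D.lab k ρ).size ≤ c'.D.s ^ (-(S' : ℝ))) ∧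
        c'.A = c.A ∧ i0 / 2 * c.W.E.n ≤ c'.W.E.n ∧ c'.W.E.n ≤ c.W.E.n ∧
        SfMD.Ext Y c'.p c'.W π.p π.d Ls c'.ε t ∧ c.ε ≤ c'.ε ∧ c'.ε ≤ t ∧ 1 / t ≤ c'.μ ∧ c'.μ = c.μ - 2 * (|Ls| + 1) ∧ SfPrRel π c' c i e := by
  set B : ℝ := 1 + |π.p| + |π.d| + |Ls| with hB
  have hB1 : 1 ≤ B := by
    have := abs_nonneg π.p
    have := abs_nonneg π.d
    have := abs_nonneg Ls
    linarith
  set w : ℝ := |Ls| + 1 with hw
  have hw0 : 0 < w := by positivity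
  -- the accuracy
  set a : ℝ := min (min 1 (i0 / 2)) (min (t * i0 / (4 * B)) (min t (1 / (2 * w + 1 / t)))) with ha
  have ha0 : 0 < a := by
    refine lt_min (lt_min one_pos (by positivity)) (lt_min (by positivity) (lt_min ht (by positivity)))
  have ha1 : a ≤ 1 := (min_le_left _ _).trans (min_le_left _ _)
  have ha2 : 2 * a ≤ i0 := by
    have : a ≤ i0 / 2 := (min_le_left _ _).trans (min_le_right _ _)
    linarith
  have hat : 4 * a * B ≤ t * i0 := by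
    have h1 : a ≤ t * i0 / (4 * B) := (min_le_right _ _).trans (min_le_left _ _)
    rw [le_div_iff₀ (by positivity)] at h1
    linarith
  have hta : a ≤ t := (min_le_right _ _).trans ((min_le_right _ _).trans (min_le_left _ _))
  have haμ : 2 * w + 1 / t ≤ 1 / a := by
    have h1 : a ≤ 1 / (2 * w + 1 / t) := (min_le_right _ _).trans ((min_le_right _ _).trans (min_le_right _ _))
    have h2 := one_div_le_one_div_of_le ha0 h1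
    rwa [one_div_one_div] at h2
  refine ⟨a, ha0, hta, fun S => ?_⟩
  obtain ⟨S', hSS', hpk⟩ := sf_pr_pkg hAf Ls i0 h0 S
  refine ⟨S', hSS', ?_⟩
  intro c C0 hlen haf hgen hsz hgood hext hε0 hεa hμa i hiD hi0
  have hi : i ∈ c.W.G := by rw [← c.sh.hG]; exact hiD
  have hipos : 0 < i := h0.trans_le hi0
  have hstr := hext.str
  obtain ⟨n1, n2, n3⟩ := sf_pr_n c.W π.p π.d Ls c.ε a i0 i ha2 hext hi hi0
  obtain ⟨w1, w2, w3, w4⟩ := sf_pr_wd c.D π Ls C0 a ha1 hgood i hiD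
  have hs0 : 0 < c.W.E.s := gn_s_pos _
  have hs1 : c.W.E.s ≤ 1 := gn_s_le_one _
  have hDs : c.D.s = c.W.E.s := c.sh.hs
  -- `1 ≤ n`, `0 < n'`
  have hn : (1 : ℝ) ≤ c.W.E.n := by
    have h1 : c.W.E.n ≠ 0 := by
      intro h
      have h2 := hgood.1.hs.2
      rw [hDs] at h2
      unfold Xp.s at h2
      rw [h, pow_zero] at h2
      exact lt_irrefl _ h2
    exact_mod_cast Nat.one_le_iff_ne_zero.2 h1
  have hn' : (0 : ℝ) < (c.W.prE i).n := lt_of_lt_of_le (by positivity) n2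
  have hnn' : ((c.W.prE i).n : ℝ) ≤ c.W.E.n := by exact_mod_cast n3
  -- the new exponents
  set ε' : ℝ := c.ε * c.W.E.n / (c.W.prE i).n with hε'
  set μ' : ℝ := c.μ - 2 * w with hμ'
  have hε : (c.W.prE i).s ^ (-ε') = c.W.E.s ^ (-c.ε) := by
    rw [gn_s_rpow, gn_s_rpow]
    congr 2
    rw [hε']
    field_simp
  have hμt : 1 / t ≤ μ' := by
    rw [hμ']
    linarith
  have hμ0 : 0 ≤ μ' := le_trans (by positivity) hμt
  have hss' : c.W.E.s ≤ (c.W.prE i).s := by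
    unfold Xp.s
    exact pow_le_pow_of_le_one (by norm_num) (by norm_num) n3
  have hμ : max (1 / c.D.r i) (max (1 / c.D.r i ^ 2) (1 / c.D.f i)) * c.W.E.s ^ c.μ ≤ (c.W.prE i).s ^ μ' := by
    rw [hDs] at w1 w3
    have hsw : 0 < c.W.E.s ^ w := Real.rpow_pos_of_pos hs0 _
    have hv1 : 1 / c.D.r i ≤ c.W.E.s ^ (-w) := by
      rw [Real.rpow_neg hs0.le, ← one_div]
      exact one_div_le_one_div_of_le hsw w1
    have hv3 : 1 / c.D.f i ≤ c.W.E.s ^ (-w) := by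
      rw [Real.rpow_neg hs0.le, ← one_div]
      exact one_div_le_one_div_of_le hsw w3
    have hmono : c.W.E.s ^ (-w) ≤ c.W.E.s ^ (-(2 * w)) := Real.rpow_le_rpow_of_exponent_ge hs0 hs1 (by linarith)
    have hv2 : 1 / c.D.r i ^ 2 ≤ c.W.E.s ^ (-(2 * w)) := by
      have e : 1 / c.D.r i ^ 2 = (1 / c.D.r i) ^ 2 := by rw [one_div_pow]
      have e' : c.W.E.s ^ (-(2 * w)) = (c.W.E.s ^ (-w)) ^ 2 := by
        rw [← Real.rpow_natCast, ← Real.rpow_mul hs0.le]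
        congr 1
        push_cast
        ring
      rw [e, e']
      have hr0 : 0 < c.D.r i := lt_of_lt_of_le hsw w1
      exact pow_le_pow_left₀ (by positivity) hv1 2
    have hmax : max (1 / c.D.r i) (max (1 / c.D.r i ^ 2) (1 / c.D.f i)) ≤ c.W.E.s ^ (-(2 * w)) :=
      max_le (hv1.trans hmono) (max_le hv2 (hv3.trans hmono))
    calc max (1 / c.D.r i) (max (1 / c.D.r i ^ 2) (1 / c.D.f i)) * c.W.E.s ^ c.μ
        ≤ c.W.E.s ^ (-(2 * w)) * c.W.E.s ^ c.μ := mul_le_mul_of_nonneg_right hmax (Real.rpow_pos_of_pos hs0 _).le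
      _ = c.W.E.s ^ μ' := by
        rw [← Real.rpow_add hs0]
        congr 1
        rw [hμ']
        ring
      _ ≤ (c.W.prE i).s ^ μ' := Real.rpow_le_rpow hs0.le hss' hμ0
  obtain ⟨k1, k2, k3, k4⟩ := hpk c.A c.p c.W π.d c.ε c.μ c.D c.sh i hi hipos hlen haf hstr hgen hsz n2 n3 w1 w2 w3 w4
  have hext' := sf_pr_ext hO c.W π.p π.d Ls c.ε ε' a t i0 i ha0 h0 ha2 hat hext hi hi0 hε
  refine ⟨sfPrC c hstr i hi hipos ε' μ' hε hμ, sfPrE c.D π.d Y.η i, ⟨k1, k2, hext'.str, k3, k4⟩, rfl, n2, n3, hext', ?_, ?_, hμt, rfl, ?_⟩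
  · show c.ε ≤ ε'
    rw [hε', le_div_iff₀ hn']
    exact mul_le_mul_of_nonneg_left hnn' hε0.le
  · show ε' ≤ t
    rw [hε', div_le_iff₀ hn']
    have h1 : c.ε * c.W.E.n ≤ a * c.W.E.n := mul_le_mul_of_nonneg_right hεa (by positivity)
    have h2 : t * (i0 / 2 * c.W.E.n) ≤ t * (c.W.prE i).n := mul_le_mul_of_nonneg_left n2 ht.le
    have h3 : 4 * a * 1 ≤ 4 * a * B := mul_le_mul_of_nonneg_left hB1 (by positivity)
    have h4 : a * c.W.E.n ≤ t * i0 / 2 * c.W.E.n := mul_le_mul_of_nonneg_right (by linarith) (by positivity)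
    have h5 : t * (i0 / 2 * c.W.E.n) = t * i0 / 2 * c.W.E.n := by ring
    linarith
  · exact
      { sub := sf_pr_sub c.D Y.η i hipos
        inj := sf_pr_e_inj c.D Y.η i hipos
        surj := sf_pr_e_surj c.D Y.η i hipos
        law := fun _ => rfl
        ray := fun _ => rfl
        conn := fun _ _ h => h
        idx := fun _ _ => Iff.rfl
        mass := fun _ _ => rfl
        ek := by rw [hη]; rfl
        hp := sf_pr_hp c hstr i hi hipos ε' μ' hε hμ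
        gate := fun g => sf_pr_mem_G c.D.G hipos g }

/-! ## the calculus form -/

/-- the statement of CORE that is used (implied by `sf_core` and by `sf_core_y`) -/
def SfPrCore (Y : SfCy) (π : SfPar) (Ls : ℝ) : Prop :=
  ∀ t h : ℝ, 0 < t → 0 < h → ∃ a ε0 μ0 : ℝ, 0 < a ∧ 0 < ε0 ∧ ∀ C : ℕ, ∃ A n0 : ℕ, ∀ c : SfCfg Y π.d, c.ob C → 1 / ((C : ℝ) + 1) ≤ c.ε → A ≤ c.A → n0 ≤ c.W.E.n →
    SfMD.Ext Y c.p c.W π.p π.d Ls c.ε a → 0 < c.ε → c.ε ≤ ε0 → μ0 ≤ c.μ → c.D.GapK h → (∀ k ∈ c.D.G, k = 0 ∨ h ≤ k) → c.D.Good π Ls C t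

theorem sf_pr_core_eqns_cite : True := by
  have := @SfPrCore.eq_1
  have := @sfPrC.eq_1
  have := @sfPrSh.eq_1
  trivial

/-- a small scale means a large tail order and a long experiment -/
theorem sf_pr_scale {Y : SfCy} {de : ℝ} (c : SfCfg Y de) (A0 n0 : ℕ) (h : c.sc < min (1 / ((A0 : ℝ) + 1)) ((2 : ℝ)⁻¹ ^ n0)) : A0 ≤ c.A ∧ n0 ≤ c.W.E.n := by
  have h1 : 1 / ((c.A : ℝ) + 1) < 1 / ((A0 : ℝ) + 1) := lt_of_le_of_lt (le_max_right _ _) (lt_of_lt_of_le h (min_le_left _ _))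
  have h2 : c.D.s < (2 : ℝ)⁻¹ ^ n0 := lt_of_le_of_lt (le_max_left _ _) (lt_of_lt_of_le h (min_le_right _ _))
  constructor
  · by_contra hcon
    have h3 : c.A ≤ A0 := (not_le.1 hcon).le
    have h4 : (c.A : ℝ) ≤ A0 := by exact_mod_cast h3
    have h5 : 1 / ((A0 : ℝ) + 1) ≤ 1 / ((c.A : ℝ) + 1) := one_div_le_one_div_of_le (by positivity) (by linarith)
    linarith
  · by_contra hcon
    have h3 : c.W.E.n ≤ n0 := (not_le.1 hcon).le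
    rw [c.sh.hs] at h2
    have h4 : (2 : ℝ)⁻¹ ^ n0 ≤ (2 : ℝ)⁻¹ ^ c.W.E.n := pow_le_pow_of_le_one (by norm_num) (by norm_num) h3
    have h5 : c.W.E.s = (2 : ℝ)⁻¹ ^ c.W.E.n := rfl
    linarith

/-- the mesh of the prefix -/
theorem sf_pr_gap (G G' : Finset ℝ) (i h : ℝ) (hi0 : 0 < i) (hi1 : i ≤ 1) (hh : 0 < h) (hG : ∀ g, g ∈ G' ↔ sfPa i g ∈ G ∧ g ≤ 1)
    (h1 : ∀ k ∈ G, ∀ l ∈ G, k < l → h ≤ l - k) (h2 : ∀ k ∈ G, k = 0 ∨ h ≤ k) :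
    (∀ k ∈ G', ∀ l ∈ G', k < l → h ≤ l - k) ∧ ∀ k ∈ G', k = 0 ∨ h ≤ k := by
  constructor
  · intro k hk l hl hkl
    have h3 := h1 _ ((hG k).1 hk).1 _ ((hG l).1 hl).1 ((sf_pr_pa_lt hi0).2 hkl)
    rw [sf_pr_pa, sf_pr_pa] at h3
    have h4 : (l - k) * i ≤ (l - k) * 1 := mul_le_mul_of_nonneg_left hi1 (by linarith)
    have h5 : l * i - k * i = (l - k) * i := by ring
    linarith
  · intro k hk
    rcases h2 _ ((hG k).1 hk).1 with h3 | h3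
    · left
      rw [sf_pr_pa] at h3
      rcases mul_eq_zero.1 h3 with h4 | h4
      · exact h4
      · exact absurd h4 hi0.ne'
    · right
      rw [sf_pr_pa] at h3
      have hk0 : 0 < k := by
        by_contra hcon
        have : k * i ≤ 0 := mul_nonpos_of_nonpos_of_nonneg (not_lt.1 hcon) hi0.le
        linarith
      have h4 : k * i ≤ k * 1 := mul_le_mul_of_nonneg_left hi1 hk0.le
      linarith

/-- **PRE, calculus form** (the body of `SfCls.CalPr` for the class of shadows; the support constant of the prefix is its package `S'`) -/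
theorem sf_pr_cal (Y : SfCy) (hO : SfCyOk Y) (hAf : SfPrAf Y) (π : SfPar) (Ls : ℝ) (hη : π.η = Y.η) (hcore : SfPrCore Y π Ls)
    (i0 h t : ℝ) (h0 : 0 < i0) (hh : 0 < h) (ht : 0 < t) :
    ∃ a : ℝ, 0 < a ∧ ∀ S : ℕ, ∃ S' : ℕ, ∀ σ' : ℝ, 0 < σ' → ∃ σ : ℝ, 0 < σ ∧ ∀ (c : SfCfg Y π.d) (C0 : ℝ),
      c.ob S → 1 / ((S : ℝ) + 1) ≤ c.ε → max c.sc (1 / (c.μ + 1)) < σ → c.D.Good π Ls C0 a →
      (SfMD.Ext Y c.p c.W π.p π.d Ls c.ε a ∧ 0 < c.ε ∧ c.ε ≤ a ∧ 1 / a ≤ c.μ) → c.D.GapK h → (∀ k ∈ c.D.G, k = 0 ∨ h ≤ k) →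
      ∀ i ∈ c.D.G, i0 ≤ i → ∃ (c' : SfCfg Y π.d) (e : c'.D.Rw → c.D.Rw), c'.ob S' ∧ 1 / ((S' : ℝ) + 1) ≤ c'.ε ∧ max c'.sc (1 / (c'.μ + 1)) < σ' ∧
        c'.D.Good π Ls S' t ∧ (SfMD.Ext Y c'.p c'.W π.p π.d Ls c'.ε t ∧ 0 < c'.ε ∧ c'.ε ≤ t ∧ 1 / t ≤ c'.μ) ∧
        c'.D.GapK h ∧ (∀ k ∈ c'.D.G, k = 0 ∨ h ≤ k) ∧ SfPrRel π c' c i e := by
  obtain ⟨a1, ε0, μ0, ha1, hε0, Hc⟩ := hcore t h ht hh
  set t1 : ℝ := min (min t a1) (min ε0 (1 / max μ0 1)) with ht1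
  have ht10 : 0 < t1 := lt_min (lt_min ht ha1) (lt_min hε0 (by positivity))
  have e1 : t1 ≤ t := (min_le_left _ _).trans (min_le_left _ _)
  have e2 : t1 ≤ a1 := (min_le_left _ _).trans (min_le_right _ _)
  have e3 : t1 ≤ ε0 := (min_le_right _ _).trans (min_le_left _ _)
  have e4 : μ0 ≤ 1 / t1 := by
    have h1 : t1 ≤ 1 / max μ0 1 := (min_le_right _ _).trans (min_le_right _ _)
    have h2 := one_div_le_one_div_of_le ht10 h1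
    rw [one_div_one_div] at h2
    exact (le_max_left _ _).trans h2
  obtain ⟨a, ha0, hat, Hm⟩ := sf_pr_main Y hO hAf π Ls hη i0 t1 h0 ht10
  refine ⟨a, ha0, fun S => ?_⟩
  obtain ⟨S', hSS', Hm⟩ := Hm S
  obtain ⟨A1, n1, Hc⟩ := Hc S'
  refine ⟨S', fun σ' hσ' => ?_⟩
  obtain ⟨N, hN⟩ := exists_pow_lt_of_lt_one hσ' (by norm_num : (2 : ℝ)⁻¹ < 1)
  set w : ℝ := |Ls| + 1 with hw
  have hw0 : 0 < w := by positivity
  set n2 : ℕ := ⌈2 * ((max N n1 : ℕ) : ℝ) / i0⌉₊ with hn2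
  refine ⟨min (min σ' (1 / (1 / σ' + 2 * w))) (min (1 / ((A1 : ℝ) + 1)) ((2 : ℝ)⁻¹ ^ n2)),
    lt_min (lt_min hσ' (by positivity)) (lt_min (by positivity) (by positivity)), ?_⟩
  intro c C0 hob hεS hsc hgood hmd hgap hzero i hi hi0
  obtain ⟨hext, hε1, hε2, hμ⟩ := hmd
  obtain ⟨o1, o2, -, o4, o5⟩ := hob
  have hsc1 : c.sc < min (1 / ((A1 : ℝ) + 1)) ((2 : ℝ)⁻¹ ^ n2) := lt_of_le_of_lt (le_max_left _ _) (lt_of_lt_of_le hsc (min_le_right _ _))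
  have hsc2 : c.sc < σ' := lt_of_le_of_lt (le_max_left _ _) (lt_of_lt_of_le hsc ((min_le_left _ _).trans (min_le_left _ _)))
  have hsc3 : 1 / (c.μ + 1) < 1 / (1 / σ' + 2 * w) := lt_of_le_of_lt (le_max_right _ _) (lt_of_lt_of_le hsc ((min_le_left _ _).trans (min_le_right _ _)))
  obtain ⟨hA, hn⟩ := sf_pr_scale c A1 n2 hsc1
  obtain ⟨c', e, hob', hA', hn1, hn2', hext', hεε', hε't, hμ't, hμ', hrel⟩ := Hm c C0 o1 o2 o4 o5 hgood hext hε1 hε2 hμ i hi hi0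
  have hi1 : i ≤ 1 := (hgood.1.gate.2 i hi).2
  have hipos : 0 < i := h0.trans_le hi0
  obtain ⟨g1, g2⟩ := sf_pr_gap c.D.G c'.D.G i h hipos hi1 hh hrel.gate hgap hzero
  -- the length of the prefix
  have hlen : max N n1 ≤ c'.W.E.n := by
    have hn' : (n2 : ℝ) ≤ c.W.E.n := Nat.cast_le.2 hn
    have h1 : 2 * ((max N n1 : ℕ) : ℝ) / i0 ≤ c.W.E.n := (Nat.le_ceil _).trans hn'
    rw [div_le_iff₀ h0] at h1
    have h2 : ((max N n1 : ℕ) : ℝ) ≤ c'.W.E.n := by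
      have h3 : i0 / 2 * c.W.E.n = c.W.E.n * i0 / 2 := by ring
      linarith
    exact_mod_cast h2
  have hε'0 : 0 < c'.ε := lt_of_lt_of_le hε1 hεε'
  have hεS' : 1 / ((S' : ℝ) + 1) ≤ c'.ε := by
    have h1 : 1 / ((S' : ℝ) + 1) ≤ 1 / ((S : ℝ) + 1) :=
      one_div_le_one_div_of_le (by positivity) (by have : (S : ℝ) ≤ S' := by exact_mod_cast hSS'
                                                   linarith)
    exact h1.trans (hεS.trans hεε')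
  refine ⟨c', e, hob', hεS', ?_, ?_, ⟨sf_ext_mono _ _ _ _ _ _ _ _ _ e1 hext', hε'0, hε't.trans e1, (one_div_le_one_div_of_le ht10 e1).trans hμ't⟩, g1, g2, hrel⟩
  · refine max_lt (max_lt ?_ ?_) ?_
    · rw [c'.sh.hs]
      have h1 : c'.W.E.s ≤ (2 : ℝ)⁻¹ ^ N := by
        unfold Xp.s
        exact pow_le_pow_of_le_one (by norm_num) (by norm_num) ((le_max_left _ _).trans hlen)
      exact lt_of_le_of_lt h1 hN
    · rw [hA']
      exact lt_of_le_of_lt (le_max_right _ _) hsc2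
    · have hμ0 : 0 < c.μ + 1 := by
        have : 0 < 1 / a := by positivity
        linarith
      have h1 : 1 / σ' + 2 * w < c.μ + 1 := by
        have := (one_div_lt_one_div hμ0 (by positivity)).1 hsc3
        exact this
      have h2 : 1 / σ' < c'.μ + 1 := by
        rw [hμ']
        linarith
      have h3 : 0 < 1 / σ' := by positivity
      have h4 := one_div_lt_one_div_of_lt h3 h2
      rwa [one_div_one_div] at h4
  · exact Hc c' hob' hεS' (by rw [hA']; exact hA) ((le_max_right _ _).trans hlen) (sf_ext_mono _ _ _ _ _ _ _ _ _ e2 hext') hε'0 (hε't.trans e3) (e4.trans hμ't) g1 g2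

end Claimed.Agent.R256
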