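import Claimed.Agent.R256.Soft.MGeStrB
import Claimed.Agent.R256.Soft.MDocAf
import Claimed.Agent.R256.Soft.MPr
import Claimed.Agent.R256.Soft.Mono

/-!
# Row 256 (S0496), unit SOFT, blocks M6 GE / GP: **POST** = everything AFTER the selection of one group      (helper288; prefix `sf_gp_t_`)

COMMON to the cover form (`CalGe`) and to the partition form (`CalGp`) of group extraction.   Input: ONE group `d : SfGeD c` with `Ok`, `Root`, the conclusions `SfGeSelC` of the selection, its frame (`SfGeFr`, `SfGeBd`).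
Output: the configuration `c'` of the piece with `ob`, small scale, `Gd` with a support constant depending only on `K1`, `Sub`, chains, Planck parameter.
Glue of the `Prop`s of `Soft/MGeIface.lean`:  AF `SfGeAf`  →  DOC `SfGeDoc`  →  CORE `SfPrCore` (= statement of `sf_core_y`)  →  CF `SfGeCf`.
ORDER OF THE CONSTANTS:  `h', t'` → CORE `(a_c, ε0, μ0)` → DOC `(a, a1, τ)`;   `h K1 K S C` → AF `(C'', A0, ..)` → DOC `S'` → CORE `(A_c, n_c)`;   `σ'` → `A', μ'` → DOC `(A, n0, μ0)`.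
-/

set_option autoImplicit false

namespace Claimed.Agent.R256

open MeasureTheory Claimed.Agent.R255

section

variable {Y : SfCy} {π : SfPar} {Ls : ℝ}

/-- the standing hypotheses are monotone in the accuracy -/
theorem sf_gp_t_in_mono {c : SfCfg Y π.d} {S : ℕ} {C0 α α' : ℝ} (h0 : 0 < α) (hα : α ≤ α') (h : SfGeIn Y π Ls c S C0 α) : SfGeIn Y π Ls c S C0 α' :=
  { h with
    eps := ⟨h.eps.1, h.eps.2.trans hα⟩
    good := sf_good_mono _ π Ls C0 α α' h0 hα h.good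
    ext := sf_ext_mono _ _ _ _ _ _ _ _ _ hα h.ext }

/-- the class is monotone in the package and antitone in the tail order -/
theorem sf_gp_t_cls_mono (H : CyHyp Y) (hadm : ∀ C A p E, (Y.M.gd p ∧ Y.M.adm C A p E) ↔ ∃ Q0, Y.af C A p E Q0) {C C2 A A2 : ℕ} {p : Y.M.Par}
    {E : Xp (Y.M.sys p)} (hC : C ≤ C2) (hA : A2 ≤ A) (h : Y.M.Cls C A p E) : Y.M.Cls C2 A2 p E := by
  obtain ⟨h1, h2, h3, h4, h5⟩ := h
  obtain ⟨Q0, hQ⟩ := (hadm C A p E).1 ⟨h1, h5⟩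
  exact ⟨h1, h2, h3.trans hC, ⟨h4.1.trans hC, h4.2.1.trans hC, fun σ hσ => (h4.2.2 σ hσ).trans hC⟩,
    ((hadm C2 A2 p E).2 ⟨Q0, sf_doc_af_mono H hQ hC hA⟩).2⟩

/-- the conclusions of the selection are monotone -/
theorem sf_gp_t_sel_mono (H : CyHyp Y) (hadm : ∀ C A p E, (Y.M.gd p ∧ Y.M.adm C A p E) ↔ ∃ Q0, Y.af C A p E Q0) {c : SfCfg Y π.d} (d : SfGeD c)
    {C C2 A A2 : ℕ} {τ τ2 a1 : ℝ} (hC : C ≤ C2) (hA : A2 ≤ A) (hτ : τ ≤ τ2) (h : SfGeSelC Y π d C A τ a1) : SfGeSelC Y π d C2 A2 τ2 a1 :=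
  { h with
    cls := sf_gp_t_cls_mono H hadm hC hA h.cls
    val := le_trans (gn_two_mono (mul_le_mul_of_nonneg_right (by linarith) (Nat.cast_nonneg _))) h.val }

/-- the mesh of the piece -/
theorem sf_gp_t_gap {c : SfCfg Y π.d} (d : SfGeD c) (h' : ℝ) (hij : d.i < d.j)
    (g1 : ∀ k ∈ d.Gk, ∀ l ∈ d.Gk, k < l → h' * (d.j - d.i) ≤ l - k) (g2 : ∀ k ∈ d.Gk, k = d.i ∨ h' * (d.j - d.i) ≤ k - d.i) :
    (∀ k ∈ d.G, ∀ l ∈ d.G, k < l → h' ≤ l - k) ∧ ∀ k ∈ d.G, k = 0 ∨ h' ≤ k := by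
  have hd : 0 < d.j - d.i := by linarith
  constructor
  · intro k hk l hl hkl
    unfold SfGeD.G at hk hl
    rw [Finset.mem_image] at hk hl
    obtain ⟨k0, hk0, rfl⟩ := hk
    obtain ⟨l0, hl0, rfl⟩ := hl
    have h1 : k0 < l0 := by
      have := (div_lt_div_iff_of_pos_right hd).1 hkl
      linarith
    have h2 := g1 k0 hk0 l0 hl0 h1
    rw [← sub_div, le_div_iff₀ hd]
    linarith
  · intro k hk
    unfold SfGeD.G at hk
    rw [Finset.mem_image] at hk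
    obtain ⟨k0, hk0, rfl⟩ := hk
    rcases g2 k0 hk0 with h1 | h1
    · left
      rw [h1, sub_self, zero_div]
    · right
      rw [le_div_iff₀ hd]
      exact h1

/-- the old gate of a gate of the piece is kept -/
theorem sf_gp_t_kept {c : SfCfg Y π.d} (d : SfGeD c) (hij : d.i < d.j) {g' : ℝ} (hg : g' ∈ d.G) : d.i + g' * (d.j - d.i) ∈ d.Gk := by
  have hd : d.j - d.i ≠ 0 := by
    have : 0 < d.j - d.i := by linarith
    exact this.ne'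
  unfold SfGeD.G at hg
  rw [Finset.mem_image] at hg
  obtain ⟨k0, hk0, rfl⟩ := hg
  have : d.i + (k0 - d.i) / (d.j - d.i) * (d.j - d.i) = k0 := by
    field_simp
    ring
  rw [this]
  exact hk0

/-- the length of the piece -/
theorem sf_gp_t_len {c : SfCfg Y π.d} (d : SfGeD c) {S : ℕ} {C0 a h : ℝ} (ha4 : a ≤ 1 / 4) (hh : 0 < h) (hji : h ≤ d.j - d.i)
    (hin : SfGeIn Y π Ls c S C0 (a * (d.j - d.i))) (hd : d.Ok) : h / 2 * c.W.E.n ≤ d.X.n := by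
  obtain ⟨h1, -⟩ := sf_ge_s_n d hin.ext.str hd hin.ext.depth
  have h2 := (abs_le.1 h1).1
  have hn : (0 : ℝ) ≤ c.W.E.n := Nat.cast_nonneg _
  have hδ : 0 < d.j - d.i := by linarith
  have h3 : 2 * (a * (d.j - d.i)) * c.W.E.n ≤ (d.j - d.i) / 2 * c.W.E.n := by
    refine mul_le_mul_of_nonneg_right ?_ hn
    have : a * (d.j - d.i) ≤ 1 / 4 * (d.j - d.i) := mul_le_mul_of_nonneg_right ha4 hδ.le
    linarith
  have h4 : h / 2 * c.W.E.n ≤ (d.j - d.i) / 2 * c.W.E.n := mul_le_mul_of_nonneg_right (by linarith) hn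
  have h5 : (d.j - d.i) * c.W.E.n = (d.j - d.i) / 2 * c.W.E.n + (d.j - d.i) / 2 * c.W.E.n := by ring
  linarith

end

/-- **POST**: from one selected group to the configuration of the piece -/
theorem sf_gp_t_post (Y : SfCy) (π : SfPar) (Ls : ℝ) (hπ : π.Pd) (H : CyHyp Y) (hO : SfCyOk Y)
    (hadm : ∀ C A p E, (Y.M.gd p ∧ Y.M.adm C A p E) ↔ ∃ Q0, Y.af C A p E Q0)
    (hAf : SfGeAf Y π Ls) (hDoc : SfGeDoc Y π Ls) (hCf : SfGeCf π Ls) (hcore : SfPrCore Y π Ls) :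
    ∃ cK : ℝ → ℝ, ∀ h' t' : ℝ, 0 < h' → 0 < t' → ∃ a a1 τ : ℝ, 0 < a ∧ 0 < a1 ∧ 0 < τ ∧
      ∀ (h K1 K : ℝ), 0 < h → 0 ≤ K1 → ∀ S C : ℕ, (S : ℝ) + 1 ≤ K → ∃ S' : ℕ, ∀ σ' : ℝ, 0 < σ' → ∃ (A n0 : ℕ) (μ0 : ℝ),
      ∀ (c : SfCfg Y π.d) (C0 ϰ : ℝ) (d : SfGeD c) (φ : SfFrame), h ≤ d.j - d.i → SfGeIn Y π Ls c S C0 (a * (d.j - d.i)) → n0 ≤ c.W.E.n → μ0 ≤ c.μ →
        d.Ok → (∀ k ∈ d.Gk, ∀ l ∈ d.Gk, k < l → h' * (d.j - d.i) ≤ l - k) → (∀ k ∈ d.Gk, k = d.i ∨ h' * (d.j - d.i) ≤ k - d.i) →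
        d.Root (c.W.E.s ^ (-(c.ε / 4))) ϰ → SfGeSelC Y π d C A τ a1 →
        φ.L = c.D.len d.i → φ.r0 = c.D.r d.j → φ.F0 = c.D.f d.j → SfGeFr Y π d φ → SfGeBd Y π d φ K1 ((S : ℝ) + 1) K →
      ∃ (c' : SfCfg Y π.d) (e : c'.D.Rw → c.D.Rw), (c'.ob S' ∧ 1 / ((S' : ℝ) + 1) ≤ c'.ε) ∧
        max c'.D.s (max (1 / ((c'.A : ℝ) + 1)) (1 / (c'.μ + 1))) < σ' ∧
        (c'.D.Good π Ls (cK K1) t' ∧ (SfMD.Ext Y c'.p c'.W π.p π.d Ls c'.ε t' ∧ 0 < c'.ε ∧ c'.ε ≤ t' ∧ 1 / t' ≤ c'.μ)) ∧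
        c'.D.Sub c.D d.i d.j φ d.Gk t' e ∧ c'.D.G = d.G ∧ (∀ u : c'.D.Rw, u.1 ∈ c'.D.G ∨ u.1 = 0 → d.chn (e u)) ∧
        c'.hp = Y.H c.p * 2 ^ (c.W.k d.i) / d.Q0.f ^ 2 := by
  obtain ⟨cK, hCf⟩ := hCf
  refine ⟨cK, fun h' t' hh' ht' => ?_⟩
  -- CORE at the tolerance `min t' 1`
  have ht2 : 0 < min t' 1 := lt_min ht' one_pos
  obtain ⟨ac, ε0, μc, hac, hε0, Hc⟩ := hcore (min t' 1) h' ht2 hh'
  -- DOC
  obtain ⟨aD, a1, τD, haD, ha1, hτD, HD⟩ := hDoc h' (min ac t') t' (min ε0 t') hh' (lt_min hac ht') ht' (lt_min hε0 ht')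
  have ha : 0 < min aD (1 / 4) := lt_min haD (by norm_num)
  have hτ : 0 < min τD (1 / 2) := lt_min hτD (by norm_num)
  refine ⟨min aD (1 / 4), a1, min τD (1 / 2), ha, ha1, hτ, fun h K1 K hh hK1 S C hSK => ?_⟩
  -- AF
  obtain ⟨C2, A0, nA, μA, HA⟩ := hAf S C ⌈2 / h⌉₊ K1 K hK1 hSK
  obtain ⟨S', HD⟩ := HD h K1 K hh hK1 S (max C C2) hSK
  obtain ⟨Ac, nc, Hc⟩ := Hc S'
  refine ⟨S', fun σ' hσ' => ?_⟩
  obtain ⟨N, hN⟩ := exists_pow_lt_of_lt_one hσ' (by norm_num : (2 : ℝ)⁻¹ < 1)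
  obtain ⟨AD, nD, μD, HD⟩ := HD (max Ac ⌈1 / σ'⌉₊) (max (max μc (1 / t')) (1 / σ'))
  set M : ℕ := max (max nA nc) (max N 5) with hM
  refine ⟨max AD A0, max nD ⌈2 / h * (M : ℝ)⌉₊, max μA μD, ?_⟩
  intro c C0 ϰ d φ hji hin hn hμ hok hg1 hg2 hroot hsel hφL hφr hφF hfr hbd
  have hδ : 0 < d.j - d.i := by linarith
  have hij : d.i < d.j := by linarith
  have hstr := hin.ext.str
  have hδ1 : d.j - d.i ≤ 1 := by
    have h1 := (hstr.gate.2 d.i hok.gi).1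
    have h2 := (hstr.gate.2 d.j hok.gj).2
    linarith
  have hα0 : 0 < min aD (1 / 4) * (d.j - d.i) := mul_pos ha hδ
  have hα1 : min aD (1 / 4) * (d.j - d.i) ≤ 1 := by
    have h1 : min aD (1 / 4) * (d.j - d.i) ≤ 1 / 4 * 1 := mul_le_mul (min_le_right _ _) hδ1 hδ.le (by norm_num)
    linarith
  -- the length of the piece
  have hlen := sf_gp_t_len d (min_le_right _ _) hh hji hin hok
  have hnR : (2 / h * (M : ℝ)) ≤ c.W.E.n := (Nat.le_ceil _).trans (Nat.cast_le.2 ((le_max_right _ _).trans hn))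
  have hMn : M ≤ d.X.n := by
    have h1 : h / 2 * (2 / h * (M : ℝ)) ≤ h / 2 * c.W.E.n := mul_le_mul_of_nonneg_left hnR (by positivity)
    have h2 : h / 2 * (2 / h * (M : ℝ)) = M := by field_simp
    have h3 : (M : ℝ) ≤ d.X.n := by linarith
    exact_mod_cast h3
  have hNh : c.W.E.n ≤ ⌈2 / h⌉₊ * d.X.n := by
    have h1 : (c.W.E.n : ℝ) ≤ 2 / h * d.X.n := by
      have h2 : 2 / h * (h / 2 * c.W.E.n) ≤ 2 / h * d.X.n := mul_le_mul_of_nonneg_left hlen (by positivity)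
      have h3 : 2 / h * (h / 2 * (c.W.E.n : ℝ)) = c.W.E.n := by field_simp
      linarith
    have h4 : 2 / h * (d.X.n : ℝ) ≤ (⌈2 / h⌉₊ : ℝ) * d.X.n := mul_le_mul_of_nonneg_right (Nat.le_ceil _) (Nat.cast_nonneg _)
    exact_mod_cast h1.trans h4
  -- AF
  have hΓ : min τD (1 / 2) ≤ π.Γ + 1 / 2 := by
    have h1 : 0 < π.Γ := by
      have := hπ.1.1
      have := hπ.2.1
      linarith
    have := min_le_right τD (1 / 2)
    linarith
  obtain ⟨haf, hebd⟩ := HA c C0 _ hin hα1 ((le_max_left _ _).trans hμ) d φ (max AD A0) (min τD (1 / 2)) a1 hok (le_max_right _ _)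
    (((le_max_left _ _).trans (le_max_left _ _)).trans hMn) hNh hΓ hsel hfr hbd
  -- DOC
  have hinD : SfGeIn Y π Ls c S C0 (aD * (d.j - d.i)) := sf_gp_t_in_mono hα0 (mul_le_mul_of_nonneg_right (min_le_left _ _) hδ.le) hin
  obtain ⟨c', e, R⟩ := HD c C0 ϰ d φ hji hinD ((le_max_left _ _).trans hn) ((le_max_right _ _).trans hμ) hok hg1 hg2 hroot
    (sf_gp_t_sel_mono H hadm d (le_max_left _ _) (le_max_left _ _) (min_le_left _ _) hsel)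
    (sf_doc_af_mono H haf (le_max_right _ _) (le_max_left _ _)) hφL hφr hφF hfr hbd
  obtain ⟨q1, q2⟩ := sf_gp_t_gap d h' hij hg1 hg2
  have hε' : 0 < c'.ε := lt_of_lt_of_le (by positivity) R.eps.1
  have hs' : c'.D.s = d.X.s := by
    rw [c'.sh.hs]
    unfold Xp.s
    rw [R.hn]
  -- CORE
  have hgood : c'.D.Good π Ls S' (min t' 1) := by
    refine Hc c' R.ob R.eps.1 ?_ ?_ (sf_ext_mono _ _ _ _ _ _ _ _ _ (min_le_left _ _) R.ext) hε' (R.eps.2.trans (min_le_left _ _)) ?_ ?_ ?_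
    · rw [R.hA]; exact le_max_left _ _
    · rw [R.hn]; exact ((le_max_right _ _).trans (le_max_left _ _)).trans hMn
    · rw [R.hμ]; exact (le_max_left _ _).trans (le_max_left _ _)
    · intro k hk l hl hkl
      rw [R.hG] at hk hl
      exact q1 k hk l hl hkl
    · intro k hk
      rw [R.hG] at hk
      exact q2 k hk
  -- CF
  have hs32 : c'.D.s ≤ 1 / 32 := by
    rw [hs']
    unfold Xp.s
    have h5 : 5 ≤ d.X.n := ((le_max_right _ _).trans (le_max_right _ _)).trans hMn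
    calc (2 : ℝ)⁻¹ ^ d.X.n ≤ (2 : ℝ)⁻¹ ^ 5 := pow_le_pow_of_le_one (by norm_num) (by norm_num) h5
      _ = 1 / 32 := by norm_num
  have hlab : ∀ i ∈ c'.D.G, ∀ ρ, (c'.D.lab i ρ).size ≤ c'.D.s ^ (-K1) := by
    intro g hg ρ
    have h1 := R.sub.hlab ⟨g, ρ⟩ hg
    have h2 : (c'.D.lab g ρ).size = (φ.tst (c.D.lab (e ⟨g, ρ⟩).1 (e ⟨g, ρ⟩).2)).size := by
      have h3 : c'.D.lab g ρ = _ := h1
      rw [h3]
      rfl
    rw [h2, hs']
    refine hbd.lab (e ⟨g, ρ⟩) (R.chn ⟨g, ρ⟩ (Or.inl hg)) ?_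
    rw [R.sub.dep ⟨g, ρ⟩]
    rw [R.hG] at hg
    exact sf_gp_t_kept d hij hg
  have hek : c'.D.ek ≤ c'.D.s ^ (-(4 * K1 + 5)) := by
    rw [R.hek, hs']
    obtain ⟨-, hr0, hf0, -, -⟩ := hO.af _ _ _ _ _ haf
    have hka : 0 < d.ka := hsel.cls.2.1.ka_pos
    have hwt : 0 < cyWt Y.η d.Q0 := by
      unfold cyWt
      exact mul_pos (Real.rpow_pos_of_pos hr0 _) (Real.rpow_pos_of_pos hf0 _)
    rw [div_le_iff₀ (mul_pos hka hwt)]
    exact hebd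
  have hgood2 := hCf c'.D S' (min t' 1) K1 ht2 (min_le_right _ _) hK1 hs32 hgood hlab hek
  refine ⟨c', e, ⟨R.ob, R.eps.1⟩, ?_, ⟨sf_good_mono _ π Ls _ _ _ ht2 (min_le_left _ _) hgood2,
    sf_ext_mono _ _ _ _ _ _ _ _ _ (min_le_right _ _) R.ext, hε', R.eps.2.trans (min_le_right _ _), ?_⟩, R.sub, R.hG, R.chn, R.hp⟩
  · refine max_lt ?_ (max_lt ?_ ?_)
    · rw [hs']
      unfold Xp.s
      have hNn : N ≤ d.X.n := ((le_max_left _ _).trans (le_max_right _ _)).trans hMn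
      exact lt_of_le_of_lt (pow_le_pow_of_le_one (by norm_num) (by norm_num) hNn) hN
    · rw [R.hA]
      have h1 : 1 / σ' ≤ ((max Ac ⌈1 / σ'⌉₊ : ℕ) : ℝ) := (Nat.le_ceil _).trans (Nat.cast_le.2 (le_max_right _ _))
      have h2 : 1 / σ' < ((max Ac ⌈1 / σ'⌉₊ : ℕ) : ℝ) + 1 := by linarith
      have h3 := one_div_lt_one_div_of_lt (by positivity) h2
      rwa [one_div_one_div] at h3
    · rw [R.hμ]
      have h1 : 1 / σ' ≤ max (max μc (1 / t')) (1 / σ') := le_max_right _ _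
      have h2 : 1 / σ' < max (max μc (1 / t')) (1 / σ') + 1 := by linarith
      have h3 := one_div_lt_one_div_of_lt (by positivity) h2
      rwa [one_div_one_div] at h3
  · rw [R.hμ]
    exact (le_max_right _ _).trans (le_max_left _ _)

end Claimed.Agent.R256
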