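import Claimed.Agent.R256.Soft.MGpTriB
import Claimed.Agent.R255.Ent.Basic

/-!
# Row 256 (S0496), unit SOFT, block M6 GP, sub-block SEL-1, file 3: THE EXIT `(Σ)`      (architect helper213; chief helper206; prefix `sf_gp_`)

* `SfGpPart c i j ι Sb U Sx α t1`      the partition: DISJOINT groups `Sb b` of rows of the gate `i`, end rows `U`, exceptional starting rows `Sx`; absolute accuracy `α`
* `sf_gp_num`       the arithmetic
* `sf_gp_sigma`     **EXIT (Σ)**:   `s^(3α) tot_j ≤ Σ_b E(U_b ; Sb b)`,   `E = c.gpE i j`, `U_b = c.gpU i j (Sb b) U`.      ONE pair of gates with `h ≤ j - i`, `4α ≤ j - i`, `α0 ≤ α`; `Ext` at the accuracies `α` and `t1 / 32`; NO hypothesis on the mesh.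
-/

set_option autoImplicit false

namespace Claimed.Agent.R256

open MeasureTheory Claimed.Agent.R255

variable {Y : SfCy}

/-- **the partition**: hypotheses of SEL-1 at the absolute accuracy `α` -/
structure SfGpPart {de : ℝ} (c : SfCfg Y de) (i j : ℝ) (ι : Type) (Sb : ι → c.D.Row i → Prop) (U : c.D.Row j → Prop) (Sx : c.D.Row i → Prop) (α t1 : ℝ) : Prop where
  /-- the groups are disjoint -/
  disj : ∀ b b' ρ, Sb b ρ → Sb b' ρ → b = b'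
  /-- every predecessor of an end row is exceptional or lies in a group -/
  own : ∀ ρ ρ', U ρ' → c.D.Conn i j ρ ρ' → Sx ρ ∨ ∃ b, Sb b ρ
  /-- every documented label is reachable (inside `U`) from few groups -/
  ovl : ∀ lam : SfTest, (({b | ∃ ρ ρ', Sb b ρ ∧ c.D.Conn i j ρ ρ' ∧ U ρ' ∧ c.D.lab j ρ' = lam} : Set ι).ncard : ℝ) ≤ c.D.s ^ (-α)
  /-- the end rows are not carried by the exceptional rows -/
  mass : c.D.s ^ α + c.D.s ^ (-t1) * (c.D.P i).pr Sx ^ ((2 : ℝ) / 3) ≤ (c.D.P j).pr U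

/-- the arithmetic of `(Σ)` -/
theorem sf_gp_num (s α t1 a2 K Cb Cb1 T PU X X' E1 E2 Sg L3 LL : ℝ) (hs0 : 0 < s) (hs8 : s ≤ 1 / 8) (hα0 : 0 < α) (hα4 : α ≤ 1 / 4) (h12 : 12 ≤ s ^ (-α)) (h3 : 3 ≤ s ^ (-(t1 / 2)))
    (ha2 : 16 * a2 ≤ t1) (ha21 : a2 ≤ 1) (hT : 0 < T) (hX0 : 0 ≤ X') (hXX : X' ≤ X) (hmass : s ^ α + s ^ (-t1) * X ≤ PU)
    (hthree : PU * T ≤ 3 * E1 + 3 * E2 + 3 * (s ^ Cb1) ^ 2 * L3) (hL3 : L3 ≤ s ^ (-(3 : ℝ)) * T)
    (hhold : E1 ≤ (s ^ (-(8 * a2)) * X' + s ^ (2 / 3 * Cb - 8 * a2)) * T)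
    (hgr : E2 ≤ (s ^ (-α) + 1) * Sg + (s ^ (-α) + 1) ^ 2 * (s ^ Cb1) ^ 2 * LL) (hLL : LL ≤ s ^ (-K) * T)
    (hCb : 17 ≤ Cb) (hCb1 : K + 5 ≤ 2 * Cb1) (hCb2 : 6 ≤ 2 * Cb1) (hSg : 0 ≤ Sg) : s ^ (3 * α) * T ≤ Sg := by
  have hs1 : s ≤ 1 := by linarith
  have hp : ∀ y : ℝ, 0 < s ^ y := fun y => Real.rpow_pos_of_pos hs0 y
  have hanti : ∀ y y' : ℝ, y ≤ y' → s ^ y' ≤ s ^ y := fun y y' h => Real.rpow_le_rpow_of_exponent_ge hs0 hs1 h
  have hsq : (s ^ Cb1) ^ 2 = s ^ (2 * Cb1) := by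
    rw [← Real.rpow_natCast (s ^ Cb1) 2, ← Real.rpow_mul hs0.le]
    congr 1
    push_cast
    ring
  rw [hsq] at hthree hgr
  have hs3 : s ^ (3 : ℝ) ≤ s / 64 := by
    have e : s ^ (3 : ℝ) = s * s * s := by
      rw [show (3 : ℝ) = ((3 : ℕ) : ℝ) by norm_num, Real.rpow_natCast]
      ring
    rw [e]
    nlinarith [mul_le_mul hs8 hs8 hs0.le (by norm_num : (0 : ℝ) ≤ 1 / 8)]
  have hsα : s ≤ s ^ α := by
    have := hanti α 1 (by linarith)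
    rwa [Real.rpow_one] at this
  -- A
  have hA : 3 * s ^ (-(8 * a2)) * X' ≤ s ^ (-t1) * X := by
    have k2 : s ^ (-(8 * a2)) ≤ s ^ (-(t1 / 2)) := hanti _ _ (by linarith)
    have k3 : s ^ (-t1) = s ^ (-(t1 / 2)) * s ^ (-(t1 / 2)) := by
      rw [← Real.rpow_add hs0]
      congr 1
      ring
    have k4 : 3 * s ^ (-(8 * a2)) ≤ s ^ (-t1) := by
      rw [k3]
      nlinarith [hp (-(t1 / 2)), hp (-(8 * a2))]
    exact mul_le_mul k4 hXX hX0 (hp _).le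
  -- B, C, D
  have hB : s ^ (2 / 3 * Cb - 8 * a2) ≤ s ^ (3 : ℝ) := hanti _ _ (by linarith)
  have hC : s ^ (2 * Cb1) * s ^ (-(3 : ℝ)) ≤ s ^ (3 : ℝ) := by
    rw [← Real.rpow_add hs0]
    exact hanti _ _ (by linarith)
  have hN1 : s ^ (-α) + 1 ≤ 2 * s ^ (-α) := by linarith
  have hD : (s ^ (-α) + 1) ^ 2 * s ^ (2 * Cb1) * s ^ (-K) ≤ 4 * s ^ (3 : ℝ) := by
    have k1 : (s ^ (-α) + 1) ^ 2 ≤ 4 * s ^ (-(1 : ℝ)) := by
      have k2 : (s ^ (-α) + 1) ^ 2 ≤ (2 * s ^ (-α)) ^ 2 := pow_le_pow_left₀ (by linarith [hp (-α)]) hN1 2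
      have k3 : (2 * s ^ (-α)) ^ 2 = 4 * s ^ (-(2 * α)) := by
        have : s ^ (-(2 * α)) = s ^ (-α) * s ^ (-α) := by
          rw [← Real.rpow_add hs0]
          congr 1
          ring
        rw [this]
        ring
      rw [k3] at k2
      exact k2.trans (mul_le_mul_of_nonneg_left (hanti _ _ (by linarith)) (by norm_num))
    calc (s ^ (-α) + 1) ^ 2 * s ^ (2 * Cb1) * s ^ (-K) ≤ 4 * s ^ (-(1 : ℝ)) * s ^ (2 * Cb1) * s ^ (-K) :=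
          mul_le_mul_of_nonneg_right (mul_le_mul_of_nonneg_right k1 (hp _).le) (hp _).le
      _ = 4 * s ^ (-(1 : ℝ) + 2 * Cb1 + -K) := by
          rw [Real.rpow_add hs0, Real.rpow_add hs0]
          ring
      _ ≤ 4 * s ^ (3 : ℝ) := mul_le_mul_of_nonneg_left (hanti _ _ (by linarith)) (by norm_num)
  -- assembling
  have g1 : 3 * E1 ≤ (s ^ (-t1) * X + 3 * s ^ (3 : ℝ)) * T := by
    calc 3 * E1 ≤ 3 * ((s ^ (-(8 * a2)) * X' + s ^ (2 / 3 * Cb - 8 * a2)) * T) := by linarith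
      _ = (3 * s ^ (-(8 * a2)) * X' + 3 * s ^ (2 / 3 * Cb - 8 * a2)) * T := by ring
      _ ≤ _ := mul_le_mul_of_nonneg_right (by linarith) hT.le
  have g2 : 3 * s ^ (2 * Cb1) * L3 ≤ 3 * s ^ (3 : ℝ) * T := by
    calc 3 * s ^ (2 * Cb1) * L3 ≤ 3 * s ^ (2 * Cb1) * (s ^ (-(3 : ℝ)) * T) := mul_le_mul_of_nonneg_left hL3 (by linarith [hp (2 * Cb1)])
      _ = 3 * (s ^ (2 * Cb1) * s ^ (-(3 : ℝ))) * T := by ring
      _ ≤ _ := mul_le_mul_of_nonneg_right (by linarith) hT.le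
  have g3 : (s ^ (-α) + 1) ^ 2 * s ^ (2 * Cb1) * LL ≤ 4 * s ^ (3 : ℝ) * T := by
    calc (s ^ (-α) + 1) ^ 2 * s ^ (2 * Cb1) * LL ≤ (s ^ (-α) + 1) ^ 2 * s ^ (2 * Cb1) * (s ^ (-K) * T) :=
          mul_le_mul_of_nonneg_left hLL (mul_nonneg (sq_nonneg _) (hp _).le)
      _ = (s ^ (-α) + 1) ^ 2 * s ^ (2 * Cb1) * s ^ (-K) * T := by ring
      _ ≤ _ := mul_le_mul_of_nonneg_right hD hT.le
  have g4 : (s ^ α + s ^ (-t1) * X) * T ≤ PU * T := mul_le_mul_of_nonneg_right hmass hT.le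
  have g5 : (s ^ (-α) + 1) * Sg ≤ 2 * s ^ (-α) * Sg := mul_le_mul_of_nonneg_right hN1 hSg
  have g6 : s ^ α * T ≤ 6 * s ^ (-α) * Sg + 18 * s ^ (3 : ℝ) * T := by nlinarith
  have g7 : 18 * s ^ (3 : ℝ) * T ≤ s ^ α / 2 * T := mul_le_mul_of_nonneg_right (by linarith) hT.le
  have g8 : s ^ α * T ≤ 12 * s ^ (-α) * Sg := by linarith
  have e1 : s ^ (3 * α) = s ^ α * s ^ α * s ^ α := by
    rw [← Real.rpow_add hs0, ← Real.rpow_add hs0]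
    congr 1
    ring
  have e2 : s ^ α * s ^ (-α) = 1 := by
    rw [← Real.rpow_add hs0]
    simp
  have g9 : 12 * s ^ α ≤ 1 := by
    calc 12 * s ^ α ≤ s ^ (-α) * s ^ α := mul_le_mul_of_nonneg_right h12 (hp _).le
      _ = 1 := by rw [mul_comm, e2]
  calc s ^ (3 * α) * T = s ^ α * s ^ α * (s ^ α * T) := by rw [e1]; ring
    _ ≤ s ^ α * s ^ α * (12 * s ^ (-α) * Sg) := mul_le_mul_of_nonneg_left g8 (mul_pos (hp _) (hp _)).le
    _ = (12 * s ^ α) * (s ^ α * s ^ (-α)) * Sg := by ring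
    _ = (12 * s ^ α) * Sg := by rw [e2, mul_one]
    _ ≤ 1 * Sg := mul_le_mul_of_nonneg_right g9 hSg
    _ = Sg := one_mul _

/-- **EXIT (Σ) of SEL-1, partition form** -/
theorem sf_gp_sigma (hO : SfCyOk Y) (hS : SfSep Y) (π : SfPar) (Ls : ℝ) (hE : SfCoreHyp Y π) (C0 h t1 α0 : ℝ) (hh : 0 < h) (ht1 : 0 < t1) (hα0 : 0 < α0) (S : ℕ) :
    ∃ A n0 : ℕ, ∀ (c : SfCfg Y π.d) (i j α : ℝ), h ≤ j - i → α0 ≤ α → 4 * α ≤ j - i → SfGeIn Y π Ls c S C0 α → SfMD.Ext Y c.p c.W π.p π.d Ls c.ε (t1 / 32) →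
      A ≤ c.A → n0 ≤ c.W.E.n → i ∈ c.W.G → j ∈ c.W.G →
      ∀ (ι : Type) [Fintype ι] (Sb : ι → c.D.Row i → Prop) (U : c.D.Row j → Prop) (Sx : c.D.Row i → Prop), SfGpPart c i j ι Sb U Sx α t1 →
      c.W.E.s ^ (3 * α) * c.W.tot j ≤ ∑ b, c.gpE i j (c.gpU i j (Sb b) U) (Sb b) := by
  obtain ⟨a2, ha2⟩ : ∃ a2 : ℝ, a2 = min (t1 / 16) 1 := ⟨_, rfl⟩
  have ha20 : 0 < a2 := by
    rw [ha2]
    exact lt_min (by positivity) one_pos
  have ha2t : 16 * a2 ≤ t1 := by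
    have : a2 ≤ t1 / 16 := by
      rw [ha2]
      exact min_le_left _ _
    linarith
  have ha21 : a2 ≤ 1 := by
    rw [ha2]
    exact min_le_right _ _
  obtain ⟨K, hK⟩ : ∃ K : ℝ, K = C0 + 4 * (|Ls| + 2) + 6 := ⟨_, rfl⟩
  obtain ⟨Cb1, hCb1⟩ : ∃ Cb1 : ℕ, (|K| + 6) / 2 ≤ (Cb1 : ℝ) := exists_nat_ge _
  obtain ⟨A, nT, htail⟩ := sf_gp_tail hO π Ls hE a2 h ha20 hh 17 S
  obtain ⟨nL, hlocg⟩ := sf_ga_locg hO hS π hE (1 / ((S : ℝ) + 1)) (by positivity) Cb1 S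
  obtain ⟨n12, hn12⟩ := gn_absorb 12 α0 hα0
  obtain ⟨n3, hn3⟩ := gn_absorb 3 (t1 / 2) (by positivity)
  refine ⟨A, max (max nT nL) (max (max n12 n3) 3), fun c i j α hji hα hα4 hin hext2 hA hn hi hj ι _ Sb U Sx hpart => ?_⟩
  have hnT : nT ≤ c.W.E.n := ((le_max_left _ _).trans (le_max_left _ _)).trans hn
  have hnL : nL ≤ c.W.E.n := ((le_max_right _ _).trans (le_max_left _ _)).trans hn
  have hn12' : n12 ≤ c.W.E.n := (((le_max_left _ _).trans (le_max_left _ _)).trans (le_max_right _ _)).trans hn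
  have hn3' : n3 ≤ c.W.E.n := (((le_max_right _ _).trans (le_max_left _ _)).trans (le_max_right _ _)).trans hn
  have hn33 : 3 ≤ c.W.E.n := ((le_max_right _ _).trans (le_max_right _ _)).trans hn
  have hob := hin.ob
  have hs := hob.2.2.1
  have hs0 := gn_s_pos c.W.E
  have hij : i < j := by linarith
  have hT : (Y.M.sys c.p).Tight := hE.gen.tight c.p (hO.af _ _ _ _ _ hob.2.1).1
  have hαp : 0 < α := lt_of_lt_of_le hα0 hα
  have hji1 : j - i ≤ 1 := by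
    have h1 := (hs.gate.2 i hi).1
    have h2 := (hs.gate.2 j hj).2
    linarith
  have hα14 : α ≤ 1 / 4 := by linarith
  obtain ⟨-, -, -, -, hdd⟩ := hE.par.1
  -- the accuracies
  obtain ⟨a', ha', hext'⟩ : ∃ a' : ℝ, a' = min α (t1 / 32) ∧ SfMD.Ext Y c.p c.W π.p π.d Ls c.ε a' := by
    refine ⟨_, rfl, ?_⟩
    rcases le_total α (t1 / 32) with h1 | h1
    · rw [min_eq_left h1]
      exact hin.ext
    · rw [min_eq_right h1]
      exact hext2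
  have ha'0 : 0 < a' := by
    rw [ha']
    exact lt_min hαp (by positivity)
  have ha'α : a' ≤ α := by
    rw [ha']
    exact min_le_left _ _
  have ha't : a' ≤ t1 / 32 := by
    rw [ha']
    exact min_le_right _ _
  have ha'2 : a' ≤ a2 / 2 := by
    rw [ha2]
    rcases le_total (t1 / 16) 1 with h1 | h1
    · rw [min_eq_left h1]
      linarith
    · rw [min_eq_right h1]
      linarith
  have hexta2 : SfMD.Ext Y c.p c.W π.p π.d Ls c.ε a2 := sf_ext_mono _ _ _ _ _ _ _ _ _ (by linarith) hext'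
  -- the scale
  have hs8 : c.W.E.s ≤ 1 / 8 := by
    have h1 : c.W.E.s = c.W.E.s ^ (1 : ℝ) := (Real.rpow_one _).symm
    rw [h1, gn_s_rpow]
    have h2 : (2 : ℝ) ^ (-(1 * (c.W.E.n : ℝ))) ≤ 2 ^ (-(3 : ℝ)) := by
      apply gn_two_mono
      have : (3 : ℝ) ≤ c.W.E.n := by exact_mod_cast hn33
      linarith
    refine h2.trans (le_of_eq ?_)
    rw [gn_two_neg]
    norm_num
  have h12 : (12 : ℝ) ≤ c.W.E.s ^ (-α) := by
    rw [gn_s_rpow]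
    refine (hn12 _ hn12').trans (gn_two_mono ?_)
    have := mul_le_mul_of_nonneg_right hα (Nat.cast_nonneg c.W.E.n)
    linarith
  have h3 : (3 : ℝ) ≤ c.W.E.s ^ (-(t1 / 2)) := by
    rw [gn_s_rpow]
    refine (hn3 _ hn3').trans (le_of_eq ?_)
    congr 1
    ring
  -- locality
  have hloc : c.LocG (c.W.E.s ^ (Cb1 : ℝ)) := hlocg c hob hin.eps.1 hnL
  have hϰ : 0 ≤ c.W.E.s ^ (Cb1 : ℝ) := (Real.rpow_pos_of_pos hs0 _).le
  -- the pieces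
  have hthree := sf_gp_three c hO S hob _ hϰ hloc i hi j hj hij U Sx (fun ρ => ∃ b, Sb b ρ) hpart.own
  have hL3 := sf_core_err_sum c π.p Ls α ⟨hαp, by linarith⟩ hdd.1.le hin.ext i hi j hj hij
  have hrd := htail c a' hob hA hnT ha'0 ha'2 (by linarith) hext' i hi j hj hji (by linarith) (fun ρ => Sx ρ ∧ ¬ ∃ b, Sb b ρ) U
  have hhold := sf_gp_hold hO π Ls hE a2 ⟨ha20, ha21⟩ 17 c S hob hexta2 (by omega) i hi j hj hij _ U hrd
  have hovl : ∀ l : c.W.Lb j, (({b | ∃ ρ ρ', Sb b ρ ∧ c.D.Conn i j ρ ρ' ∧ U ρ' ∧ c.sh.lb j ρ' = l} : Set ι).ncard : ℝ) ≤ c.W.E.s ^ (-α) := by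
    intro l
    have := sf_gp_ovl c i j hj Sb U (c.D.s ^ (-α)) hpart.ovl l
    rwa [c.sh.hs] at this
  have hgr := sf_gp_groups c S hob _ hloc i hi j hj hij Sb hpart.disj U _ hovl
  have hLL := sf_gp_errL hO π Ls hE hin (by linarith) i j hj
  have hmass := hpart.mass
  rw [c.sh.hs] at hmass
  have hX0 : 0 ≤ (c.D.P i).pr (fun ρ => Sx ρ ∧ ¬ ∃ b, Sb b ρ) ^ (2 / 3 : ℝ) := Real.rpow_nonneg (ent_pr_nonneg _ _) _
  have hXX : (c.D.P i).pr (fun ρ => Sx ρ ∧ ¬ ∃ b, Sb b ρ) ^ (2 / 3 : ℝ) ≤ (c.D.P i).pr Sx ^ (2 / 3 : ℝ) :=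
    Real.rpow_le_rpow (ent_pr_nonneg _ _) (ent_pr_mono _ fun ρ _ hρ => hρ.1) (by norm_num)
  have hKabs := le_abs_self K
  have hKabs0 := abs_nonneg K
  rw [← hK] at hLL
  exact sf_gp_num c.W.E.s α t1 a2 K 17 Cb1 (c.W.tot j) _ _ _ _ _ _ _ _ hs0 hs8 hαp hα14 h12 h3 ha2t ha21 (sf_gp_tot c hT π.p Ls α hin.ext j hj).1 hX0 hXX hmass
    hthree hL3 hhold hgr hLL le_rfl (by linarith) (by linarith) (Finset.sum_nonneg fun b _ => sf_gp_E_nonneg c hs i j hj _ _)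

end Claimed.Agent.R256
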