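import Claimed.Agent.R256.Soft.MGaTop
import Claimed.Agent.R256.Soft.MGpIface
import Claimed.Agent.R256.Soft.MGpPost
import Claimed.Agent.R256.Soft.MGpTriC

/-!
# Row 256 (S0496), unit SOFT, block M6b GP (group extraction, PARTITION form), file 3: THE SELECTION FROM (Σ)      (helper1, for chief helper206; prefix `sf_gs_`)

**EXIT `sf_gs_main : SfGpSel Y π Ls`** (sorry-free up to `sf_ga_sel2`)  :=  `sf_gs_sel` (`SfGpSig → SfGpSel`) on `sf_gs_sigma : SfGpSig Y π Ls` (adapter of `sf_gp_sigma`, helper213, `Soft/MGpTriC.lean`).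
`sf_gs_sel : SfGpSig Y π Ls → SfGpSel Y π Ls`      = clone of `sf_ga_sel` (cover form, `Soft/MGaTop.lean`) on the COMMON FORM `sf_ga_sel2` of helper169.
* `SfGpSig`      **(Σ), partition form** = EXIT of SEL-1 PARTITION (owner helper213; `git show origin/helper206:notes/R256/GP_sel1.md`): the groups read a subpower part of the mass of the end gate.
* family: `ι' = {b // ∃ v, sfGpU c.D Sb U b v}`, `dd b = SfGeD.mk i j {j} (sfGpU c.D Sb U b) (Sb b) (m0 b) (Nr b) f0 (Q0 b) 0 0`, carriers `S0 b = Sb b`.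
* accuracy: `a' = a / 2` (`a` of `sf_ga_sel2`): `s^(4 a' (j-i)) = s^(2 a (j-i))`.
* (E): the groups are DISJOINT: `∑_b P_i(Sb b) ≤ 1`.      (C): `lb_ovl`.
-/

set_option autoImplicit false

namespace Claimed.Agent.R256

open MeasureTheory Claimed.Agent.R255

/-- **(Σ), partition form**: EXIT of SEL-1 PARTITION -/
def SfGpSig (Y : SfCy) (π : SfPar) (Ls : ℝ) : Prop :=
  ∀ a : ℝ, 0 < a → a ≤ 1 / 16 → ∀ (C0 h t1 : ℝ), 0 < h → 0 < t1 → ∀ S : ℕ, ∃ A n0 : ℕ,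
    ∀ (c : SfCfg Y π.d) (i j : ℝ), h ≤ j - i → SfGeIn Y π Ls c S C0 (a * (j - i)) → SfGeIn Y π Ls c S C0 (t1 / 32) → A ≤ c.A → n0 ≤ c.W.E.n →
    ∀ (ι : Type) [Fintype ι] (Sb : ι → c.D.Rw → Prop) (Sx U : c.D.Rw → Prop), SfGpCov c.D i j ι Sb Sx U (a * (j - i)) t1 →
      c.W.E.s ^ (4 * (a * (j - i))) * c.W.tot j ≤
        ∑ b, ∑ m' ∈ c.W.ivs j, c.rdE j (fun ρ => sfGpU c.D Sb U b ⟨j, ρ⟩) m' (c.preR i j (fun ρ => Sb b ⟨i, ρ⟩) m')

theorem sf_gs_eqns_cite : True := by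
  have := @SfGpSig.eq_1
  trivial

variable {Y : SfCy}

/-- pairwise disjoint events -/
theorem sf_gs_disj {Ω ι : Type} [Fintype Ω] [Fintype ι] (P : FLaw Ω) (A : ι → Ω → Prop) (hd : ∀ b b' ω, A b ω → A b' ω → b = b') :
    ∑ b, P.pr (A b) ≤ 1 := by
  classical
  unfold FLaw.pr
  rw [Finset.sum_comm]
  have key : ∀ ω : Ω, ∑ b, (if A b ω then P.p ω else 0) ≤ P.p ω := by
    intro ω
    by_cases h : ∃ b, A b ω
    · obtain ⟨b0, hb0⟩ := h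
      rw [Finset.sum_eq_single b0 (fun b _ hb => if_neg fun hA => hb (hd b b0 ω hA hb0)) (fun h => absurd (Finset.mem_univ _) h), if_pos hb0]
    · rw [Finset.sum_eq_zero fun b _ => if_neg fun hA => h ⟨b, hA⟩]
      exact P.nonneg ω
  calc _ ≤ ∑ ω, P.p ω := Finset.sum_le_sum fun ω _ => key ω
    _ = 1 := P.sum_one

/-- the sub-family of the groups that reach `U` is a partition again -/
theorem sf_gs_cov_sub {D : SfDoc} {i j : ℝ} {ι : Type} [Finite ι] {Sb : ι → D.Rw → Prop} {Sx U : D.Rw → Prop} {α t1 : ℝ} (h : SfGpCov D i j ι Sb Sx U α t1) :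
    SfGpCov D i j {b : ι // ∃ v, sfGpU D Sb U b v} (fun b => Sb b.1) Sx U α t1 := by
  refine ⟨h.gi, h.gj, h.u_dep, fun b u hu => h.sb_dep b.1 u hu, fun b b' u hu hu' => Subtype.ext (h.sb_disj b.1 b'.1 u hu hu'),
    fun b u u' hu hu' => h.sb_time b.1 u u' hu hu', fun u v hv hu hc => ?_, h.mass, fun lam => ?_⟩
  · rcases h.own u v hv hu hc with hx | ⟨b, hb⟩
    · exact Or.inl hx
    · exact Or.inr ⟨⟨b, v, hv, u, hb, hc⟩, hb⟩
  · refine le_trans ?_ (h.lb_ovl lam)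
    refine Nat.cast_le.2 ?_
    refine Set.ncard_le_ncard_of_injOn (fun b : {b : ι // ∃ v, sfGpU D Sb U b v} => b.1) (fun b hb => ?_) (fun b _ b' _ hbb => Subtype.ext hbb) (Set.toFinite _)
    exact hb

/-- (C), partition form -/
theorem sf_gs_cn {de : ℝ} (c : SfCfg Y de) (hs : c.W.Str (Y.tq c.p)) (hT : (Y.M.sys c.p).Tight) (α t1 : ℝ) (i j : ℝ) (ι : Type) [Fintype ι] (Sb : ι → c.D.Rw → Prop)
    (Sx U : c.D.Rw → Prop) (hcov : SfGpCov c.D i j ι Sb Sx U α t1) :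
    ∑ b, c.gaCnt (sfGpU c.D Sb U b) j ≤ c.D.s ^ (-α) * ∑ l, (Y.M.sys c.p).wt (c.W.ts j l) := by
  classical
  have hkG : j ∈ c.W.G := c.sh.hG ▸ hcov.gj
  have hwt : ∀ l, 0 ≤ (Y.M.sys c.p).wt (c.W.ts j l) := fun l => (hT.wt_pos _ _ (hs.ok j hkG l)).le
  have hs0 : 0 ≤ c.D.s ^ (-α) := (Nat.cast_nonneg _).trans (hcov.lb_ovl ⟨0, 0, 0, 0, 0, 0, 0, 0, 0, 0, 0⟩)
  unfold SfCfg.gaCnt
  rw [Finset.sum_comm, Finset.mul_sum]
  refine Finset.sum_le_sum fun l _ => ?_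
  rw [← Finset.sum_filter, Finset.sum_const, nsmul_eq_mul]
  refine mul_le_mul_of_nonneg_right ?_ (hwt l)
  by_cases hne : ∃ ρ0, c.sh.lb j ρ0 = l
  · obtain ⟨ρ0, hρ0⟩ := hne
    refine le_trans ?_ (hcov.lb_ovl (c.D.lab j ρ0))
    rw [← Set.ncard_coe_finset]
    refine Nat.cast_le.2 (Set.ncard_le_ncard (fun b hb => ?_) (Set.toFinite _))
    obtain ⟨ρ, hch, hl⟩ := (Finset.mem_filter.1 (Finset.mem_coe.1 hb)).2
    have hlab : c.D.lab j ρ = c.D.lab j ρ0 := by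
      rw [c.sh.hlab j hkG ρ, c.sh.hlab j hkG ρ0, hl, hρ0]
    rcases hch with hU | ⟨v, hv, hlt, -⟩
    · obtain ⟨hUv, w, hw, hcn⟩ := hU
      exact ⟨w, ⟨j, ρ⟩, hw, hUv, hcn, hlab⟩
    · exact absurd (hcov.u_dep v hv.1) (ne_of_gt hlt)
  · have : (Finset.univ.filter fun b => ∃ ρ, c.D.chnU (sfGpU c.D Sb U b) ⟨j, ρ⟩ ∧ c.sh.lb j ρ = l) = ∅ := by
      refine Finset.filter_eq_empty_iff.2 fun b _ h => ?_
      obtain ⟨ρ, -, hl⟩ := h
      exact hne ⟨ρ, hl⟩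
    rw [this, Finset.card_empty, Nat.cast_zero]
    exact hs0

/-- `d.sig` at the gates `i`, `j` -/
theorem sf_gs_sig {de : ℝ} {c : SfCfg Y de} (d : SfGeD c) (S0 : c.D.Rw → Prop) :
    d.sig S0 = ∑ m' ∈ c.W.ivs d.j, c.rdE d.j (fun ρ => d.U ⟨d.j, ρ⟩) m' (c.preR d.i d.j (fun ρ => S0 ⟨d.i, ρ⟩) m') := by
  unfold SfGeD.sig
  rw [sf_ga_g0, sf_ga_g1]

/-- **SEL, partition form, from (Σ)** -/
theorem sf_gs_sel (hY : (∃ η, Y = sfCl η) ∨ ∃ η, Y = sfHy η) (π : SfPar) (Ls : ℝ) (hE : SfCoreHyp Y π) (hSg : SfGpSig Y π Ls) : SfGpSel Y π Ls := by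
  have hO : SfCyOk Y := sf_cy_ok Y hY
  intro τ a1 hτ ha1
  obtain ⟨a, ha0, ha8, H⟩ := sf_ga_sel2 hY π Ls hE τ a1 hτ ha1
  refine ⟨a / 2, by positivity, ?_⟩
  intro C0 h t1 hh ht1 S
  obtain ⟨C', Cb, H⟩ := H C0 h hh S
  obtain ⟨A2, n2, HSg⟩ := hSg (a / 2) (by positivity) (by linarith) C0 h t1 hh ht1 S
  refine ⟨C', Cb, ?_⟩
  intro A'
  obtain ⟨A, n0, H⟩ := H A'
  refine ⟨max A A2, max n0 n2, ?_⟩
  intro c i j hij hin hin2 hA hn ι _ Sb Sx U hcov m0 Nr f0 Q0 hm0 hroot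
  classical
  have : Fintype ι := Fintype.ofFinite ι
  have hlt : i < j := by linarith
  have hji0 : 0 < j - i := by linarith
  have hinA : SfGeIn Y π Ls c S C0 (a * (j - i)) :=
    sf_gp_t_in_mono (by positivity) (mul_le_mul_of_nonneg_right (by linarith) hji0.le) hin
  have hs := hin.ob.2.2.1
  have hgd : Y.M.gd c.p := (hO.af S c.A c.p c.W.E c.W.Q0 hin.ob.2.1).1
  have hT := hE.gen.tight c.p hgd
  have hG : c.D.G = c.W.G := c.sh.hG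
  have hDs : c.D.s = c.W.E.s := c.sh.hs
  have hgi : i ∈ c.W.G := hG ▸ hcov.gi
  have hgj : j ∈ c.W.G := hG ▸ hcov.gj
  have hs0 : 0 < c.W.E.s := gn_s_pos _
  have hs1 : c.W.E.s ≤ 1 := gn_s_le_one _
  have htot : ∀ g ∈ c.W.G, 0 ≤ c.W.tot g := by
    intro g hg
    unfold SfMD.tot SfMD.m
    exact Finset.sum_nonneg fun l _ => gn_en_nonneg _ _ _ (fun x => hs.nn _ hg l x) _
  -- the family
  have hok : ∀ b : {b : ι // ∃ v, sfGpU c.D Sb U b v}, ∀ e ka,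
      (SfGeD.mk i j {j} (sfGpU c.D Sb U b.1) (Sb b.1) (m0 b.1) (Nr b.1) f0 (Q0 b.1) e ka : SfGeD c).Ok := by
    intro b e ka
    refine ⟨hlt, hgi, hgj, ⟨Finset.mem_singleton_self j, fun k hk => ?_⟩, fun g _ k hk h1 h2 => ?_, fun v hv => hcov.u_dep v hv.1, fun v hv => ?_, b.2, fun v hv => ?_⟩
    · rw [Finset.mem_singleton.1 hk]
      exact ⟨hgj, hlt.le, le_rfl⟩
    · rw [Finset.mem_singleton.1 hk] at h1
      exact absurd h2 (not_lt.2 h1.le)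
    · obtain ⟨-, w, hw, hcn⟩ := hv
      exact ⟨w, hcov.sb_dep b.1 w hw, hcn, hm0 b.1 w hw⟩
    · obtain ⟨-, w, hw, hcn⟩ := hv
      exact ⟨w, hcov.sb_dep b.1 w hw, hcn, hm0 b.1 w hw, hw⟩
  have hpow : c.W.E.s ^ (-(a / 2 * (j - i))) ≤ c.W.E.s ^ (-(a * (j - i))) :=
    Real.rpow_le_rpow_of_exponent_ge hs0 hs1 (by nlinarith)
  have hone : (1 : ℝ) ≤ c.W.E.s ^ (-(a * (j - i))) :=
    Real.one_le_rpow_of_pos_of_le_one_of_nonpos hs0 hs1 (by nlinarith)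
  have hfam : SfGaFam {b : ι // ∃ v, sfGpU c.D Sb U b v}
      (fun b => (SfGeD.mk i j {j} (sfGpU c.D Sb U b.1) (Sb b.1) (m0 b.1) (Nr b.1) f0 (Q0 b.1) 0 0 : SfGeD c)) (fun b => Sb b.1) i j {j} (a * (j - i))
      (c.W.E.s ^ (-(c.ε / 4))) (c.W.E.s ^ (Cb : ℝ)) := by
    refine ⟨hgj, fun _ => rfl, fun _ => rfl, fun _ => rfl, fun b => hok b 0 0, fun b => ?_, fun _ _ hu => hu, fun b => ?_, fun b => ?_, fun b => ?_, fun b => ?_, ?_, ?_, ?_⟩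
    · exact sf_ga_car _ hs (hok b 0 0) _ _ (hroot b.1 b.2 0 0)
    · exact (hroot b.1 b.2 0 0).meas
    · exact (hroot b.1 b.2 0 0).disj
    · have hw := (hroot b.1 b.2 0 0).wid
      rw [sf_ga_g0] at hw
      have hfi : 0 < c.W.f i := (hs.frame.2.2 i hgi).2
      have hΛ : 0 < c.W.E.s ^ (-(c.ε / 4)) := Real.rpow_pos_of_pos hs0 _
      refine ⟨lt_of_lt_of_le ?_ hw.1, hw.2⟩
      exact mul_pos (by linarith) hfi
    · exact (sf_ga_eraw _ hs (hok b 0 0)).le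
    · -- sig
      have h1 := HSg c i j hij hin hin2 (le_trans (le_max_right _ _) hA) (le_trans (le_max_right _ _) hn) _ _ Sx U (sf_gs_cov_sub hcov)
      have e1 : (2 : ℝ) * (a * (j - i)) = 4 * (a / 2 * (j - i)) := by ring
      rw [e1]
      refine h1.trans (le_of_eq ?_)
      refine Finset.sum_congr rfl fun b _ => ?_
      rw [sf_gs_sig]
      rfl
    · -- en
      have e1 : ∀ b : {b : ι // ∃ v, sfGpU c.D Sb U b v},
          c.gaEnS (Sb b.1) (SfGeD.mk i j {j} (sfGpU c.D Sb U b.1) (Sb b.1) (m0 b.1) (Nr b.1) f0 (Q0 b.1) 0 0 : SfGeD c).U i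
            = (c.D.P i).pr (fun ρ => Sb b.1 ⟨i, ρ⟩ ∧ c.D.chnU (sfGpU c.D Sb U b.1) ⟨i, ρ⟩) * c.W.tot i := fun b => rfl
      rw [Finset.sum_congr rfl fun b _ => e1 b, ← Finset.sum_mul]
      refine mul_le_mul_of_nonneg_right ?_ (htot i hgi)
      refine le_trans (sf_gs_disj (c.D.P i) _ fun b b' ρ hb hb' => Subtype.ext (hcov.sb_disj b.1 b'.1 _ hb.1 hb'.1)) hone
    · -- cn
      intro k hk
      rw [Finset.mem_singleton.1 hk]
      have h1 := sf_gs_cn c hs hT _ t1 i j _ _ Sx U (sf_gs_cov_sub hcov)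
      rw [hDs] at h1
      refine h1.trans (mul_le_mul_of_nonneg_right hpow ?_)
      exact Finset.sum_nonneg fun l _ => (hT.wt_pos _ _ (hs.ok j hgj l)).le
  obtain ⟨b, e, ka, hsel⟩ := H c i j hij hinA (le_trans (le_max_left _ _) hA) (le_trans (le_max_left _ _) hn) {j} _ _ _ hfam
  exact ⟨b.1, e, ka, b.2, hsel⟩

/-- the marked rows of a group, at the level of the rows of the gate `j` -/
theorem sf_gs_gpU {D : SfDoc} {i j : ℝ} {ι : Type} {Sb : ι → D.Rw → Prop} {Sx U : D.Rw → Prop} {α t1 : ℝ} (h : SfGpCov D i j ι Sb Sx U α t1) (b : ι) (ρ' : D.Row j) :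
    sfGpU D Sb U b ⟨j, ρ'⟩ ↔ U ⟨j, ρ'⟩ ∧ ∃ ρ : D.Row i, Sb b ⟨i, ρ⟩ ∧ D.Conn i j ρ ρ' := by
  constructor
  · rintro ⟨hU, ⟨g, ρ⟩, hw, hc⟩
    obtain rfl : g = i := h.sb_dep b _ hw
    exact ⟨hU, ρ, hw, hc⟩
  · rintro ⟨hU, ρ, hw, hc⟩
    exact ⟨hU, ⟨i, ρ⟩, hw, hc⟩

/-- **(Σ)** from the exit of SEL-1 PARTITION (helper213) -/
theorem sf_gs_sigma (hY : (∃ η, Y = sfCl η) ∨ ∃ η, Y = sfHy η) (π : SfPar) (Ls : ℝ) (hE : SfCoreHyp Y π) : SfGpSig Y π Ls := by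
  have hO : SfCyOk Y := sf_cy_ok Y hY
  have hS : SfSep Y := sf_sep hY
  intro a ha0 ha16 C0 h t1 hh ht1 S
  obtain ⟨A, n0, H⟩ := sf_gp_sigma hO hS π Ls hE C0 h t1 (a * h) hh ht1 (by positivity) S
  refine ⟨A, n0, ?_⟩
  intro c i j hij hin hin2 hA hn ι _ Sb Sx U hcov
  have hji0 : 0 < j - i := by linarith
  have hG : c.D.G = c.W.G := c.sh.hG
  have hgi : i ∈ c.W.G := hG ▸ hcov.gi
  have hgj : j ∈ c.W.G := hG ▸ hcov.gj
  have hs := hin.ob.2.2.1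
  have hs0 : 0 < c.W.E.s := gn_s_pos _
  have hs1 : c.W.E.s ≤ 1 := gn_s_le_one _
  have htot : 0 ≤ c.W.tot j := by
    unfold SfMD.tot SfMD.m
    exact Finset.sum_nonneg fun l _ => gn_en_nonneg _ _ _ (fun x => hs.nn _ hgj l x) _
  have hpart : SfGpPart c i j ι (fun b ρ => Sb b ⟨i, ρ⟩) (fun ρ' => U ⟨j, ρ'⟩) (fun ρ => Sx ⟨i, ρ⟩) (a * (j - i)) t1 := by
    refine ⟨fun b b' ρ hb hb' => hcov.sb_disj b b' _ hb hb', fun ρ ρ' hU hc => hcov.own ⟨i, ρ⟩ ⟨j, ρ'⟩ hU rfl hc, fun lam => ?_, hcov.mass⟩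
    refine le_trans ?_ (hcov.lb_ovl lam)
    refine Nat.cast_le.2 (Set.ncard_le_ncard (fun b hb => ?_) (Set.toFinite _))
    obtain ⟨ρ, ρ', h1, h2, h3, h4⟩ := hb
    exact ⟨⟨i, ρ⟩, ⟨j, ρ'⟩, h1, h3, h2, h4⟩
  have h1 := H c i j (a * (j - i)) hij (mul_le_mul_of_nonneg_left hij ha0.le) (by nlinarith) hin hin2.ext hA hn hgi hgj ι _ _ _ hpart
  have h2 : c.W.E.s ^ (4 * (a * (j - i))) ≤ c.W.E.s ^ (3 * (a * (j - i))) :=
    Real.rpow_le_rpow_of_exponent_ge hs0 hs1 (by nlinarith)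
  refine (mul_le_mul_of_nonneg_right h2 htot).trans (h1.trans (le_of_eq ?_))
  refine Finset.sum_congr rfl fun b _ => ?_
  unfold SfCfg.gpE
  have e : c.gpU i j (fun ρ => Sb b ⟨i, ρ⟩) (fun ρ' => U ⟨j, ρ'⟩) = fun ρ => sfGpU c.D Sb U b ⟨j, ρ⟩ := by
    funext ρ'
    exact propext (sf_gs_gpU hcov b ρ').symm
  rw [e]

/-- **SEL, partition form** = Lemma cyl:group-extraction (02 l.765-818) -/
theorem sf_gs_main (hY : (∃ η, Y = sfCl η) ∨ ∃ η, Y = sfHy η) (π : SfPar) (Ls : ℝ) (hE : SfCoreHyp Y π) : SfGpSel Y π Ls :=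
  sf_gs_sel hY π Ls hE (sf_gs_sigma hY π Ls hE)

end Claimed.Agent.R256
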