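import Claimed.Agent.R256.Soft.MCorePat

/-!
# Row 256 (S0496), unit SOFT, block M2 CORE (architect helper169), file 6: LOCALITY ALONG STACKS AND GATES      -- KEEP

PAPER-FREE.  Rules: header of `Soft/MCoreDefs.lean`; notation: header of `Soft/MCoreGeo.lean`.
* `sf_cn_mono`, `sf_cn_comp`      the geometric correspondence `sfCn` is monotone in `Λ` and composes: `Λa` then `Λb` gives `2Λa + Λb`
* `sf_sep`                        measurable approximate successor sets (`SfSep`)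
* `sf_loc_stack`                  a synthesis from the rows `A`, run through a stack of `K` masks, has a tiny energy on the rows `V` if no pair of `A × V` corresponds at `(4K+1)Λ`
* `sf_core_loc_step`              the same between two consecutive gates, for sets of rows of the shadow without links
* `sf_core_loc_ind`               HYBRID: the same between two arbitrary gates, for sets of rows of the shadow without `Conn`
(The final statement `sf_core_loc`, both models, is in `Soft/MCoreSp.lean`.)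
-/

set_option autoImplicit false

namespace Claimed.Agent.R256

open MeasureTheory Claimed.Agent.R255

variable {Y : SfCy}

/-! ## 1. The correspondence      (LEAF L-256-SFC-CN) -/

/-- (`SfCyOk.dl0`, `mul_le_mul_of_nonneg_right`) -/
theorem sf_cn_mono (hO : SfCyOk Y) (p : Y.M.Par) {Λ Λ' : ℝ} (h : Λ ≤ Λ') (T : ℝ) (k : ℕ) (T' : ℝ) (k' : ℕ) (x x' : (Y.M.sys p).X) (hc : sfCn Y p Λ T k T' k' x x') :
    sfCn Y p Λ' T k T' k' x x' := by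
  obtain ⟨h1, h2, h3, h4, h5⟩ := hc
  refine ⟨h1, h2, h3, h4.trans (mul_le_mul_of_nonneg_right h (hO.dl0 p k')), h5.trans (mul_le_mul_of_nonneg_right h ?_)⟩
  exact mul_nonneg (by positivity) (hO.dl0 p k)

theorem sf_cn_comp_aux {Λa Λb q q1 d1 e1 Nx Ny Dx Dy Dz t1 t2 : ℝ} (ha : 0 ≤ Λa) (hb : 0 ≤ Λb) (hq : q1 ≤ q) (hq1 : e1 * d1 = q1)
    (ht0 : 0 ≤ t2) (ht1 : t2 ≤ e1) (hN : |Ny - Nx| ≤ Λa * d1) (h1 : |Dy - Dx - t1 * Nx| ≤ Λa * q) (h2 : |Dz - Dy - t2 * Ny| ≤ Λb * q1) :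
    |Dz - Dx - (t1 + t2) * Nx| ≤ (2 * Λa + Λb) * q := by
  have e : Dz - Dx - (t1 + t2) * Nx = (Dz - Dy - t2 * Ny) + (Dy - Dx - t1 * Nx) + t2 * (Ny - Nx) := by ring
  have h3 : |t2 * (Ny - Nx)| ≤ Λa * q1 := by
    rw [abs_mul, abs_of_nonneg ht0, ← hq1]
    calc t2 * |Ny - Nx| ≤ e1 * (Λa * d1) := mul_le_mul ht1 hN (abs_nonneg _) (ht0.trans ht1)
      _ = Λa * (e1 * d1) := by ring
  have h4 : Λb * q1 ≤ Λb * q := mul_le_mul_of_nonneg_left hq hb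
  have h5 : Λa * q1 ≤ Λa * q := mul_le_mul_of_nonneg_left hq ha
  rw [e]
  calc |(Dz - Dy - t2 * Ny) + (Dy - Dx - t1 * Nx) + t2 * (Ny - Nx)|
      ≤ |Dz - Dy - t2 * Ny| + |Dy - Dx - t1 * Nx| + |t2 * (Ny - Nx)| := abs_add_three _ _ _
    _ ≤ Λb * q + Λa * q + Λa * q := by linarith
    _ = (2 * Λa + Λb) * q := by ring

/-- **composition.**   PLAN: times and index: transitivity.   `N`: `|N_z - N_x| ≤ Λb d_k2 + Λa d_k1 ≤ (Λa + Λb) d_k2` (`dl_mono`).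
`D`: `D_z - D_x - (T2 - T) N_x = [D_z - D_y - (T2 - T1) N_y] + [D_y - D_x - (T1 - T) N_x] + (T2 - T1)(N_y - N_x)`, `0 ≤ T2 - T1 ≤ 2⁻¹^k1` (from the two time inequalities of `hyz`, `0 < 2⁻¹^k2`):
`≤ Λb q_k1 + Λa q_k + Λa q_k1 ≤ (2Λa + Λb) q_k`, `q_k = 2⁻¹^k d_k` (`ql_anti`). -/
theorem sf_cn_comp (hO : SfCyOk Y) (p : Y.M.Par) (hp : Y.M.gd p) (Λa Λb : ℝ) (ha : 0 ≤ Λa) (hb : 0 ≤ Λb) (T : ℝ) (k : ℕ) (T1 : ℝ) (k1 : ℕ) (T2 : ℝ) (k2 : ℕ)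
    (h1 : k ≤ k1) (h2 : k1 ≤ k2) (x y z : (Y.M.sys p).X) (hxy : sfCn Y p Λa T k T1 k1 x y) (hyz : sfCn Y p Λb T1 k1 T2 k2 y z) :
    sfCn Y p (2 * Λa + Λb) T k T2 k2 x z := by
  obtain ⟨a1, a2, a3, a4, a5⟩ := hxy
  obtain ⟨b1, b2, b3, b4, b5⟩ := hyz
  have hd := hO.dl_mono p hp k1 k2 h2
  have hd2 := hO.dl0 p k2
  have hpos : (0 : ℝ) < (2 : ℝ)⁻¹ ^ k2 := by positivity
  refine ⟨a1.trans b1, b2.trans a2, a3.trans b3, ?_, ?_⟩
  · have e : (Y.co p T2 z).N - (Y.co p T x).N = ((Y.co p T2 z).N - (Y.co p T1 y).N) + ((Y.co p T1 y).N - (Y.co p T x).N) := by ring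
    rw [e]
    have h3 : Λa * Y.dl p k1 ≤ Λa * Y.dl p k2 := mul_le_mul_of_nonneg_left hd ha
    have h4 : 0 ≤ Λa * Y.dl p k2 := mul_nonneg ha hd2
    calc |((Y.co p T2 z).N - (Y.co p T1 y).N) + ((Y.co p T1 y).N - (Y.co p T x).N)|
        ≤ |(Y.co p T2 z).N - (Y.co p T1 y).N| + |(Y.co p T1 y).N - (Y.co p T x).N| := abs_add_le _ _
      _ ≤ Λb * Y.dl p k2 + Λa * Y.dl p k2 := by linarith
      _ ≤ (2 * Λa + Λb) * Y.dl p k2 := by nlinarith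
  · have key := sf_cn_comp_aux (Λa := Λa) (Λb := Λb) (q := (2 : ℝ)⁻¹ ^ k * Y.dl p k) (q1 := (2 : ℝ)⁻¹ ^ k1 * Y.dl p k1) (d1 := Y.dl p k1) (e1 := (2 : ℝ)⁻¹ ^ k1)
      (t1 := T1 - T) (t2 := T2 - T1) ha hb (hO.ql_anti p hp k k1 h1) rfl (by linarith) (by linarith) a4 a5 b5
    have e : T1 - T + (T2 - T1) = T2 - T := by ring
    rw [e] at key
    exact key

/-! ## 2. Measurable successor sets      (LEAF L-256-SFC-SEP) -/

/-- the abstract form of the hybrid case: a grid of boxes in the fibre `ℝ × ℝ` -/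
theorem sf_sep_grid {Om : Type} [MeasurableSpace Om] (m : Measure Om) (δD δN rD rN τ : ℝ) (hδD : 0 < δD) (hδN : 0 < δN) (hτ : 0 ≤ τ)
    (h1 : δN ≤ rN / 4) (h2 : δD ≤ rD / 4) (h3 : τ * δN ≤ rD / 4) (A : Set (Om × ℝ × ℝ)) (hA : MeasurableSet A) :
    ∃ A' Z : Set (Om × ℝ × ℝ), MeasurableSet A' ∧ MeasurableSet Z ∧ A' ⊆ A ∧ (m.prod (volume : Measure (ℝ × ℝ))) (A \ A') = 0 ∧
      (∀ x ∈ A', ∀ x' : Om × ℝ × ℝ, x.1 = x'.1 → |x'.2.2 - x.2.2| ≤ rN → |x'.2.1 - x.2.1 - τ * x.2.2| ≤ rD → x' ∈ Z) ∧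
      ∀ x' ∈ Z, ∃ x ∈ A', x.1 = x'.1 ∧ |x'.2.2 - x.2.2| ≤ 2 * rN ∧ |x'.2.1 - x.2.1 - τ * x.2.2| ≤ 2 * rD := by
  obtain ⟨Bx, hBx⟩ : ∃ Bx : ℤ × ℤ → Set (ℝ × ℝ), Bx = fun β => Set.Ico ((β.1 : ℝ) * δD) (((β.1 : ℝ) + 1) * δD) ×ˢ Set.Ico ((β.2 : ℝ) * δN) (((β.2 : ℝ) + 1) * δN) := ⟨_, rfl⟩
  have hBm : ∀ β, MeasurableSet (Bx β) := fun β => by
    rw [hBx]
    exact measurableSet_Ico.prod measurableSet_Ico
  have hBmem : ∀ β (w : ℝ × ℝ), w ∈ Bx β ↔ ((β.1 : ℝ) * δD ≤ w.1 ∧ w.1 < ((β.1 : ℝ) + 1) * δD) ∧ ((β.2 : ℝ) * δN ≤ w.2 ∧ w.2 < ((β.2 : ℝ) + 1) * δN) := by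
    intro β w
    rw [hBx]
    simp only [Set.mem_prod, Set.mem_Ico]
  obtain ⟨I, hI⟩ : ∃ I : ℤ × ℤ → Set Om, I = fun β => {ω | volume (Prod.mk ω ⁻¹' (A ∩ Set.univ ×ˢ Bx β)) ≠ 0} := ⟨_, rfl⟩
  have hIm : ∀ β, MeasurableSet (I β) := fun β => by
    rw [hI]
    have hf : Measurable fun ω : Om => (volume : Measure (ℝ × ℝ)) (Prod.mk ω ⁻¹' (A ∩ Set.univ ×ˢ Bx β)) :=
      measurable_measure_prodMk_left (hA.inter (MeasurableSet.univ.prod (hBm β)))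
    exact (hf (measurableSet_singleton 0)).compl
  obtain ⟨Zb, hZb⟩ : ∃ Zb : ℤ × ℤ → Set (ℝ × ℝ), Zb = fun β => {w | |w.2 - (β.2 : ℝ) * δN| ≤ 5 / 4 * rN ∧ |w.1 - (β.1 : ℝ) * δD - τ * ((β.2 : ℝ) * δN)| ≤ 3 / 2 * rD} := ⟨_, rfl⟩
  have hZm : ∀ β, MeasurableSet (Zb β) := fun β => by
    rw [hZb]
    have f1 : Measurable fun w : ℝ × ℝ => |w.2 - (β.2 : ℝ) * δN| := by fun_prop
    have f2 : Measurable fun w : ℝ × ℝ => |w.1 - (β.1 : ℝ) * δD - τ * ((β.2 : ℝ) * δN)| := by fun_prop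
    exact (measurableSet_le f1 measurable_const).inter (measurableSet_le f2 measurable_const)
  refine ⟨A ∩ ⋃ β, I β ×ˢ Bx β, ⋃ β, I β ×ˢ Zb β, hA.inter (MeasurableSet.iUnion fun β => (hIm β).prod (hBm β)),
    MeasurableSet.iUnion fun β => (hIm β).prod (hZm β), Set.inter_subset_left, ?_, ?_, ?_⟩
  · -- the null set
    have hsub : A \ (A ∩ ⋃ β, I β ×ˢ Bx β) ⊆ ⋃ β, A ∩ (I β)ᶜ ×ˢ Bx β := by
      rintro ⟨ω, D, N⟩ ⟨hxA, hx⟩
      have hb : ((D, N) : ℝ × ℝ) ∈ Bx (⌊D / δD⌋, ⌊N / δN⌋) := by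
        rw [hBmem]
        refine ⟨⟨?_, ?_⟩, ?_, ?_⟩
        · rw [← le_div_iff₀ hδD]; exact Int.floor_le _
        · rw [← div_lt_iff₀ hδD]; exact Int.lt_floor_add_one _
        · rw [← le_div_iff₀ hδN]; exact Int.floor_le _
        · rw [← div_lt_iff₀ hδN]; exact Int.lt_floor_add_one _
      rw [Set.mem_iUnion]
      refine ⟨(⌊D / δD⌋, ⌊N / δN⌋), hxA, ?_, hb⟩
      intro hω
      exact hx ⟨hxA, Set.mem_iUnion.2 ⟨_, hω, hb⟩⟩
    refine le_antisymm ((measure_mono hsub).trans ?_) bot_le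
    have h0 : (m.prod (volume : Measure (ℝ × ℝ))) (⋃ β, A ∩ (I β)ᶜ ×ˢ Bx β) = 0 := by
      refine measure_iUnion_null fun β => ?_
      rw [Measure.prod_apply (hA.inter ((hIm β).compl.prod (hBm β)))]
      refine (lintegral_congr fun ω => ?_).trans lintegral_zero
      by_cases hω : ω ∈ I β
      · have : Prod.mk ω ⁻¹' (A ∩ (I β)ᶜ ×ˢ Bx β) = ∅ := by
          apply Set.eq_empty_of_forall_notMem
          rintro w ⟨-, hw, -⟩
          exact hw hω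
        rw [this, measure_empty]
      · have e : Prod.mk ω ⁻¹' (A ∩ (I β)ᶜ ×ˢ Bx β) = Prod.mk ω ⁻¹' (A ∩ Set.univ ×ˢ Bx β) := by
          ext w
          constructor
          · rintro ⟨a1, -, a3⟩
            exact ⟨a1, Set.mem_univ _, a3⟩
          · rintro ⟨a1, -, a3⟩
            exact ⟨a1, hω, a3⟩
        rw [e]
        rw [hI] at hω
        exact not_not.1 hω
    exact h0.le
  · -- successors
    rintro ⟨ω, D, N⟩ ⟨-, hx⟩ ⟨ω', D', N'⟩ hω hN hD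
    obtain ⟨β, hωI, hb⟩ := Set.mem_iUnion.1 hx
    obtain ⟨⟨b1, b2⟩, b3, b4⟩ := (hBmem β _).1 hb
    simp only at hω hN hD b1 b2 b3 b4
    subst hω
    rw [Set.mem_iUnion]
    refine ⟨β, hωI, ?_⟩
    rw [hZb]
    rw [abs_le] at hN hD
    have t1 : 0 ≤ τ * (N - (β.2 : ℝ) * δN) := mul_nonneg hτ (by linarith)
    have t2 : τ * (N - (β.2 : ℝ) * δN) ≤ τ * δN := mul_le_mul_of_nonneg_left (by linarith) hτ
    constructor
    · show |N' - (β.2 : ℝ) * δN| ≤ 5 / 4 * rN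
      rw [abs_le]
      constructor <;> linarith
    · show |D' - (β.1 : ℝ) * δD - τ * ((β.2 : ℝ) * δN)| ≤ 3 / 2 * rD
      rw [abs_le]
      constructor <;> nlinarith
  · -- predecessors
    rintro ⟨ω, D', N'⟩ hx'
    obtain ⟨β, hωI, hz⟩ := Set.mem_iUnion.1 hx'
    have hωI' : ω ∈ I β := hωI
    have hne : (Prod.mk ω ⁻¹' (A ∩ Set.univ ×ˢ Bx β)).Nonempty := by
      rw [hI] at hωI'
      exact nonempty_of_measure_ne_zero hωI'
    obtain ⟨⟨D, N⟩, hwA, -, hb⟩ := hne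
    obtain ⟨⟨b1, b2⟩, b3, b4⟩ := (hBmem β _).1 hb
    rw [hZb] at hz
    obtain ⟨z1, z2⟩ : |N' - (β.2 : ℝ) * δN| ≤ 5 / 4 * rN ∧ |D' - (β.1 : ℝ) * δD - τ * ((β.2 : ℝ) * δN)| ≤ 3 / 2 * rD := hz
    simp only at b1 b2 b3 b4
    rw [abs_le] at z1 z2
    have t1 : 0 ≤ τ * (N - (β.2 : ℝ) * δN) := mul_nonneg hτ (by linarith)
    have t2 : τ * (N - (β.2 : ℝ) * δN) ≤ τ * δN := mul_le_mul_of_nonneg_left (by linarith) hτ
    refine ⟨(ω, D, N), ⟨hwA, Set.mem_iUnion.2 ⟨β, hωI, hb⟩⟩, rfl, ?_, ?_⟩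
    · show |N' - N| ≤ 2 * rN
      rw [abs_le]
      constructor <;> linarith
    · show |D' - D - τ * N| ≤ 2 * rD
      rw [abs_le]
      constructor <;> nlinarith

/-- **SEP.**   PLAN.  CLASSICAL (`Y = sfCl η`): `A' = Z = A`.   A successor of `x` has the same index, hence is `x` (rows = indices); conversely `sfCn (2Λ) .. x x` holds: `N` constant, `D_T' = D_T + (T'-T) N`, `dl = 0`.
HYBRID (`Y = sfHy η`, rows `(ω, D, N)`, `co T x = ⟨.., N, D⟩`, `rho k = p.rw = (m.prod volume).withDensity ..`, `d_k = ChyPar.dl p k > 0`, `q = 2⁻¹^k d_k`).   `δN = Λ d_k / 4`, `δD = Λ q / 4`.   For `β = (a, b) : ℤ × ℤ`: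
box `Bx β = {(D, N) | a δD ≤ D < (a+1) δD ∧ b δN ≤ N < (b+1) δN}`, corner `(Dβ, Nβ) = (a δD, b δN)`,   `I β = {ω | volume ((Prod.mk ω) ⁻¹' A ∩ Bx β) ≠ 0}` (measurable: `measurable_measure_prodMk_left`),
`A' = A ∩ ⋃ β, I β ×ˢ Bx β`,   `Z = ⋃ β, I β ×ˢ {(D', N') | |N' - Nβ| ≤ (5/4) Λ d_k' ∧ |D' - Dβ - (T'-T) Nβ| ≤ (3/2) Λ q}`.
Null: `A \\ A' ⊆ ⋃ β, A ∩ ((I β)ᶜ ×ˢ Bx β)` (the boxes cover the plane: `Int.floor`), each has `m.prod volume` measure `∫ ω ∉ I β, volume (..) = 0` (`Measure.prod_apply`, `lintegral` of `0`); `withDensity_absolutelyContinuous`.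
Successors of `x = (ω, D, N) ∈ A'`, `(D,N) ∈ Bx β`: `|N' - Nβ| ≤ Λ d_k' + δN`, `δN ≤ Λ d_k' / 4` (`d_k ≤ d_k'`);   `|D' - Dβ - (T'-T) Nβ| ≤ Λ q + δD + (T'-T) δN ≤ (3/2) Λ q` (`0 ≤ T'-T ≤ 2⁻¹^k`).
A point `(ω, D', N')` of `Z`, `ω ∈ I β`: the fibre of `A` over `ω` meets `Bx β` (positive measure, hence nonempty) in some `(D, N)`; `x = (ω, D, N) ∈ A'`; `|N' - N| ≤ (5/4 + 1/4) Λ d_k'`, `|D' - D - (T'-T) N| ≤ (3/2 + 1/4 + 1/4) Λ q`. -/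
theorem sf_sep (hY : (∃ η, Y = sfCl η) ∨ ∃ η, Y = sfHy η) : SfSep Y := by
  rcases hY with ⟨η, rfl⟩ | ⟨η, rfl⟩
  · intro (p : CclPar) hp Λ hΛ T k T' k' hk hT hT' A hA
    refine ⟨A, A, hA, hA, subset_rfl, ?_, ?_, ?_⟩
    · rw [Set.sdiff_self]; exact measure_empty
    · intro x hx x' hc
      have e : x = x' := hc.2.2.1
      exact e ▸ hx
    · intro x hx
      refine ⟨x, hx, hT, hT', rfl, ?_, ?_⟩
      · show |CclPar.N p x - CclPar.N p x| ≤ 2 * Λ * 0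
        simp
      · show |(CclPar.D p x + T' * CclPar.N p x) - (CclPar.D p x + T * CclPar.N p x) - (T' - T) * CclPar.N p x| ≤ 2 * Λ * ((2 : ℝ)⁻¹ ^ k * 0)
        have : (CclPar.D p x + T' * CclPar.N p x) - (CclPar.D p x + T * CclPar.N p x) - (T' - T) * CclPar.N p x = 0 := by ring
        rw [this]
        simp
  · intro (p : ChyPar) hp Λ hΛ T k T' k' hk hT hT' A hA
    have hp' : ChyPar.Ok p := hp
    have hΛ0 : 0 < Λ := by linarith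
    have hd0 : 0 < ChyPar.dl p k := Real.sqrt_pos.2 (mul_pos hp'.H_pos (by positivity))
    have hdm : ChyPar.dl p k ≤ ChyPar.dl p k' :=
      Real.sqrt_le_sqrt (mul_le_mul_of_nonneg_left (pow_le_pow_right₀ (by norm_num) hk) hp'.H_pos.le)
    have hq0 : (0 : ℝ) < (2 : ℝ)⁻¹ ^ k := by positivity
    have hq1 : (0 : ℝ) < (2 : ℝ)⁻¹ ^ k' := by positivity
    have hτ0 : 0 ≤ T' - T := by linarith
    have hτ1 : T' - T ≤ (2 : ℝ)⁻¹ ^ k := by linarith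
    obtain ⟨A', Z, m1, m2, hs, h0, hsucc, hpred⟩ := sf_sep_grid (ChyPar.m p) (Λ * ((2 : ℝ)⁻¹ ^ k * ChyPar.dl p k) / 4) (Λ * ChyPar.dl p k / 4)
      (Λ * ((2 : ℝ)⁻¹ ^ k * ChyPar.dl p k)) (Λ * ChyPar.dl p k') (T' - T) (by positivity) (by positivity) hτ0
      (by have := mul_le_mul_of_nonneg_left hdm hΛ0.le; linarith) le_rfl
      (by
        have : (T' - T) * (Λ * ChyPar.dl p k) ≤ (2 : ℝ)⁻¹ ^ k * (Λ * ChyPar.dl p k) := mul_le_mul_of_nonneg_right hτ1 (by positivity)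
        nlinarith) A hA
    refine ⟨A', Z, m1, m2, hs, ?_, ?_, ?_⟩
    · exact (withDensity_absolutelyContinuous _ _) h0
    · intro x hx x' hc
      exact hsucc x hx x' hc.2.2.1 hc.2.2.2.1 hc.2.2.2.2
    · intro x' hx'
      obtain ⟨x, hx, e1, e2, e3⟩ := hpred x' hx'
      refine ⟨x, hx, hT, hT', e1, ?_, ?_⟩
      · have e2' : |x'.2.2 - x.2.2| ≤ 2 * Λ * ChyPar.dl p k' := e2.trans (le_of_eq (by ring))
        exact e2'
      · have e3' : |x'.2.1 - x.2.1 - (T' - T) * x.2.2| ≤ 2 * Λ * ((2 : ℝ)⁻¹ ^ k * ChyPar.dl p k) := e3.trans (le_of_eq (by ring))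
        exact e3'

/-! ## 3. Locality along a stack      (LEAF L-256-SFC-STACK) -/

/-- the constant of one application of `Loc.ker` -/
noncomputable def sfKer {g : ℝ} (L : Y.M.Loc g) (bm N : ℕ) (Λ : ℝ) (k k' : ℕ) : ℝ := |L.CN bm N| * Λ ^ (-(N : ℝ)) * 2 ^ (|L.Cl| * ((k' : ℝ) - k))

theorem sf_mcore_loc_eqns_cite : True := by
  have := @sfKer.eq_1
  trivial

theorem sf_loc_stack_kpos {g : ℝ} (L : Y.M.Loc g) (bm N : ℕ) (Λ : ℝ) (hΛ : 1 ≤ Λ) (k k' : ℕ) : 0 ≤ sfKer L bm N Λ k k' := by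
  unfold sfKer
  have h1 : 0 ≤ Λ ^ (-(N : ℝ)) := Real.rpow_nonneg (by linarith) _
  have h2 : (0 : ℝ) ≤ 2 ^ (|L.Cl| * ((k' : ℝ) - k)) := (gn_two_pos _).le
  exact mul_nonneg (mul_nonneg (abs_nonneg _) h1) h2

theorem sf_loc_stack_kmono {g : ℝ} (L : Y.M.Loc g) (bm N : ℕ) (Λ : ℝ) (hΛ : 1 ≤ Λ) {k k' k1 k1' : ℕ} (h1 : k ≤ k1) (h2 : k1' ≤ k') :
    sfKer L bm N Λ k1 k1' ≤ sfKer L bm N Λ k k' := by
  unfold sfKer
  have h3 : 0 ≤ Λ ^ (-(N : ℝ)) := Real.rpow_nonneg (by linarith) _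
  refine mul_le_mul_of_nonneg_left (gn_two_mono ?_) (mul_nonneg (abs_nonneg _) h3)
  refine mul_le_mul_of_nonneg_left ?_ (abs_nonneg _)
  have a1 : (k : ℝ) ≤ k1 := by exact_mod_cast h1
  have a2 : (k1' : ℝ) ≤ k' := by exact_mod_cast h2
  linarith

/-- one application of `Loc.ker`, in the form with square roots -/
theorem sf_loc_stack_ker (g : ℝ) (L : Y.M.Loc g) (hL : SfLocK Y g L) (p : Y.M.Par) (hp : Y.M.gd p) (bm N : ℕ) (Λ : ℝ) (hΛ : 1 ≤ Λ)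
    (T : ℝ) (k : ℕ) (T' : ℝ) (k' b b' : ℕ) (hc : CutLe T k T' k') (hn : T' + (2 : ℝ)⁻¹ ^ k' ≤ T + (2 : ℝ)⁻¹ ^ k) (hb : b ≤ bm) (hb' : b' ≤ bm)
    (S S' : Set (Y.M.sys p).X) (hS : MeasurableSet S) (hS' : MeasurableSet S') (hno : ∀ x ∈ S, ∀ x' ∈ S', ¬ sfCn Y p Λ T k T' k' x x')
    (F : Lp (Y.M.sys p).Fb 2 ((Y.M.sys p).rho k)) :
    Real.sqrt ((Y.M.sys p).ms T' k' b' S' (ContinuousLinearMap.adjoint ((Y.M.sys p).An T k b) ((Y.M.sys p).mulR k (S.indicator fun _ => 1) F)))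
      ≤ sfKer L bm N Λ k k' * ‖F‖ := by
  have h1 := L.ker p hp bm N Λ hΛ T k T' k' b b' hc hb hb' S S' hS hS' (fun x hx x' hx' hcn => hno x hx x' hx' (hL p Λ T k T' k' x x' hn hcn hc)) F
  have h2 := Real.sqrt_le_sqrt h1
  rw [← mul_pow, Real.sqrt_sq_eq_abs, abs_mul, abs_of_nonneg (norm_nonneg F)] at h2
  refine h2.trans (mul_le_mul_of_nonneg_right ?_ (norm_nonneg _))
  unfold sfKer
  have h3 : 0 ≤ Λ ^ (-(N : ℝ)) := Real.rpow_nonneg (by linarith) _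
  rw [abs_mul, abs_mul, abs_of_nonneg h3, abs_of_nonneg (gn_two_pos _).le]
  refine mul_le_mul_of_nonneg_left (gn_two_mono ?_) (mul_nonneg (abs_nonneg _) h3)
  have a1 : (k : ℝ) ≤ k' := by exact_mod_cast hc.1
  exact mul_le_mul_of_nonneg_right (le_abs_self _) (by linarith)

theorem sf_loc_stack_congr {P : PkSys} (k : ℕ) {A A' : Set P.X} (hA : MeasurableSet A) (hA' : MeasurableSet A') (hsub : A' ⊆ A) (h0 : P.rho k (A \ A') = 0)
    (F : Lp P.Fb 2 (P.rho k)) : P.mulR k (A.indicator fun _ => 1) F = P.mulR k (A'.indicator fun _ => 1) F := by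
  apply Lp.ext
  have h1 : ∀ᵐ x ∂(P.rho k), x ∉ A \ A' := measure_eq_zero_iff_ae_notMem.1 h0
  filter_upwards [gn_mulR_coe k (gn_mask_ind hA) F, gn_mulR_coe k (gn_mask_ind hA') F, h1] with x a1 a2 a3
  rw [a1, a2]
  by_cases hx : x ∈ A'
  · rw [Set.indicator_of_mem hx, Set.indicator_of_mem (hsub hx)]
  · have hx2 : x ∉ A := fun h => a3 ⟨h, hx⟩
    rw [Set.indicator_of_notMem hx, Set.indicator_of_notMem hx2]

theorem sf_loc_stack_split {P : PkSys} (k : ℕ) {Z : Set P.X} (hZ : MeasurableSet Z) (F : Lp P.Fb 2 (P.rho k)) :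
    F = P.mulR k (Z.indicator fun _ => 1) F + P.mulR k (Zᶜ.indicator fun _ => 1) F := by
  apply Lp.ext
  filter_upwards [gn_mulR_coe k (gn_mask_ind hZ) F, gn_mulR_coe k (gn_mask_ind hZ.compl) F,
    Lp.coeFn_add (P.mulR k (Z.indicator fun _ => 1) F) (P.mulR k (Zᶜ.indicator fun _ => 1) F)] with x a1 a2 a3
  rw [a3, Pi.add_apply, a1, a2]
  by_cases hx : x ∈ Z
  · have hx2 : x ∉ Zᶜ := fun h => h hx
    rw [Set.indicator_of_mem hx, Set.indicator_of_notMem hx2]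
    simp
  · have hx2 : x ∈ Zᶜ := hx
    rw [Set.indicator_of_notMem hx, Set.indicator_of_mem hx2]
    simp

theorem sf_loc_stack_comm {P : PkSys} (k : ℕ) {M M' : P.X → ℝ} (hM : IsMask M) (hM' : IsMask M') (F : Lp P.Fb 2 (P.rho k)) :
    P.mulR k M (P.mulR k M' F) = P.mulR k M' (P.mulR k M F) := by
  rw [gn_mulR_mulR k hM hM', gn_mulR_mulR k hM' hM]
  congr 1
  funext x
  exact mul_comm _ _

theorem sf_loc_stack_ms {P : PkSys} (T : ℝ) (k b : ℕ) {S : Set P.X} (hS : MeasurableSet S) (v : P.Kc) :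
    ‖P.mulR k (S.indicator fun _ => 1) (P.An T k b v)‖ = Real.sqrt (P.ms T k b S v) := by
  rw [gn_ms_eq T k b hS, ← gn_mulR_ind_normsq k hS, Real.sqrt_sq (norm_nonneg _)]

/-- **locality along a stack.**   PLAN: induction on `l` (generalising `k b A F`).   `T = tmL k (ancI k' k m')`, `T' = tmL k' m'`; `CutLe` by `gn_cutle_anc`, nested by `sf_anc_nest`.
`l = []`: `L.ker` with `S = A`, `S' = V` (`cn Λ ⊆ sfCn Λ` by `hL`), `Real.sqrt_le_sqrt`, `Real.sqrt_sq_eq_abs`, `2^(Cl x) ≤ 2^(|Cl| x)`.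
`l = σ :: l'`: `mσ = ancI k' σ.k m'`, `Tσ = tmL σ.k mσ`; `ancI σ.k k mσ = ancI k' k m'` (`gn_anc_anc`).   `hS` at the cuts `(T,k)`, `(Tσ,σ.k)` gives `A' ⊆ A`, `Z`.   `mulR 1_A F = mulR 1_A' F` (a.e. equal: `rho k (A \\ A') = 0`; `Lp.ext`, `gn_mulR_coe`).
`φ = adj (An T k b) (mulR 1_A' F)`, `Fσ = mulR σ.k (σ.M mσ) (An Tσ σ.k σ.b φ)`, `‖Fσ‖ ≤ ‖F‖` (`gn_mulR_norm_le`, `Tight.contr`, `gn_adj_norm_le`).   `Fσ = mulR 1_Z Fσ + mulR 1_Zᶜ Fσ` (`gn_mulR_sum`, `gn_mulR_one`).   `map_add`, `gn_run_add`, `gn_en_tri` (`ms = en` of an indicator).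
Term `Z`: induction hypothesis for `(l', σ.k, σ.b, Z, Fσ)`: a pair `z ∈ Z`, `x' ∈ V` with `sfCn ((4 |l'| + 1) Λ)` would give `x ∈ A'` with `sfCn (2Λ) x z`, hence `sfCn (2 (2Λ) + (4|l'|+1) Λ) x x'` (`sf_cn_comp`), excluded.   `sfKer .. σ.k k' ≤ sfKer .. k k'`.
Term `Zᶜ`: `√ms ≤ ‖run ..‖ ≤ ‖mulR 1_Zᶜ Fσ‖` (`gn_ms_le`, `gn_run_norm_le`, `gn_adj_norm_le`) `= ‖mulR (σ.M mσ) (mulR 1_Zᶜ (An .. φ))‖` (`gn_mulR_mulR`, commutativity of the product) `≤ ‖mulR 1_Zᶜ (An Tσ σ.k σ.b φ)‖ = √(ms Tσ σ.k σ.b Zᶜ φ)`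
(`gn_en_eq_norm` or `gn_mulR_ind_normsq` + `gn_ms_eq`) `≤ sfKer .. k σ.k ‖F‖` (`L.ker` with `S = A'`, `S' = Zᶜ`). -/
theorem sf_loc_stack (hO : SfCyOk Y) (hS : SfSep Y) (g : ℝ) (L : Y.M.Loc g) (hL : SfLocK Y g L) (p : Y.M.Par) (hp : Y.M.gd p) (hT : (Y.M.sys p).Tight)
    (bm N : ℕ) (Λ : ℝ) (hΛ : 1 ≤ Λ) (k' m' : ℕ) (l : List (Stg (Y.M.sys p))) (K k b b' : ℕ) (hl : StOk k k' bm K l) (hk : k ≤ k') (hb : b ≤ bm) (hb' : b' ≤ bm)
    (A V : Set (Y.M.sys p).X) (hA : MeasurableSet A) (hV : MeasurableSet V)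
    (hno : ∀ x ∈ A, ∀ x' ∈ V, ¬ sfCn Y p ((4 * (l.length : ℝ) + 1) * Λ) (tmL k (ancI k' k m')) k (tmL k' m') k' x x')
    (F : Lp (Y.M.sys p).Fb 2 ((Y.M.sys p).rho k)) :
    Real.sqrt ((Y.M.sys p).ms (tmL k' m') k' b' V (Xp.run k' m' l
        (ContinuousLinearMap.adjoint ((Y.M.sys p).An (tmL k (ancI k' k m')) k b) ((Y.M.sys p).mulR k (A.indicator fun _ => 1) F))))
      ≤ ((l.length : ℝ) + 1) * sfKer L bm N Λ k k' * ‖F‖ := by
  induction l generalizing k b A F with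
  | nil =>
    have h1 := sf_loc_stack_ker g L hL p hp bm N Λ hΛ (tmL k (ancI k' k m')) k (tmL k' m') k' b b' (gn_cutle_anc hk m') (sf_anc_nest hk m') hb hb' A V hA hV
      (fun x hx x' hx' h => hno x hx x' hx' (by simpa using h)) F
    simpa [Xp.run] using h1
  | cons σ l' ih =>
    have hσ := hl.dep σ List.mem_cons_self
    have hmono := List.pairwise_cons.1 hl.mono
    have hl' : StOk σ.k k' bm K l' :=
      ⟨(Nat.le_succ _).trans hl.len, fun σ' h' => ⟨hmono.1 σ' h', (hl.dep σ' (List.mem_cons_of_mem _ h')).2⟩, hmono.2,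
        fun σ' h' => hl.gen σ' (List.mem_cons_of_mem _ h'), fun σ' h' => hl.msk σ' (List.mem_cons_of_mem _ h')⟩
    have hstm : StM l' := hl'.msk
    have hσb : σ.b ≤ bm := hl.gen σ List.mem_cons_self
    have hM : IsMask (σ.M (ancI k' σ.k m')) := hl.msk σ List.mem_cons_self _
    have hanc : ancI σ.k k (ancI k' σ.k m') = ancI k' k m' := gn_anc_anc hσ.1 hσ.2 m'
    have hcut : CutLe (tmL k (ancI k' k m')) k (tmL σ.k (ancI k' σ.k m')) σ.k := by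
      have := gn_cutle_anc hσ.1 (ancI k' σ.k m')
      rwa [hanc] at this
    have hnest : tmL σ.k (ancI k' σ.k m') + (2 : ℝ)⁻¹ ^ σ.k ≤ tmL k (ancI k' k m') + (2 : ℝ)⁻¹ ^ k := by
      have := sf_anc_nest hσ.1 (ancI k' σ.k m')
      rwa [hanc] at this
    obtain ⟨A', Z, hA', hZ, hsub, hnull, hsucc, hpre⟩ := hS p hp Λ hΛ (tmL k (ancI k' k m')) k (tmL σ.k (ancI k' σ.k m')) σ.k hσ.1 hcut.2.1 hnest A hA
    rw [sf_loc_stack_congr k hA hA' hsub hnull F]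
    obtain ⟨φ, hφ⟩ : ∃ φ, φ = ContinuousLinearMap.adjoint ((Y.M.sys p).An (tmL k (ancI k' k m')) k b) ((Y.M.sys p).mulR k (A'.indicator fun _ => 1) F) := ⟨_, rfl⟩
    rw [← hφ]
    have hφn : ‖φ‖ ≤ ‖F‖ := by
      rw [hφ]
      exact (gn_adj_norm_le hT _ _ _ _).trans (gn_mulR_norm_le k (gn_mask_ind hA') F)
    obtain ⟨G, hG⟩ : ∃ G, G = (Y.M.sys p).An (tmL σ.k (ancI k' σ.k m')) σ.k σ.b φ := ⟨_, rfl⟩
    obtain ⟨Fσ, hFσ⟩ : ∃ Fσ, Fσ = (Y.M.sys p).mulR σ.k (σ.M (ancI k' σ.k m')) G := ⟨_, rfl⟩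
    have hGn : ‖G‖ ≤ ‖F‖ := by
      rw [hG]
      exact (hT.contr _ _ _ _).trans hφn
    have hFn : ‖Fσ‖ ≤ ‖F‖ := by
      rw [hFσ]
      exact (gn_mulR_norm_le _ hM _).trans hGn
    have hrun : Xp.run k' m' (σ :: l') φ = Xp.run k' m' l' (ContinuousLinearMap.adjoint ((Y.M.sys p).An (tmL σ.k (ancI k' σ.k m')) σ.k σ.b)
          ((Y.M.sys p).mulR σ.k (Z.indicator fun _ => 1) Fσ))
        + Xp.run k' m' l' (ContinuousLinearMap.adjoint ((Y.M.sys p).An (tmL σ.k (ancI k' σ.k m')) σ.k σ.b)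
          ((Y.M.sys p).mulR σ.k (Zᶜ.indicator fun _ => 1) Fσ)) := by
      rw [← gn_run_add k' m' l' hstm, ← map_add, ← sf_loc_stack_split σ.k hZ Fσ, hFσ, hG]
      rfl
    rw [hrun]
    have hK0 := sf_loc_stack_kpos L bm N Λ hΛ k k'
    have hF0 := norm_nonneg F
    -- the first term
    have t1 := ih σ.k σ.b hl' hσ.2 hσb Z hZ (fun z hz x' hx' hcn => by
      obtain ⟨x, hx, hxz⟩ := hpre z hz
      have h3 := sf_cn_comp hO p hp (2 * Λ) ((4 * (l'.length : ℝ) + 1) * Λ) (by linarith) (by positivity) _ k _ σ.k _ k' hσ.1 hσ.2 x z x' hxz hcn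
      refine hno x (hsub hx) x' hx' ?_
      have e : (4 * (((σ :: l').length : ℕ) : ℝ) + 1) * Λ = 2 * (2 * Λ) + (4 * (l'.length : ℝ) + 1) * Λ := by
        rw [List.length_cons]
        push_cast
        ring
      rw [e]
      exact h3) Fσ
    have t1' : Real.sqrt ((Y.M.sys p).ms (tmL k' m') k' b' V (Xp.run k' m' l' (ContinuousLinearMap.adjoint ((Y.M.sys p).An (tmL σ.k (ancI k' σ.k m')) σ.k σ.b)
          ((Y.M.sys p).mulR σ.k (Z.indicator fun _ => 1) Fσ)))) ≤ ((l'.length : ℝ) + 1) * sfKer L bm N Λ k k' * ‖F‖ := by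
      refine t1.trans ?_
      have h4 := sf_loc_stack_kmono L bm N Λ hΛ hσ.1 (le_refl k')
      have h5 := sf_loc_stack_kpos L bm N Λ hΛ σ.k k'
      have h6 : (0 : ℝ) ≤ (l'.length : ℝ) + 1 := by positivity
      exact mul_le_mul (mul_le_mul_of_nonneg_left h4 h6) hFn (norm_nonneg _) (mul_nonneg h6 hK0)
    -- the second term
    have t2 : Real.sqrt ((Y.M.sys p).ms (tmL k' m') k' b' V (Xp.run k' m' l' (ContinuousLinearMap.adjoint ((Y.M.sys p).An (tmL σ.k (ancI k' σ.k m')) σ.k σ.b)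
          ((Y.M.sys p).mulR σ.k (Zᶜ.indicator fun _ => 1) Fσ)))) ≤ sfKer L bm N Λ k k' * ‖F‖ := by
      have s1 : Real.sqrt ((Y.M.sys p).ms (tmL k' m') k' b' V (Xp.run k' m' l' (ContinuousLinearMap.adjoint ((Y.M.sys p).An (tmL σ.k (ancI k' σ.k m')) σ.k σ.b)
          ((Y.M.sys p).mulR σ.k (Zᶜ.indicator fun _ => 1) Fσ)))) ≤ ‖(Y.M.sys p).mulR σ.k (Zᶜ.indicator fun _ => 1) Fσ‖ := by
        refine (Real.sqrt_le_sqrt (gn_ms_le hT _ _ _ hV _)).trans ?_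
        rw [Real.sqrt_sq (norm_nonneg _)]
        exact (gn_run_norm_le hT _ _ _ hstm _).trans (gn_adj_norm_le hT _ _ _ _)
      have s2 : ‖(Y.M.sys p).mulR σ.k (Zᶜ.indicator fun _ => 1) Fσ‖ ≤ ‖(Y.M.sys p).mulR σ.k (Zᶜ.indicator fun _ => 1) G‖ := by
        rw [hFσ, sf_loc_stack_comm σ.k (gn_mask_ind hZ.compl) hM]
        exact gn_mulR_norm_le _ hM _
      have s3 : ‖(Y.M.sys p).mulR σ.k (Zᶜ.indicator fun _ => 1) G‖ ≤ sfKer L bm N Λ k σ.k * ‖F‖ := by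
        rw [hG, sf_loc_stack_ms _ _ _ hZ.compl, hφ]
        exact sf_loc_stack_ker g L hL p hp bm N Λ hΛ _ k _ σ.k b σ.b hcut hnest hb hσb A' Zᶜ hA' hZ.compl
          (fun x hx x' hx' hcn => hx' (hsucc x hx x' hcn)) F
      exact s1.trans (s2.trans (s3.trans (mul_le_mul_of_nonneg_right (sf_loc_stack_kmono L bm N Λ hΛ (le_refl k) hσ.2) hF0)))
    have tri := gn_en_tri (P := Y.M.sys p) (tmL k' m') k' b' (gn_mask_ind hV)
      (Xp.run k' m' l' (ContinuousLinearMap.adjoint ((Y.M.sys p).An (tmL σ.k (ancI k' σ.k m')) σ.k σ.b) ((Y.M.sys p).mulR σ.k (Z.indicator fun _ => 1) Fσ)))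
      (Xp.run k' m' l' (ContinuousLinearMap.adjoint ((Y.M.sys p).An (tmL σ.k (ancI k' σ.k m')) σ.k σ.b) ((Y.M.sys p).mulR σ.k (Zᶜ.indicator fun _ => 1) Fσ)))
    refine (tri.trans (add_le_add t1' t2)).trans (le_of_eq ?_)
    rw [List.length_cons]
    push_cast
    ring

/-! ## 4. Two consecutive gates      (LEAF L-256-SFC-STEP) -/

/-- **no link, no transport.**   PLAN: `P = Y.M.sys c.p`, `m = ancI (k g') (k g) m'`.   `rdE g' V m' χ = en .. (wS g' V m') χ ≤ ms .. (aS g' V m') χ` (`gn_en_le_ms`, `sf_core_wS_mask`, `sf_core_wS_supp`, `sf_core_aS_meas`).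
`tz .. (wS g A m) ψ = adj (An ..) (mulR 1_(aS g A m) F)` with `F = mulR (wS g A m) (An .. ψ)` (`gn_mulR_mulR`: `1_(aS) * wS = wS` by `sf_core_wS_supp`), `‖F‖ ≤ ‖ψ‖`.
`sf_loc_stack` with `l = mid g g'` (`sf_core_mid_ok`, length `≤ C`), `bm = C` (`sf_core_gb_le`).   `hno`: `x ∈ atm ρ`, `A ρ`, `im ρ = m`, `x' ∈ atm ρ'`, `V ρ'`, `im ρ' = m'` with `sfCn ((4 len + 1) Λ)`: by `sf_cn_mono` and `hΛε` it is a link
(`W.T g (lb ρ) = tmL (k g) m` by `SfMD.T`), excluded by `hno`. -/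
theorem sf_core_loc_step (hO : SfCyOk Y) (hS : SfSep Y) (g0 : ℝ) (L : Y.M.Loc g0) (hL : SfLocK Y g0 L) {de : ℝ} (c : SfCfg Y de) (C : ℕ) (hob : c.ob C)
    (hT : (Y.M.sys c.p).Tight) (N : ℕ) (Λ : ℝ) (hΛ : 1 ≤ Λ) (hΛε : (4 * (C : ℝ) + 1) * Λ ≤ c.W.E.s ^ (-c.ε))
    (g g' : ℝ) (hn : sfNext c.W.G g g') (A : c.D.Row g → Prop) (V : c.D.Row g' → Prop) (hno : ∀ ρ, A ρ → ∀ ρ', V ρ' → ¬ c.Lk ⟨g, ρ⟩ ⟨g', ρ'⟩)
    (m' : ℕ) (ψ : (Y.M.sys c.p).Kc) :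
    Real.sqrt (c.rdE g' V m' (Xp.run (c.W.k g') m' (c.mid g g') ((Y.M.sys c.p).tz (tmL (c.W.k g) (ancI (c.W.k g') (c.W.k g) m')) (c.W.k g) (c.W.gb g)
        (c.wS g A (ancI (c.W.k g') (c.W.k g) m')) ψ)))
      ≤ ((C : ℝ) + 1) * sfKer L C N Λ (c.W.k g) (c.W.k g') * ‖ψ‖ := by
  have hs : c.W.Str (Y.tq c.p) := hob.2.2.1
  have hp : Y.M.gd c.p := (hO.af C c.A c.p c.W.E c.W.Q0 hob.2.1).1
  have hn' := hn
  obtain ⟨hg, hg', hlt, -⟩ := hn'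
  have hmid := sf_core_mid_ok c C hob g hg g' hg' hlt
  have hkk := (hs.k_mono g hg g' hg' hlt).1
  obtain ⟨m, hm⟩ : ∃ m, m = ancI (c.W.k g') (c.W.k g) m' := ⟨_, rfl⟩
  rw [← hm]
  have hwA := sf_core_wS_mask c hs g hg A m
  have hwV := sf_core_wS_mask c hs g' hg' V m'
  have haA := sf_core_aS_meas c g hg A m
  have haV := sf_core_aS_meas c g' hg' V m'
  obtain ⟨G, hG⟩ : ∃ G, G = (Y.M.sys c.p).An (tmL (c.W.k g) m) (c.W.k g) (c.W.gb g) ψ := ⟨_, rfl⟩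
  obtain ⟨F, hF⟩ : ∃ F, F = (Y.M.sys c.p).mulR (c.W.k g) (c.wS g A m) G := ⟨_, rfl⟩
  have hFn : ‖F‖ ≤ ‖ψ‖ := by
    rw [hF, hG]
    exact (gn_mulR_norm_le _ hwA _).trans (hT.contr _ _ _ _)
  have htz : (Y.M.sys c.p).tz (tmL (c.W.k g) m) (c.W.k g) (c.W.gb g) (c.wS g A m) ψ
      = ContinuousLinearMap.adjoint ((Y.M.sys c.p).An (tmL (c.W.k g) m) (c.W.k g) (c.W.gb g)) ((Y.M.sys c.p).mulR (c.W.k g) ((c.aS g A m).indicator fun _ => 1) F) := by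
    unfold PkSys.tz
    congr 1
    rw [hF, gn_mulR_mulR _ (gn_mask_ind haA) hwA, hG]
    congr 1
    funext x
    by_cases hx : x ∈ c.aS g A m
    · rw [Set.indicator_of_mem hx, one_mul]
    · have h0 : c.wS g A m x = 0 := by
        by_contra hne
        exact hx (sf_core_wS_supp c g A m x hne)
      rw [h0, mul_zero]
  rw [htz]
  have hlen : ((c.mid g g').length : ℝ) ≤ C := by exact_mod_cast hmid.len
  have key := sf_loc_stack hO hS g0 L hL c.p hp hT C N Λ hΛ (c.W.k g') m' (c.mid g g') C (c.W.k g) (c.W.gb g) (c.W.gb g') hmid hkk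
    (sf_core_gb_le c C hob g hg) (sf_core_gb_le c C hob g' hg') (c.aS g A m) (c.aS g' V m') haA haV (by
      intro x hx x' hx' hcn
      rw [← hm] at hcn
      unfold SfCfg.aS at hx hx'
      simp only [Set.mem_iUnion] at hx hx'
      obtain ⟨ρ, ⟨hAρ, hmρ⟩, hxρ⟩ := hx
      obtain ⟨ρ', ⟨hVρ, hmρ'⟩, hxρ'⟩ := hx'
      refine hno ρ hAρ ρ' hVρ ⟨hn, x, hxρ, x', hxρ', ?_⟩
      have e1 : c.W.T g (c.sh.lb g ρ) = tmL (c.W.k g) m := by
        rw [← hmρ]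
        rfl
      have e2 : c.W.T g' (c.sh.lb g' ρ') = tmL (c.W.k g') m' := by
        rw [← hmρ']
        rfl
      show sfCn Y c.p (c.W.E.s ^ (-c.ε)) (c.W.T g (c.sh.lb g ρ)) (c.W.k g) (c.W.T g' (c.sh.lb g' ρ')) (c.W.k g') x x'
      rw [e1, e2]
      refine sf_cn_mono hO c.p (le_trans ?_ hΛε) _ _ _ _ x x' hcn
      refine mul_le_mul_of_nonneg_right ?_ (by linarith)
      linarith) F
  rw [← hm] at key
  have h1 : c.rdE g' V m' (Xp.run (c.W.k g') m' (c.mid g g') (ContinuousLinearMap.adjoint ((Y.M.sys c.p).An (tmL (c.W.k g) m) (c.W.k g) (c.W.gb g))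
        ((Y.M.sys c.p).mulR (c.W.k g) ((c.aS g A m).indicator fun _ => 1) F)))
      ≤ (Y.M.sys c.p).ms (tmL (c.W.k g') m') (c.W.k g') (c.W.gb g') (c.aS g' V m') (Xp.run (c.W.k g') m' (c.mid g g')
        (ContinuousLinearMap.adjoint ((Y.M.sys c.p).An (tmL (c.W.k g) m) (c.W.k g) (c.W.gb g)) ((Y.M.sys c.p).mulR (c.W.k g) ((c.aS g A m).indicator fun _ => 1) F))) :=
    gn_en_le_ms _ _ _ hwV haV (fun x hx => sf_core_wS_supp c g' V m' x hx) _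
  refine (Real.sqrt_le_sqrt h1).trans (key.trans ?_)
  have hK0 := sf_loc_stack_kpos L C N Λ hΛ (c.W.k g) (c.W.k g')
  have h6 : (0 : ℝ) ≤ (C : ℝ) + 1 := by positivity
  exact mul_le_mul (mul_le_mul_of_nonneg_right (by linarith) hK0) hFn (norm_nonneg _) (mul_nonneg h6 hK0)

/-! ## 5. Arbitrary gates, hybrid model      (LEAF L-256-SFC-IND) -/

/-- the inductive form of `sf_core_loc_ind`: the constant counts the gates strictly between `i` and `j` -/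
theorem sf_core_loc_ind_aux (hy : Y.hyb = true) {de : ℝ} (c : SfCfg Y de) (C : ℕ) (hob : c.ob C) (hT : (Y.M.sys c.p).Tight) (κ : ℝ) (hκ : 0 ≤ κ)
    (hstep : ∀ g g' : ℝ, sfNext c.W.G g g' → ∀ (A : c.D.Row g → Prop) (V : c.D.Row g' → Prop), (∀ ρ, A ρ → ∀ ρ', V ρ' → ¬ c.Lk ⟨g, ρ⟩ ⟨g', ρ'⟩) →
      ∀ (m' : ℕ) (ψ : (Y.M.sys c.p).Kc),
      Real.sqrt (c.rdE g' V m' (Xp.run (c.W.k g') m' (c.mid g g') ((Y.M.sys c.p).tz (tmL (c.W.k g) (ancI (c.W.k g') (c.W.k g) m')) (c.W.k g) (c.W.gb g)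
        (c.wS g A (ancI (c.W.k g') (c.W.k g) m')) ψ))) ≤ κ * ‖ψ‖)
    (j : ℝ) (hj : j ∈ c.W.G) (V : c.D.Row j → Prop) (m' : ℕ) (n : ℕ) :
    ∀ (i : ℝ) (_ : i ∈ c.W.G) (_ : i < j), (c.W.G.filter (fun g => i < g ∧ g < j)).card = n →
      ∀ (A : c.D.Row i → Prop), (∀ ρ, A ρ → ∀ ρ', V ρ' → ¬ c.D.Conn i j ρ ρ') → ∀ (ψ : (Y.M.sys c.p).Kc),
    Real.sqrt (c.rdE j V m' (Xp.run (c.W.k j) m' (c.mid i j) ((Y.M.sys c.p).tz (tmL (c.W.k i) (ancI (c.W.k j) (c.W.k i) m')) (c.W.k i) (c.W.gb i)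
        (c.wS i A (ancI (c.W.k j) (c.W.k i) m')) ψ)))
      ≤ ((n : ℝ) + 1) * κ * ‖ψ‖ := by
  classical
  have hs := hob.2.2.1
  induction n with
  | zero =>
    intro i hi hij hcard A hno ψ
    have hnext : sfNext c.W.G i j := by
      refine ⟨hi, hj, hij, fun k hk hk2 => ?_⟩
      have : k ∈ c.W.G.filter (fun g => i < g ∧ g < j) := Finset.mem_filter.2 ⟨hk, hk2⟩
      rw [Finset.card_eq_zero.1 hcard] at this
      exact absurd this (Finset.notMem_empty _)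
    have := hstep i j hnext A V (fun ρ hρ ρ' hρ' hl => hno ρ hρ ρ' hρ' ((sf_core_conn c i hi j hj ρ ρ').2 (Relation.TransGen.single hl))) m' ψ
    simpa using this
  | succ n ih =>
    intro i hi hij hcard A hno ψ
    set F := c.W.G.filter (fun g => i < g ∧ g < j) with hF
    have hne : F.Nonempty := by
      rw [← Finset.card_pos, hcard]
      exact Nat.succ_pos n
    set g := F.min' hne with hg
    have hgF : g ∈ F := Finset.min'_mem F hne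
    obtain ⟨hgG, hig, hgj⟩ : g ∈ c.W.G ∧ i < g ∧ g < j := by
      have := Finset.mem_filter.1 hgF
      exact ⟨this.1, this.2.1, this.2.2⟩
    have hnext : sfNext c.W.G i g := by
      refine ⟨hi, hgG, hig, fun k hk hk2 => ?_⟩
      have hkF : k ∈ F := Finset.mem_filter.2 ⟨hk, hk2.1, hk2.2.trans hgj⟩
      exact absurd (Finset.min'_le F k hkF) (not_le.2 hk2.2)
    have hcard' : (c.W.G.filter (fun g' => g < g' ∧ g' < j)).card = n := by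
      have e : c.W.G.filter (fun g' => g < g' ∧ g' < j) = F.erase g := by
        ext k
        simp only [Finset.mem_filter, Finset.mem_erase, hF]
        constructor
        · rintro ⟨h1, h2, h3⟩
          exact ⟨h2.ne', h1, hig.trans h2, h3⟩
        · rintro ⟨h0, h1, h2, h3⟩
          have hkF : k ∈ F := Finset.mem_filter.2 ⟨h1, h2, h3⟩
          exact ⟨h1, lt_of_le_of_ne (Finset.min'_le F k hkF) (Ne.symm h0), h3⟩
      rw [e, Finset.card_erase_of_mem hgF, hcard]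
      rfl
    clear_value g F
    -- notation
    set mg := ancI (c.W.k j) (c.W.k g) m' with hmg
    have hanc : ancI (c.W.k g) (c.W.k i) mg = ancI (c.W.k j) (c.W.k i) m' :=
      gn_anc_anc (hs.k_mono i hi g hgG hig).1 (hs.k_mono g hgG j hj hgj).1 m'
    set U : c.D.Row g → Prop := fun ρ => ∃ ρ', V ρ' ∧ c.D.Conn g j ρ ρ' with hU
    set φ := (Y.M.sys c.p).tz (tmL (c.W.k i) (ancI (c.W.k j) (c.W.k i) m')) (c.W.k i) (c.W.gb i) (c.wS i A (ancI (c.W.k j) (c.W.k i) m')) ψ with hφ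
    set χ := Xp.run (c.W.k g) mg (c.mid i g) φ with hχ
    have hmid1 := sf_core_mid_ok c C hob i hi g hgG hig
    have hmid2 := sf_core_mid_ok c C hob g hgG j hj hgj
    have hφn : ‖φ‖ ≤ ‖ψ‖ := gn_tz_norm_le hT _ _ _ (sf_core_wS_mask c hs i hi A _) ψ
    have hχn : ‖χ‖ ≤ ‖ψ‖ := (gn_run_norm_le hT _ _ _ hmid1.msk φ).trans hφn
    have mU := sf_core_wS_mask c hs g hgG U mg
    have mN := sf_core_wS_mask c hs g hgG (fun ρ => ¬ U ρ) mg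
    have mV := sf_core_wS_mask c hs j hj V m'
    have egM : c.W.gM g mg = fun x => c.wS g U mg x + c.wS g (fun ρ => ¬ U ρ) mg x := by
      funext x
      rw [← sf_core_wS_split c g U mg x, sf_core_wS_all c hy hs g hgG mg x]
      rfl
    have mS : IsMask (fun x => c.wS g U mg x + c.wS g (fun ρ => ¬ U ρ) mg x) := by
      rw [← egM]
      exact sf_core_gM_mask c hs g hgG mg
    rw [sf_core_run_split c C hob i hi g hgG j hj hig hgj m' φ, ← hmg, ← hχ, egM, sf_tz_add_mask _ _ _ mU mN mS, gn_run_add _ _ _ hmid2.msk]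
    unfold SfCfg.rdE
    refine (gn_en_tri _ _ _ mV _ _).trans ?_
    -- the term `U`
    have t1 : Real.sqrt ((Y.M.sys c.p).en (tmL (c.W.k j) m') (c.W.k j) (c.W.gb j) (c.wS j V m')
        (Xp.run (c.W.k j) m' (c.mid g j) ((Y.M.sys c.p).tz (tmL (c.W.k g) mg) (c.W.k g) (c.W.gb g) (c.wS g U mg) χ))) ≤ κ * ‖ψ‖ := by
      have a1 : Real.sqrt ((Y.M.sys c.p).en (tmL (c.W.k j) m') (c.W.k j) (c.W.gb j) (c.wS j V m')
          (Xp.run (c.W.k j) m' (c.mid g j) ((Y.M.sys c.p).tz (tmL (c.W.k g) mg) (c.W.k g) (c.W.gb g) (c.wS g U mg) χ)))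
          ≤ ‖(Y.M.sys c.p).tz (tmL (c.W.k g) mg) (c.W.k g) (c.W.gb g) (c.wS g U mg) χ‖ := by
        refine (Real.sqrt_le_sqrt (gn_en_le hT _ _ _ mV _)).trans ?_
        rw [Real.sqrt_sq (norm_nonneg _)]
        exact gn_run_norm_le hT _ _ _ hmid2.msk _
      have a2 : ‖(Y.M.sys c.p).tz (tmL (c.W.k g) mg) (c.W.k g) (c.W.gb g) (c.wS g U mg) χ‖ ≤ Real.sqrt (c.rdE g U mg χ) := by
        apply Real.le_sqrt_of_sq_le
        refine (gn_tz_normsq_le hT _ _ _ mU χ).trans ?_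
        unfold SfCfg.rdE
        have mU2 : IsMask (fun x => c.wS g U mg x ^ 2) := by
          refine ⟨mU.1.pow_const 2, fun x => ⟨sq_nonneg _, ?_⟩⟩
          exact pow_le_one₀ (mU.2 x).1 (mU.2 x).2
        refine gn_en_mono _ _ _ mU2 mU (fun x => ?_) χ
        have h0 := (mU.2 x).1
        have h1 := (mU.2 x).2
        nlinarith
      have a3 := hstep i g hnext A U (fun ρ hρ ρ1 hρ1 hl => by
        obtain ⟨ρ', hV, hc⟩ := hρ1
        exact hno ρ hρ ρ' hV ((sf_core_conn c i hi j hj ρ ρ').2 (Relation.TransGen.head hl ((sf_core_conn c g hgG j hj ρ1 ρ').1 hc)))) mg ψ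
      rw [hanc] at a3
      exact a1.trans (a2.trans a3)
    -- the term `¬ U`
    have t2 := ih g hgG hgj hcard' (fun ρ => ¬ U ρ) (fun ρ hρ ρ' hV hc => hρ ⟨ρ', hV, hc⟩) χ
    unfold SfCfg.rdE at t2
    rw [← hmg] at t2
    have t3 : ((n : ℝ) + 1) * κ * ‖χ‖ ≤ ((n : ℝ) + 1) * κ * ‖ψ‖ := by gcongr
    calc _ ≤ κ * ‖ψ‖ + ((n : ℝ) + 1) * κ * ‖ψ‖ := add_le_add t1 (t2.trans t3)
      _ = (((n + 1 : ℕ) : ℝ) + 1) * κ * ‖ψ‖ := by push_cast; ring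

/-- **no `Conn`, no transport** (hybrid model: the mask of a gate is the sum of the weights of its rows).   `κ` = a bound for the constant of `sf_core_loc_step`.
PLAN: strong induction on `(G.filter (fun g => i < g ∧ g < j)).card`, for all `i A ψ` (`j V m'` fixed, or all).   If no gate lies between: `sfNext`, `hstep` (a link is a `Conn`: `sf_core_conn`, `Relation.TransGen.single`).
Otherwise let `g` be the least gate `> i` (`Finset.min'`), `sfNext G i g`, `g < j`; `mg = ancI (k j) (k g) m'`, `ancI (k g) (k i) mg = ancI (k j) (k i) m'` (`gn_anc_anc`).   `sf_core_run_split`: the state is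
`run (mid g j) (tz (gM g mg) χ)`, `χ = run (k g) mg (mid i g) (tz (wS i A m) ψ)`, `‖χ‖ ≤ ‖ψ‖` (`gn_run_norm_le`, `gn_tz_norm_le`).   `gM g mg = wS g True mg` (`sf_core_wS_all`, HYBRID) `= wS g 𝒰 mg + wS g (¬𝒰) mg` (`sf_core_wS_split`),
`𝒰 ρ := ∃ ρ', V ρ' ∧ Conn g j ρ ρ'`.   `sf_tz_add_mask`, `gn_run_add`, `gn_en_tri`.
Term `𝒰`: `√rdE ≤ ‖tz (wS g 𝒰 mg) χ‖` (`gn_en_le`, `gn_run_norm_le`), `‖tz M χ‖² ≤ en (M²) χ ≤ en M χ = rdE g 𝒰 mg χ` (`gn_tz_normsq_le`, `gn_en_mono`), `≤ (κ ‖ψ‖)²` by `hstep` (no link from `A` to `𝒰`: it would give `Conn i j` by `TransGen.head`).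
Term `¬𝒰`: induction hypothesis for `(g, ¬𝒰, χ)`.   Count: gates in `[i, j)` = 1 + gates in `[g, j)`. -/
theorem sf_core_loc_ind (hy : Y.hyb = true) {de : ℝ} (c : SfCfg Y de) (C : ℕ) (hob : c.ob C) (hT : (Y.M.sys c.p).Tight) (κ : ℝ) (hκ : 0 ≤ κ)
    (hstep : ∀ g g' : ℝ, sfNext c.W.G g g' → ∀ (A : c.D.Row g → Prop) (V : c.D.Row g' → Prop), (∀ ρ, A ρ → ∀ ρ', V ρ' → ¬ c.Lk ⟨g, ρ⟩ ⟨g', ρ'⟩) →
      ∀ (m' : ℕ) (ψ : (Y.M.sys c.p).Kc),
      Real.sqrt (c.rdE g' V m' (Xp.run (c.W.k g') m' (c.mid g g') ((Y.M.sys c.p).tz (tmL (c.W.k g) (ancI (c.W.k g') (c.W.k g) m')) (c.W.k g) (c.W.gb g)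
        (c.wS g A (ancI (c.W.k g') (c.W.k g) m')) ψ))) ≤ κ * ‖ψ‖)
    (i : ℝ) (hi : i ∈ c.W.G) (j : ℝ) (hj : j ∈ c.W.G) (hij : i < j) (A : c.D.Row i → Prop) (V : c.D.Row j → Prop) (hno : ∀ ρ, A ρ → ∀ ρ', V ρ' → ¬ c.D.Conn i j ρ ρ')
    (m' : ℕ) (ψ : (Y.M.sys c.p).Kc) :
    Real.sqrt (c.rdE j V m' (Xp.run (c.W.k j) m' (c.mid i j) ((Y.M.sys c.p).tz (tmL (c.W.k i) (ancI (c.W.k j) (c.W.k i) m')) (c.W.k i) (c.W.gb i)
        (c.wS i A (ancI (c.W.k j) (c.W.k i) m')) ψ)))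
      ≤ (c.W.G.card : ℝ) * κ * ‖ψ‖ := by
  classical
  refine (sf_core_loc_ind_aux hy c C hob hT κ hκ hstep j hj V m' _ i hi hij rfl A hno ψ).trans ?_
  have h1 : (c.W.G.filter (fun g => i < g ∧ g < j)).card + 1 ≤ c.W.G.card := by
    have h2 : c.W.G.filter (fun g => i < g ∧ g < j) ⊆ c.W.G.erase i := by
      intro k hk
      have := Finset.mem_filter.1 hk
      exact Finset.mem_erase.2 ⟨this.2.1.ne', this.1⟩
    have h3 := Finset.card_le_card h2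
    rw [Finset.card_erase_of_mem hi] at h3
    have h4 : 0 < c.W.G.card := Finset.card_pos.2 ⟨i, hi⟩
    omega
  have h5 : (((c.W.G.filter (fun g => i < g ∧ g < j)).card : ℝ) + 1) ≤ (c.W.G.card : ℝ) := by exact_mod_cast h1
  have := norm_nonneg ψ
  gcongr

end Claimed.Agent.R256
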