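import Claimed.Agent.R256.Soft.MCoreCl
import Claimed.Agent.R256.Soft.MCoreLoc

/-!
# Row 256 (S0496), unit SOFT, block M2 CORE (architect helper169), file 7: LOC (both models), SP, TP      -- KEEP

PAPER-FREE.  Rules: header of `Soft/MCoreDefs.lean`; notation: header of `Soft/MCoreGeo.lean`.      `P = Y.M.sys c.p`, `m = ancI (k j) (k i) m'`.
* `sf_core_loc`       what `V` reads at the gate `j` changes by `s^Cb ‖pre i m‖` if the synthesis at the gate `i` is restricted to a set `R` that contains all `Conn`-predecessors of `V`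
* `SfCfg.xpR i j S U` THE RESTRICTED PREFIX EXPERIMENT: root of `E`, stack `take (pos i) ++ [gate i restricted to S] ++ mid i j`, final depth `k j`, labels = labels of the gate `j` with the weights restricted to the atoms of `U`
* `sf_core_xp_*`      it is valid, in the class; its total mass is `Σ_m' rdE j U m' (preR i j S m')`; its readout is bounded by `gn_tail` at the cut `k i`
* `sf_holder`, `sf_sp_num`      Hölder `Σ m ≤ rd^(2/3) tw^(1/3)`; the exponents cancel because `Γ = d + (1-p)/2`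
* `sf_core_sp`, `sf_core_tp`    the two fields
-/

set_option autoImplicit false

namespace Claimed.Agent.R256

open MeasureTheory Claimed.Agent.R255

variable {Y : SfCy}

/-! ## 1. LOC      (LEAF L-256-SFC-LOC) -/

theorem sf_core_loc_num (ε1 h : ℝ) (hε1 : 0 < ε1) (_hh : 0 < h) (Cb C : ℕ) (Cl : ℝ) (CN : ℕ → ℝ) :
    ∃ N n0 : ℕ, ∀ n : ℕ, n0 ≤ n → ∀ ε : ℝ, ε1 ≤ ε → ∃ Λ κ : ℝ, 1 ≤ Λ ∧ (4 * (C : ℝ) + 1) * Λ ≤ 2 ^ (ε * n) ∧ 0 ≤ κ ∧
      (∀ d : ℝ, d ≤ n → ((C : ℝ) + 1) * (|CN N| * Λ ^ (-(N : ℝ)) * 2 ^ (|Cl| * d)) ≤ κ) ∧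
      (∀ g : ℝ, 0 ≤ g → g ≤ 1 / h + 1 → g * κ ≤ 2 ^ (-((Cb : ℝ) * n))) := by
  obtain ⟨N, hN⟩ := exists_nat_ge (2 * ((Cb : ℝ) + |Cl| + 2) / ε1)
  obtain ⟨n1, hn1⟩ := gn_absorb (4 * (C : ℝ) + 1) (ε1 / 2) (by positivity)
  obtain ⟨n2, hn2⟩ := gn_absorb ((1 / h + 1) * (((C : ℝ) + 1) * |CN N|)) 1 one_pos
  refine ⟨N, max n1 n2, fun n hn ε hε => ?_⟩
  have h1 := hn1 n (le_trans (le_max_left _ _) hn)
  have h2 := hn2 n (le_trans (le_max_right _ _) hn)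
  have hC : (0 : ℝ) < 4 * C + 1 := by positivity
  have hn0 : (0 : ℝ) ≤ n := Nat.cast_nonneg n
  have hlo : (2 : ℝ) ^ (ε1 / 2 * n) ≤ 2 ^ (ε * n) / (4 * C + 1) := by
    rw [le_div_iff₀ hC]
    calc (2 : ℝ) ^ (ε1 / 2 * n) * (4 * C + 1) ≤ 2 ^ (ε1 / 2 * n) * 2 ^ (ε1 / 2 * n) := mul_le_mul_of_nonneg_left h1 (gn_two_pos _).le
      _ = 2 ^ (ε1 * n) := by rw [← gn_two_add]; congr 1; ring
      _ ≤ 2 ^ (ε * n) := gn_two_mono (mul_le_mul_of_nonneg_right hε hn0)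
  have hone : (1 : ℝ) ≤ 2 ^ (ε1 / 2 * n) := Real.one_le_rpow (by norm_num) (by positivity)
  have hNε : ((Cb : ℝ) + |Cl| + 2) ≤ ε1 / 2 * N := by
    rw [div_le_iff₀ hε1] at hN
    linarith
  have hpw : (2 ^ (ε * n) / (4 * (C : ℝ) + 1)) ^ (-(N : ℝ)) ≤ 2 ^ (-(((Cb : ℝ) + |Cl| + 2) * n)) := by
    calc (2 ^ (ε * n) / (4 * (C : ℝ) + 1)) ^ (-(N : ℝ)) ≤ ((2 : ℝ) ^ (ε1 / 2 * n)) ^ (-(N : ℝ)) :=
          Real.rpow_le_rpow_of_nonpos (gn_two_pos _) hlo (by simp)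
      _ = 2 ^ (ε1 / 2 * n * (-(N : ℝ))) := gn_two_mul _ _
      _ ≤ 2 ^ (-(((Cb : ℝ) + |Cl| + 2) * n)) := by
          apply gn_two_mono
          have := mul_le_mul_of_nonneg_right hNε hn0
          linarith
  have hcn : 0 ≤ |CN N| := abs_nonneg _
  have hC1 : (0 : ℝ) ≤ (C : ℝ) + 1 := by positivity
  refine ⟨2 ^ (ε * n) / (4 * C + 1), ((C : ℝ) + 1) * |CN N| * 2 ^ (-(((Cb : ℝ) + 2) * n)), hone.trans hlo, ?_, ?_, ?_, ?_⟩
  · rw [mul_div_cancel₀ _ hC.ne']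
  · exact mul_nonneg (mul_nonneg hC1 hcn) (gn_two_pos _).le
  · intro d hd
    have h3 : (2 : ℝ) ^ (|Cl| * d) ≤ 2 ^ (|Cl| * n) := gn_two_mono (mul_le_mul_of_nonneg_left hd (abs_nonneg _))
    have h4 : (2 ^ (ε * n) / (4 * (C : ℝ) + 1)) ^ (-(N : ℝ)) * 2 ^ (|Cl| * d) ≤ 2 ^ (-(((Cb : ℝ) + 2) * n)) := by
      calc (2 ^ (ε * n) / (4 * (C : ℝ) + 1)) ^ (-(N : ℝ)) * 2 ^ (|Cl| * d)
          ≤ 2 ^ (-(((Cb : ℝ) + |Cl| + 2) * n)) * 2 ^ (|Cl| * n) := mul_le_mul hpw h3 (gn_two_pos _).le (gn_two_pos _).le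
        _ = 2 ^ (-(((Cb : ℝ) + 2) * n)) := by rw [← gn_two_add]; congr 1; ring
    calc ((C : ℝ) + 1) * (|CN N| * (2 ^ (ε * n) / (4 * (C : ℝ) + 1)) ^ (-(N : ℝ)) * 2 ^ (|Cl| * d))
        = ((C : ℝ) + 1) * |CN N| * ((2 ^ (ε * n) / (4 * (C : ℝ) + 1)) ^ (-(N : ℝ)) * 2 ^ (|Cl| * d)) := by ring
      _ ≤ ((C : ℝ) + 1) * |CN N| * 2 ^ (-(((Cb : ℝ) + 2) * n)) := mul_le_mul_of_nonneg_left h4 (mul_nonneg hC1 hcn)
  · intro g hg0 hg
    have h5 : g * (((C : ℝ) + 1) * |CN N|) ≤ 2 ^ ((1 : ℝ) * n) := le_trans (mul_le_mul_of_nonneg_right hg (mul_nonneg hC1 hcn)) h2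
    calc g * (((C : ℝ) + 1) * |CN N| * 2 ^ (-(((Cb : ℝ) + 2) * n))) = g * (((C : ℝ) + 1) * |CN N|) * 2 ^ (-(((Cb : ℝ) + 2) * n)) := by ring
      _ ≤ 2 ^ ((1 : ℝ) * n) * 2 ^ (-(((Cb : ℝ) + 2) * n)) := mul_le_mul_of_nonneg_right h5 (gn_two_pos _).le
      _ = 2 ^ (-(((Cb : ℝ) + 1) * n)) := by rw [← gn_two_add]; congr 1; ring
      _ ≤ 2 ^ (-((Cb : ℝ) * n)) := by
          apply gn_two_mono
          nlinarith

/-- **LOC.**   PLAN.  `cases hy : Y.hyb`.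
CLASSICAL: constants `1, 1, 0, 0, 0`; `sf_core_loc_cl` gives equality, the error term is `≥ 0`.
HYBRID: `obtain ⟨L, hL⟩ := hE.loc`.   Constants `a = 1, ε0 = 1, μ0 = 0`;  given `ε1, C`:  `N = ⌈2 (Cb + |L.Cl| + 2) / ε1⌉₊`, `A = 0`, `n0` (`gn_absorb`) with `4C + 1 ≤ 2^(ε1 n / 2)` and `(1/h + 1)(C + 1)|L.CN C N| ≤ 2^n`.
`Λ = s^(-ε) / (4C+1) ≥ s^(-ε/2) ≥ s^(-ε1/2) ≥ 1`;  `Λ^(-N) ≤ s^(N ε1 / 2) ≤ s^(Cb + |Cl| + 2)`;  `sfKer L C N Λ (k g) (k g') ≤ |CN| Λ^(-N) s^(-|Cl|)` (`k g' - k g ≤ n` by `Str.k_rg`, `kf = k0 + n`);  `κ = (C+1)|CN| Λ^(-N) s^(-|Cl|)`;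
`card G ≤ 1/h + 1` (`sf_core_card`, `Gap`, `hG`): `card G κ ≤ s^(-1) s^(Cb+2) ≤ s^Cb`.   `Tight` from `hE.gen.tight` (`gd` by `hO.af`).
`pre j m' = run (mid i j) (tz (gM i m) (pre i m))` (`sf_core_pre_split`), `gM i m = wS i True m` (`sf_core_wS_all`, funext) `= wS i R m + wS i (¬R) m` (`sf_core_wS_split`); `sf_tz_add_mask`, `gn_run_add` (`StM` from `sf_core_mid_ok`), `gn_en_tri`;
the first term is `preR i j R m'`; the second: `sf_core_loc_ind` with `A = ¬R`, `ψ = pre i m`, `hstep` from `sf_core_loc_step`; `hno` from `Pred`. -/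
theorem sf_core_loc (hO : SfCyOk Y) (hS : SfSep Y) (π : SfPar) (Ls : ℝ) (hE : SfCoreHyp Y π) (h : ℝ) (hh : 0 < h) (Cb : ℕ) :
    SfRigid Y π Ls h (fun c _ => ∀ i ∈ c.W.G, ∀ j ∈ c.W.G, i < j → ∀ (V : c.D.Row j → Prop) (R : c.D.Row i → Prop), c.D.Pred i j V R → ∀ m' : ℕ,
      Real.sqrt (c.rdE j V m' (c.W.pre j m')) ≤ Real.sqrt (c.rdE j V m' (c.preR i j R m'))
        + c.W.E.s ^ (Cb : ℝ) * ‖c.W.pre i (ancI (c.W.k j) (c.W.k i) m')‖) := by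
  cases hy : Y.hyb
  · refine ⟨1, 1, 0, one_pos, one_pos, fun ε1 _ C => ⟨0, 0, fun c hob hx _ _ _ _ _ _ _ i hi j hj hij V R hP m' => ?_⟩⟩
    rw [sf_core_loc_cl hO hy c C hob hx i hi j hj hij V R hP m']
    have : 0 ≤ c.W.E.s ^ (Cb : ℝ) * ‖c.W.pre i (ancI (c.W.k j) (c.W.k i) m')‖ :=
      mul_nonneg (Real.rpow_nonneg (gn_s_pos _).le _) (norm_nonneg _)
    linarith
  · obtain ⟨L, hL⟩ := hE.loc
    refine ⟨1, 1, 0, one_pos, one_pos, fun ε1 hε1 C => ?_⟩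
    obtain ⟨N, n0, hnum⟩ := sf_core_loc_num ε1 h hε1 hh Cb C L.Cl (L.CN C)
    refine ⟨0, n0, fun c hob hx _ hn hext hε _ _ hgap i hi j hj hij V R hP m' => ?_⟩
    obtain ⟨Λ, κ, hΛ, hΛε, hκ, hker, hcard⟩ := hnum c.W.E.n hn c.ε hε
    have hs : c.W.Str (Y.tq c.p) := hob.2.2.1
    have hgd : Y.M.gd c.p := (hO.af C c.A c.p c.W.E c.W.Q0 hob.2.1).1
    have hT : (Y.M.sys c.p).Tight := hE.gen.tight c.p hgd
    have hΛε' : (4 * (C : ℝ) + 1) * Λ ≤ c.W.E.s ^ (-c.ε) := by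
      rw [gn_s_rpow]
      refine hΛε.trans (le_of_eq ?_)
      congr 1
      ring
    have hstep : ∀ g g' : ℝ, sfNext c.W.G g g' → ∀ (A : c.D.Row g → Prop) (V : c.D.Row g' → Prop), (∀ ρ, A ρ → ∀ ρ', V ρ' → ¬ c.Lk ⟨g, ρ⟩ ⟨g', ρ'⟩) →
        ∀ (m' : ℕ) (ψ : (Y.M.sys c.p).Kc),
        Real.sqrt (c.rdE g' V m' (Xp.run (c.W.k g') m' (c.mid g g') ((Y.M.sys c.p).tz (tmL (c.W.k g) (ancI (c.W.k g') (c.W.k g) m')) (c.W.k g) (c.W.gb g)
          (c.wS g A (ancI (c.W.k g') (c.W.k g) m')) ψ))) ≤ κ * ‖ψ‖ := by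
      intro g g' hn' A V' hno m'' ψ
      refine (sf_core_loc_step hO hS _ L hL c C hob hT N Λ hΛ hΛε' g g' hn' A V' hno m'' ψ).trans ?_
      refine mul_le_mul_of_nonneg_right ?_ (norm_nonneg _)
      unfold sfKer
      refine hker _ ?_
      have a1 := (hs.k_rg g hn'.1).1
      have a2 := (hs.k_rg g' hn'.2.1).2
      have a3 : c.W.k g' ≤ c.W.k g + c.W.E.n := by
        unfold Xp.kf at a2
        omega
      have a4 : (c.W.k g' : ℝ) ≤ (c.W.k g : ℝ) + c.W.E.n := by exact_mod_cast a3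
      linarith
    have hcd : (c.W.G.card : ℝ) ≤ 1 / h + 1 := by
      refine sf_core_card c.W.G h hh hs.gate.2 ?_
      have := hgap
      unfold SfDoc.GapK at this
      rw [c.sh.hG] at this
      exact this
    obtain ⟨m, hm⟩ : ∃ m, m = ancI (c.W.k j) (c.W.k i) m' := ⟨_, rfl⟩
    have hmid := sf_core_mid_ok c C hob i hi j hj hij
    have mR := sf_core_wS_mask c hs i hi R m
    have mN := sf_core_wS_mask c hs i hi (fun ρ => ¬ R ρ) m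
    have mV := sf_core_wS_mask c hs j hj V m'
    have egM : c.W.gM i m = fun x => c.wS i R m x + c.wS i (fun ρ => ¬ R ρ) m x := by
      funext x
      rw [← sf_core_wS_split c i R m x, sf_core_wS_all c hy hs i hi m x]
      rfl
    have mS : IsMask (fun x => c.wS i R m x + c.wS i (fun ρ => ¬ R ρ) m x) := by
      rw [← egM]
      exact sf_core_gM_mask c hs i hi m
    have t2 := sf_core_loc_ind hy c C hob hT κ hκ hstep i hi j hj hij (fun ρ => ¬ R ρ) V (fun ρ hρ ρ' hV hc => hρ (hP ρ' hV ρ hc)) m' (c.W.pre i m)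
    rw [← hm] at t2 ⊢
    have t3 : (c.W.G.card : ℝ) * κ * ‖c.W.pre i m‖ ≤ c.W.E.s ^ (Cb : ℝ) * ‖c.W.pre i m‖ := by
      refine mul_le_mul_of_nonneg_right ?_ (norm_nonneg _)
      rw [gn_s_rpow]
      exact hcard _ (Nat.cast_nonneg _) hcd
    have e1 : c.preR i j R m' = Xp.run (c.W.k j) m' (c.mid i j) ((Y.M.sys c.p).tz (tmL (c.W.k i) m) (c.W.k i) (c.W.gb i) (c.wS i R m) (c.W.pre i m)) := by
      rw [hm]
      rfl
    rw [sf_core_pre_split c hs i hi j hj hij m', ← hm, egM, sf_tz_add_mask _ _ _ mR mN mS, gn_run_add _ _ _ hmid.msk, e1]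
    unfold SfCfg.rdE at t2 ⊢
    refine (gn_en_tri _ _ _ mV _ _).trans ?_
    exact add_le_add le_rfl (t2.trans t3)

/-! ## 2. The restricted prefix experiment -/

namespace SfCfg

variable {de : ℝ} (c : SfCfg Y de)

/-- the stage of the gate `i` restricted to the rows of `S` -/
noncomputable def stgR (i : ℝ) (S : c.D.Row i → Prop) : Stg (Y.M.sys c.p) := ⟨c.W.k i, c.W.gb i, c.wS i S⟩

open Classical in
/-- the weight of the label `l` of the gate `j` restricted to the atoms of the rows of `U` -/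
noncomputable def thU (j : ℝ) (U : c.D.Row j → Prop) (l : c.W.Lb j) (x : (Y.M.sys c.p).X) : ℝ :=
  ∑ ρ, if U ρ ∧ c.sh.lb j ρ = l then (c.sh.atm j ρ).indicator (c.W.th j l) x else 0

/-- the restricted prefix experiment -/
noncomputable def xpR (i j : ℝ) (S : c.D.Row i → Prop) (U : c.D.Row j → Prop) : Xp (Y.M.sys c.p) :=
  c.W.E.pre (c.W.k j - c.W.E.k0) (c.W.E.st.take (c.W.pos i) ++ c.stgR i S :: c.mid i j) (c.W.gb j)
    (fun a => c.W.iv j ((Fintype.equivFin (c.W.Lb j)).symm a))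
    (fun a => c.W.ts j ((Fintype.equivFin (c.W.Lb j)).symm a))
    (fun a => c.thU j U ((Fintype.equivFin (c.W.Lb j)).symm a))

end SfCfg

theorem sf_mcore_sp_eqns_cite : True := by
  have := @SfCfg.stgR.eq_1
  have := @SfCfg.thU.eq_1
  have := @SfCfg.xpR.eq_1
  trivial

section

variable {de : ℝ} (c : SfCfg Y de)

/-- the restricted weight of a label: measurable, between `0` and the weight of the label -/
theorem sf_core_xp_valid_thU (hs : c.W.Str (Y.tq c.p)) (j : ℝ) (hj : j ∈ c.W.G) (U : c.D.Row j → Prop) (l : c.W.Lb j) :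
    Measurable (c.thU j U l) ∧ ∀ x, 0 ≤ c.thU j U l x ∧ c.thU j U l x ≤ c.W.th j l x := by
  classical
  refine ⟨?_, fun x => ⟨?_, ?_⟩⟩
  · unfold SfCfg.thU
    refine Finset.measurable_fun_sum _ fun ρ _ => ?_
    split_ifs
    · exact (hs.meas j hj _).indicator (c.sh.at_meas j hj ρ)
    · exact measurable_const
  · unfold SfCfg.thU
    refine Finset.sum_nonneg fun ρ _ => ?_
    split_ifs
    · exact Set.indicator_nonneg (fun y _ => hs.nn j hj _ y) x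
    · exact le_rfl
  · unfold SfCfg.thU
    refine sf_core_wS_mask_aux Finset.univ (fun ρ => {y | c.sh.lb j ρ = l ∧ y ∈ c.sh.atm j ρ}) ?_ _ _ (hs.nn j hj l x) x ?_ ?_
    · intro ρ _ ρ' _ hne
      rw [Set.disjoint_left]
      rintro y ⟨h1, h2⟩ ⟨h3, h4⟩
      exact Set.disjoint_left.1 (c.sh.at_disj j hj ρ ρ' (h1.trans h3.symm) hne) h2 h4
    · intro ρ _ hx
      split_ifs with h
      · exact Set.indicator_of_notMem (fun hx' => hx ⟨h.2, hx'⟩) _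
      · rfl
    · intro ρ _
      split_ifs
      · exact Set.indicator_le_self' (fun _ _ => hs.nn j hj l x) x
      · exact hs.nn j hj l x

/-- **(LEAF L-256-SFC-XPV) structure of `xpR`.**   PLAN: unfold `SfCfg.xpR`, `Xp.pre`.   `Valid` field by field: root fields = those of `E` (`Str.valid`);   the stack has the depths and generations of `E.st.take (pos j)` (`sf_core_take`: only the mask of one stage is replaced):
`st_dep` (`k0 ≤ σ.k ≤ k j = kf'`: `sf_core_take_le`, `sf_core_mid_ok`, `Str.k_rg`, `Valid.st_dep`), `st_mono` (`List.pairwise_append`, `List.pairwise_cons` on `Valid.st_mono.sublist (List.take_sublist ..)`), masks (`sf_core_wS_mask`, `Valid.st_meas`, `st_bd`);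
`kf' = k0 + (k j - k0) = k j`;   `iv_in` (`Str.iv_in`, `gn_mem_ivs`), `ts_ok` (`Str.ok`), `w_pos` (`Tight.wt_pos`), `th_meas`, `th_nn`, `th_supp` (`thU l x ≠ 0 → th j l x ≠ 0`, `Str.supp`),
`th_sum`: reindex by `Fintype.equivFin` (`Equiv.sum_comp`), `thU j U l x ≤ th j l x` (atoms of one label are disjoint: `at_disj`), `Str.sum_le`.   Length: `= pos j ≤ length ≤ C` (`List.length_take`, `sf_core_take`).   `GenLe`: `sf_core_gb_le`, `hob`. -/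
theorem sf_core_xp_valid (C : ℕ) (hob : c.ob C) (hT : (Y.M.sys c.p).Tight) (i : ℝ) (hi : i ∈ c.W.G) (j : ℝ) (hj : j ∈ c.W.G) (hij : i < j)
    (S : c.D.Row i → Prop) (U : c.D.Row j → Prop) :
    (c.xpR i j S U).Valid ∧ Mdl.SameRoot c.W.E (c.xpR i j S U) ∧ (c.xpR i j S U).st.length ≤ C ∧ (c.xpR i j S U).GenLe C ∧ (c.xpR i j S U).kf = c.W.k j ∧
      (c.xpR i j S U).n = c.W.k j - c.W.E.k0 ∧ (c.xpR i j S U).CutAt (c.W.k i) (c.W.E.st.take (c.W.pos i) ++ [c.stgR i S]) (c.mid i j) := by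
  classical
  have hlen := hob.1
  have hs := hob.2.2.1
  have hgen := hob.2.2.2.1
  have hki := hs.k_rg i hi
  have hkj := hs.k_rg j hj
  have hkij := (hs.k_mono i hi j hj hij).1
  have hmid := sf_core_mid_ok c C hob i hi j hj hij
  have htk := sf_core_take c hs i hi j hj hij
  have htl := sf_core_take_le c hs i hi
  have hV := hs.valid
  have hkf : (c.xpR i j S U).kf = c.W.k j := by
    show c.W.E.k0 + (c.W.k j - c.W.E.k0) = c.W.k j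
    omega
  have hst : (c.xpR i j S U).st = c.W.E.st.take (c.W.pos i) ++ c.stgR i S :: c.mid i j := rfl
  have hmem : ∀ σ ∈ (c.xpR i j S U).st, σ ∈ c.W.E.st.take (c.W.pos i) ∨ σ = c.stgR i S ∨ σ ∈ c.mid i j := by
    intro σ hσ
    rw [hst, List.mem_append, List.mem_cons] at hσ
    exact hσ
  refine ⟨?_, ⟨rfl, rfl, rfl, rfl, rfl, rfl⟩, ?_, ⟨hgen.1, sf_core_gb_le c C hob j hj, ?_⟩, hkf, rfl, ?_⟩
  · refine ⟨hV.e_pos, hV.ka_pos, hV.budget, hV.plat, hV.reg, ?_, ?_, ?_, ?_, ?_, ?_, ?_, ?_, ?_, ?_, ?_⟩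
    · intro σ hσ
      rw [hkf]
      show c.W.E.k0 ≤ σ.k ∧ σ.k ≤ c.W.k j
      rcases hmem σ hσ with h | h | h
      · exact ⟨(hV.st_dep σ (List.mem_of_mem_take h)).1, (htl σ h).trans hkij⟩
      · subst h
        exact ⟨hki.1, hkij⟩
      · exact ⟨hki.1.trans (hmid.dep σ h).1, (hmid.dep σ h).2⟩
    · rw [hst, List.pairwise_append, List.pairwise_cons]
      refine ⟨hV.st_mono.sublist (List.take_sublist _ _), ⟨fun σ' h' => (hmid.dep σ' h').1, hmid.mono⟩, fun a ha b hb => ?_⟩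
      rcases List.mem_cons.1 hb with h | h
      · subst h
        exact htl a ha
      · exact (htl a ha).trans (hmid.dep b h).1
    · intro σ hσ m
      rcases hmem σ hσ with h | h | h
      · exact hV.st_meas σ (List.mem_of_mem_take h) m
      · subst h
        exact (sf_core_wS_mask c hs i hi S m).1
      · exact (hmid.msk σ h m).1
    · intro σ hσ m x
      rcases hmem σ hσ with h | h | h
      · exact hV.st_bd σ (List.mem_of_mem_take h) m x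
      · subst h
        exact (sf_core_wS_mask c hs i hi S m).2 x
      · exact (hmid.msk σ h m).2 x
    · intro a
      rw [hkf]
      exact (gn_mem_ivs _ _ _ _).1 (hs.iv_in j hj _)
    · intro a
      rw [hkf]
      exact hs.ok j hj _
    · intro a
      exact hT.wt_pos _ _ (hs.ok j hj _)
    · intro a
      exact (sf_core_xp_valid_thU c hs j hj U _).1
    · intro a x
      exact ((sf_core_xp_valid_thU c hs j hj U _).2 x).1
    · intro a x hx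
      rw [hkf]
      refine hs.supp j hj _ x fun h0 => hx ?_
      have h1 := (sf_core_xp_valid_thU c hs j hj U ((Fintype.equivFin (c.W.Lb j)).symm a)).2 x
      rw [h0] at h1
      exact le_antisymm h1.2 h1.1
    · intro m x
      have e : ∑ a, (if (c.xpR i j S U).iv a = m then (c.xpR i j S U).th a x else 0) = ∑ l, if c.W.iv j l = m then c.thU j U l x else 0 :=
        Equiv.sum_comp (Fintype.equivFin (c.W.Lb j)).symm (fun l => if c.W.iv j l = m then c.thU j U l x else 0)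
      rw [e]
      refine le_trans (Finset.sum_le_sum fun l _ => ?_) (hs.sum_le j hj m x)
      split_ifs
      · exact ((sf_core_xp_valid_thU c hs j hj U l).2 x).2
      · exact le_rfl
  · have h1 := congrArg List.length htk
    rw [List.length_append, List.length_cons] at h1
    rw [hst, List.length_append, List.length_cons, ← h1]
    exact (List.take_sublist _ _).length_le.trans hlen
  · intro σ hσ
    rcases hmem σ hσ with h | h | h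
    · exact hgen.2.2 σ (List.mem_of_mem_take h)
    · subst h
      exact sf_core_gb_le c C hob i hi
    · exact hmid.gen σ h
  · refine ⟨by rw [hst, List.append_assoc, List.singleton_append], fun σ hσ => ?_, fun σ hσ => (hmid.dep σ hσ).1, hki.1, by rw [hkf]; exact hkij⟩
    rcases List.mem_append.1 hσ with h | h
    · exact htl σ h
    · rw [List.mem_singleton] at h
      subst h
      exact le_rfl

/-! ### masses      (LEAF L-256-SFC-XPM) -/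

theorem sf_core_rdE_law_th1 (hs : c.W.Str (Y.tq c.p)) (i : ℝ) (hi : i ∈ c.W.G) (l : c.W.Lb i) (x : (Y.M.sys c.p).X) : c.W.th i l x ≤ 1 := by
  classical
  refine le_trans ?_ (hs.sum_le i hi (c.W.iv i l) x)
  have h1 := Finset.single_le_sum (f := fun l' => if c.W.iv i l' = c.W.iv i l then c.W.th i l' x else 0)
    (fun l' _ => by
      show 0 ≤ if c.W.iv i l' = c.W.iv i l then c.W.th i l' x else 0
      split_ifs
      · exact hs.nn i hi l' x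
      · exact le_rfl) (Finset.mem_univ l)
  simpa using h1

theorem sf_core_rdE_law_mask (hs : c.W.Str (Y.tq c.p)) (i : ℝ) (hi : i ∈ c.W.G) (ρ : c.D.Row i) (q : Prop) [Decidable q] :
    IsMask (fun x => if q then (c.sh.atm i ρ).indicator (c.W.th i (c.sh.lb i ρ)) x else 0) := by
  by_cases h : q
  · simp only [if_pos h]
    refine ⟨(hs.meas i hi _).indicator (c.sh.at_meas i hi ρ), fun x => ⟨Set.indicator_nonneg (fun y _ => hs.nn i hi _ y) x, ?_⟩⟩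
    exact (Set.indicator_le_self' (fun _ _ => hs.nn i hi _ x) x).trans (sf_core_rdE_law_th1 c hs i hi _ x)
  · simp only [if_neg h]
    exact ⟨measurable_const, fun _ => ⟨le_rfl, zero_le_one⟩⟩

theorem sf_core_rdE_law_zero {P : PkSys} (T : ℝ) (k b : ℕ) (v : P.Kc) : P.en T k b (fun _ => 0) v = 0 := by
  unfold PkSys.en
  simp

/-- the energy read by a set of rows on one interval, row by row (`SfCfg.rdE`, `wS`, `gn_en_sum`, `SfSh.law`; a term with a false condition is `en .. 0 .. = 0`; masks: `Str.meas`, `at_meas`, `Str.nn`, `sum_le`) -/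
theorem sf_core_rdE_law (hs : c.W.Str (Y.tq c.p)) (i : ℝ) (hi : i ∈ c.W.G) (S : c.D.Row i → Prop) (m : ℕ) :
    c.rdE i S m (c.W.pre i m) = ∑ ρ, (open Classical in if S ρ ∧ c.im i ρ = m then (c.D.P i).p ρ * c.W.tot i else 0) := by
  classical
  unfold SfCfg.rdE
  have e : c.wS i S m = fun x => ∑ ρ ∈ Finset.univ, if S ρ ∧ c.im i ρ = m then (c.sh.atm i ρ).indicator (c.W.th i (c.sh.lb i ρ)) x else 0 := by
    funext x
    unfold SfCfg.wS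
    rfl
  rw [e, gn_en_sum _ _ _ Finset.univ _ (fun ρ _ => sf_core_rdE_law_mask c hs i hi ρ _)]
  refine Finset.sum_congr rfl fun ρ _ => ?_
  by_cases h : S ρ ∧ c.im i ρ = m
  · rw [if_pos h, c.sh.law i hi ρ]
    simp only [if_pos h]
    obtain ⟨_, hm⟩ := h
    subst hm
    rfl
  · rw [if_neg h]
    simp only [if_neg h]
    exact sf_core_rdE_law_zero _ _ _ _

/-- the state of `xpR` at the cut `k i` (`Xp.at'`, `gn_run_append`, `Xp.run`, `gn_anc_self`, `SfCfg.synR`, `SfMD.pre`) -/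
theorem sf_core_xp_at (i j : ℝ) (S : c.D.Row i → Prop) (U : c.D.Row j → Prop) (m : ℕ) :
    (c.xpR i j S U).at' (c.W.k i) m (c.W.E.st.take (c.W.pos i) ++ [c.stgR i S]) = c.synR i S m := by
  unfold Xp.at'
  rw [gn_run_append]
  show (Y.M.sys c.p).tz (tmL (c.W.k i) (ancI (c.W.k i) (c.W.k i) m)) (c.W.k i) (c.W.gb i) (c.wS i S (ancI (c.W.k i) (c.W.k i) m)) _ = _
  rw [gn_anc_self]
  rfl

/-- the energy after the restricted gate (`gn_tz_normsq_le`, `gn_en_mono`: `wS² ≤ wS`) -/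
theorem sf_core_synR_le (hs : c.W.Str (Y.tq c.p)) (hT : (Y.M.sys c.p).Tight) (i : ℝ) (hi : i ∈ c.W.G) (S : c.D.Row i → Prop) (m : ℕ) :
    ‖c.synR i S m‖ ^ 2 ≤ c.rdE i S m (c.W.pre i m) := by
  have hM := sf_core_wS_mask c hs i hi S m
  refine (gn_tz_normsq_le hT _ _ _ hM _).trans ?_
  refine gn_en_mono _ _ _ ⟨hM.1.pow_const 2, fun x => ⟨sq_nonneg _, ?_⟩⟩ hM (fun x => ?_) _
  · have := hM.2 x
    nlinarith [this.1, this.2]
  · have := hM.2 x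
    nlinarith [this.1, this.2]

theorem sf_core_xp_tm_le (hs : c.W.Str (Y.tq c.p)) (j : ℝ) (hj : j ∈ c.W.G) (U : c.D.Row j → Prop) (l : c.W.Lb j) (x : (Y.M.sys c.p).X) :
    c.thU j U l x ≤ c.W.th j l x := by
  classical
  unfold SfCfg.thU
  have e : ∀ ρ, (if U ρ ∧ c.sh.lb j ρ = l then (c.sh.atm j ρ).indicator (c.W.th j l) x else 0)
      = if c.sh.lb j ρ = l then (if U ρ then (c.sh.atm j ρ).indicator (c.W.th j l) x else 0) else 0 := by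
    intro ρ
    by_cases h1 : U ρ <;> by_cases h2 : c.sh.lb j ρ = l <;> simp [h1, h2]
  rw [Finset.sum_congr rfl (fun ρ _ => e ρ), ← Finset.sum_filter]
  refine sf_core_wS_mask_aux _ (c.sh.atm j) ?_ _ _ (hs.nn j hj l x) x ?_ ?_
  · intro ρ hρ ρ' hρ' hne
    exact c.sh.at_disj j hj ρ ρ' ((Finset.mem_filter.1 hρ).2.trans (Finset.mem_filter.1 hρ').2.symm) hne
  · intro ρ _ hx
    split_ifs
    · exact Set.indicator_of_notMem hx _
    · rfl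
  · intro ρ _
    split_ifs
    · exact Set.indicator_le_self' (fun _ _ => hs.nn j hj l x) x
    · exact hs.nn j hj l x

theorem sf_core_xp_tm_mask (hs : c.W.Str (Y.tq c.p)) (j : ℝ) (hj : j ∈ c.W.G) (U : c.D.Row j → Prop) (l : c.W.Lb j) : IsMask (c.thU j U l) := by
  classical
  refine ⟨?_, fun x => ⟨?_, (sf_core_xp_tm_le c hs j hj U l x).trans (sf_core_rdE_law_th1 c hs j hj l x)⟩⟩
  · unfold SfCfg.thU
    refine Finset.measurable_fun_sum _ fun ρ _ => ?_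
    split_ifs
    · exact (hs.meas j hj _).indicator (c.sh.at_meas j hj ρ)
    · exact measurable_const
  · unfold SfCfg.thU
    refine Finset.sum_nonneg fun ρ _ => ?_
    split_ifs
    · exact Set.indicator_nonneg (fun y _ => hs.nn j hj _ y) x
    · exact le_rfl

/-- the labels of one interval -/
theorem sf_core_xp_tm_wS (j : ℝ) (U : c.D.Row j → Prop) (m' : ℕ) (x : (Y.M.sys c.p).X) :
    (open Classical in ∑ l ∈ Finset.univ.filter (fun l => c.W.iv j l = m'), c.thU j U l x) = c.wS j U m' x := by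
  classical
  unfold SfCfg.thU SfCfg.wS
  rw [Finset.sum_comm]
  refine Finset.sum_congr rfl fun ρ _ => ?_
  by_cases h : U ρ ∧ c.im j ρ = m'
  · rw [if_pos h, Finset.sum_eq_single_of_mem (c.sh.lb j ρ) (Finset.mem_filter.2 ⟨Finset.mem_univ _, h.2⟩)]
    · rw [if_pos ⟨h.1, rfl⟩]
    · intro l _ hne
      rw [if_neg]
      rintro ⟨_, h2⟩
      exact hne h2.symm
  · rw [if_neg h]
    refine Finset.sum_eq_zero fun l hl => ?_
    rw [if_neg]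
    rintro ⟨h1, h2⟩
    apply h
    refine ⟨h1, ?_⟩
    unfold SfCfg.im
    rw [h2]
    exact (Finset.mem_filter.1 hl).2

/-- the state of `xpR` at the final cut -/
theorem sf_core_xp_tm_at (hs : c.W.Str (Y.tq c.p)) (i : ℝ) (hi : i ∈ c.W.G) (j : ℝ) (hj : j ∈ c.W.G) (hij : i < j) (S : c.D.Row i → Prop) (m' : ℕ) :
    c.W.E.at' (c.W.k j) m' (c.W.E.st.take (c.W.pos i) ++ c.stgR i S :: c.mid i j) = c.preR i j S m' := by
  unfold Xp.at'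
  rw [gn_run_append, gn_run_anc (hs.k_mono i hi j hj hij).1 m' _ (sf_core_take_le c hs i hi)]
  rfl

/-- **total mass of `xpR`.**   PLAN: `Xp.tm`, `gn_pre_m` (`k0 ≤ k j`): `m a = en (tmL (k j) (iv l)) (k j) (gb j) (thU j U l) (at' (k j) (iv l) stack)`, `l = e.symm a`;   `at' .. = preR i j S (iv l)` (`gn_run_append`, `Xp.run`, `gn_run_anc` with `sf_core_take_le`);
`Equiv.sum_comp`;   group the labels by `m' = iv l ∈ ivs j` (`Finset.sum_fiberwise_of_maps_to`, `Str.iv_in`);   `Σ_{l : iv l = m'} thU j U l x = wS j U m' x` (exchange the sums: a row `ρ` contributes to the label `lb ρ` only), `gn_en_sum`. -/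
theorem sf_core_xp_tm (hs : c.W.Str (Y.tq c.p)) (i : ℝ) (hi : i ∈ c.W.G) (j : ℝ) (hj : j ∈ c.W.G) (hij : i < j) (S : c.D.Row i → Prop) (U : c.D.Row j → Prop) :
    (c.xpR i j S U).tm = ∑ m' ∈ c.W.ivs j, c.rdE j U m' (c.preR i j S m') := by
  classical
  have h1 : (c.xpR i j S U).tm = ∑ l, (Y.M.sys c.p).en (tmL (c.W.k j) (c.W.iv j l)) (c.W.k j) (c.W.gb j) (c.thU j U l) (c.preR i j S (c.W.iv j l)) := by
    rw [← Equiv.sum_comp (Fintype.equivFin (c.W.Lb j)).symm]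
    unfold Xp.tm
    refine Finset.sum_congr rfl fun a _ => ?_
    rw [← sf_core_xp_tm_at c hs i hi j hj hij S]
    exact (gn_pre_m c.W.E (hs.k_rg j hj).1 _ _ _ _ _ a).1
  rw [h1, ← Finset.sum_fiberwise_of_maps_to (s := Finset.univ) (t := c.W.ivs j) (g := fun l => c.W.iv j l) (fun l _ => hs.iv_in j hj l)]
  refine Finset.sum_congr rfl fun m' _ => ?_
  unfold SfCfg.rdE
  have e : c.wS j U m' = fun x => ∑ l ∈ Finset.univ.filter (fun l => c.W.iv j l = m'), c.thU j U l x := by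
    funext x
    exact (sf_core_xp_tm_wS c j U m' x).symm
  rw [e, gn_en_sum _ _ _ _ _ (fun l _ => sf_core_xp_tm_mask c hs j hj U l)]
  refine Finset.sum_congr rfl fun l hl => ?_
  rw [(Finset.mem_filter.1 hl).2]

/-- total weight (`Xp.tw`, `Xp.w`, `Equiv.sum_comp`) -/
theorem sf_core_xp_tw (i j : ℝ) (S : c.D.Row i → Prop) (U : c.D.Row j → Prop) : (c.xpR i j S U).tw = ∑ l, (Y.M.sys c.p).wt (c.W.ts j l) := by
  unfold Xp.tw
  exact Equiv.sum_comp (Fintype.equivFin (c.W.Lb j)).symm (fun l => (Y.M.sys c.p).wt (c.W.ts j l))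

end

/-! ## 3. The tail bound      (LEAF L-256-SFC-XPT) -/

/-- the powers of two of `sf_core_xp_tail` -/
theorem sf_core_xp_tail_num (N N' h t a Cr ka e pi C2 Cb : ℝ) (hh : 0 < h) (hN : 0 ≤ N) (h1 : h / 2 * N ≤ N') (hC2 : (2 * Cb + 6) / h ≤ C2) (hCb : 0 ≤ Cb)
    (ha0 : 0 < a) (ha1 : a ≤ 1) (hat : a ≤ t / 2) (hCr1 : 1 ≤ Cr) (hCr2 : Cr ≤ 2 ^ (t / 2 * N)) (hCr3 : Cr ≤ 2 ^ (1 * N)) (hka : 0 < ka) (he : 0 < e)
    (hpi0 : 0 ≤ pi) (hpi3 : pi ≤ 3) :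
    2 ^ (-(C2 * N')) * ka ≤ Cr * (2 ^ (-(-a * N)) * ka * 2 ^ (-(pi * N))) ∧
    Cr * (2 ^ (-(-a * N)) * ka * 2 ^ (-(pi * N))) ≤ 2 ^ (-(-C2 * N')) * ka ∧
    2 ^ (-(C2 * N')) * e ≤ 2 ^ (-(Cb * N)) * e ∧
    Cr * (2 ^ (-(-a * N)) * ka * 2 ^ (-(pi * N))) ≤ 2 ^ (-(-t * N)) * ka * 2 ^ (-(pi * N)) := by
  have hN' : 0 ≤ N' := le_trans (by positivity) h1
  have key : (Cb + 3) * N ≤ C2 * N' := by
    calc (Cb + 3) * N = (2 * Cb + 6) / h * (h / 2 * N) := by field_simp; ring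
      _ ≤ (2 * Cb + 6) / h * N' := mul_le_mul_of_nonneg_left h1 (by positivity)
      _ ≤ C2 * N' := mul_le_mul_of_nonneg_right hC2 hN'
  have hCbN : 0 ≤ Cb * N := mul_nonneg hCb hN
  have haN : 0 ≤ a * N := mul_nonneg ha0.le hN
  have haN1 : a * N ≤ N := by nlinarith
  have hpN : 0 ≤ pi * N := mul_nonneg hpi0 hN
  have hpN3 : pi * N ≤ 3 * N := mul_le_mul_of_nonneg_right hpi3 hN
  have p1 := gn_two_pos (-(-a * N))
  have p2 := gn_two_pos (-(pi * N))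
  have one_le_a : (1 : ℝ) ≤ 2 ^ (-(-a * N)) := by
    have := gn_two_mono (x := 0) (y := -(-a * N)) (by linarith)
    rwa [Real.rpow_zero] at this
  refine ⟨?_, ?_, ?_, ?_⟩
  · have s1 : (2 : ℝ) ^ (-(C2 * N')) ≤ 2 ^ (-(pi * N)) := gn_two_mono (by linarith)
    calc 2 ^ (-(C2 * N')) * ka ≤ 2 ^ (-(pi * N)) * ka := mul_le_mul_of_nonneg_right s1 hka.le
      _ = 1 * (1 * ka * 2 ^ (-(pi * N))) := by ring
      _ ≤ Cr * (2 ^ (-(-a * N)) * ka * 2 ^ (-(pi * N))) := by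
        refine mul_le_mul hCr1 ?_ (by positivity) (by linarith)
        exact mul_le_mul_of_nonneg_right (mul_le_mul_of_nonneg_right one_le_a hka.le) p2.le
  · have s1 : (2 : ℝ) ^ (-(-a * N)) ≤ 2 ^ (1 * N) := gn_two_mono (by linarith)
    have s2 : (2 : ℝ) ^ (-(pi * N)) ≤ 1 := by
      have := gn_two_mono (x := -(pi * N)) (y := 0) (by linarith)
      rwa [Real.rpow_zero] at this
    have s3 : (2 : ℝ) ^ (1 * N) * 2 ^ (1 * N) ≤ 2 ^ (-(-C2 * N')) := by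
      rw [← gn_two_add]
      exact gn_two_mono (by nlinarith)
    calc Cr * (2 ^ (-(-a * N)) * ka * 2 ^ (-(pi * N))) ≤ 2 ^ (1 * N) * (2 ^ (1 * N) * ka * 1) := by
          refine mul_le_mul hCr3 ?_ (by positivity) (gn_two_pos _).le
          exact mul_le_mul (mul_le_mul_of_nonneg_right s1 hka.le) s2 p2.le (mul_nonneg (gn_two_pos _).le hka.le)
      _ = (2 ^ (1 * N) * 2 ^ (1 * N)) * ka := by ring
      _ ≤ _ := mul_le_mul_of_nonneg_right s3 hka.le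
  · exact mul_le_mul_of_nonneg_right (gn_two_mono (by nlinarith)) he.le
  · have s1 : Cr * 2 ^ (-(-a * N)) ≤ 2 ^ (-(-t * N)) := by
      calc Cr * 2 ^ (-(-a * N)) ≤ 2 ^ (t / 2 * N) * 2 ^ (-(-a * N)) := mul_le_mul_of_nonneg_right hCr2 p1.le
        _ = 2 ^ (t / 2 * N + -(-a * N)) := (gn_two_add _ _).symm
        _ ≤ _ := gn_two_mono (by nlinarith)
    calc Cr * (2 ^ (-(-a * N)) * ka * 2 ^ (-(pi * N))) = (Cr * 2 ^ (-(-a * N))) * (ka * 2 ^ (-(pi * N))) := by ring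
      _ ≤ 2 ^ (-(-t * N)) * (ka * 2 ^ (-(pi * N))) := mul_le_mul_of_nonneg_right s1 (by positivity)
      _ = _ := by ring

/-- the states of `xpR` at the cut `k i`: plateau and regularity -/
theorem sf_core_xp_tail_st {de : ℝ} (c : SfCfg Y de) (hs : c.W.Str (Y.tq c.p)) (hT : (Y.M.sys c.p).Tight) (hgd : Y.M.gd c.p) (bm : ℕ) (Cr κ : ℝ)
    (hrep : ∀ (p : Y.M.Par) (T : ℝ) (k c b' : ℕ) (κ : ℝ) (F : Lp (Y.M.sys p).Fb 2 ((Y.M.sys p).rho k)),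
      Y.M.gd p → c ≤ bm → b' ≤ bm →
      (∀ Q, (Y.M.sys p).ok Q k → ∫ x in (Y.M.sys p).cell Q T k, ‖(F : (Y.M.sys p).X → (Y.M.sys p).Fb) x‖ ^ 2 ∂((Y.M.sys p).rho k) ≤ κ * (Y.M.sys p).wt Q) →
      (Y.M.sys p).Reg T k b' (Cr * κ) (ContinuousLinearMap.adjoint ((Y.M.sys p).An T k c) F))
    (i : ℝ) (hi : i ∈ c.W.G) (hb : c.W.gb i + 1 ≤ bm) (S : c.D.Row i → Prop) (m : ℕ)
    (hreg : (Y.M.sys c.p).Reg (tmL (c.W.k i) m) (c.W.k i) (c.W.gb i) κ (c.W.pre i m)) :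
    c.synR i S m ∈ (Y.M.sys c.p).Pl (c.W.gb i + 1) ∧ (Y.M.sys c.p).Reg (tmL (c.W.k i) m) (c.W.k i) (c.W.gb i + 1) (Cr * κ) (c.synR i S m) := by
  refine ⟨gn_tz_pl hT _ _ _ _ _, ?_⟩
  refine hrep c.p (tmL (c.W.k i) m) (c.W.k i) (c.W.gb i) (c.W.gb i + 1) κ _ hgd (by omega) hb fun Q hQ => ?_
  refine (gn_mulR_setInt_le _ (sf_core_wS_mask c hs i hi S m) (hT.cellM Q _ _) _).trans ?_
  rw [← gn_ms_eq _ _ _ (hT.cellM Q _ _)]
  exact hreg Q hQ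

/-- **the readout of `xpR`.**   PLAN.  `M = Y.M`, `g = 1 + Y.η/2`, `hG = hE.gen`.   Constants: `a = min (t/2) (h/4)` (also `≤ 1`), `ε0 = 1`, `μ0 = 0`.   Given `C`:  `Cr` from `hG.rep (C+1)`;  `C'` from `gn_prefix_cls M hG.scale C (h/2)`;
`C2 = max C' (max (C+1) ⌈(2 Cb + 6) / h⌉₊)`;  `(A, n1)` from `gn_tail M g hG π.Γ hE.rate C2 (h/2) t`;  `n0 ≥ 2 n1 / h`, `Cr ≤ 2^(t n / 2)`, `Cr ≤ 2^n`, `n0 ≥ 1`.
`E' = xpR i j S U`, `n' = k j - k0`.   Depths (`Ext.depth`, `a ≤ h/4`, `j ≥ h` because `0 ≤ i`, `Gap`): `(h/2) n ≤ n' ≤ n`, `(h/2) n ≤ k j - k i`.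
Class: `hE.adm` on `hob.2.1` gives `gd`, `adm C c.A`; `Cls C c.A p E`; `gn_cls_anti` to `A`; `gn_prefix_cls` with `sf_core_xp_valid`; `gn_cls_mono` to `C2`.
`κ' = Cr (s^(-a) ka s^(p i))`, `b' = gb i + 1 ≤ C + 1`.   `E'.s = 2⁻¹^n'`, `E'.s^C2 = 2^(-(C2 n'))`, `C2 n' ≥ (Cb + 3) n`:  `E'.s^C2 ka ≤ s^3 ka ≤ κ'` (`p i ≤ 3`, `Cr ≥ 1`),  `κ' ≤ 2^n s^(-1) ka ≤ E'.s^(-C2) ka`,  `E'.s^C2 e ≤ s^Cb e`.
States at the cut (`sf_core_xp_at`): `synR i S m = adj (An ..) F`, `F = mulR (wS i S m) (An .. (pre i m))`: plateau `gn_tz_pl`;   `Rep` with `κ = s^(-a) ka s^(p i)`: `∫_cell ‖F‖² ≤ ∫_cell ‖An (pre i m)‖² = ms (cell) (pre i m) ≤ κ wt Q`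
(`gn_mulR_setInt_le`, `gn_ms_eq`, `Tight.cellM`, `Ext.reg`; `ivs E'.k0 E'.i0 (k i) = W.ivs i` by `rfl`).
`Σ_m ‖synR i S m‖² ≤ Σ_m rdE i S m (pre i m) = pr S tot i` (`sf_core_synR_le`, `sf_core_pr`).   `√κ' ≤ √(s^(-t) ka s^(p i))`.   `E'.kf - k i = k j - k i`, `E'.e = e`. -/
theorem sf_core_xp_tail (hO : SfCyOk Y) (π : SfPar) (Ls : ℝ) (hE : SfCoreHyp Y π) (t h : ℝ) (ht : 0 < t) (hh : 0 < h) (Cb : ℕ) :
    SfRigid Y π Ls h (fun c _ => ∀ i ∈ c.W.G, ∀ j ∈ c.W.G, i < j → ∀ (S : c.D.Row i → Prop) (U : c.D.Row j → Prop),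
      (c.xpR i j S U).rd ≤ 2 ^ (-((1 / 2 - π.Γ - t) * ((c.W.k j - c.W.k i : ℕ) : ℝ))) * Real.sqrt (c.W.E.s ^ (-t) * c.W.E.ka * c.W.E.s ^ (π.p * i)) *
        ((c.D.P i).pr S * c.W.tot i + c.W.E.s ^ (Cb : ℝ) * c.W.E.e)) := by
  have hG := hE.gen
  obtain ⟨a, ha⟩ : ∃ a : ℝ, a = min (min (t / 2) (h / 4)) 1 := ⟨_, rfl⟩
  have ha0 : 0 < a := by
    rw [ha]
    exact lt_min (lt_min (by positivity) (by positivity)) one_pos
  have hat : a ≤ t / 2 := by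
    rw [ha]
    exact (min_le_left _ _).trans (min_le_left _ _)
  have hah : a ≤ h / 4 := by
    rw [ha]
    exact (min_le_left _ _).trans (min_le_right _ _)
  have ha1 : a ≤ 1 := by
    rw [ha]
    exact min_le_right _ _
  refine ⟨a, 1, 0, ha0, one_pos, fun ε1 _ C => ?_⟩
  obtain ⟨Cr, hCr1, hrep⟩ := hG.rep (C + 1)
  obtain ⟨C', hCC', hpre⟩ := gn_prefix_cls Y.M hG.scale C (h / 2) (by positivity)
  obtain ⟨C2, hC2⟩ : ∃ C2 : ℕ, C2 = max C' (max (C + 1) ⌈(2 * (Cb : ℝ) + 6) / h⌉₊) := ⟨_, rfl⟩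
  have hC2a : C' ≤ C2 := by
    rw [hC2]
    exact le_max_left _ _
  have hC2b : C + 1 ≤ C2 := by
    rw [hC2]
    exact (le_max_left _ _).trans (le_max_right _ _)
  have hC2c : (2 * (Cb : ℝ) + 6) / h ≤ C2 := by
    refine (Nat.le_ceil _).trans ?_
    rw [hC2]
    exact_mod_cast (le_max_right _ _).trans (le_max_right _ _)
  obtain ⟨A, n1, htail⟩ := gn_tail Y.M (1 + Y.η / 2) hG π.Γ hE.rate C2 (h / 2) t (by positivity) ht
  obtain ⟨n2, hn2⟩ := gn_absorb Cr (t / 2) (by positivity)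
  obtain ⟨n3, hn3⟩ := gn_absorb Cr 1 one_pos
  refine ⟨A, max (max ⌈2 * (n1 : ℝ) / h⌉₊ n2) n3, fun c hob _ hA hn hext _ _ _ hgap => ?_⟩
  intro i hi j hj hij S U
  have hs := hext.str
  have hgd : Y.M.gd c.p := (hO.af C c.A c.p c.W.E c.W.Q0 hob.2.1).1
  have hT : (Y.M.sys c.p).Tight := hG.tight c.p hgd
  obtain ⟨hV, hSR, hlen, hgen, hkf, hn', hcut⟩ := sf_core_xp_valid c C hob hT i hi j hj hij S U
  obtain ⟨_, _, _, ⟨hp1, hp3⟩, _⟩ := hE.par.1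
  -- depths
  have hN : (0 : ℝ) ≤ c.W.E.n := Nat.cast_nonneg _
  have hgapij : h ≤ j - i := by
    have := hgap
    unfold SfDoc.GapK at this
    rw [c.sh.hG] at this
    exact this i hi j hj hij
  have hi0 : 0 ≤ i := (hs.gate.2 i hi).1
  have hi1 : i ≤ 1 := (hs.gate.2 i hi).2
  have hk0j : c.W.E.k0 ≤ c.W.k j := (hs.k_rg j hj).1
  have hkij : c.W.k i ≤ c.W.k j := (hs.k_mono i hi j hj hij).1
  have hdi := abs_le.1 (hext.depth i hi)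
  have hdj := abs_le.1 (hext.depth j hj)
  have c1 : ((c.W.k j - c.W.E.k0 : ℕ) : ℝ) = (c.W.k j : ℝ) - c.W.E.k0 := Nat.cast_sub hk0j
  have c2 : ((c.W.k j - c.W.k i : ℕ) : ℝ) = (c.W.k j : ℝ) - c.W.k i := Nat.cast_sub hkij
  have D1 : h / 2 * (c.W.E.n : ℝ) ≤ ((c.W.k j - c.W.E.k0 : ℕ) : ℝ) := by
    rw [c1]
    have : h / 2 * (c.W.E.n : ℝ) ≤ (j - a) * c.W.E.n := mul_le_mul_of_nonneg_right (by linarith) hN
    linarith [hdj.1]
  have D2 : c.W.k j - c.W.E.k0 ≤ c.W.E.n := by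
    have := (hs.k_rg j hj).2
    unfold Xp.kf at this
    omega
  have D3 : h / 2 * (c.W.E.n : ℝ) ≤ ((c.W.k j - c.W.k i : ℕ) : ℝ) := by
    rw [c2]
    have : h / 2 * (c.W.E.n : ℝ) ≤ (j - i - 2 * a) * c.W.E.n := mul_le_mul_of_nonneg_right (by linarith) hN
    linarith [hdj.1, hdi.2]
  -- the class
  have hadm := (hE.adm C c.A c.p c.W.E).2 ⟨c.W.Q0, hob.2.1⟩
  have hcls : Y.M.Cls C c.A c.p c.W.E := ⟨hgd, hs.valid, hob.1, hob.2.2.2.1, hadm.2⟩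
  have hcls2 : Y.M.Cls C' A c.p (c.xpR i j S U) :=
    hpre A c.p c.W.E _ (gn_cls_anti Y.M hG.scale hA hcls) hV hSR hlen hgen (by rw [hn']; exact D1) (by rw [hn']; exact D2)
  have hcls3 := gn_cls_mono Y.M hG.scale hC2a hcls2
  -- sizes
  have hna : ⌈2 * (n1 : ℝ) / h⌉₊ ≤ c.W.E.n := ((le_max_left _ _).trans (le_max_left _ _)).trans hn
  have hnb : n2 ≤ c.W.E.n := ((le_max_right _ _).trans (le_max_left _ _)).trans hn
  have hnc : n3 ≤ c.W.E.n := (le_max_right _ _).trans hn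
  have hn1 : n1 ≤ (c.xpR i j S U).n := by
    rw [hn']
    have h1 : 2 * (n1 : ℝ) / h ≤ c.W.E.n := (Nat.le_ceil _).trans (by exact_mod_cast hna)
    rw [div_le_iff₀ hh] at h1
    have : (n1 : ℝ) ≤ ((c.W.k j - c.W.E.k0 : ℕ) : ℝ) := by linarith
    exact_mod_cast this
  obtain ⟨F1, F2, F3, F4⟩ := sf_core_xp_tail_num c.W.E.n ((c.W.k j - c.W.E.k0 : ℕ) : ℝ) h t a Cr c.W.E.ka c.W.E.e (π.p * i) C2 Cb hh hN D1 hC2c
    (Nat.cast_nonneg _) ha0 ha1 hat hCr1 (hn2 _ hnb) (hn3 _ hnc) hs.valid.ka_pos hs.valid.e_pos (mul_nonneg (by linarith) hi0) (by nlinarith)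
  obtain ⟨κ, hκ⟩ : ∃ κ : ℝ, κ = c.W.E.s ^ (-a) * c.W.E.ka * c.W.E.s ^ (π.p * i) := ⟨_, rfl⟩
  have hκ2 : κ = 2 ^ (-(-a * (c.W.E.n : ℝ))) * c.W.E.ka * 2 ^ (-(π.p * i * (c.W.E.n : ℝ))) := by
    rw [hκ, gn_s_rpow, gn_s_rpow]
  rw [← hκ2] at F1 F2 F4
  have hsE : ∀ y : ℝ, (c.xpR i j S U).s ^ y = 2 ^ (-(y * ((c.W.k j - c.W.E.k0 : ℕ) : ℝ))) := by
    intro y
    rw [gn_s_rpow, hn']
  have key := htail c.p (c.xpR i j S U) hn1 hcls3 (c.W.k i) (c.W.gb i + 1) _ _ (Cr * κ) hcut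
    (by
      rw [hkf, hn']
      refine le_trans (mul_le_mul_of_nonneg_left ?_ (by positivity)) D3
      exact_mod_cast D2)
    ((Nat.succ_le_succ (sf_core_gb_le c C hob i hi)).trans hC2b)
    (by
      rw [hsE, hSR.2.2.2.2.1]
      exact F1)
    (by
      rw [hsE, hSR.2.2.2.2.1]
      exact F2)
    (by
      intro m hm
      rw [sf_core_xp_at]
      exact sf_core_xp_tail_st c hs hT hgd (C + 1) Cr κ hrep i hi (Nat.succ_le_succ (sf_core_gb_le c C hob i hi)) S m (by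
        rw [hκ]
        exact hext.reg i hi m hm))
  refine key.trans ?_
  rw [hkf, hsE, hSR.2.2.2.1]
  have hsum : ∑ m ∈ ivs (c.xpR i j S U).k0 (c.xpR i j S U).i0 (c.W.k i),
      ‖(c.xpR i j S U).at' (c.W.k i) m (c.W.E.st.take (c.W.pos i) ++ [c.stgR i S])‖ ^ 2 ≤ (c.D.P i).pr S * c.W.tot i := by
    rw [sf_core_pr c hs i hi S]
    refine Finset.sum_le_sum fun m _ => ?_
    rw [sf_core_xp_at]
    exact sf_core_synR_le c hs hT i hi S m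
  have hsq : Real.sqrt (Cr * κ) ≤ Real.sqrt (c.W.E.s ^ (-t) * c.W.E.ka * c.W.E.s ^ (π.p * i)) := by
    refine Real.sqrt_le_sqrt ?_
    rw [gn_s_rpow, gn_s_rpow]
    exact F4
  have hlast : (2 : ℝ) ^ (-((C2 : ℝ) * ((c.W.k j - c.W.E.k0 : ℕ) : ℝ))) * c.W.E.e ≤ c.W.E.s ^ (Cb : ℝ) * c.W.E.e := by
    rw [gn_s_rpow]
    exact F3
  have hsum0 : 0 ≤ ∑ m ∈ ivs (c.xpR i j S U).k0 (c.xpR i j S U).i0 (c.W.k i),
      ‖(c.xpR i j S U).at' (c.W.k i) m (c.W.E.st.take (c.W.pos i) ++ [c.stgR i S])‖ ^ 2 := Finset.sum_nonneg fun m _ => sq_nonneg _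
  refine mul_le_mul (mul_le_mul_of_nonneg_left hsq (gn_two_pos _).le) (add_le_add hsum hlast) ?_ ?_
  · exact add_nonneg hsum0 (mul_nonneg (gn_two_pos _).le hs.valid.e_pos.le)
  · exact mul_nonneg (gn_two_pos _).le (Real.sqrt_nonneg _)

/-! ## 4. Hölder and the exponents      (LEAVES L-256-SFC-HOLD, L-256-SFC-NUM) -/

/-- (`Real.inner_le_Lp_mul_Lq` with `p = 3/2`, `q = 3`, `f a = m a / (w a)^(1/3)`, `g a = (w a)^(1/3)`) -/
theorem sf_holder {ι : Type} (J : Finset ι) (m w : ι → ℝ) (hm : ∀ a ∈ J, 0 ≤ m a) (hw : ∀ a ∈ J, 0 < w a) :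
    ∑ a ∈ J, m a ≤ (∑ a ∈ J, m a ^ (3 / 2 : ℝ) / Real.sqrt (w a)) ^ (2 / 3 : ℝ) * (∑ a ∈ J, w a) ^ (1 / 3 : ℝ) := by
  have hpq : (3 / 2 : ℝ).HolderConjugate 3 := by
    rw [Real.holderConjugate_iff]
    constructor <;> norm_num
  have key := Real.inner_le_Lp_mul_Lq J (fun a => m a / (w a) ^ (1 / 3 : ℝ)) (fun a => (w a) ^ (1 / 3 : ℝ)) hpq
  have e1 : ∑ a ∈ J, (fun a => m a / (w a) ^ (1 / 3 : ℝ)) a * (fun a => (w a) ^ (1 / 3 : ℝ)) a = ∑ a ∈ J, m a := by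
    refine Finset.sum_congr rfl fun a ha => ?_
    have : 0 < (w a) ^ (1 / 3 : ℝ) := Real.rpow_pos_of_pos (hw a ha) _
    simp only
    field_simp
  have e2 : ∑ a ∈ J, |(fun a => m a / (w a) ^ (1 / 3 : ℝ)) a| ^ (3 / 2 : ℝ) = ∑ a ∈ J, m a ^ (3 / 2 : ℝ) / Real.sqrt (w a) := by
    refine Finset.sum_congr rfl fun a ha => ?_
    have h1 : 0 < (w a) ^ (1 / 3 : ℝ) := Real.rpow_pos_of_pos (hw a ha) _
    simp only
    rw [abs_of_nonneg (div_nonneg (hm a ha) h1.le), Real.div_rpow (hm a ha) h1.le, ← Real.rpow_mul (hw a ha).le, Real.sqrt_eq_rpow]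
    norm_num
  have e3 : ∑ a ∈ J, |(fun a => (w a) ^ (1 / 3 : ℝ)) a| ^ (3 : ℝ) = ∑ a ∈ J, w a := by
    refine Finset.sum_congr rfl fun a ha => ?_
    have h1 : 0 < (w a) ^ (1 / 3 : ℝ) := Real.rpow_pos_of_pos (hw a ha) _
    simp only
    rw [abs_of_pos h1, ← Real.rpow_mul (hw a ha).le]
    norm_num
  rw [e1, e2, e3] at key
  convert key using 3
  norm_num

theorem sf_xp_holder {P : PkSys} (E : Xp P) (hE : E.Valid) : E.tm ≤ E.rd ^ (2 / 3 : ℝ) * E.tw ^ (1 / 3 : ℝ) := by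
  unfold Xp.tm Xp.rd Xp.tw
  refine sf_holder Finset.univ E.m E.w (fun l _ => ?_) (fun l _ => hE.w_pos l)
  exact gn_en_nonneg _ _ _ (hE.th_nn l) _

/-- **the exponents cancel.**   PLAN: `X = Pi s^(-a) s^(-(d i)) + s^Cb`;  `rd ≤ s^((1/2-Γ-a) ξ - a/2 + p i / 2) ka^(1/2) e X`;
`rd^(2/3) tw^(1/3) ≤ e X^(2/3) s^E1`, `E1 = (2/3)(1/2-Γ-a) ξ - (2/3) a + p i / 3 - (p+d) j / 3`;   `X^(2/3) ≤ Pi^(2/3) s^(-(2/3)(a + d i)) + s^((2/3) Cb)` (subadditivity of `x^(2/3)`);   `e ≤ totj s^(d j - a)`.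
With `1/2 - Γ = p/2 - d`:  `E2 = E1 + d j - a - (2/3)(a + d i) = (p/3 - 2d/3)(ξ - (j-i)) - (2/3) a ξ - (7/3) a ≥ -2a - 2a - (7/3) a ≥ -8a`  (`|p/3 - 2d/3| ≤ 1`, `ξ ≤ 3`);   `E1 + d j - a ≥ E2`. -/
theorem sf_sp_num (s e ka a Γ p d i j ξ Pi toti totj rd tw M Cb : ℝ) (hs : 0 < s ∧ s < 1) (he : 0 < e) (hka : 0 < ka) (ha : 0 < a ∧ a ≤ 1) (hΓ : Γ = d + (1 - p) / 2)
    (hp : 1 ≤ p ∧ p < 3) (hd : 0 < d ∧ d ≤ 1) (hi : 0 ≤ i) (hij : i < j) (hj : j ≤ 1) (hξ : |ξ - (j - i)| ≤ 2 * a) (hPi : 0 ≤ Pi) (hrd0 : 0 ≤ rd) (htw0 : 0 ≤ tw) (hti0 : 0 ≤ toti)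
    (hM : M ≤ rd ^ (2 / 3 : ℝ) * tw ^ (1 / 3 : ℝ))
    (hrd : rd ≤ s ^ ((1 / 2 - Γ - a) * ξ) * Real.sqrt (s ^ (-a) * ka * s ^ (p * i)) * (Pi * toti + s ^ Cb * e))
    (htw : tw ≤ s ^ (-a) * (e / ka) * s ^ (-((p + d) * j))) (hti : toti ≤ s ^ (-a) * e * s ^ (-(d * i))) (htj : s ^ a * e * s ^ (-(d * j)) ≤ totj) :
    M ≤ (s ^ (-(8 * a)) * Pi ^ (2 / 3 : ℝ) + s ^ (2 / 3 * Cb - 8 * a)) * totj := by
  obtain ⟨hs0, hs1⟩ := hs
  obtain ⟨ha0, ha1⟩ := ha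
  have hsp : ∀ x : ℝ, 0 < s ^ x := fun x => Real.rpow_pos_of_pos hs0 x
  have hanti : ∀ x y : ℝ, x ≤ y → s ^ y ≤ s ^ x := fun x y h =>
    Real.rpow_le_rpow_of_exponent_ge hs0 hs1.le h
  obtain ⟨X, hX⟩ : ∃ X, X = Pi * s ^ (-(a + d * i)) + s ^ Cb := ⟨_, rfl⟩
  have hX0 : 0 ≤ X := by
    rw [hX]
    exact add_nonneg (mul_nonneg hPi (hsp _).le) (hsp _).le
  -- the bracket
  have h1 : Pi * toti + s ^ Cb * e ≤ e * X := by
    have h2 : s ^ (-(a + d * i)) = s ^ (-a) * s ^ (-(d * i)) := by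
      rw [← Real.rpow_add hs0]; congr 1; ring
    have h3 : Pi * toti ≤ Pi * (s ^ (-a) * e * s ^ (-(d * i))) := mul_le_mul_of_nonneg_left hti hPi
    rw [hX, h2]
    calc Pi * toti + s ^ Cb * e ≤ Pi * (s ^ (-a) * e * s ^ (-(d * i))) + s ^ Cb * e := by linarith
      _ = e * (Pi * (s ^ (-a) * s ^ (-(d * i))) + s ^ Cb) := by ring
  -- the square root
  have h4 : Real.sqrt (s ^ (-a) * ka * s ^ (p * i)) = s ^ ((-a + p * i) / 2) * ka ^ (1 / 2 : ℝ) := by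
    have h5 : s ^ (-a) * ka * s ^ (p * i) = s ^ (-a + p * i) * ka := by
      rw [Real.rpow_add hs0]; ring
    rw [h5, Real.sqrt_eq_rpow, Real.mul_rpow (hsp _).le hka.le, ← Real.rpow_mul hs0.le]
    congr 2; ring
  obtain ⟨A1, hA1⟩ : ∃ A1, A1 = (1 / 2 - Γ - a) * ξ + (-a + p * i) / 2 := ⟨_, rfl⟩
  have h6 : rd ≤ s ^ A1 * ka ^ (1 / 2 : ℝ) * (e * X) := by
    have h7 : s ^ ((1 / 2 - Γ - a) * ξ) * Real.sqrt (s ^ (-a) * ka * s ^ (p * i)) = s ^ A1 * ka ^ (1 / 2 : ℝ) := by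
      rw [h4, hA1, Real.rpow_add hs0]; ring
    rw [h7] at hrd
    refine hrd.trans (mul_le_mul_of_nonneg_left h1 ?_)
    exact mul_nonneg (hsp _).le (Real.rpow_nonneg hka.le _)
  have h8 : rd ^ (2 / 3 : ℝ) ≤ s ^ (2 / 3 * A1) * ka ^ (1 / 3 : ℝ) * (e ^ (2 / 3 : ℝ) * X ^ (2 / 3 : ℝ)) := by
    have h9 := Real.rpow_le_rpow hrd0 h6 (by norm_num : (0 : ℝ) ≤ 2 / 3)
    rw [Real.mul_rpow (mul_nonneg (hsp _).le (Real.rpow_nonneg hka.le _)) (mul_nonneg he.le hX0),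
      Real.mul_rpow (hsp _).le (Real.rpow_nonneg hka.le _), Real.mul_rpow he.le hX0,
      ← Real.rpow_mul hs0.le, ← Real.rpow_mul hka.le] at h9
    have e1 : A1 * (2 / 3) = 2 / 3 * A1 := by ring
    have e2 : (1 / 2 : ℝ) * (2 / 3) = 1 / 3 := by norm_num
    rw [e1, e2] at h9
    exact h9
  have h10 : tw ^ (1 / 3 : ℝ) ≤ s ^ ((-a - (p + d) * j) / 3) * (e ^ (1 / 3 : ℝ) / ka ^ (1 / 3 : ℝ)) := by
    have h11 : s ^ (-a) * (e / ka) * s ^ (-((p + d) * j)) = s ^ (-a - (p + d) * j) * (e / ka) := by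
      rw [sub_eq_add_neg, Real.rpow_add hs0]; ring
    rw [h11] at htw
    have h12 := Real.rpow_le_rpow htw0 htw (by norm_num : (0 : ℝ) ≤ 1 / 3)
    rw [Real.mul_rpow (hsp _).le (div_nonneg he.le hka.le), Real.div_rpow he.le hka.le,
      ← Real.rpow_mul hs0.le] at h12
    have e1 : (-a - (p + d) * j) * (1 / 3) = (-a - (p + d) * j) / 3 := by ring
    rw [e1] at h12
    exact h12
  obtain ⟨E1, hE1⟩ : ∃ E1, E1 = 2 / 3 * A1 + (-a - (p + d) * j) / 3 := ⟨_, rfl⟩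
  have hk3 : 0 < ka ^ (1 / 3 : ℝ) := Real.rpow_pos_of_pos hka _
  have h13 : M ≤ s ^ E1 * e * X ^ (2 / 3 : ℝ) := by
    have h14 : rd ^ (2 / 3 : ℝ) * tw ^ (1 / 3 : ℝ) ≤
        (s ^ (2 / 3 * A1) * ka ^ (1 / 3 : ℝ) * (e ^ (2 / 3 : ℝ) * X ^ (2 / 3 : ℝ))) *
          (s ^ ((-a - (p + d) * j) / 3) * (e ^ (1 / 3 : ℝ) / ka ^ (1 / 3 : ℝ))) := by
      refine mul_le_mul h8 h10 (Real.rpow_nonneg htw0 _) ?_
      exact mul_nonneg (mul_nonneg (hsp _).le hk3.le)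
        (mul_nonneg (Real.rpow_nonneg he.le _) (Real.rpow_nonneg hX0 _))
    refine hM.trans (h14.trans (le_of_eq ?_))
    have e3 : e ^ (2 / 3 : ℝ) * e ^ (1 / 3 : ℝ) = e := by
      rw [← Real.rpow_add he]; norm_num
    rw [hE1, Real.rpow_add hs0]
    calc (s ^ (2 / 3 * A1) * ka ^ (1 / 3 : ℝ) * (e ^ (2 / 3 : ℝ) * X ^ (2 / 3 : ℝ))) *
          (s ^ ((-a - (p + d) * j) / 3) * (e ^ (1 / 3 : ℝ) / ka ^ (1 / 3 : ℝ)))
        = s ^ (2 / 3 * A1) * s ^ ((-a - (p + d) * j) / 3) * (e ^ (2 / 3 : ℝ) * e ^ (1 / 3 : ℝ)) * X ^ (2 / 3 : ℝ)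
            * (ka ^ (1 / 3 : ℝ) / ka ^ (1 / 3 : ℝ)) := by ring
      _ = s ^ (2 / 3 * A1) * s ^ ((-a - (p + d) * j) / 3) * e * X ^ (2 / 3 : ℝ) := by
          rw [e3, div_self hk3.ne', mul_one]
  -- subadditivity
  have h15 : X ^ (2 / 3 : ℝ) ≤ Pi ^ (2 / 3 : ℝ) * s ^ (-(2 / 3 * (a + d * i))) + s ^ (2 / 3 * Cb) := by
    have h16 := Real.rpow_add_le_add_rpow (mul_nonneg hPi (hsp (-(a + d * i))).le) (hsp Cb).le
      (by norm_num : (0 : ℝ) ≤ 2 / 3) (by norm_num : (2 / 3 : ℝ) ≤ 1)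
    rw [Real.mul_rpow hPi (hsp _).le, ← Real.rpow_mul hs0.le, ← Real.rpow_mul hs0.le] at h16
    have e1 : -(a + d * i) * (2 / 3) = -(2 / 3 * (a + d * i)) := by ring
    have e2 : Cb * (2 / 3) = 2 / 3 * Cb := by ring
    rw [e1, e2] at h16
    rw [hX]; exact h16
  -- e
  have h17 : e ≤ s ^ (d * j - a) * totj := by
    have h18 : s ^ (d * j - a) * (s ^ a * e * s ^ (-(d * j))) = e := by
      have : s ^ (d * j - a) * s ^ a * s ^ (-(d * j)) = 1 := by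
        rw [← Real.rpow_add hs0, ← Real.rpow_add hs0]
        have : d * j - a + a + -(d * j) = 0 := by ring
        rw [this, Real.rpow_zero]
      calc s ^ (d * j - a) * (s ^ a * e * s ^ (-(d * j))) = (s ^ (d * j - a) * s ^ a * s ^ (-(d * j))) * e := by ring
        _ = e := by rw [this, one_mul]
    calc e = s ^ (d * j - a) * (s ^ a * e * s ^ (-(d * j))) := h18.symm
      _ ≤ s ^ (d * j - a) * totj := mul_le_mul_of_nonneg_left htj (hsp _).le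
  have htj0 : 0 ≤ totj := le_trans (mul_nonneg (mul_nonneg (hsp _).le he.le) (hsp _).le) htj
  -- the exponents
  have hξ' := abs_le.mp hξ
  have hE2 : -(8 * a) ≤ E1 + (d * j - a) + -(2 / 3 * (a + d * i)) := by
    have e1 : E1 + (d * j - a) + -(2 / 3 * (a + d * i)) =
        (p / 3 - 2 * d / 3) * (ξ - (j - i)) - 2 / 3 * a * ξ - 7 / 3 * a := by
      rw [hE1, hA1, hΓ]; ring
    rw [e1]
    have hc1 : -(1 : ℝ) ≤ p / 3 - 2 * d / 3 := by linarith [hp.1, hd.2]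
    have hc2 : p / 3 - 2 * d / 3 ≤ 1 := by linarith [hp.2, hd.1]
    have h19 : |(p / 3 - 2 * d / 3) * (ξ - (j - i))| ≤ 1 * (2 * a) := by
      rw [abs_mul]
      exact mul_le_mul (abs_le.mpr ⟨hc1, hc2⟩) hξ (abs_nonneg _) (by norm_num)
    have h20 := (abs_le.mp h19).1
    have h21 : a * ξ ≤ a * 3 := mul_le_mul_of_nonneg_left (by linarith [hξ'.2]) ha0.le
    linarith
  have hE3 : -(8 * a) ≤ E1 + (d * j - a) := by
    have : 0 ≤ 2 / 3 * (a + d * i) := by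
      have := mul_nonneg hd.1.le hi
      linarith
    linarith
  have hP3 : 0 ≤ Pi ^ (2 / 3 : ℝ) := Real.rpow_nonneg hPi _
  calc M ≤ s ^ E1 * e * X ^ (2 / 3 : ℝ) := h13
    _ ≤ s ^ E1 * (s ^ (d * j - a) * totj) * (Pi ^ (2 / 3 : ℝ) * s ^ (-(2 / 3 * (a + d * i))) + s ^ (2 / 3 * Cb)) := by
        refine mul_le_mul (mul_le_mul_of_nonneg_left h17 (hsp _).le) h15 (Real.rpow_nonneg hX0 _) ?_
        exact mul_nonneg (hsp _).le (mul_nonneg (hsp _).le htj0)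
    _ = (s ^ (E1 + (d * j - a) + -(2 / 3 * (a + d * i))) * Pi ^ (2 / 3 : ℝ) + s ^ (2 / 3 * Cb + (E1 + (d * j - a)))) * totj := by
        rw [Real.rpow_add hs0, Real.rpow_add hs0, Real.rpow_add hs0 (2 / 3 * Cb), Real.rpow_add hs0 E1]; ring
    _ ≤ (s ^ (-(8 * a)) * Pi ^ (2 / 3 : ℝ) + s ^ (2 / 3 * Cb - 8 * a)) * totj := by
        refine mul_le_mul_of_nonneg_right (add_le_add ?_ ?_) htj0
        · exact mul_le_mul_of_nonneg_right (hanti _ _ hE2) hP3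
        · exact hanti _ _ (by linarith)

/-! ## 5. sp, tp      (LEAVES L-256-SFC-SP, L-256-SFC-TP) -/

/-- the error of LOC summed over the intervals of the gate `j`.   PLAN: `SfMD.ivs = ivs k0 i0 (k ·)`, `sf_ivs_fiber`: `= 2^(k j - k i) Σ_m ‖pre i m‖²`; `2^(k j - k i) ≤ 2^n = s^(-1)` (`Str.k_rg`); `Ext.en`; `Ext.read` at `j`: `e ≤ s^(-a) s^(d j) tot j`; `s^(d (j - i)) ≤ 1`, `a ≤ 1`. -/
theorem sf_core_err_sum {de : ℝ} (c : SfCfg Y de) (pe Ls a : ℝ) (ha : 0 < a ∧ a ≤ 1) (hd : 0 ≤ de) (hext : SfMD.Ext Y c.p c.W pe de Ls c.ε a) (i : ℝ) (hi : i ∈ c.W.G) (j : ℝ) (hj : j ∈ c.W.G)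
    (hij : i < j) : ∑ m' ∈ c.W.ivs j, ‖c.W.pre i (ancI (c.W.k j) (c.W.k i) m')‖ ^ 2 ≤ c.W.E.s ^ (-(3 : ℝ)) * c.W.tot j := by
  have hs := hext.str
  have hs0 := gn_s_pos c.W.E
  have hki := hs.k_rg i hi
  have hkj := hs.k_rg j hj
  have hkij := (hs.k_mono i hi j hj hij).1
  have e1 : ∑ m' ∈ c.W.ivs j, ‖c.W.pre i (ancI (c.W.k j) (c.W.k i) m')‖ ^ 2
      = 2 ^ (c.W.k j - c.W.k i) * ∑ m ∈ c.W.ivs i, ‖c.W.pre i m‖ ^ 2 :=
    sf_ivs_fiber c.W.E.k0 c.W.E.i0 (c.W.k i) (c.W.k j) hki.1 hkij (fun m => ‖c.W.pre i m‖ ^ 2)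
  rw [e1]
  have h2 : (2 : ℝ) ^ (c.W.k j - c.W.k i) ≤ c.W.E.s ^ (-(1 : ℝ)) := by
    rw [gn_s_rpow, ← gn_two_nat]
    apply gn_two_mono
    have h5 : c.W.k j - c.W.k i ≤ c.W.E.n := by
      have h6 := hkj.2
      unfold Xp.kf at h6
      omega
    have h7 : ((c.W.k j - c.W.k i : ℕ) : ℝ) ≤ c.W.E.n := by exact_mod_cast h5
    linarith
  have h3 := hext.en i hi
  have h4 := hext.read j hj
  have he := hs.valid.e_pos
  have hp : ∀ y : ℝ, 0 < c.W.E.s ^ y := fun y => Real.rpow_pos_of_pos hs0 y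
  calc (2 : ℝ) ^ (c.W.k j - c.W.k i) * ∑ m ∈ c.W.ivs i, ‖c.W.pre i m‖ ^ 2
      ≤ c.W.E.s ^ (-(1 : ℝ)) * (c.W.E.s ^ (-a) * c.W.E.e * c.W.E.s ^ (-(de * i))) :=
        mul_le_mul h2 h3 (Finset.sum_nonneg fun _ _ => by positivity) (hp _).le
    _ = c.W.E.e * c.W.E.s ^ (-(1 : ℝ) + -a + -(de * i)) := by
        rw [Real.rpow_add hs0, Real.rpow_add hs0]; ring
    _ ≤ c.W.E.e * c.W.E.s ^ (-(3 : ℝ) + a + -(de * j)) :=
        mul_le_mul_of_nonneg_left (gn_s_anti _ (by nlinarith [mul_nonneg hd (sub_nonneg.2 hij.le), ha.2])) he.le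
    _ = c.W.E.s ^ (-(3 : ℝ)) * (c.W.E.s ^ a * c.W.E.e * c.W.E.s ^ (-(de * j))) := by
        rw [Real.rpow_add hs0, Real.rpow_add hs0]; ring
    _ ≤ c.W.E.s ^ (-(3 : ℝ)) * c.W.tot j := mul_le_mul_of_nonneg_left h4 (hp _).le

/-- a lower bound for the depth can be demanded -/
theorem sf_core_sp_n (π : SfPar) (Ls h : ℝ) (N : ℕ) : SfRigid Y π Ls h (fun c _ => N ≤ c.W.E.n) :=
  ⟨1, 1, 0, one_pos, one_pos, fun _ _ _ => ⟨0, N, fun _ _ _ _ h4 _ _ _ _ _ => h4⟩⟩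

/-- `√x ≤ √y + z ⟹ x ≤ 2 y + 2 z²` -/
theorem sf_core_sp_sq (x y z : ℝ) (hx : 0 ≤ x) (hy : 0 ≤ y) (h : Real.sqrt x ≤ Real.sqrt y + z) : x ≤ 2 * y + 2 * z ^ 2 := by
  have h1 : Real.sqrt x ^ 2 = x := Real.sq_sqrt hx
  have h2 : Real.sqrt y ^ 2 = y := Real.sq_sqrt hy
  have h3 : Real.sqrt x ^ 2 ≤ (Real.sqrt y + z) ^ 2 := pow_le_pow_left₀ (Real.sqrt_nonneg x) h 2
  nlinarith [sq_nonneg (Real.sqrt y - z)]

/-- LOC, squared and summed over the intervals of the gate `j` -/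
theorem sf_core_sp_sum {de : ℝ} (c : SfCfg Y de) (pe Ls a : ℝ) (ha : 0 < a ∧ a ≤ 1) (hd : 0 ≤ de) (hext : SfMD.Ext Y c.p c.W pe de Ls c.ε a) (i : ℝ) (hi : i ∈ c.W.G) (j : ℝ) (hj : j ∈ c.W.G)
    (hij : i < j) (Cb1 : ℕ) (V : ℕ → c.D.Row j → Prop) (R : ℕ → c.D.Row i → Prop)
    (hloc : ∀ m' : ℕ, Real.sqrt (c.rdE j (V m') m' (c.W.pre j m')) ≤ Real.sqrt (c.rdE j (V m') m' (c.preR i j (R m') m'))
        + c.W.E.s ^ (Cb1 : ℝ) * ‖c.W.pre i (ancI (c.W.k j) (c.W.k i) m')‖) :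
    ∑ m' ∈ c.W.ivs j, c.rdE j (V m') m' (c.W.pre j m') ≤ 2 * ∑ m' ∈ c.W.ivs j, c.rdE j (V m') m' (c.preR i j (R m') m')
      + 2 * c.W.E.s ^ (2 * (Cb1 : ℝ) - 3) * c.W.tot j := by
  have hs := hext.str
  have hs0 := gn_s_pos c.W.E
  have hnn : ∀ (m' : ℕ) (ψ : (Y.M.sys c.p).Kc), 0 ≤ c.rdE j (V m') m' ψ := fun m' ψ =>
    gn_en_nonneg _ _ _ (fun x => ((sf_core_wS_mask c hs j hj (V m') m').2 x).1) ψ
  have h1 : ∀ m' ∈ c.W.ivs j, c.rdE j (V m') m' (c.W.pre j m') ≤ 2 * c.rdE j (V m') m' (c.preR i j (R m') m')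
      + 2 * c.W.E.s ^ (2 * (Cb1 : ℝ)) * ‖c.W.pre i (ancI (c.W.k j) (c.W.k i) m')‖ ^ 2 := by
    intro m' _
    have h2 := sf_core_sp_sq _ _ _ (hnn m' _) (hnn m' _) (hloc m')
    have h3 : c.W.E.s ^ (2 * (Cb1 : ℝ)) = (c.W.E.s ^ (Cb1 : ℝ)) ^ 2 := by
      rw [← Real.rpow_natCast (c.W.E.s ^ (Cb1 : ℝ)) 2, ← Real.rpow_mul hs0.le]
      congr 1
      push_cast
      ring
    rw [h3]
    calc _ ≤ _ := h2
      _ = _ := by ring
  refine (Finset.sum_le_sum h1).trans ?_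
  rw [Finset.sum_add_distrib, ← Finset.mul_sum, ← Finset.mul_sum]
  have h4 := sf_core_err_sum c pe Ls a ha hd hext i hi j hj hij
  have h5 : c.W.E.s ^ (2 * (Cb1 : ℝ) - 3) = c.W.E.s ^ (2 * (Cb1 : ℝ)) * c.W.E.s ^ (-(3 : ℝ)) := by
    rw [← Real.rpow_add hs0]
    congr 1
  rw [h5]
  have h6 : 0 ≤ 2 * c.W.E.s ^ (2 * (Cb1 : ℝ)) := by positivity
  nlinarith [mul_le_mul_of_nonneg_left h4 h6]

/-- the masses of two gates -/
theorem sf_core_sp_tot {de : ℝ} (c : SfCfg Y de) (pe Ls a : ℝ) (hext : SfMD.Ext Y c.p c.W pe de Ls c.ε a)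
    (hmass : ∀ i ∈ c.D.G, c.D.s ^ a ≤ c.D.mass i ∧ c.D.mass i ≤ c.D.s ^ (-a)) (i : ℝ) (hi : i ∈ c.W.G) :
    0 < c.W.tot i ∧ c.W.tot i ≤ c.W.E.s ^ (-a) * c.W.E.e * c.W.E.s ^ (-(de * i)) := by
  have hs0 := gn_s_pos c.W.E
  have he := hext.str.valid.e_pos
  have hp : ∀ y : ℝ, 0 < c.W.E.s ^ y := fun y => Real.rpow_pos_of_pos hs0 y
  refine ⟨lt_of_lt_of_le (mul_pos (mul_pos (hp _) he) (hp _)) (hext.read i hi), ?_⟩
  have h1 := (hmass i (c.sh.hG ▸ hi)).2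
  rw [c.sh.hmass i hi, c.sh.hs, div_le_iff₀ (mul_pos he (hp _))] at h1
  calc _ ≤ _ := h1
    _ = _ := by ring

/-- the final arithmetic of `sp` -/
theorem sf_core_sp_fin (s t a prU X totj tm Cb Cb1 : ℝ) (hs0 : 0 < s) (hs8 : s ≤ 1 / 8) (h4 : 4 ≤ s ^ (-(t / 2))) (ht : 0 < t) (hat : 16 * a ≤ t) (ha1 : 16 * a ≤ 1)
    (hCb : 3 / 2 * (1 / t + 2) ≤ Cb) (hCb1 : 1 / t + 3 ≤ Cb1) (htj0 : 0 < totj) (hX : 0 ≤ X)
    (h1 : prU * totj ≤ 2 * tm + 2 * s ^ (2 * Cb1 - 3) * totj) (h2 : tm ≤ (s ^ (-(8 * a)) * X + s ^ (2 / 3 * Cb - 8 * a)) * totj) :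
    prU ≤ s ^ (-t) * X + s ^ (1 / t) := by
  have hp : ∀ y : ℝ, 0 < s ^ y := fun y => Real.rpow_pos_of_pos hs0 y
  have hanti : ∀ y y' : ℝ, y ≤ y' → s ^ y' ≤ s ^ y := fun y y' h => Real.rpow_le_rpow_of_exponent_ge hs0 (by linarith) h
  have h3 : prU * totj ≤ (2 * (s ^ (-(8 * a)) * X + s ^ (2 / 3 * Cb - 8 * a)) + 2 * s ^ (2 * Cb1 - 3)) * totj := by
    linarith
  have h5 := le_of_mul_le_mul_right h3 htj0
  refine h5.trans ?_
  have k1 : 2 * s ^ (-(8 * a)) ≤ s ^ (-t) := by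
    have k2 : s ^ (-(8 * a)) ≤ s ^ (-(t / 2)) := hanti _ _ (by linarith)
    have k3 : s ^ (-t) = s ^ (-(t / 2)) * s ^ (-(t / 2)) := by
      rw [← Real.rpow_add hs0]
      congr 1
      ring
    rw [k3]
    nlinarith [hp (-(t / 2)), hp (-(8 * a))]
  have k4 : ∀ y : ℝ, 1 / t + 1 ≤ y → s ^ y ≤ s ^ (1 / t) * (1 / 8) := by
    intro y hy
    refine (hanti _ _ hy).trans ?_
    rw [Real.rpow_add hs0, Real.rpow_one]
    exact mul_le_mul_of_nonneg_left hs8 (hp _).le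
  have k5 := k4 (2 / 3 * Cb - 8 * a) (by linarith)
  have k6 := k4 (2 * Cb1 - 3) (by
    have : 0 < 1 / t := by positivity
    linarith)
  have k7 := mul_le_mul_of_nonneg_right k1 hX
  have k8 := hp (1 / t)
  linarith

/-- the field `sp` for one shadow -/
theorem sf_core_sp_aux (hO : SfCyOk Y) (π : SfPar) (Ls : ℝ) (hE : SfCoreHyp Y π) (t a : ℝ) (ht : 0 < t) (ha : 0 < a) (hat : 16 * a ≤ t) (ha1 : 16 * a ≤ 1) (Cb Cb1 : ℕ)
    (hCb : 3 / 2 * (1 / t + 2) ≤ (Cb : ℝ)) (hCb1 : 1 / t + 3 ≤ (Cb1 : ℝ))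
    (c : SfCfg Y π.d) (C : ℕ) (hob : c.ob C) (hext : SfMD.Ext Y c.p c.W π.p π.d Ls c.ε a)
    (hloc : ∀ i ∈ c.W.G, ∀ j ∈ c.W.G, i < j → ∀ (V : c.D.Row j → Prop) (R : c.D.Row i → Prop), c.D.Pred i j V R → ∀ m' : ℕ,
      Real.sqrt (c.rdE j V m' (c.W.pre j m')) ≤ Real.sqrt (c.rdE j V m' (c.preR i j R m'))
        + c.W.E.s ^ (Cb1 : ℝ) * ‖c.W.pre i (ancI (c.W.k j) (c.W.k i) m')‖)
    (htail : ∀ i ∈ c.W.G, ∀ j ∈ c.W.G, i < j → ∀ (S : c.D.Row i → Prop) (U : c.D.Row j → Prop),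
      (c.xpR i j S U).rd ≤ 2 ^ (-((1 / 2 - π.Γ - a) * ((c.W.k j - c.W.k i : ℕ) : ℝ))) * Real.sqrt (c.W.E.s ^ (-a) * c.W.E.ka * c.W.E.s ^ (π.p * i)) *
        ((c.D.P i).pr S * c.W.tot i + c.W.E.s ^ (Cb : ℝ) * c.W.E.e))
    (hmass : ∀ i ∈ c.D.G, c.D.s ^ a ≤ c.D.mass i ∧ c.D.mass i ≤ c.D.s ^ (-a))
    (hn3 : 3 ≤ c.W.E.n) (hn4 : (4 : ℝ) ≤ 2 ^ (t / 2 * c.W.E.n)) :
    ∀ i ∈ c.D.G, ∀ j ∈ c.D.G, i < j → ∀ (U : c.D.Row j → Prop) (S : c.D.Row i → Prop), c.D.Pred i j U S →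
      (c.D.P j).pr U ≤ c.D.s ^ (-t) * (c.D.P i).pr S ^ ((2 : ℝ) / 3) + c.D.s ^ (1 / t) := by
  intro i hi j hj hij U S hP
  rw [c.sh.hG] at hi hj
  rw [c.sh.hs]
  have hs := hext.str
  have hs0 := gn_s_pos c.W.E
  have hT : (Y.M.sys c.p).Tight := hE.gen.tight c.p (hO.af _ _ _ _ _ hob.2.1).1
  have hp : ∀ y : ℝ, 0 < c.W.E.s ^ y := fun y => Real.rpow_pos_of_pos hs0 y
  obtain ⟨-, -, hΓ, hpp, hdd⟩ := hE.par.1
  have ha' : 0 < a ∧ a ≤ 1 := ⟨ha, by linarith⟩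
  have hn0 : (0 : ℝ) < c.W.E.n := by
    have : 0 < c.W.E.n := by omega
    exact_mod_cast this
  -- the scale
  have hs8 : c.W.E.s ≤ 1 / 8 := by
    have h1 : c.W.E.s = c.W.E.s ^ (1 : ℝ) := (Real.rpow_one _).symm
    rw [h1, gn_s_rpow]
    have h2 : (2 : ℝ) ^ (-(1 * (c.W.E.n : ℝ))) ≤ 2 ^ (-(3 : ℝ)) := by
      apply gn_two_mono
      have : (3 : ℝ) ≤ c.W.E.n := by exact_mod_cast hn3
      linarith
    refine h2.trans (le_of_eq ?_)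
    rw [gn_two_neg]
    norm_num
  have hs1 : c.W.E.s < 1 := by linarith
  have h4 : (4 : ℝ) ≤ c.W.E.s ^ (-(t / 2)) := by
    rw [gn_s_rpow]
    refine hn4.trans (le_of_eq ?_)
    congr 1
    ring
  obtain ⟨hti0, hti⟩ := sf_core_sp_tot c π.p Ls a hext hmass i hi
  obtain ⟨htj0, -⟩ := sf_core_sp_tot c π.p Ls a hext hmass j hj
  have hPi : 0 ≤ (c.D.P i).pr S := Finset.sum_nonneg fun ρ _ => by
    split_ifs
    · exact (c.D.P i).nonneg ρ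
    · exact le_rfl
  -- LOC
  have h1 := sf_core_sp_sum c π.p Ls a ha' hdd.1.le hext i hi j hj hij Cb1 (fun _ => U) (fun _ => S) (hloc i hi j hj hij U S hP)
  rw [← sf_core_pr c hs j hj U, ← sf_core_xp_tm c hs i hi j hj hij S U] at h1
  -- the experiment
  obtain ⟨hv, -, -, -, -, -, -⟩ := sf_core_xp_valid c C hob hT i hi j hj hij S U
  have hkij := (hs.k_mono i hi j hj hij).1
  have hξ : |((c.W.k j - c.W.k i : ℕ) : ℝ) / c.W.E.n - (j - i)| ≤ 2 * a := by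
    have d1 := hext.depth i hi
    have d2 := hext.depth j hj
    rw [Nat.cast_sub hkij]
    have e1 : ((c.W.k j : ℝ) - c.W.k i) / c.W.E.n - (j - i)
        = ((((c.W.k j : ℝ) - c.W.E.k0) - j * c.W.E.n) - (((c.W.k i : ℝ) - c.W.E.k0) - i * c.W.E.n)) / c.W.E.n := by
      field_simp
      ring
    rw [e1, abs_div, abs_of_pos hn0, div_le_iff₀ hn0]
    refine (abs_sub _ _).trans ?_
    linarith
  have hrd := htail i hi j hj hij S U
  have e2 : (2 : ℝ) ^ (-((1 / 2 - π.Γ - a) * ((c.W.k j - c.W.k i : ℕ) : ℝ)))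
      = c.W.E.s ^ ((1 / 2 - π.Γ - a) * (((c.W.k j - c.W.k i : ℕ) : ℝ) / c.W.E.n)) := by
    rw [gn_s_rpow]
    congr 2
    field_simp
  rw [e2] at hrd
  have htw : (c.xpR i j S U).tw ≤ c.W.E.s ^ (-a) * (c.W.E.e / c.W.E.ka) * c.W.E.s ^ (-((π.p + π.d) * j)) := by
    rw [sf_core_xp_tw]
    exact hext.cnt j hj
  have htw0 : 0 ≤ (c.xpR i j S U).tw := Finset.sum_nonneg fun l _ => (hv.w_pos l).le
  have h2 := sf_sp_num c.W.E.s c.W.E.e c.W.E.ka a π.Γ π.p π.d i j (((c.W.k j - c.W.k i : ℕ) : ℝ) / c.W.E.n) ((c.D.P i).pr S) (c.W.tot i) (c.W.tot j)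
    (c.xpR i j S U).rd (c.xpR i j S U).tw (c.xpR i j S U).tm (Cb : ℝ) ⟨hs0, hs1⟩ hs.valid.e_pos hs.valid.ka_pos ha' hΓ hpp hdd (hs.gate.2 i hi).1 hij (hs.gate.2 j hj).2 hξ hPi
    (gn_rd_nonneg _ hv) htw0 hti0.le (sf_xp_holder _ hv) hrd htw hti (hext.read j hj)
  exact sf_core_sp_fin c.W.E.s t a _ _ _ _ (Cb : ℝ) (Cb1 : ℝ) hs0 hs8 h4 ht hat ha1 hCb hCb1 htj0 (Real.rpow_nonneg hPi _) h1 h2

/-- **sp.**   PLAN.  `a = min (t/16) (1/16)`, `Cb = ⌈(3/2)(1/t + 2)⌉₊`, `Cb1 = ⌈1/t⌉₊ + 3`;   combine by `sf_rigid_and`: `sf_rigid_hyp` (accuracy `a`), `sf_core_loc .. Cb1`, `sf_core_xp_tail .. (t := a) .. Cb`, `sf_core_mass (t := a)`;   new `n0` with `4 ≤ 2^(t n / 2)`, `n0 ≥ 3`.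
`pr U tot j = Σ_m' rdE j U m' (pre j m')` (`sf_core_pr`).   LOC with `V = U`, `R = S`: `√x ≤ √y + z ⟹ x ≤ 2 y + 2 z²`.   `Σ_m' rdE j U m' (preR i j S m') = (xpR i j S U).tm` (`sf_core_xp_tm`) `≤ rd^(2/3) tw^(1/3)` (`sf_xp_holder`, `sf_core_xp_valid`).
`sf_sp_num` with `ξ = (k j - k i) / n` (`|ξ - (j - i)| ≤ 2a` by `Ext.depth`; `2^(-(y (k j - k i))) = s^(y ξ)` by `gn_s_rpow`), `tw` by `sf_core_xp_tw` + `Ext.cnt`, `toti ≤ ..` from `sf_core_mass` (`hmass`) or `Ext.en`, `totj ≥ ..` by `Ext.read`, `π.Pd` from `hE.par`.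
Error: `sf_core_err_sum`: `2 s^(2 Cb1) s^(-3) tot j`.   Divide by `tot j > 0`:  `pr U ≤ 2 s^(-8a) (pr S)^(2/3) + 2 s^((2/3) Cb - 8a) + 2 s^(2 Cb1 - 3) ≤ s^(-t) (pr S)^(2/3) + s^(1/t)`. -/
theorem sf_core_sp (hO : SfCyOk Y) (hS : SfSep Y) (π : SfPar) (Ls : ℝ) (hE : SfCoreHyp Y π) (t h : ℝ) (ht : 0 < t) (hh : 0 < h) :
    SfRigid Y π Ls h (fun c _ => ∀ i ∈ c.D.G, ∀ j ∈ c.D.G, i < j → ∀ (U : c.D.Row j → Prop) (S : c.D.Row i → Prop), c.D.Pred i j U S →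
      (c.D.P j).pr U ≤ c.D.s ^ (-t) * (c.D.P i).pr S ^ ((2 : ℝ) / 3) + c.D.s ^ (1 / t)) := by
  obtain ⟨n1, hn1⟩ := gn_absorb 4 (t / 2) (half_pos ht)
  have ha : 0 < min (t / 16) (1 / 16) := lt_min (by positivity) (by norm_num)
  refine sf_rigid_mono (sf_rigid_and (sf_rigid_hyp π Ls h (min (t / 16) (1 / 16)) 1 0 ha one_pos)
    (sf_rigid_and (sf_core_loc hO hS π Ls hE h hh (⌈1 / t⌉₊ + 3))
      (sf_rigid_and (sf_core_xp_tail hO π Ls hE (min (t / 16) (1 / 16)) h ha hh ⌈3 / 2 * (1 / t + 2)⌉₊)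
        (sf_rigid_and (sf_core_mass hO π Ls hE (min (t / 16) (1 / 16)) h ha) (sf_core_sp_n π Ls h (max n1 3)))))) ?_
  rintro c C ⟨⟨hob, -, hext, -, -, -, -⟩, hloc, htail, hmass, hn⟩
  refine sf_core_sp_aux hO π Ls hE t (min (t / 16) (1 / 16)) ht ha ?_ ?_ ⌈3 / 2 * (1 / t + 2)⌉₊ (⌈1 / t⌉₊ + 3) (Nat.le_ceil _) ?_ c C hob hext hloc htail hmass
    ((le_max_right _ _).trans hn) (hn1 _ ((le_max_left _ _).trans hn))
  · have := min_le_left (t / 16) (1 / 16 : ℝ)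
    linarith
  · have := min_le_right (t / 16) (1 / 16 : ℝ)
    linarith
  · push_cast
    have := Nat.le_ceil (1 / t)
    linarith

/-- the intervals of the successors of a row are counted by their times -/
theorem sf_core_tp_cnt {de : ℝ} (c : SfCfg Y de) (i j : ℝ) (hj : j ∈ c.W.G) (U : c.D.Row j → Prop) (ρ : c.D.Row i) (F : Finset ℕ)
    (hF : ∀ m' ∈ F, ∃ ρ', U ρ' ∧ c.im j ρ' = m' ∧ c.D.Conn i j ρ ρ') :
    F.card ≤ ({t' | ∃ ρ', U ρ' ∧ c.D.Conn i j ρ ρ' ∧ c.D.T j ρ' = t'} : Set ℝ).ncard := by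
  rw [← Set.ncard_coe_finset]
  refine Set.ncard_le_ncard_of_injOn (fun m' : ℕ => ((m' : ℝ) / 2 ^ c.W.k j - tmL c.W.E.k0 c.W.E.i0) / (2 : ℝ)⁻¹ ^ c.W.E.k0) ?_ ?_ ?_
  · intro m' hm'
    obtain ⟨ρ', h1, h2, h3⟩ := hF m' (Finset.mem_coe.1 hm')
    refine ⟨ρ', h1, h3, ?_⟩
    rw [sf_core_T c j hj ρ', ← h2]
    rfl
  · intro m1 _ m2 _ h
    have hL : ((2 : ℝ)⁻¹ ^ c.W.E.k0) ≠ 0 := by positivity
    have h2 : ((2 : ℝ) ^ c.W.k j) ≠ 0 := by positivity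
    simp only at h
    rw [div_left_inj' hL, sub_left_inj, div_left_inj' h2] at h
    exact_mod_cast h
  · refine Set.Finite.subset (Set.finite_range (c.D.T j)) ?_
    rintro t' ⟨ρ', -, -, h⟩
    exact ⟨ρ', h⟩

/-- only the rows of the interval are read -/
theorem sf_core_tp_congr {de : ℝ} (c : SfCfg Y de) (j : ℝ) (U : c.D.Row j → Prop) (m' : ℕ) (ψ : (Y.M.sys c.p).Kc) :
    c.rdE j U m' ψ = c.rdE j (fun ρ' => U ρ' ∧ c.im j ρ' = m') m' ψ := by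
  have h : c.wS j U m' = c.wS j (fun ρ' => U ρ' ∧ c.im j ρ' = m') m' := by
    funext x
    unfold SfCfg.wS
    refine Finset.sum_congr rfl fun ρ _ => ?_
    by_cases h1 : U ρ ∧ c.im j ρ = m'
    · rw [if_pos h1, if_pos ⟨h1, h1.2⟩]
    · rw [if_neg h1, if_neg fun h2 => h1 h2.1]
  unfold SfCfg.rdE
  rw [h]

open Classical in
/-- contraction: what is read after a restricted gate is at most the mass of the restriction -/
theorem sf_core_tp_one {de : ℝ} (c : SfCfg Y de) (C : ℕ) (hob : c.ob C) (hT : (Y.M.sys c.p).Tight) (i : ℝ) (hi : i ∈ c.W.G) (j : ℝ) (hj : j ∈ c.W.G) (hij : i < j)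
    (ht0 : 0 ≤ c.W.tot i) (V : c.D.Row j → Prop) (R : c.D.Row i → Prop) (m' : ℕ) :
    c.rdE j V m' (c.preR i j R m') ≤ ∑ ρ, if R ρ then (c.D.P i).p ρ * c.W.tot i else 0 := by
  have hs := hob.2.2.1
  have h1 : c.rdE j V m' (c.preR i j R m') ≤ ‖c.preR i j R m'‖ ^ 2 := gn_en_le hT _ _ _ (sf_core_wS_mask c hs j hj V m') _
  have h2 : ‖c.preR i j R m'‖ ≤ ‖c.synR i R (ancI (c.W.k j) (c.W.k i) m')‖ :=
    gn_run_norm_le hT _ _ _ (sf_core_mid_ok c C hob i hi j hj hij).msk _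
  have h3 := sf_core_synR_le c hs hT i hi R (ancI (c.W.k j) (c.W.k i) m')
  rw [sf_core_rdE_law c hs i hi R] at h3
  refine h1.trans ((pow_le_pow_left₀ (norm_nonneg _) h2 2).trans (h3.trans ?_))
  refine Finset.sum_le_sum fun ρ _ => ?_
  have h5 : 0 ≤ (c.D.P i).p ρ * c.W.tot i := mul_nonneg ((c.D.P i).nonneg ρ) ht0
  by_cases hR : R ρ
  · rw [if_pos hR]
    split_ifs
    · exact le_rfl
    · exact h5
  · rw [if_neg hR, if_neg fun h => hR h.1]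

/-- the final arithmetic of `tp` -/
theorem sf_core_tp_fin (s t a d i j e prU MP toti totj Cb1 : ℝ) (hs0 : 0 < s) (hs2 : s ≤ 1 / 2) (h4 : 4 ≤ s ^ (-(t / 2))) (ht : 0 < t) (hat : 8 * a ≤ t)
    (hCb1 : 1 / t + 3 ≤ Cb1) (htj0 : 0 < totj) (hMP : 0 ≤ MP)
    (hti : toti ≤ s ^ (-a) * e * s ^ (-(d * i))) (htj : s ^ a * e * s ^ (-(d * j)) ≤ totj)
    (h1 : prU * totj ≤ 2 * (MP * toti) + 2 * s ^ (2 * Cb1 - 3) * totj) :
    prU ≤ s ^ (-t) * s ^ (d * (j - i)) * MP + s ^ (1 / t) := by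
  have hp : ∀ y : ℝ, 0 < s ^ y := fun y => Real.rpow_pos_of_pos hs0 y
  have hanti : ∀ y y' : ℝ, y ≤ y' → s ^ y' ≤ s ^ y := fun y y' h => Real.rpow_le_rpow_of_exponent_ge hs0 (by linarith) h
  have h2 : toti ≤ s ^ (-(2 * a)) * s ^ (d * (j - i)) * totj := by
    refine hti.trans ?_
    have e1 : s ^ (-a) * e * s ^ (-(d * i)) = s ^ (-(2 * a)) * s ^ (d * (j - i)) * (s ^ a * e * s ^ (-(d * j))) := by
      have e2 : s ^ (-a) * s ^ (-(d * i)) = s ^ (-(2 * a)) * s ^ (d * (j - i)) * (s ^ a * s ^ (-(d * j))) := by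
        rw [← Real.rpow_add hs0, ← Real.rpow_add hs0, ← Real.rpow_add hs0, ← Real.rpow_add hs0]
        congr 1
        ring
      calc s ^ (-a) * e * s ^ (-(d * i)) = e * (s ^ (-a) * s ^ (-(d * i))) := by ring
        _ = _ := by rw [e2]; ring
    rw [e1]
    exact mul_le_mul_of_nonneg_left htj (mul_pos (hp _) (hp _)).le
  have h3 : prU * totj ≤ (2 * (MP * (s ^ (-(2 * a)) * s ^ (d * (j - i)))) + 2 * s ^ (2 * Cb1 - 3)) * totj := by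
    have := mul_le_mul_of_nonneg_left h2 hMP
    linarith
  have h5 := le_of_mul_le_mul_right h3 htj0
  refine h5.trans ?_
  have k1 : 2 * s ^ (-(2 * a)) ≤ s ^ (-t) := by
    have k2 : s ^ (-(2 * a)) ≤ s ^ (-(t / 2)) := hanti _ _ (by linarith)
    have k3 : s ^ (-t) = s ^ (-(t / 2)) * s ^ (-(t / 2)) := by
      rw [← Real.rpow_add hs0]
      congr 1
      ring
    rw [k3]
    nlinarith [hp (-(t / 2)), hp (-(2 * a))]
  have k6 : s ^ (2 * Cb1 - 3) ≤ s ^ (1 / t) * (1 / 2) := by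
    have : 0 < 1 / t := by positivity
    refine (hanti (1 / t + 1) _ (by linarith)).trans ?_
    rw [Real.rpow_add hs0, Real.rpow_one]
    exact mul_le_mul_of_nonneg_left hs2 (hp _).le
  have k7 := mul_le_mul_of_nonneg_right k1 (mul_nonneg (hp (d * (j - i))).le hMP)
  have k8 := hp (1 / t)
  calc 2 * (MP * (s ^ (-(2 * a)) * s ^ (d * (j - i)))) + 2 * s ^ (2 * Cb1 - 3)
      = 2 * s ^ (-(2 * a)) * (s ^ (d * (j - i)) * MP) + 2 * s ^ (2 * Cb1 - 3) := by ring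
    _ ≤ s ^ (-t) * (s ^ (d * (j - i)) * MP) + s ^ (1 / t) := by linarith
    _ = _ := by ring

/-- the field `tp` for one shadow -/
theorem sf_core_tp_aux (hO : SfCyOk Y) (π : SfPar) (Ls : ℝ) (hE : SfCoreHyp Y π) (t a : ℝ) (ht : 0 < t) (ha : 0 < a) (hat : 8 * a ≤ t) (ha1 : 8 * a ≤ 1) (Cb1 : ℕ)
    (hCb1 : 1 / t + 3 ≤ (Cb1 : ℝ))
    (c : SfCfg Y π.d) (C : ℕ) (hob : c.ob C) (hext : SfMD.Ext Y c.p c.W π.p π.d Ls c.ε a)
    (hloc : ∀ i ∈ c.W.G, ∀ j ∈ c.W.G, i < j → ∀ (V : c.D.Row j → Prop) (R : c.D.Row i → Prop), c.D.Pred i j V R → ∀ m' : ℕ,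
      Real.sqrt (c.rdE j V m' (c.W.pre j m')) ≤ Real.sqrt (c.rdE j V m' (c.preR i j R m'))
        + c.W.E.s ^ (Cb1 : ℝ) * ‖c.W.pre i (ancI (c.W.k j) (c.W.k i) m')‖)
    (hmass : ∀ i ∈ c.D.G, c.D.s ^ a ≤ c.D.mass i ∧ c.D.mass i ≤ c.D.s ^ (-a))
    (hn1 : 1 ≤ c.W.E.n) (hn4 : (4 : ℝ) ≤ 2 ^ (t / 2 * c.W.E.n)) :
    ∀ i ∈ c.D.G, ∀ j ∈ c.D.G, i < j → ∀ (U : c.D.Row j → Prop) (S : c.D.Row i → Prop) (M : ℝ), c.D.Pred i j U S →
      (∀ ρ, S ρ → (({t' | ∃ ρ', U ρ' ∧ c.D.Conn i j ρ ρ' ∧ c.D.T j ρ' = t'} : Set ℝ).ncard : ℝ) ≤ M) →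
      (c.D.P j).pr U ≤ c.D.s ^ (-t) * M * c.D.s ^ (π.d * (j - i)) * (c.D.P i).pr S + c.D.s ^ (1 / t) := by
  classical
  intro i hi j hj hij U S M hP hM
  rw [c.sh.hG] at hi hj
  rw [c.sh.hs]
  have hs := hext.str
  have hs0 := gn_s_pos c.W.E
  have hT : (Y.M.sys c.p).Tight := hE.gen.tight c.p (hO.af _ _ _ _ _ hob.2.1).1
  obtain ⟨-, -, -, -, hdd⟩ := hE.par.1
  have ha' : 0 < a ∧ a ≤ 1 := ⟨ha, by linarith⟩
  have hs2 : c.W.E.s ≤ 1 / 2 := by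
    have h1 : c.W.E.s = c.W.E.s ^ (1 : ℝ) := (Real.rpow_one _).symm
    rw [h1, gn_s_rpow]
    have h2 : (2 : ℝ) ^ (-(1 * (c.W.E.n : ℝ))) ≤ 2 ^ (-(1 : ℝ)) := by
      apply gn_two_mono
      have : (1 : ℝ) ≤ c.W.E.n := by exact_mod_cast hn1
      linarith
    refine h2.trans (le_of_eq ?_)
    rw [gn_two_neg]
    norm_num
  have h4 : (4 : ℝ) ≤ c.W.E.s ^ (-(t / 2)) := by
    rw [gn_s_rpow]
    refine hn4.trans (le_of_eq ?_)
    congr 1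
    ring
  obtain ⟨hti0, hti⟩ := sf_core_sp_tot c π.p Ls a hext hmass i hi
  obtain ⟨htj0, -⟩ := sf_core_sp_tot c π.p Ls a hext hmass j hj
  have hPi : 0 ≤ (c.D.P i).pr S := Finset.sum_nonneg fun ρ _ => by
    split_ifs
    · exact (c.D.P i).nonneg ρ
    · exact le_rfl
  obtain ⟨V, hV⟩ : ∃ V : ℕ → c.D.Row j → Prop, V = fun m' ρ' => U ρ' ∧ c.im j ρ' = m' := ⟨_, rfl⟩
  obtain ⟨R, hR⟩ : ∃ R : ℕ → c.D.Row i → Prop, R = fun m' ρ => S ρ ∧ ∃ ρ', U ρ' ∧ c.im j ρ' = m' ∧ c.D.Conn i j ρ ρ' := ⟨_, rfl⟩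
  have hPred : ∀ m', c.D.Pred i j (V m') (R m') := by
    intro m' ρ' hρ' ρ hc
    rw [hV] at hρ'
    rw [hR]
    exact ⟨hP ρ' hρ'.1 ρ hc, ρ', hρ'.1, hρ'.2, hc⟩
  have h1 := sf_core_sp_sum c π.p Ls a ha' hdd.1.le hext i hi j hj hij Cb1 V R (fun m' => hloc i hi j hj hij (V m') (R m') (hPred m') m')
  have h0 : (c.D.P j).pr U * c.W.tot j = ∑ m' ∈ c.W.ivs j, c.rdE j (V m') m' (c.W.pre j m') := by
    rw [sf_core_pr c hs j hj U, hV]
    exact Finset.sum_congr rfl fun m' _ => sf_core_tp_congr c j U m' _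
  rw [← h0] at h1
  have h2 : ∑ m' ∈ c.W.ivs j, c.rdE j (V m') m' (c.preR i j (R m') m') ≤ M * (c.D.P i).pr S * c.W.tot i := by
    calc ∑ m' ∈ c.W.ivs j, c.rdE j (V m') m' (c.preR i j (R m') m')
        ≤ ∑ m' ∈ c.W.ivs j, ∑ ρ, (if R m' ρ then (c.D.P i).p ρ * c.W.tot i else 0) :=
          Finset.sum_le_sum fun m' _ => sf_core_tp_one c C hob hT i hi j hj hij hti0.le (V m') (R m') m'
      _ = ∑ ρ, ∑ m' ∈ c.W.ivs j, (if R m' ρ then (c.D.P i).p ρ * c.W.tot i else 0) := Finset.sum_comm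
      _ ≤ ∑ ρ, (if S ρ then (c.D.P i).p ρ else 0) * (M * c.W.tot i) := by
          refine Finset.sum_le_sum fun ρ _ => ?_
          by_cases hS : S ρ
          · rw [if_pos hS, ← Finset.sum_filter, Finset.sum_const, nsmul_eq_mul]
            have h5 : (((c.W.ivs j).filter fun m' => R m' ρ).card : ℝ) ≤ M := by
              refine le_trans ?_ (hM ρ hS)
              have h6 := sf_core_tp_cnt c i j hj U ρ ((c.W.ivs j).filter fun m' => R m' ρ) (by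
                intro m' hm'
                have h7 := (Finset.mem_filter.1 hm').2
                rw [hR] at h7
                exact h7.2)
              exact_mod_cast h6
            have h8 : 0 ≤ (c.D.P i).p ρ * c.W.tot i := mul_nonneg ((c.D.P i).nonneg ρ) hti0.le
            calc _ ≤ M * ((c.D.P i).p ρ * c.W.tot i) := mul_le_mul_of_nonneg_right h5 h8
              _ = _ := by ring
          · rw [if_neg hS, zero_mul]
            refine le_of_eq (Finset.sum_eq_zero fun m' _ => if_neg fun h => hS ?_)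
            rw [hR] at h
            exact h.1
      _ = M * (c.D.P i).pr S * c.W.tot i := by
          rw [← Finset.sum_mul]
          unfold FLaw.pr
          ring
  have hMP : 0 ≤ M * (c.D.P i).pr S := by
    by_cases hex : ∃ ρ, S ρ
    · obtain ⟨ρ, hρ⟩ := hex
      exact mul_nonneg ((Nat.cast_nonneg _).trans (hM ρ hρ)) hPi
    · have : (c.D.P i).pr S = 0 := Finset.sum_eq_zero fun ρ _ => if_neg fun h => hex ⟨ρ, h⟩
      rw [this, mul_zero]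
  have h3 := sf_core_tp_fin c.W.E.s t a π.d i j c.W.E.e _ _ _ _ (Cb1 : ℝ) hs0 hs2 h4 ht hat hCb1 htj0 hMP hti (hext.read j hj) (h1.trans (by
    have := h2
    linarith))
  refine h3.trans (le_of_eq ?_)
  ring

/-- **tp.**   PLAN.  `a = min (t/8) (1/8)`, `Cb1 = ⌈1/t⌉₊ + 3`;  `sf_rigid_hyp`, `sf_core_loc .. Cb1`, `sf_core_mass (t := a)`;  `n0` with `4 ≤ 2^(t n / 2)`.
For `m' ∈ ivs j`:  `Um ρ' := U ρ' ∧ im j ρ' = m'`,  `Sm ρ := S ρ ∧ ∃ ρ', U ρ' ∧ im j ρ' = m' ∧ Conn i j ρ ρ'`;  `Pred i j Um Sm`;  `rdE j U m' = rdE j Um m'` (the weights `wS` agree).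
LOC: `rdE j U m' (pre j m') ≤ 2 rdE j Um m' (preR i j Sm m') + 2 s^(2 Cb1) ‖pre i m‖²`;   `rdE j Um m' (preR ..) ≤ ‖preR i j Sm m'‖² ≤ ‖synR i Sm m‖² ≤ rdE i Sm m (pre i m)` (`gn_en_le`, `gn_run_norm_le`, `sf_core_synR_le`)
`= Σ_ρ [Sm ρ ∧ im ρ = m] p ρ tot i ≤ Σ_ρ [Sm ρ] p ρ tot i` (`sf_core_rdE_law`).   Exchange the sums: `Σ_m' Σ_ρ [Sm ρ] p ρ = Σ_ρ p ρ #{m' ∈ ivs j | Sm ρ} ≤ M pr S`:
for `S ρ` the map `m' ↦ (tmL (k j) m' - T0) / L` is injective from `{m' | Sm ρ}` into the set of times of the hypothesis (`sf_core_T`; `Set.ncard_le_ncard`, `Set.ncard_image_of_injective`, the set of times is finite: image of the finite type `Row j`).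
`M pr S ≥ 0` (if `pr S > 0` some `ρ` has `S ρ`, then `M ≥ ncard ≥ 0`).   `tot i ≤ s^(-a) e s^(-(d i))`, `tot j ≥ s^a e s^(-(d j))`: `tot i / tot j ≤ s^(-2a) s^(d (j - i))`.   Error: `sf_core_err_sum`. -/
theorem sf_core_tp (hO : SfCyOk Y) (hS : SfSep Y) (π : SfPar) (Ls : ℝ) (hE : SfCoreHyp Y π) (t h : ℝ) (ht : 0 < t) (hh : 0 < h) :
    SfRigid Y π Ls h (fun c _ => ∀ i ∈ c.D.G, ∀ j ∈ c.D.G, i < j → ∀ (U : c.D.Row j → Prop) (S : c.D.Row i → Prop) (M : ℝ), c.D.Pred i j U S →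
      (∀ ρ, S ρ → (({t' | ∃ ρ', U ρ' ∧ c.D.Conn i j ρ ρ' ∧ c.D.T j ρ' = t'} : Set ℝ).ncard : ℝ) ≤ M) →
      (c.D.P j).pr U ≤ c.D.s ^ (-t) * M * c.D.s ^ (π.d * (j - i)) * (c.D.P i).pr S + c.D.s ^ (1 / t)) := by
  obtain ⟨n1, hn1⟩ := gn_absorb 4 (t / 2) (half_pos ht)
  have ha : 0 < min (t / 8) (1 / 8) := lt_min (by positivity) (by norm_num)
  refine sf_rigid_mono (sf_rigid_and (sf_rigid_hyp π Ls h (min (t / 8) (1 / 8)) 1 0 ha one_pos)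
    (sf_rigid_and (sf_core_loc hO hS π Ls hE h hh (⌈1 / t⌉₊ + 3))
      (sf_rigid_and (sf_core_mass hO π Ls hE (min (t / 8) (1 / 8)) h ha) (sf_core_sp_n π Ls h (max n1 1))))) ?_
  rintro c C ⟨⟨hob, -, hext, -, -, -, -⟩, hloc, hmass, hn⟩
  refine sf_core_tp_aux hO π Ls hE t (min (t / 8) (1 / 8)) ht ha ?_ ?_ (⌈1 / t⌉₊ + 3) ?_ c C hob hext hloc hmass
    ((le_max_right _ _).trans hn) (hn1 _ ((le_max_left _ _).trans hn))
  · have := min_le_left (t / 8) (1 / 8 : ℝ)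
    linarith
  · have := min_le_right (t / 8) (1 / 8 : ℝ)
    linarith
  · push_cast
    have := Nat.le_ceil (1 / t)
    linarith

end Claimed.Agent.R256
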