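import Claimed.Agent.R256.Soft.MCoreReg
import Claimed.Agent.R256.Soft.MCoreSp

/-!
# Row 256 (S0496), unit SOFT, block M2 CORE (architect helper169), file 8: ASSEMBLY      -- KEEP

`sf_core_x`: every shadow of an experiment with `SfMD.Ext` is `Good` (pattern `SfRigid`).   No `sorry` in this file: the block is closed when the leaves `L-256-SFC-*` are.
-/

set_option autoImplicit false

namespace Claimed.Agent.R256

open MeasureTheory Claimed.Agent.R255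

variable {Y : SfCy}

/-- **bdd** (part of `ob`) -/
theorem sf_core_bdd (π : SfPar) (Ls h : ℝ) :
    SfRigid Y π Ls h (fun c C => ∀ i ∈ c.D.G, ∀ ρ, (c.D.ray i ρ).size ≤ c.D.s ^ (-(C : ℝ)) ∧ (c.D.lab i ρ).size ≤ c.D.s ^ (-(C : ℝ))) :=
  sf_rigid_mono (sf_rigid_hyp π Ls h 1 1 0 one_pos one_pos) (fun _ _ hyp => hyp.1.2.2.2.2)

/-- **(M2 CORE), pattern form** -/
theorem sf_core_x (hY : (∃ η, Y = sfCl η) ∨ ∃ η, Y = sfHy η) (π : SfPar) (Ls : ℝ) (hE : SfCoreHyp Y π) (t h : ℝ) (ht : 0 < t) (hh : 0 < h) :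
    SfRigid Y π Ls h (fun c C => c.D.Good π Ls C t) := by
  have hO : SfCyOk Y := sf_cy_ok Y hY
  have hS : SfSep Y := sf_sep hY
  have H := sf_rigid_and (sf_core_sc hO π Ls t h ht) (sf_rigid_and (sf_core_mass hO π Ls hE t h ht) (sf_rigid_and (sf_core_bdd π Ls h)
    (sf_rigid_and (sf_core_own hO π Ls h) (sf_rigid_and (sf_core_grid hO π Ls h) (sf_rigid_and (sf_core_base hO π Ls t h ht hh)
    (sf_rigid_and (sf_core_normC hO π Ls h hh hE) (sf_rigid_and (sf_core_normH hO π Ls t h ht hh) (sf_rigid_and (sf_core_trans π Ls h)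
    (sf_rigid_and (sf_core_split π Ls h) (sf_rigid_and (sf_core_reg hO π Ls hE t h ht) (sf_rigid_and (sf_core_cnt hO π Ls hE t h ht)
    (sf_rigid_and (sf_core_sp hO hS π Ls hE t h ht hh) (sf_rigid_and (sf_core_tp hO hS π Ls hE t h ht hh) (sf_rigid_and (sf_core_clPath hO π Ls h hE)
    (sf_rigid_and (sf_core_clUniq π Ls h hE) (sf_rigid_and (sf_core_clConn hO π Ls h hE)
    (sf_rigid_and (sf_core_wr π Ls t h ht hh) (sf_core_mm hO π Ls t h ht hh))))))))))))))))))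
  refine sf_rigid_mono H ?_
  rintro c C ⟨⟨a1, a2, a3, a4, a5⟩, a6, a7, a8, a9, a10, a11, a12, a13, a14, a15, a16, a17, a18, a19, a20, a21, a22, a23⟩
  exact ⟨⟨a1, a2, a3, a4, a5, a6, a7, a8, a9, a10, a11, a12, a13, a14, a15, a16, a17, a18, a19, a20, a21⟩, ⟨a22, a23⟩⟩

/-- the three extra properties are part of `SfSh` now -/
theorem sf_core_xtra {de : ℝ} (c : SfCfg Y de) (hs : c.W.Str (Y.tq c.p)) : c.Xtra := by
  refine ⟨c.sh.at_ne, c.sh.rp_cl, ?_⟩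
  intro hc i hi j hj hij ρ' x hx
  obtain ⟨_, hA⟩ := (c.sh.at_cov j hj (c.sh.lb j ρ') x).mpr ⟨ρ', rfl, hx⟩
  have hA := hA hc
  obtain ⟨l0, hl0, hth⟩ := hA i hi hij
  have hAnc : c.W.Anc i l0 x := by
    intro g hg hgi
    obtain ⟨l1, hl1, hth1⟩ := hA g hg (hgi.trans hij)
    refine ⟨l1, ?_, hth1⟩
    rw [hl1, hl0, gn_anc_anc (hs.k_mono g hg i hi hgi).1 (hs.k_mono i hi j hj hij).1]
  obtain ⟨ρ, hρ, hxρ⟩ := (c.sh.at_cov i hi l0 x).mp ⟨hth, fun _ => hAnc⟩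
  exact ⟨ρ, hxρ, by rw [hρ, hl0]⟩

/-- **(M2 CORE)**, explicit form: the truncation exponent is bounded below by the package -/
theorem sf_core_y (hY : (∃ η, Y = sfCl η) ∨ ∃ η, Y = sfHy η) (π : SfPar) (Ls : ℝ) (hE : SfCoreHyp Y π) (t h : ℝ) (ht : 0 < t) (hh : 0 < h) :
    ∃ a ε0 μ0 : ℝ, 0 < a ∧ 0 < ε0 ∧ ∀ C : ℕ, ∃ A n0 : ℕ, ∀ c : SfCfg Y π.d, c.ob C → 1 / ((C : ℝ) + 1) ≤ c.ε → A ≤ c.A → n0 ≤ c.W.E.n →
      SfMD.Ext Y c.p c.W π.p π.d Ls c.ε a → c.ε ≤ ε0 → μ0 ≤ c.μ → c.D.GapK h → c.D.Good π Ls C t := by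
  obtain ⟨a, ε0, μ0, ha, hε, H⟩ := sf_core_x hY π Ls hE t h ht hh
  refine ⟨a, ε0, μ0, ha, hε, fun C => ?_⟩
  obtain ⟨A, n0, H'⟩ := H (1 / ((C : ℝ) + 1)) (by positivity) C
  exact ⟨A, n0, fun c hob h1 hA hn hext h0 hμ hg => H' c hob (sf_core_xtra c hext.str) hA hn hext h1 h0 hμ hg⟩

end Claimed.Agent.R256
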