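import Claimed.Agent.R256.Soft.MCorePat

/-!
# Row 256 (S0496), unit SOFT, block M2 CORE (architect helper169), file 5: THE CLASSICAL FIELDS (normC, clUniq, clConn, clPath) AND CLASSICAL LOCALITY      -- KEEP

PAPER-FREE.  Rules: header of `Soft/MCoreDefs.lean`; notation: header of `Soft/MCoreGeo.lean`.      Everywhere `hc : Y.hyb = false`.
Classical model (through `SfCyOk.cl*`, never unfold `sfCl`): a row is its exact index, all analyses coincide, `tz` = multiplication by the mask; an atom is a full cell of the exact index (`ia_mem`, `ia_full`);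
`Xtra`: atoms are nonempty, the representative depends only on the index cell, every point of an atom lies in an atom of every earlier gate on the ancestor interval.
-/

set_option autoImplicit false

namespace Claimed.Agent.R256

open MeasureTheory Claimed.Agent.R255

variable {Y : SfCy}

/-- the product of the masks of a stack along the branch of the interval `m'` of depth `k'` -/
noncomputable def sfPr {P : PkSys} (k' m' : ℕ) (l : List (Stg P)) (x : P.X) : ℝ := (l.map fun σ => σ.M (ancI k' σ.k m') x).prod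

theorem sf_mcore_cl_eqns_cite : True := by
  have := @sfPr.eq_1
  trivial

/-! ## 1. Classical runs      (LEAF L-256-SFC-CLRUN) -/

theorem sf_cl_pr_mask_cons {P : PkSys} (k' m' : ℕ) (σ : Stg P) (l : List (Stg P)) (x : P.X) :
    sfPr k' m' (σ :: l) x = σ.M (ancI k' σ.k m') x * sfPr k' m' l x := by
  simp [sfPr]

theorem sf_cl_pr_mask {P : PkSys} (k' m' : ℕ) (l : List (Stg P)) (hl : StM l) : IsMask (sfPr k' m' l) := by
  induction l with
  | nil =>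
    have e : sfPr k' m' ([] : List (Stg P)) = fun _ => 1 := by funext x; simp [sfPr]
    rw [e]
    exact ⟨measurable_const, fun x => ⟨zero_le_one, le_rfl⟩⟩
  | cons σ l ih =>
    have h1 : IsMask (σ.M (ancI k' σ.k m')) := hl σ List.mem_cons_self _
    have h2 := ih (fun τ hτ => hl τ (List.mem_cons_of_mem _ hτ))
    have e : sfPr k' m' (σ :: l) = fun x => σ.M (ancI k' σ.k m') x * sfPr k' m' l x := by
      funext x; exact sf_cl_pr_mask_cons k' m' σ l x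
    rw [e]
    exact ⟨h1.1.mul h2.1, fun x => ⟨mul_nonneg (h1.2 x).1 (h2.2 x).1, mul_le_one₀ (h1.2 x).2 (h2.2 x).1 (h2.2 x).2⟩⟩

/-- **the classical run formula** (induction on `l`; `Xp.run`, `SfCyOk.clTz`, `Filter.EventuallyEq.trans`; `List.prod_cons`, `mul_smul`, `Complex.ofReal_mul`) -/
theorem sf_cl_run (hO : SfCyOk Y) (hc : Y.hyb = false) (p : Y.M.Par) (k' m' : ℕ) (l : List (Stg (Y.M.sys p))) (hl : StM l) (v : (Y.M.sys p).Kc) (T : ℝ) (k b : ℕ) :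
    (((Y.M.sys p).An T k b (Xp.run k' m' l v) : Lp (Y.M.sys p).Fb 2 ((Y.M.sys p).rho k)) : (Y.M.sys p).X → (Y.M.sys p).Fb)
      =ᵐ[(Y.M.sys p).rho k] fun x => ((sfPr k' m' l x : ℝ) : ℂ) •
        (((Y.M.sys p).An T k b v : Lp (Y.M.sys p).Fb 2 ((Y.M.sys p).rho k)) : (Y.M.sys p).X → (Y.M.sys p).Fb) x := by
  induction l generalizing v with
  | nil =>
    refine Filter.Eventually.of_forall fun x => ?_
    simp [sfPr, Xp.run]
  | cons σ l ih =>
    have h1 := ih (fun τ hτ => hl τ (List.mem_cons_of_mem _ hτ))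
      ((Y.M.sys p).tz (tmL σ.k (ancI k' σ.k m')) σ.k σ.b (σ.M (ancI k' σ.k m')) v)
    have h2 := hO.clTz hc p (tmL σ.k (ancI k' σ.k m')) σ.k σ.b (σ.M (ancI k' σ.k m')) (hl σ List.mem_cons_self _) v T k b
    filter_upwards [h1, h2] with x e1 e2
    have e0 : Xp.run k' m' (σ :: l) v = Xp.run k' m' l ((Y.M.sys p).tz (tmL σ.k (ancI k' σ.k m')) σ.k σ.b (σ.M (ancI k' σ.k m')) v) := rfl
    rw [e0, e1, e2, smul_smul, sf_cl_pr_mask_cons]
    congr 1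
    push_cast
    ring

/-- the energy does not depend on the cut (`SfCyOk.clRho`, `clAn`, `integral_congr_ae`) -/
theorem sf_cl_en_cut (hO : SfCyOk Y) (hc : Y.hyb = false) (p : Y.M.Par) (T : ℝ) (k b : ℕ) (T' : ℝ) (k' b' : ℕ) (θ : (Y.M.sys p).X → ℝ) (v : (Y.M.sys p).Kc) :
    (Y.M.sys p).en T k b θ v = (Y.M.sys p).en T' k' b' θ v := by
  unfold PkSys.en
  have hρ : ∀ g : (Y.M.sys p).X → ℝ, ∫ x, g x ∂((Y.M.sys p).rho k) = ∫ x, g x ∂((Y.M.sys p).rho k') := fun g => by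
    rw [hO.clRho hc p k k']
  rw [← hρ]
  refine integral_congr_ae ?_
  filter_upwards [hO.clAn hc p T k b T' k' b' v] with x hx
  rw [hx]

/-- two runs that agree on the support of the weight (`sf_cl_run`, `integral_congr_ae`) -/
theorem sf_cl_en_congr (hO : SfCyOk Y) (hc : Y.hyb = false) (p : Y.M.Par) (k' m' : ℕ) (l l' : List (Stg (Y.M.sys p))) (hl : StM l) (hl' : StM l') (v : (Y.M.sys p).Kc)
    (T : ℝ) (k b : ℕ) (θ : (Y.M.sys p).X → ℝ) (h : ∀ x, θ x ≠ 0 → sfPr k' m' l x = sfPr k' m' l' x) :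
    (Y.M.sys p).en T k b θ (Xp.run k' m' l v) = (Y.M.sys p).en T k b θ (Xp.run k' m' l' v) := by
  unfold PkSys.en
  refine integral_congr_ae ?_
  filter_upwards [sf_cl_run hO hc p k' m' l hl v T k b, sf_cl_run hO hc p k' m' l' hl' v T k b] with x e1 e2
  by_cases hθ : θ x = 0
  · simp only [hθ, zero_mul]
  · simp only [e1, e2, h x hθ]

/-- a run decreases the energy pointwise (`sf_cl_run`, `sf_cl_pr_mask`, `norm_smul`, `integral_mono_ae`, `gn_en_integrable`) -/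
theorem sf_cl_en_run_le (hO : SfCyOk Y) (hc : Y.hyb = false) (p : Y.M.Par) (k' m' : ℕ) (l : List (Stg (Y.M.sys p))) (hl : StM l) (v : (Y.M.sys p).Kc)
    (T : ℝ) (k b : ℕ) {θ : (Y.M.sys p).X → ℝ} (hθ : IsMask θ) :
    (Y.M.sys p).en T k b θ (Xp.run k' m' l v) ≤ (Y.M.sys p).en T k b θ v := by
  unfold PkSys.en
  refine integral_mono_ae (gn_en_integrable T k b hθ _) (gn_en_integrable T k b hθ _) ?_
  have hm := sf_cl_pr_mask k' m' l hl
  filter_upwards [sf_cl_run hO hc p k' m' l hl v T k b] with x e1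
  simp only [e1]
  refine mul_le_mul_of_nonneg_left ?_ (hθ.2 x).1
  rw [norm_smul, Complex.norm_real, Real.norm_eq_abs, abs_of_nonneg (hm.2 x).1]
  refine pow_le_pow_left₀ (by have := (hm.2 x).1; positivity) ?_ 2
  exact mul_le_of_le_one_left (norm_nonneg _) (hm.2 x).2

/-! ## 2. Classical atoms      (LEAF L-256-SFC-CLATOM) -/

section

variable {de : ℝ} (c : SfCfg Y de)

theorem sf_cl_atom (hc : Y.hyb = false) (i : ℝ) (hi : i ∈ c.W.G) (ρ : c.D.Row i) (x : (Y.M.sys c.p).X) : x ∈ c.sh.atm i ρ ↔ Y.ix c.p x ∈ c.sh.ia (c.D.idx i ρ) := by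
  exact ⟨fun h => c.sh.ia_mem i hi ρ x h, fun h => c.sh.ia_full hc i hi ρ x h⟩

theorem sf_cl_atom_eq (hc : Y.hyb = false) (i : ℝ) (hi : i ∈ c.W.G) (j : ℝ) (hj : j ∈ c.W.G) (ρ : c.D.Row i) (ρ' : c.D.Row j) (h : c.D.idx i ρ = c.D.idx j ρ') :
    c.sh.atm i ρ = c.sh.atm j ρ' := by
  ext x
  rw [sf_cl_atom c hc i hi, sf_cl_atom c hc j hj, h]

/-- (`ia_mem` twice, `ia_disj`; both models) -/
theorem sf_cl_idx_of_mem (i : ℝ) (hi : i ∈ c.W.G) (j : ℝ) (hj : j ∈ c.W.G) (ρ : c.D.Row i) (ρ' : c.D.Row j) (x : (Y.M.sys c.p).X) (hx : x ∈ c.sh.atm i ρ)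
    (hx' : x ∈ c.sh.atm j ρ') : c.D.idx i ρ = c.D.idx j ρ' := by
  by_contra hne
  exact Set.disjoint_left.mp (c.sh.ia_disj _ _ hne) (c.sh.ia_mem i hi ρ x hx) (c.sh.ia_mem j hj ρ' x hx')

/-- (`at_cov` from right to left, `Str.zero_one`; both models) -/
theorem sf_cl_th_one (hs : c.W.Str (Y.tq c.p)) (i : ℝ) (hi : i ∈ c.W.G) (h1 : i < 1) (ρ : c.D.Row i) (x : (Y.M.sys c.p).X) (hx : x ∈ c.sh.atm i ρ) :
    c.W.th i (c.sh.lb i ρ) x = 1 := by
  have h := ((c.sh.at_cov i hi (c.sh.lb i ρ) x).mpr ⟨ρ, rfl, hx⟩).1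
  rcases hs.zero_one i hi h1 (c.sh.lb i ρ) x with h0 | h0
  · exact absurd h0 h
  · exact h0

/-- two rows of a gate `i < 1` on the same interval whose atoms meet are equal (`sf_cl_th_one` twice; if the labels differ, `Str.sum_le` gives `2 ≤ 1` (`Finset.add_le_sum`-type estimate, `Str.nn`); same label: `at_disj`) -/
theorem sf_cl_row_eq (hs : c.W.Str (Y.tq c.p)) (i : ℝ) (hi : i ∈ c.W.G) (h1 : i < 1) (ρ ρ' : c.D.Row i) (x : (Y.M.sys c.p).X) (hx : x ∈ c.sh.atm i ρ) (hx' : x ∈ c.sh.atm i ρ')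
    (hm : c.im i ρ = c.im i ρ') : ρ = ρ' := by
  by_cases hl : c.sh.lb i ρ = c.sh.lb i ρ'
  · by_contra hne
    exact Set.disjoint_left.mp (c.sh.at_disj i hi ρ ρ' hl hne) hx hx'
  · exfalso
    have t1 := sf_cl_th_one c hs i hi h1 ρ x hx
    have t2 := sf_cl_th_one c hs i hi h1 ρ' x hx'
    have hsum := hs.sum_le i hi (c.im i ρ) x
    have hadd := Finset.add_le_sum (s := Finset.univ) (f := fun l => if c.W.iv i l = c.im i ρ then c.W.th i l x else 0)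
      (fun l _ => by
        show 0 ≤ if c.W.iv i l = c.im i ρ then c.W.th i l x else 0
        split_ifs
        · exact hs.nn i hi l x
        · exact le_rfl) (Finset.mem_univ (c.sh.lb i ρ)) (Finset.mem_univ (c.sh.lb i ρ')) hl
    have e1 : (if c.W.iv i (c.sh.lb i ρ) = c.im i ρ then c.W.th i (c.sh.lb i ρ) x else 0) = 1 := by
      rw [if_pos (show c.W.iv i (c.sh.lb i ρ) = c.im i ρ from rfl), t1]
    have e2 : (if c.W.iv i (c.sh.lb i ρ') = c.im i ρ then c.W.th i (c.sh.lb i ρ') x else 0) = 1 := by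
      rw [if_pos (show c.W.iv i (c.sh.lb i ρ') = c.im i ρ from hm.symm), t2]
    simp only [e1, e2] at hadd
    linarith

/-- equal times = equal intervals (`sf_core_T`, `SfMD.T`, `tmL`: division by `2^k ≠ 0`, `Nat.cast_injective`) -/
theorem sf_core_T_inj (i : ℝ) (hi : i ∈ c.W.G) (ρ ρ' : c.D.Row i) : c.D.T i ρ = c.D.T i ρ' ↔ c.im i ρ = c.im i ρ' := by
  rw [sf_core_T c i hi ρ, sf_core_T c i hi ρ']
  have hL : ((2 : ℝ)⁻¹ ^ c.W.E.k0) ≠ 0 := by positivity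
  have h2 : ((2 : ℝ) ^ c.W.k i) ≠ 0 := by positivity
  have e1 : c.tm i ρ = (c.im i ρ : ℝ) / 2 ^ c.W.k i := rfl
  have e2 : c.tm i ρ' = (c.im i ρ' : ℝ) / 2 ^ c.W.k i := rfl
  constructor
  · intro h
    rw [div_left_inj' hL, sub_left_inj, e1, e2, div_left_inj' h2] at h
    exact_mod_cast h
  · intro h
    rw [e1, e2, h]

end

/-- a dyadic interval inside a dyadic interval: the big one is the ancestor (`tmL`, `ancI`, `Nat.div_eq_of_lt_le` after clearing denominators: `m 2^(k'-k) ≤ m'`, `m' + 1 ≤ (m+1) 2^(k'-k)`) -/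
theorem sf_anc_of_nest {k k' : ℕ} (h : k ≤ k') (m m' : ℕ) (h1 : tmL k m ≤ tmL k' m') (h2 : tmL k' m' + (2 : ℝ)⁻¹ ^ k' ≤ tmL k m + (2 : ℝ)⁻¹ ^ k) : m = ancI k' k m' := by
  obtain ⟨j, rfl⟩ := Nat.exists_eq_add_of_le h
  unfold ancI
  rw [Nat.add_sub_cancel_left]
  unfold tmL at h1 h2
  have hk : (0 : ℝ) < 2 ^ k := by positivity
  have hj : (0 : ℝ) < 2 ^ j := by positivity
  have a1 : (m : ℝ) * 2 ^ j ≤ m' := by
    rw [pow_add, div_le_div_iff₀ hk (by positivity)] at h1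
    have : (m : ℝ) * 2 ^ j * 2 ^ k ≤ m' * 2 ^ k := by nlinarith
    exact le_of_mul_le_mul_right this hk
  have a2 : (m' : ℝ) + 1 ≤ ((m : ℝ) + 1) * 2 ^ j := by
    have e1 : (m' : ℝ) / 2 ^ (k + j) + (2 : ℝ)⁻¹ ^ (k + j) = ((m' : ℝ) + 1) / (2 ^ k * 2 ^ j) := by
      rw [inv_pow, pow_add]; field_simp
    have e2 : (m : ℝ) / 2 ^ k + (2 : ℝ)⁻¹ ^ k = ((m : ℝ) + 1) / 2 ^ k := by
      rw [inv_pow]; field_simp
    rw [e1, e2, div_le_div_iff₀ (by positivity) hk] at h2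
    have : ((m' : ℝ) + 1) * 2 ^ k ≤ ((m : ℝ) + 1) * 2 ^ j * 2 ^ k := by nlinarith
    exact le_of_mul_le_mul_right this hk
  have b1 : m * 2 ^ j ≤ m' := by exact_mod_cast a1
  have b2 : m' + 1 ≤ (m + 1) * 2 ^ j := by exact_mod_cast a2
  exact (Nat.div_eq_of_lt_le b1 (by omega)).symm

/-- nested times of two rows = ancestor interval (`sf_core_T`, `sf_core_len`, `sf_anc_of_nest`, `Str.k_mono`) -/
theorem sf_core_im_anc {de : ℝ} (c : SfCfg Y de) (hs : c.W.Str (Y.tq c.p)) (i : ℝ) (hi : i ∈ c.W.G) (j : ℝ) (hj : j ∈ c.W.G) (hij : i < j) (ρ : c.D.Row i) (ρ' : c.D.Row j)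
    (h1 : c.D.T i ρ ≤ c.D.T j ρ') (h2 : c.D.T j ρ' + c.D.len j ≤ c.D.T i ρ + c.D.len i) : c.im i ρ = ancI (c.W.k j) (c.W.k i) (c.im j ρ') := by
  have hL : (0 : ℝ) < (2 : ℝ)⁻¹ ^ c.W.E.k0 := by positivity
  rw [sf_core_T c i hi ρ, sf_core_T c j hj ρ'] at h1 h2
  have li := sf_core_len c hs i hi
  have lj := sf_core_len c hs j hj
  refine sf_anc_of_nest (hs.k_mono i hi j hj hij).1 (c.im i ρ) (c.im j ρ') ?_ ?_
  · have : c.tm i ρ ≤ c.tm j ρ' := by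
      rw [div_le_div_iff_of_pos_right hL] at h1
      linarith
    exact this
  · have : c.tm j ρ' + (2 : ℝ)⁻¹ ^ c.W.k j ≤ c.tm i ρ + (2 : ℝ)⁻¹ ^ c.W.k i := by
      rw [li, lj]
      have h3 := mul_le_mul_of_nonneg_left h2 hL.le
      have e1 : (2 : ℝ)⁻¹ ^ c.W.E.k0 * ((c.tm j ρ' - tmL c.W.E.k0 c.W.E.i0) / (2 : ℝ)⁻¹ ^ c.W.E.k0 + c.D.len j)
          = c.tm j ρ' - tmL c.W.E.k0 c.W.E.i0 + (2 : ℝ)⁻¹ ^ c.W.E.k0 * c.D.len j := by
        field_simp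
      have e2 : (2 : ℝ)⁻¹ ^ c.W.E.k0 * ((c.tm i ρ - tmL c.W.E.k0 c.W.E.i0) / (2 : ℝ)⁻¹ ^ c.W.E.k0 + c.D.len i)
          = c.tm i ρ - tmL c.W.E.k0 c.W.E.i0 + (2 : ℝ)⁻¹ ^ c.W.E.k0 * c.D.len i := by
        field_simp
      rw [e1, e2] at h3
      linarith
    exact this

/-! ## 3. clUniq, normC      (LEAF L-256-SFC-CLUN) -/

/-- **clUniq.**   PLAN: `sf_rigid_mono (sf_rigid_hyp ..)`; `Y.hyb = false` by `hE.par`; `hG : D.G = W.G`.   `x ∈ atm ρ` (`Xtra.at_ne`), `x ∈ atm ρ'` (`sf_cl_atom_eq`), `im ρ = im ρ'` (`sf_core_T_inj`), `sf_cl_row_eq`. -/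
theorem sf_core_clUniq (π : SfPar) (Ls h : ℝ) (hE : SfCoreHyp Y π) :
    SfRigid Y π Ls h (fun c _ => π.hyb = false → ∀ i ∈ c.D.G, i < 1 → ∀ ρ ρ' : c.D.Row i, c.D.idx i ρ = c.D.idx i ρ' → c.D.T i ρ = c.D.T i ρ' → ρ = ρ') := by
  refine sf_rigid_mono (sf_rigid_hyp π Ls h 1 1 0 one_pos one_pos) (fun c C ⟨hob, hx, hext, _, _, _, _⟩ hπ i hi h1 ρ ρ' hidx hT => ?_)
  have hc : Y.hyb = false := by rw [← hE.par.2.2]; exact hπ
  have hi' : i ∈ c.W.G := by rw [← c.sh.hG]; exact hi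
  obtain ⟨x, hxa⟩ := hx.at_ne i hi' ρ
  have hxa' : x ∈ c.sh.atm i ρ' := by rw [← sf_cl_atom_eq c hc i hi' i hi' ρ ρ' hidx]; exact hxa
  exact sf_cl_row_eq c hext.str i hi' h1 ρ ρ' x hxa hxa' ((sf_core_T_inj c i hi' ρ ρ').1 hT)

theorem sf_core_normC_ext (z z' : SfRay) (h1 : z.X = z'.X) (h2 : z.B = z'.B) (h3 : z.Y = z'.Y) (h4 : z.N = z'.N) (h5 : z.D = z'.D) : z = z' := by
  cases z
  cases z'
  simp only at h1 h2 h3 h4 h5
  subst h1 h2 h3 h4 h5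
  rfl

/-- **normC.**   PLAN: `sf_rigid_and (sf_rigid_hyp ..) (sf_core_base .. (t := 1))`: `idx i ρ = idx j ρ'`; `Xtra.rp_cl`: the same representative `x`.   `sf_core_ray`; `fray i ρ x = fray j ρ' x` because the absolute ray `aray` of `x` does not depend on the time of reading:
`SfRay` ext; `X B Y` by `sf_core_aray_base`; `N`, `D` by `SfCyOk.clN` (`sfRayAt T z = ⟨.., z.N, z.D - T z.N⟩`). -/
theorem sf_core_normC (hO : SfCyOk Y) (π : SfPar) (Ls h : ℝ) (hh : 0 < h) (hE : SfCoreHyp Y π) :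
    SfRigid Y π Ls h (fun c _ => π.hyb = false → ∀ i ∈ c.D.G, ∀ j ∈ c.D.G, i < j → ∀ ρ ρ', c.D.Conn i j ρ ρ' → c.D.ray i ρ = c.D.ray j ρ') := by
  refine sf_rigid_mono (sf_rigid_and (sf_rigid_hyp π Ls h 1 1 0 one_pos one_pos) (sf_core_base hO π Ls 1 h one_pos hh))
    (fun c C ⟨⟨hob, hx, hext, _, _, _, _⟩, hbase⟩ hπ i hi j hj hij ρ ρ' hconn => ?_)
  have hc : Y.hyb = false := by rw [← hE.par.2.2]; exact hπ
  have hi' : i ∈ c.W.G := by rw [← c.sh.hG]; exact hi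
  have hj' : j ∈ c.W.G := by rw [← c.sh.hG]; exact hj
  obtain ⟨-, -, hidx, -⟩ := hbase i hi j hj hij ρ ρ' hconn
  have hrp := hx.rp_cl hc i hi' j hj' ρ ρ' hidx
  rw [sf_core_ray c i hi' ρ, sf_core_ray c j hj' ρ', hrp]
  unfold SfCfg.fray
  congr 1
  obtain ⟨a1, a2, a3⟩ := sf_core_aray_base hO c i ρ (c.sh.rp j ρ')
  obtain ⟨b1, b2, b3⟩ := sf_core_aray_base hO c j ρ' (c.sh.rp j ρ')
  refine sf_core_normC_ext _ _ (a1.trans b1.symm) (a2.trans b2.symm) (a3.trans b3.symm) ?_ ?_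
  · show (Y.co c.p (c.tm i ρ) (c.sh.rp j ρ')).N = (Y.co c.p (c.tm j ρ') (c.sh.rp j ρ')).N
    rw [(hO.clN hc c.p (c.tm i ρ) _).1, (hO.clN hc c.p (c.tm j ρ') _).1]
  · show (Y.co c.p (c.tm i ρ) (c.sh.rp j ρ')).D - c.tm i ρ * (Y.co c.p (c.tm i ρ) (c.sh.rp j ρ')).N
      = (Y.co c.p (c.tm j ρ') (c.sh.rp j ρ')).D - c.tm j ρ' * (Y.co c.p (c.tm j ρ') (c.sh.rp j ρ')).N
    rw [(hO.clN hc c.p (c.tm i ρ) _).1, (hO.clN hc c.p (c.tm j ρ') _).1, (hO.clN hc c.p (c.tm i ρ) _).2, (hO.clN hc c.p (c.tm j ρ') _).2]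
    ring

/-! ## 4. clConn, clPath      (LEAVES L-256-SFC-CLCONN, L-256-SFC-CLPATH) -/

/-- one link drawn by a classical particle -/
theorem sf_cl_chain_link (hO : SfCyOk Y) (hc : Y.hyb = false) {de : ℝ} (c : SfCfg Y de) (hs : c.W.Str (Y.tq c.p)) (i : ℝ) (hi : i ∈ c.W.G) (j : ℝ) (hj : j ∈ c.W.G) (hij : i < j)
    (hno : ∀ g ∈ c.W.G, ¬ (i < g ∧ g < j))
    (ρ : c.D.Row i) (ρ' : c.D.Row j) (x : (Y.M.sys c.p).X) (h1 : x ∈ c.sh.atm i ρ) (h2 : x ∈ c.sh.atm j ρ') (hm : c.im i ρ = ancI (c.W.k j) (c.W.k i) (c.im j ρ')) :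
    c.Lk ⟨i, ρ⟩ ⟨j, ρ'⟩ := by
  have hk : c.W.k i ≤ c.W.k j := (hs.k_mono i hi j hj hij).1
  have hT : c.W.T i (c.sh.lb i ρ) = tmL (c.W.k i) (ancI (c.W.k j) (c.W.k i) (c.im j ρ')) := by
    rw [← hm]
    rfl
  have hT' : c.W.T j (c.sh.lb j ρ') = tmL (c.W.k j) (c.im j ρ') := rfl
  refine ⟨⟨hi, hj, hij, hno⟩, x, h1, x, h2, ?_, ?_, rfl, ?_, ?_⟩
  · show c.W.T i (c.sh.lb i ρ) ≤ c.W.T j (c.sh.lb j ρ')
    rw [hT, hT']
    exact (gn_cutle_anc hk _).2.1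
  · show c.W.T j (c.sh.lb j ρ') + _ ≤ c.W.T i (c.sh.lb i ρ) + _
    rw [hT, hT']
    exact sf_anc_nest hk _
  · show |(Y.co c.p (c.W.T j (c.sh.lb j ρ')) x).N - (Y.co c.p (c.W.T i (c.sh.lb i ρ)) x).N| ≤ _ * Y.dl c.p (c.W.k j)
    rw [(hO.clN hc c.p (c.W.T j (c.sh.lb j ρ')) x).1, (hO.clN hc c.p (c.W.T i (c.sh.lb i ρ)) x).1, hO.clD hc, sub_self, abs_zero, mul_zero]
  · show |(Y.co c.p (c.W.T j (c.sh.lb j ρ')) x).D - (Y.co c.p (c.W.T i (c.sh.lb i ρ)) x).D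
      - (c.W.T j (c.sh.lb j ρ') - c.W.T i (c.sh.lb i ρ)) * (Y.co c.p (c.W.T i (c.sh.lb i ρ)) x).N| ≤ _ * (_ * Y.dl c.p (c.W.k i))
    rw [(hO.clN hc c.p (c.W.T j (c.sh.lb j ρ')) x).2, (hO.clN hc c.p (c.W.T i (c.sh.lb i ρ)) x).2,
      (hO.clN hc c.p (c.W.T i (c.sh.lb i ρ)) x).1, hO.clD hc, mul_zero, mul_zero]
    apply le_of_eq
    rw [abs_eq_zero]
    ring

/-- induction on the number of gates between `i` and `j` -/
theorem sf_cl_chain_ind (hO : SfCyOk Y) (hc : Y.hyb = false) {de : ℝ} (c : SfCfg Y de) (hs : c.W.Str (Y.tq c.p)) (hx : c.Xtra) (x : (Y.M.sys c.p).X) (n : ℕ) :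
    ∀ (i : ℝ) (_ : i ∈ c.W.G) (j : ℝ) (_ : j ∈ c.W.G) (_ : i < j) (ρ : c.D.Row i) (ρ' : c.D.Row j), (c.W.G.filter (fun g => i < g ∧ g < j)).card ≤ n →
      x ∈ c.sh.atm i ρ → x ∈ c.sh.atm j ρ' → c.im i ρ = ancI (c.W.k j) (c.W.k i) (c.im j ρ') → Relation.TransGen c.Lk ⟨i, ρ⟩ ⟨j, ρ'⟩ := by
  induction n with
  | zero =>
    intro i hi j hj hij ρ ρ' hn h1 h2 hm
    refine Relation.TransGen.single (sf_cl_chain_link hO hc c hs i hi j hj hij ?_ ρ ρ' x h1 h2 hm)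
    intro g hg hgg
    have : g ∈ c.W.G.filter (fun g => i < g ∧ g < j) := Finset.mem_filter.2 ⟨hg, hgg⟩
    rw [Finset.card_eq_zero.1 (Nat.le_zero.1 hn)] at this
    exact absurd this (Finset.notMem_empty g)
  | succ n ih =>
    intro i hi j hj hij ρ ρ' hn h1 h2 hm
    by_cases hno : ∀ g ∈ c.W.G, ¬ (i < g ∧ g < j)
    · exact Relation.TransGen.single (sf_cl_chain_link hO hc c hs i hi j hj hij hno ρ ρ' x h1 h2 hm)
    · push Not at hno
      obtain ⟨g, hg, hig, hgj⟩ := hno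
      obtain ⟨ρg, hxg, hmg⟩ := hx.cl_nest hc g hg j hj hgj ρ' x h2
      have hgm : g ∈ c.W.G.filter (fun g => i < g ∧ g < j) := Finset.mem_filter.2 ⟨hg, hig, hgj⟩
      have c1 : (c.W.G.filter (fun g' => i < g' ∧ g' < g)).card ≤ n := by
        have hss : c.W.G.filter (fun g' => i < g' ∧ g' < g) ⊂ c.W.G.filter (fun g => i < g ∧ g < j) := by
          refine Finset.ssubset_iff_of_subset (fun y hy => ?_) |>.2 ⟨g, hgm, fun hy => ?_⟩
          · obtain ⟨a1, a2, a3⟩ := Finset.mem_filter.1 hy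
            exact Finset.mem_filter.2 ⟨a1, a2, a3.trans hgj⟩
          · exact lt_irrefl g (Finset.mem_filter.1 hy).2.2
        have := Finset.card_lt_card hss
        omega
      have c2 : (c.W.G.filter (fun g' => g < g' ∧ g' < j)).card ≤ n := by
        have hss : c.W.G.filter (fun g' => g < g' ∧ g' < j) ⊂ c.W.G.filter (fun g => i < g ∧ g < j) := by
          refine Finset.ssubset_iff_of_subset (fun y hy => ?_) |>.2 ⟨g, hgm, fun hy => ?_⟩
          · obtain ⟨a1, a2, a3⟩ := Finset.mem_filter.1 hy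
            exact Finset.mem_filter.2 ⟨a1, hig.trans a2, a3⟩
          · exact lt_irrefl g (Finset.mem_filter.1 hy).2.1
        have := Finset.card_lt_card hss
        omega
      have hm1 : c.im i ρ = ancI (c.W.k g) (c.W.k i) (c.im g ρg) := by
        have e : c.im g ρg = ancI (c.W.k j) (c.W.k g) (c.im j ρ') := hmg
        rw [e, gn_anc_anc (hs.k_mono i hi g hg hig).1 (hs.k_mono g hg j hj hgj).1]
        exact hm
      exact (ih i hi g hg hig ρ ρg c1 h1 hxg hm1).trans (ih g hg j hj hgj ρg ρ' c2 hxg h2 hmg)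

/-- **a classical particle draws a chain.**   PLAN: strong induction on `(G.filter (fun g => i < g ∧ g < j)).card`.   No gate between: `sfNext`, one link with the witnesses `x, x`: `sfCn`: `T_i ≤ T_j` (`gn_cutle_anc`), nested (`sf_anc_nest`), same index,
`N` and `D` by `SfCyOk.clN`, right sides `= 0` by `clD`.   A gate `g` between: `Xtra.cl_nest` for `(g, j)` gives `ρg ∋ x` on the ancestor interval; `gn_anc_anc`; induction hypothesis for `(i, g)` and `(g, j)`; `Relation.TransGen.trans`. -/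
theorem sf_cl_chain (hO : SfCyOk Y) (hc : Y.hyb = false) {de : ℝ} (c : SfCfg Y de) (hs : c.W.Str (Y.tq c.p)) (hx : c.Xtra) (i : ℝ) (hi : i ∈ c.W.G) (j : ℝ) (hj : j ∈ c.W.G) (hij : i < j)
    (ρ : c.D.Row i) (ρ' : c.D.Row j) (x : (Y.M.sys c.p).X) (h1 : x ∈ c.sh.atm i ρ) (h2 : x ∈ c.sh.atm j ρ') (hm : c.im i ρ = ancI (c.W.k j) (c.W.k i) (c.im j ρ')) :
    Relation.TransGen c.Lk ⟨i, ρ⟩ ⟨j, ρ'⟩ := by
  exact sf_cl_chain_ind hO hc c hs hx x _ i hi j hj hij ρ ρ' le_rfl h1 h2 hm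

/-- **clConn.**   PLAN: `x ∈ atm j ρ'` (`at_ne`), `x ∈ atm i ρ` (`sf_cl_atom_eq`), `sf_core_im_anc`, `sf_cl_chain`, `sf_core_conn`. -/
theorem sf_core_clConn (hO : SfCyOk Y) (π : SfPar) (Ls h : ℝ) (hE : SfCoreHyp Y π) :
    SfRigid Y π Ls h (fun c _ => π.hyb = false → ∀ i ∈ c.D.G, ∀ j ∈ c.D.G, i < j → ∀ ρ ρ', c.D.idx i ρ = c.D.idx j ρ' → c.D.T i ρ ≤ c.D.T j ρ' →
      c.D.T j ρ' + c.D.len j ≤ c.D.T i ρ + c.D.len i → c.D.Conn i j ρ ρ') := by
  refine sf_rigid_mono (sf_rigid_hyp π Ls h 1 1 0 one_pos one_pos) ?_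
  rintro c C ⟨hob, hx, -, -, -, -, -⟩ hπ i hi j hj hij ρ ρ' hidx hT1 hT2
  have hc : Y.hyb = false := hE.par.2.2 ▸ hπ
  have hs : c.W.Str (Y.tq c.p) := hob.2.2.1
  rw [c.sh.hG] at hi hj
  obtain ⟨x, hx2⟩ := hx.at_ne j hj ρ'
  have hx1 : x ∈ c.sh.atm i ρ := by
    rw [sf_cl_atom_eq c hc i hi j hj ρ ρ' hidx]
    exact hx2
  exact (sf_core_conn c i hi j hj ρ ρ').2
    (sf_cl_chain hO hc c hs hx i hi j hj hij ρ ρ' x hx1 hx2 (sf_core_im_anc c hs i hi j hj hij ρ ρ' hT1 hT2))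

/-- the weight of one row is a mask -/
theorem sf_core_clPath_mask {de : ℝ} (c : SfCfg Y de) (hs : c.W.Str (Y.tq c.p)) (i : ℝ) (hi : i ∈ c.W.G) (ρ : c.D.Row i) :
    IsMask ((c.sh.atm i ρ).indicator (c.W.th i (c.sh.lb i ρ))) := by
  have hth1 : ∀ l x, c.W.th i l x ≤ 1 := fun l x => by
    refine le_trans ?_ (hs.sum_le i hi (c.W.iv i l) x)
    have h1 := Finset.single_le_sum (f := fun l' => if c.W.iv i l' = c.W.iv i l then c.W.th i l' x else 0)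
      (fun l' _ => by
        show 0 ≤ if c.W.iv i l' = c.W.iv i l then c.W.th i l' x else 0
        split_ifs
        · exact hs.nn i hi l' x
        · exact le_rfl) (Finset.mem_univ l)
    simpa using h1
  refine ⟨(hs.meas i hi _).indicator (c.sh.at_meas i hi ρ), fun x => ⟨Set.indicator_nonneg (fun y _ => hs.nn i hi _ y) x, ?_⟩⟩
  exact (Set.indicator_le_self' (fun _ _ => hs.nn i hi _ x) x).trans (hth1 _ x)

/-- **clPath.**   PLAN: `x ∈ atm j ρ'` (`at_ne`); `Xtra.cl_nest` gives `ρ ∋ x` at the gate `i`, `m := im ρ = ancI .. m'`, `m' := im ρ'`; `Conn` by `sf_cl_chain`.   `idx ρ = idx ρ'` (`sf_cl_idx_of_mem`), `atm ρ = atm ρ'` (`sf_cl_atom_eq`).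
Masses (`SfSh.law`): `p ρ' tot_j = en_j θ' (pre j m')`, `θ' = 1_(atm ρ') th_j`;   `pre j m' = run (k j) m' (stg i :: mid i j) (pre i m)` (`sf_core_pre_split`, `Xp.run`);   `en_j θ' (..) = en_i θ' (..)` (`sf_cl_en_cut`) `≤ en_i θ' (pre i m)` (`sf_cl_en_run_le`)
`≤ en_i θ (pre i m) = p ρ tot_i`, `θ = 1_(atm ρ) th_i = 1_(atm ρ)` (`sf_cl_th_one`, `i < 1`), `θ' ≤ θ` (`th_j ≤ 1` by `Str.sum_le`, `nn`) (`gn_en_mono`).   `tot_j > 0` (`Ext.read`), so `0 < p ρ tot_i`, and `p ρ ≥ 0` gives `p ρ > 0`. -/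
theorem sf_core_clPath (hO : SfCyOk Y) (π : SfPar) (Ls h : ℝ) (hE : SfCoreHyp Y π) :
    SfRigid Y π Ls h (fun c _ => π.hyb = false → ∀ i ∈ c.D.G, ∀ j ∈ c.D.G, i < j → ∀ ρ', 0 < (c.D.P j).p ρ' → ∃ ρ, c.D.Conn i j ρ ρ' ∧ 0 < (c.D.P i).p ρ) := by
  refine sf_rigid_mono (sf_rigid_hyp π Ls h 1 1 0 one_pos one_pos) ?_
  rintro c C ⟨hob, hx, hext, -, -, -, -⟩ hπ i hi j hj hij ρ' hp
  have hc : Y.hyb = false := hE.par.2.2 ▸ hπ
  have hs : c.W.Str (Y.tq c.p) := hob.2.2.1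
  rw [c.sh.hG] at hi hj
  have hi1 : i < 1 := hij.trans_le (hs.gate.2 j hj).2
  obtain ⟨x, hx2⟩ := hx.at_ne j hj ρ'
  obtain ⟨ρ, hx1, hm⟩ := hx.cl_nest hc i hi j hj hij ρ' x hx2
  refine ⟨ρ, (sf_core_conn c i hi j hj ρ ρ').2 (sf_cl_chain hO hc c hs hx i hi j hj hij ρ ρ' x hx1 hx2 hm), ?_⟩
  have hidx := sf_cl_idx_of_mem c i hi j hj ρ ρ' x hx1 hx2
  have hatm := sf_cl_atom_eq c hc i hi j hj ρ ρ' hidx
  have hs0 := gn_s_pos c.W.E
  have htot : 0 < c.W.tot j :=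
    lt_of_lt_of_le (mul_pos (mul_pos (Real.rpow_pos_of_pos hs0 _) hs.valid.e_pos) (Real.rpow_pos_of_pos hs0 _)) (hext.read j hj)
  have hlj := c.sh.law j hj ρ'
  have hli := c.sh.law i hi ρ
  have hM' := sf_core_clPath_mask c hs j hj ρ'
  have hM := sf_core_clPath_mask c hs i hi ρ
  have hstm : StM (c.W.stg i :: c.mid i j) := by
    intro σ hσ m
    rcases List.mem_cons.1 hσ with rfl | hσ
    · exact sf_core_gM_mask c hs i hi m
    · exact (sf_core_mid_ok c C hob i hi j hj hij).msk σ hσ m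
  have hpre : c.W.pre j (c.W.iv j (c.sh.lb j ρ')) = Xp.run (c.W.k j) (c.W.iv j (c.sh.lb j ρ')) (c.W.stg i :: c.mid i j)
      (c.W.pre i (c.W.iv i (c.sh.lb i ρ))) := by
    rw [sf_core_pre_split c hs i hi j hj hij, hm]
    rfl
  have e1 : (Y.M.sys c.p).en (c.W.T j (c.sh.lb j ρ')) (c.W.k j) (c.W.gb j) ((c.sh.atm j ρ').indicator (c.W.th j (c.sh.lb j ρ')))
      (c.W.pre j (c.W.iv j (c.sh.lb j ρ')))
      ≤ (Y.M.sys c.p).en (c.W.T i (c.sh.lb i ρ)) (c.W.k i) (c.W.gb i) ((c.sh.atm i ρ).indicator (c.W.th i (c.sh.lb i ρ)))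
      (c.W.pre i (c.W.iv i (c.sh.lb i ρ))) := by
    rw [sf_cl_en_cut hO hc c.p _ _ _ (c.W.T i (c.sh.lb i ρ)) (c.W.k i) (c.W.gb i), hpre]
    refine (sf_cl_en_run_le hO hc c.p _ _ _ hstm _ _ _ _ hM').trans (gn_en_mono _ _ _ hM' hM (fun y => ?_) _)
    by_cases hy : y ∈ c.sh.atm i ρ
    · rw [Set.indicator_of_mem hy, sf_cl_th_one c hs i hi hi1 ρ y hy]
      exact (hM'.2 y).2
    · rw [Set.indicator_of_notMem hy, Set.indicator_of_notMem (hatm ▸ hy)]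
  have hpos : 0 < (c.D.P i).p ρ * c.W.tot i := by
    rw [hli]
    refine lt_of_lt_of_le ?_ e1
    rw [← hlj]
    exact mul_pos hp htot
  have hnn : 0 ≤ (c.D.P i).p ρ := (c.D.P i).nonneg ρ
  rcases hnn.lt_or_eq with h0 | h0
  · exact h0
  · rw [← h0, zero_mul] at hpos
    exact absurd hpos (lt_irrefl 0)

/-! ## 5. Classical locality is exact      (LEAF L-256-SFC-CLLOC) -/

/-- **restricting the synthesis at the gate `i` to a set `R` that contains all `Conn`-predecessors of `V` does not change what `V` reads.**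
PLAN: `m = ancI (k j) (k i) m'`.   `pre j m' = run (k j) m' (stg i :: mid i j) (pre i m)` (`sf_core_pre_split`), `preR i j R m' = run (k j) m' (⟨k i, gb i, wS i R⟩ :: mid i j) (pre i m)` (`SfCfg.preR`, `synR`, `Xp.run`: `rfl`).
`sf_cl_en_congr` with `θ = wS j V m'`: if `θ x ≠ 0` then `x ∈ atm ρ'`, `V ρ'`, `im ρ' = m'` (`sf_core_wS_supp`, `SfCfg.aS`); `Xtra.cl_nest` gives `ρ ∋ x`, `im ρ = m`; `Conn i j ρ ρ'` (`sf_cl_chain`, `sf_core_conn`), so `R ρ`;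
`1 = th i (lb ρ) x ≤ wS i R m x` (`sf_cl_th_one`; one term of a sum of nonnegative terms) `≤ gM i m x ≤ 1` (`sf_core_wS_le`, `Str.sum_le`): the two first factors of the products agree (`sfPr`, `List.map_cons`, `List.prod_cons`, `gn_anc_self` not needed: `ancI (k j) (k i) m' = m`). -/
theorem sf_core_loc_cl (hO : SfCyOk Y) (hc : Y.hyb = false) {de : ℝ} (c : SfCfg Y de) (C : ℕ) (hob : c.ob C) (hx : c.Xtra) (i : ℝ) (hi : i ∈ c.W.G) (j : ℝ) (hj : j ∈ c.W.G) (hij : i < j)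
    (V : c.D.Row j → Prop) (R : c.D.Row i → Prop) (hP : c.D.Pred i j V R) (m' : ℕ) :
    c.rdE j V m' (c.W.pre j m') = c.rdE j V m' (c.preR i j R m') := by
  classical
  have hs : c.W.Str (Y.tq c.p) := hob.2.2.1
  have hi1 : i < 1 := hij.trans_le (hs.gate.2 j hj).2
  have e1 : c.W.pre j m' = Xp.run (c.W.k j) m' (c.W.stg i :: c.mid i j) (c.W.pre i (ancI (c.W.k j) (c.W.k i) m')) := by
    rw [sf_core_pre_split c hs i hi j hj hij m']
    rfl
  have e2 : c.preR i j R m' = Xp.run (c.W.k j) m' ((⟨c.W.k i, c.W.gb i, c.wS i R⟩ : Stg (Y.M.sys c.p)) :: c.mid i j) (c.W.pre i (ancI (c.W.k j) (c.W.k i) m')) := rfl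
  unfold SfCfg.rdE
  rw [e1, e2]
  have hmid := sf_core_mid_ok c C hob i hi j hj hij
  have hgM : ∀ n, IsMask (c.W.gM i n) := by
    intro n
    refine ⟨?_, fun x => ⟨?_, hs.sum_le i hi n x⟩⟩
    · unfold SfMD.gM
      refine Finset.measurable_fun_sum _ fun l _ => ?_
      split_ifs
      · exact hs.meas i hi l
      · exact measurable_const
    · unfold SfMD.gM
      refine Finset.sum_nonneg fun l _ => ?_
      split_ifs
      · exact hs.nn i hi l x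
      · exact le_rfl
  refine sf_cl_en_congr hO hc c.p (c.W.k j) m' _ _ ?_ ?_ _ _ _ _ _ ?_
  · intro σ hσ n
    rcases List.mem_cons.1 hσ with rfl | hσ
    · exact hgM n
    · exact hmid.msk σ hσ n
  · intro σ hσ n
    rcases List.mem_cons.1 hσ with rfl | hσ
    · exact sf_core_wS_mask c hs i hi R n
    · exact hmid.msk σ hσ n
  · intro x hx0
    have hmem := sf_core_wS_supp c j V m' x hx0
    unfold SfCfg.aS at hmem
    obtain ⟨ρ', hρ'⟩ := Set.mem_iUnion.1 hmem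
    obtain ⟨⟨hV, him⟩, hxρ'⟩ := Set.mem_iUnion.1 hρ'
    obtain ⟨ρ, hxρ, hiv⟩ := hx.cl_nest hc i hi j hj hij ρ' x hxρ'
    have him' : c.im i ρ = ancI (c.W.k j) (c.W.k i) (c.im j ρ') := hiv
    have hconn : c.D.Conn i j ρ ρ' := (sf_core_conn c i hi j hj ρ ρ').2 (sf_cl_chain hO hc c hs hx i hi j hj hij ρ ρ' x hxρ hxρ' him')
    have hR : R ρ := hP ρ' hV ρ hconn
    have hth := sf_cl_th_one c hs i hi hi1 ρ x hxρ
    rw [him] at him'
    have h1 : 1 ≤ c.wS i R (ancI (c.W.k j) (c.W.k i) m') x := by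
      unfold SfCfg.wS
      have h2 := Finset.single_le_sum (s := Finset.univ)
        (f := fun ρ => if R ρ ∧ c.im i ρ = ancI (c.W.k j) (c.W.k i) m' then (c.sh.atm i ρ).indicator (c.W.th i (c.sh.lb i ρ)) x else 0)
        (fun ρ _ => by
          split_ifs
          · exact Set.indicator_nonneg (fun y _ => hs.nn i hi _ y) x
          · exact le_rfl) (Finset.mem_univ ρ)
      rw [if_pos ⟨hR, him'⟩, Set.indicator_of_mem hxρ, hth] at h2
      exact h2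
    have h3 := sf_core_wS_le c hs i hi R (ancI (c.W.k j) (c.W.k i) m') x
    have h4 := hs.sum_le i hi (ancI (c.W.k j) (c.W.k i) m') x
    have h5 : c.W.gM i (ancI (c.W.k j) (c.W.k i) m') x = c.wS i R (ancI (c.W.k j) (c.W.k i) m') x := by
      unfold SfMD.gM
      linarith
    unfold sfPr
    simp only [List.map_cons, List.prod_cons]
    congr 1

end Claimed.Agent.R256
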