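import Claimed.Agent.R256.Soft.MGeIface
import Claimed.Agent.R256.Soft.MCoreCl

/-!
# Row 256 (S0496), unit SOFT, block M6 GE, file 5: CHAINS AND THE RESTORED ROOT GATE      (architect helper105; prefix `sf_ge_`)

02 l.1204-1215.   PAPER-FREE: the plans are in the docstrings.   RULES FOR LEAVES: prove IN PLACE, statement verbatim, helper lemmas directly above the theorem (names = name of the theorem + suffix).   Statements of this block and of the imports may be cited even if still `sorry`.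
* `sf_ge_gam0`, `sf_ge_gam1`, `sf_ge_gam_inv`      `d.γ 0 = i`, `d.γ 1 = j`, `d.γ ((k - i)/(j - i)) = k`
* `sf_ge_chn_bel`     a row on a chain lies below the root interval                      (LEAF L-256-SOFT-GE-CHN)
* `sf_ge_cn_self`     a row is its own neighbour
* `sf_ge_root_abs`    measurable disjoint `2Λ`-neighbourhoods of finitely many measurable sets of rows at one cut; the synthesis from the sets is carried by the neighbourhoods up to `sfKer`      (LEAF L-256-SOFT-GE-RABS)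
* `sf_ge_root_num`    the constants                                                      (LEAF L-256-SOFT-GE-RNUM)
* `sf_ge_root`        **ROOT** = `SfGeRootX`                                              (LEAF L-256-SOFT-GE-RINST)
-/

set_option autoImplicit false

namespace Claimed.Agent.R256

open MeasureTheory Claimed.Agent.R255

variable {Y : SfCy}

section

variable {de : ℝ} {c : SfCfg Y de} (d : SfGeD c)

theorem sf_ge_gam0 : d.γ 0 = d.i := by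
  unfold SfGeD.γ
  ring

theorem sf_ge_gam1 : d.γ 1 = d.j := by
  unfold SfGeD.γ
  ring

theorem sf_ge_gam_inv (h : d.i < d.j) (k : ℝ) : d.γ ((k - d.i) / (d.j - d.i)) = k := by
  unfold SfGeD.γ
  have : d.j - d.i ≠ 0 := by linarith
  field_simp
  ring

/-- the new gates come from the kept gates -/
theorem sf_ge_mem_G (h : d.i < d.j) (g' : ℝ) : g' ∈ d.G ↔ d.γ g' ∈ d.Gk := by
  unfold SfGeD.G
  rw [Finset.mem_image]
  constructor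
  · rintro ⟨k, hk, rfl⟩
    rw [sf_ge_gam_inv d h]
    exact hk
  · intro hg
    refine ⟨d.γ g', hg, ?_⟩
    unfold SfGeD.γ
    have : d.j - d.i ≠ 0 := by linarith
    field_simp
    ring

/-- **(LEAF L-256-SOFT-GE-CHN) a row on a chain, at a gate of `[i,j]`, lies below the root interval.**
PLAN.  `hb` = the field `base` of `Core` (first two conjuncts).   From `hu`: a marked `v` with `u = v` or (`u.1 < v.1`, `Conn u v`); `v.1 = d.j` (`Ok.u_dep`); `Ok.u_pred` gives `u0` with `u0.1 = d.i`, `Conn u0 v`, `im u0 = m0`.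
Destructure the sigma types (`obtain ⟨g, ρ⟩ := u`, `subst`) so that the gates become `d.i`, `d.j`.   `sf_core_im_anc` (Soft/MCoreCl.lean) for `(u0, v)`: `m0 = ancI (k j) (k i) (im v)`;   if `u = v`: done after `rw [sf_ge_gam0]`;
otherwise `sf_core_im_anc` for `(u, v)`: `im u = ancI (k j) (k g) (im v)`, and `gn_anc_anc` (`k i ≤ k g ≤ k j` by `Str.k_mono`; if `g = d.i` use `gn_anc_self`).   `SfGeD.bel` unfolds to `ancI (k g) (k (γ 0)) (im u) = m0`. -/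
theorem sf_ge_chn_bel (hs : c.W.Str (Y.tq c.p)) (hd : d.Ok)
    (hb : ∀ i ∈ c.D.G, ∀ j ∈ c.D.G, i < j → ∀ ρ ρ', c.D.Conn i j ρ ρ' → c.D.T i ρ ≤ c.D.T j ρ' ∧ c.D.T j ρ' + c.D.len j ≤ c.D.T i ρ + c.D.len i)
    (u : c.D.Rw) (hu : d.chn u) (hg : u.1 ∈ c.W.G) (hi : d.i ≤ u.1) : d.bel u.1 (c.im u.1 u.2) := by
  have hG : c.D.G = c.W.G := c.sh.hG
  -- a marked row lies below the root interval
  have key : ∀ v : c.D.Rw, d.U v → v.1 ∈ c.W.G ∧ ancI (c.W.k v.1) (c.W.k (d.γ 0)) (c.im v.1 v.2) = d.m0 := by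
    intro v hv
    have hvj := hd.u_dep v hv
    obtain ⟨u0, h0, hc, hm⟩ := hd.u_pred v hv
    have g0 : u0.1 ∈ c.W.G := by rw [h0]; exact hd.gi
    have gv : v.1 ∈ c.W.G := by rw [hvj]; exact hd.gj
    have hlt : u0.1 < v.1 := by rw [h0, hvj]; exact hd.hij
    obtain ⟨b1, b2⟩ := hb u0.1 (by rw [hG]; exact g0) v.1 (by rw [hG]; exact gv) hlt u0.2 v.2 hc
    have h1 := sf_core_im_anc c hs u0.1 g0 v.1 gv hlt u0.2 v.2 b1 b2
    have e : c.W.k u0.1 = c.W.k (d.γ 0) := by rw [h0, sf_ge_gam0]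
    rw [e, hm] at h1
    exact ⟨gv, h1.symm⟩
  unfold SfGeD.bel
  rcases hu.1 with hU | ⟨v, hv, hlt, hc⟩
  · exact (key u hU).2
  · obtain ⟨gv, hk⟩ := key v hv
    obtain ⟨b1, b2⟩ := hb u.1 (by rw [hG]; exact hg) v.1 (by rw [hG]; exact gv) hlt u.2 v.2 hc
    have h2 := sf_core_im_anc c hs u.1 hg v.1 gv hlt u.2 v.2 b1 b2
    have k1 : c.W.k (d.γ 0) ≤ c.W.k u.1 := by
      rw [sf_ge_gam0]
      rcases hi.lt_or_eq with h | h
      · exact (hs.k_mono d.i hd.gi u.1 hg h).1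
      · rw [h]
    have k2 : c.W.k u.1 ≤ c.W.k v.1 := (hs.k_mono u.1 hg v.1 gv hlt).1
    rw [h2, gn_anc_anc k1 k2]
    exact hk

end

/-- a row is its own neighbour (`sfCn`, `sub_self`, `abs_zero`, `SfCyOk.dl0`) -/
theorem sf_ge_cn_self (hO : SfCyOk Y) (p : Y.M.Par) (Λ : ℝ) (hΛ : 0 ≤ Λ) (T : ℝ) (k : ℕ) (x : (Y.M.sys p).X) : sfCn Y p Λ T k T k x x := by
  refine ⟨le_rfl, le_rfl, rfl, ?_, ?_⟩
  · rw [sub_self, abs_zero]
    exact mul_nonneg hΛ (hO.dl0 p k)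
  · have : (Y.co p T x).D - (Y.co p T x).D - (T - T) * (Y.co p T x).N = 0 := by ring
    rw [this, abs_zero]
    exact mul_nonneg hΛ (mul_nonneg (by positivity) (hO.dl0 p k))

/-- **(LEAF L-256-SOFT-GE-RABS) neighbourhoods at one cut.**
PLAN.  `cases nonempty_fintype ι`, `e := Fintype.equivFin ι`.   For every `a`: `hS p hp Λ hΛ T k T k le_rfl le_rfl le_rfl (A a) (hA a)` gives `A' a ⊆ A a` (null difference) and `Z a` (`choose`).   `Zt a = A a ∪ Z a`,   `Nr a = Zt a \\ ⋃ a', ⋃ (_ : e a' < e a), Zt a'`.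
Measurable (`MeasurableSet.iUnion`, finite/countable index).   Disjoint: for `a ≠ a'` one of `e a < e a'`, `e a' < e a` holds.   Neighbours: `x' ∈ A a`: `x = x'`, `sf_ge_cn_self`;  `x' ∈ Z a`: the last clause of `SfSep` (`x ∈ A' a ⊆ A a`).
`⋃ Nr = ⋃ Zt` (for `x ∈ Zt a` take the `a'` with the least `e a'` among those with `x ∈ Zt a'`: `Finset.exists_min_image` or strong induction on `e a`), hence `⋃ A ⊆ ⋃ Nr`.
Locality: `S = ⋃ a, A' a`, `S' = (⋃ a, Nr a)ᶜ`; `rho k ((⋃ A) \\ S) = 0` (`measure_iUnion_null`, the difference is contained in `⋃ a, A a \\ A' a`); `sf_loc_stack_congr` replaces `1_(⋃ A)` by `1_S`;   `sf_loc_stack_ker` (Soft/MCoreLoc.lean) at the cuts `(T,k)`, `(T,k)`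
(`CutLe T k T k = ⟨le_rfl, le_rfl, by positivity-type⟩`): a pair `x ∈ A' a`, `x' ∉ ⋃ Nr = ⋃ Zt` with `sfCn Λ` is excluded because all `Λ`-successors of `A' a` lie in `Z a`. -/
theorem sf_ge_root_abs (hO : SfCyOk Y) (hS : SfSep Y) (g0 : ℝ) (L : Y.M.Loc g0) (hL : SfLocK Y g0 L) (p : Y.M.Par) (hp : Y.M.gd p)
    (bm Nn : ℕ) (Λ : ℝ) (hΛ : 1 ≤ Λ) (T : ℝ) (k b b' : ℕ) (hb : b ≤ bm) (hb' : b' ≤ bm) {ι : Type} [Finite ι]
    (A : ι → Set (Y.M.sys p).X) (hA : ∀ a, MeasurableSet (A a)) :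
    ∃ Nr : ι → Set (Y.M.sys p).X, (∀ a, MeasurableSet (Nr a)) ∧ (∀ a a', a ≠ a' → Disjoint (Nr a) (Nr a')) ∧
      (∀ a, ∀ x' ∈ Nr a, ∃ x ∈ A a, sfCn Y p (2 * Λ) T k T k x x') ∧ (⋃ a, A a) ⊆ (⋃ a, Nr a) ∧
      ∀ F : Lp (Y.M.sys p).Fb 2 ((Y.M.sys p).rho k),
        Real.sqrt ((Y.M.sys p).ms T k b' (⋃ a, Nr a)ᶜ
          (ContinuousLinearMap.adjoint ((Y.M.sys p).An T k b) ((Y.M.sys p).mulR k ((⋃ a, A a).indicator fun _ => 1) F))) ≤ sfKer L bm Nn Λ k k * ‖F‖ := by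
  cases nonempty_fintype ι
  obtain ⟨e⟩ : Nonempty (ι ≃ Fin (Fintype.card ι)) := ⟨Fintype.equivFin ι⟩
  choose A' Z hA'm hZm hsub hnull hsucc hpre using fun a => hS p hp Λ hΛ T k T k le_rfl le_rfl le_rfl (A a) (hA a)
  obtain ⟨Zt, hZt⟩ : ∃ Zt : ι → Set (Y.M.sys p).X, ∀ a, Zt a = A a ∪ Z a := ⟨_, fun _ => rfl⟩
  have hZtm : ∀ a, MeasurableSet (Zt a) := fun a => by
    rw [hZt]
    exact (hA a).union (hZm a)
  obtain ⟨f', hf'⟩ : ∃ f' : Fin (Fintype.card ι) → Set (Y.M.sys p).X, ∀ i, f' i = Zt (e.symm i) := ⟨_, fun _ => rfl⟩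
  have hNsub : ∀ a, disjointed f' (e a) ⊆ Zt a := fun a => by
    have := disjointed_subset f' (e a)
    rwa [hf', Equiv.symm_apply_apply] at this
  have hU : (⋃ a, disjointed f' (e a)) = ⋃ a, Zt a := by
    rw [e.surjective.iUnion_comp (disjointed f'), iUnion_disjointed]
    have : (⋃ i, f' i) = ⋃ i, Zt (e.symm i) := Set.iUnion_congr hf'
    rw [this, e.symm.surjective.iUnion_comp Zt]
  have hNm : ∀ a, MeasurableSet (disjointed f' (e a)) := fun a =>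
    disjointedRec (fun _ i ht => ht.diff (by rw [hf']; exact hZtm _)) (by rw [hf']; exact hZtm _)
  refine ⟨fun a => disjointed f' (e a), hNm, fun a a' h => disjoint_disjointed f' (e.injective.ne h), fun a x' hx' => ?_, ?_, fun F => ?_⟩
  · have h1 := hNsub a hx'
    rw [hZt] at h1
    rcases h1 with h1 | h1
    · exact ⟨x', h1, sf_ge_cn_self hO p (2 * Λ) (by linarith) T k x'⟩
    · obtain ⟨x, hx, hc⟩ := hpre a x' h1
      exact ⟨x, hsub a hx, hc⟩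
  · rw [hU]
    refine Set.iUnion_mono fun a => ?_
    rw [hZt]
    exact Set.subset_union_left
  · have hSm : MeasurableSet (⋃ a, A' a) := MeasurableSet.iUnion hA'm
    have hAm : MeasurableSet (⋃ a, A a) := MeasurableSet.iUnion hA
    have h0 : (Y.M.sys p).rho k ((⋃ a, A a) \ ⋃ a, A' a) = 0 := by
      refine measure_mono_null (t := ⋃ a, A a \ A' a) ?_ (measure_iUnion_null hnull)
      rintro x ⟨hx1, hx2⟩
      obtain ⟨a, ha⟩ := Set.mem_iUnion.1 hx1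
      exact Set.mem_iUnion.2 ⟨a, ha, fun h => hx2 (Set.mem_iUnion.2 ⟨a, h⟩)⟩
    rw [sf_loc_stack_congr k hAm hSm (Set.iUnion_mono hsub) h0 F]
    refine sf_loc_stack_ker g0 L hL p hp bm Nn Λ hΛ T k T k b b' ⟨le_rfl, le_rfl, ?_⟩ le_rfl hb hb' _ _ hSm
      (MeasurableSet.iUnion hNm).compl ?_ F
    · have : (0 : ℝ) ≤ (2 : ℝ)⁻¹ ^ k := by positivity
      linarith
    · intro x hx x' hx' hc
      obtain ⟨a, ha⟩ := Set.mem_iUnion.1 hx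
      apply hx'
      rw [hU]
      refine Set.mem_iUnion.2 ⟨a, ?_⟩
      rw [hZt]
      exact Or.inr (hsucc a x ha x' hc)

/-- **(LEAF L-256-SOFT-GE-RNUM) the constants.**   PLAN: `Nn = 8 (S+1) (Cb+1)`;  `n0 ≥ 8 (S+1)` and `|CN| ≤ 2^n0`.   `x = ε n / 4 ≥ n / (4 (S+1)) ≥ 2`: `2^x / 2 = 2^(x-1) ≥ 2^(x/2) ≥ 1`, `2 ≤ 2^x`;
`(2^x / 2)^(-Nn) ≤ 2^(-(x/2) Nn) ≤ 2^(-((Cb+1) n))` (`x Nn / 2 ≥ n Nn / (8 (S+1)) = (Cb+1) n`);  `|CN| 2^(-((Cb+1) n)) ≤ 2^(-(Cb n))`.   (`Real.rpow_natCast`, `Real.rpow_le_rpow_left_iff`, `Real.rpow_add`, `Real.rpow_mul`.) -/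
theorem sf_ge_root_num (S Cb : ℕ) : ∃ Nn : ℕ, ∀ CN : ℝ, ∃ n0 : ℕ, ∀ n : ℕ, n0 ≤ n → ∀ ε : ℝ, 1 / ((S : ℝ) + 1) ≤ ε →
    (1 : ℝ) ≤ 2 ^ (ε / 4 * n) / 2 ∧ |CN| * (2 ^ (ε / 4 * n) / 2) ^ (-(Nn : ℝ)) ≤ 2 ^ (-((Cb : ℝ) * n)) := by
  refine ⟨8 * (S + 1) * (Cb + 1), fun CN => ?_⟩
  obtain ⟨m, hm⟩ := pow_unbounded_of_one_lt |CN| (by norm_num : (1 : ℝ) < 2)
  refine ⟨max (8 * (S + 1)) m, fun n hn ε hε => ?_⟩
  have hn1 : 8 * (S + 1) ≤ n := (le_max_left _ _).trans hn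
  have hn2 : m ≤ n := (le_max_right _ _).trans hn
  have hS : (0 : ℝ) < (S : ℝ) + 1 := by positivity
  have hn1' : 8 * ((S : ℝ) + 1) ≤ n := by exact_mod_cast hn1
  have hn0 : (0 : ℝ) ≤ n := Nat.cast_nonneg _
  obtain ⟨x, hx⟩ : ∃ x : ℝ, x = ε / 4 * n := ⟨_, rfl⟩
  -- `x (S+1) ≥ n / 4`
  have hεS : 1 ≤ ε * ((S : ℝ) + 1) := by rwa [div_le_iff₀ hS] at hε
  have hxS : (n : ℝ) / 4 ≤ x * ((S : ℝ) + 1) := by
    have := mul_le_mul_of_nonneg_right hεS (by positivity : (0 : ℝ) ≤ (n : ℝ) / 4)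
    rw [hx]
    nlinarith
  have hx2 : 2 ≤ x := by
    by_contra h
    rw [not_le] at h
    have := mul_lt_mul_of_pos_right h hS
    linarith
  rw [← hx]
  have e1 : (2 : ℝ) ^ x / 2 = 2 ^ (x - 1) := by
    rw [Real.rpow_sub (by norm_num), Real.rpow_one]
  rw [e1]
  constructor
  · exact Real.one_le_rpow (by norm_num) (by linarith)
  · rw [← Real.rpow_mul (by norm_num)]
    have hCN : |CN| ≤ (2 : ℝ) ^ (n : ℝ) := by
      rw [Real.rpow_natCast]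
      exact hm.le.trans (pow_le_pow_right₀ (by norm_num) hn2)
    have hexp : (x - 1) * -((8 * (S + 1) * (Cb + 1) : ℕ) : ℝ) ≤ -(((Cb : ℝ) + 1) * n) := by
      push_cast
      have h1 : x / 2 ≤ x - 1 := by linarith
      have hC : (0 : ℝ) ≤ (Cb : ℝ) + 1 := by positivity
      have h2 : (n : ℝ) ≤ (x - 1) * (8 * ((S : ℝ) + 1)) := by nlinarith
      have := mul_le_mul_of_nonneg_right h2 hC
      nlinarith
    calc |CN| * (2 : ℝ) ^ ((x - 1) * -((8 * (S + 1) * (Cb + 1) : ℕ) : ℝ))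
        ≤ (2 : ℝ) ^ (n : ℝ) * (2 : ℝ) ^ (-(((Cb : ℝ) + 1) * n)) :=
          mul_le_mul hCN (Real.rpow_le_rpow_of_exponent_le (by norm_num) hexp) (by positivity) (by positivity)
      _ = 2 ^ (-((Cb : ℝ) * n)) := by
          rw [← Real.rpow_add (by norm_num)]
          congr 1
          ring

/-- the restored rows at ONE gate `g` (a real variable: no cast), chain predicate `R`, all chain rows in the interval `m0` -/
theorem sf_ge_root_gate (hO : SfCyOk Y) (hS : SfSep Y) (g0 : ℝ) (L : Y.M.Loc g0) (hL : SfLocK Y g0 L) {de : ℝ} (c : SfCfg Y de)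
    (hp : Y.M.gd c.p) (hT : (Y.M.sys c.p).Tight) (hs : c.W.Str (Y.tq c.p)) (bm Nn : ℕ) (Λ : ℝ) (hΛ : 1 ≤ Λ) (g : ℝ) (hg : g ∈ c.W.G) (hg1 : g < 1)
    (hb : c.W.gb g + 1 ≤ bm) (R : c.D.Row g → Prop) (m0 : ℕ) (hm : ∀ ρ, R ρ → c.im g ρ = m0) :
    ∃ N' : {ρ : c.D.Row g // R ρ} → Set (Y.M.sys c.p).X, (∀ a, MeasurableSet (N' a)) ∧ (∀ a a', a ≠ a' → Disjoint (N' a) (N' a')) ∧
      (∀ a, ∀ x' ∈ N' a, ∃ x ∈ c.sh.atm g a.1, sfCn Y c.p (2 * Λ) (c.tm g a.1) (c.W.k g) (c.tm g a.1) (c.W.k g) x x') ∧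
      (∀ a : {ρ : c.D.Row g // R ρ}, ∀ x ∈ c.sh.atm g a.1, ∃ a', x ∈ N' a') ∧
      (Y.hyb = false → ∀ a, N' a = c.sh.atm g a.1) ∧
      ∀ v : (Y.M.sys c.p).Kc, Real.sqrt ((Y.M.sys c.p).ms (tmL (c.W.k g) m0) (c.W.k g) (c.W.gb g + 1) (⋃ a, N' a)ᶜ
        ((Y.M.sys c.p).tz (tmL (c.W.k g) m0) (c.W.k g) (c.W.gb g) ((c.aS g R m0).indicator (c.W.gM g m0)) v))
          ≤ sfKer L bm Nn Λ (c.W.k g) (c.W.k g) * ‖v‖ := by
  have hA : ∀ a : {ρ : c.D.Row g // R ρ}, MeasurableSet (c.sh.atm g a.1) := fun a => c.sh.at_meas g hg a.1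
  obtain ⟨N', h1, h2, h3, h4, h5⟩ := sf_ge_root_abs hO hS g0 L hL c.p hp bm Nn Λ hΛ (tmL (c.W.k g) m0) (c.W.k g) (c.W.gb g) (c.W.gb g + 1)
    (by omega) hb (fun a : {ρ : c.D.Row g // R ρ} => c.sh.atm g a.1) hA
  have htm : ∀ a : {ρ : c.D.Row g // R ρ}, c.tm g a.1 = tmL (c.W.k g) m0 := by
    intro a
    have := hm a.1 a.2
    unfold SfCfg.im at this
    unfold SfCfg.tm SfMD.T
    rw [this]
  have hcov : ∀ a : {ρ : c.D.Row g // R ρ}, ∀ x ∈ c.sh.atm g a.1, ∃ a', x ∈ N' a' := by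
    intro a x hx
    have := h4 (Set.mem_iUnion.2 ⟨a, hx⟩)
    exact Set.mem_iUnion.1 this
  refine ⟨N', h1, h2, ?_, hcov, ?_, ?_⟩
  · intro a x' hx'
    rw [htm a]
    exact h3 a x' hx'
  · intro hc a
    have hsub : ∀ a : {ρ : c.D.Row g // R ρ}, N' a ⊆ c.sh.atm g a.1 := by
      intro a x' hx'
      obtain ⟨x, hx, hcn⟩ := h3 a x' hx'
      have := hO.clI hc c.p x x' hcn.2.2.1
      rw [← this]
      exact hx
    refine Set.Subset.antisymm (hsub a) fun x hx => ?_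
    obtain ⟨a', ha'⟩ := hcov a x hx
    have hx' := hsub a' ha'
    have e : a.1 = a'.1 := sf_cl_row_eq c hs g hg hg1 a.1 a'.1 x hx hx' ((hm a.1 a.2).trans (hm a'.1 a'.2).symm)
    have e' : a = a' := Subtype.ext e
    rw [e']
    exact ha'
  · intro v
    have hU : c.aS g R m0 = ⋃ a : {ρ : c.D.Row g // R ρ}, c.sh.atm g a.1 := by
      ext x
      unfold SfCfg.aS
      simp only [Set.mem_iUnion]
      constructor
      · rintro ⟨ρ, ⟨hR, -⟩, hx⟩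
        exact ⟨⟨ρ, hR⟩, hx⟩
      · rintro ⟨a, hx⟩
        exact ⟨a.1, ⟨a.2, hm a.1 a.2⟩, hx⟩
    have hUm : MeasurableSet (⋃ a : {ρ : c.D.Row g // R ρ}, c.sh.atm g a.1) := MeasurableSet.iUnion hA
    have hgM := sf_core_gM_mask c hs g hg m0
    have h1m : IsMask ((⋃ a : {ρ : c.D.Row g // R ρ}, c.sh.atm g a.1).indicator fun _ => (1 : ℝ)) :=
      sf_ge_mask_ind ⟨measurable_const, fun _ => ⟨zero_le_one, le_rfl⟩⟩ hUm
    have hF := h5 ((Y.M.sys c.p).mulR (c.W.k g) (c.W.gM g m0) ((Y.M.sys c.p).An (tmL (c.W.k g) m0) (c.W.k g) (c.W.gb g) v))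
    rw [gn_mulR_mulR _ h1m hgM] at hF
    have e : (fun x => (⋃ a : {ρ : c.D.Row g // R ρ}, c.sh.atm g a.1).indicator (fun _ => (1 : ℝ)) x * c.W.gM g m0 x)
        = (c.aS g R m0).indicator (c.W.gM g m0) := by
      rw [hU]
      funext x
      by_cases hx : x ∈ ⋃ a : {ρ : c.D.Row g // R ρ}, c.sh.atm g a.1
      · rw [Set.indicator_of_mem hx, Set.indicator_of_mem hx, one_mul]
      · rw [Set.indicator_of_notMem hx, Set.indicator_of_notMem hx, zero_mul]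
    rw [e] at hF
    refine hF.trans (mul_le_mul_of_nonneg_left ?_ (sf_loc_stack_kpos L bm Nn Λ hΛ _ _))
    exact (gn_mulR_norm_le _ hgM _).trans (hT.contr _ _ _ _)
/-- **(LEAF L-256-SOFT-GE-RINST) ROOT.**
PLAN.  `obtain ⟨L, hL⟩ := hE.loc`.   Given `S Cb`: `Nn` from `sf_ge_root_num S Cb`, `n0` from it with `CN = L.CN (S+1) Nn`.   Fix `c ..`, `hIn : SfGeIn ..`; `hs := hIn.ext.str`; `gd` by `hO.af` on `hIn.ob.2.1`; `s = c.W.E.s = 2⁻¹^n`, `s^(-(ε/4)) = 2^(ε/4 n)` (`gn_s_rpow`), `Λ1 = s^(-(ε/4)) / 2 ≥ 1`.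
`R g ρ := (U ⟨g,ρ⟩ ∨ ∃ v, U v ∧ g < v.1 ∧ Conn g v.1 ρ v.2) ∧ (g = i → S0 ⟨g,ρ⟩)`  (`= d.chn ⟨g,ρ⟩` by `Iff.rfl`, for every choice of the other fields).
For every gate `g ∈ c.W.G`: `sf_ge_root_abs` with `ι = {ρ : c.D.Row g // R g ρ}`, `A a = c.sh.atm g a.1` (`at_meas`), `T = tmL (c.W.k g) m0`, `k = c.W.k g`, `b = c.W.gb g`, `b' = c.W.gb g + 1`, `bm = S + 1` (`sf_core_gb_le`), `Λ = Λ1`.
`Nr g ρ := if h : g ∈ c.W.G ∧ R g ρ then (chosen family at g) ⟨ρ, h.2⟩ else ∅`  (`classical`, `Classical.choose`; NO cast: the family is chosen for every `g`).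
Fields of `Root` at `g = d.γ 0` (`∈ c.W.G` by `sf_ge_gam0`, `Ok.gi`):   `meas`, `disj`, `near` (`c.tm (γ 0) ρ = tmL (k (γ 0)) m0` by `sf_ge_chn_bel` + `gn_anc_self`: `im ρ = m0`; `2 Λ1 = s^(-(ε/4))`);   `ne`: `Ok.u_ne`, `Ok.u_pred` give a chain row, `at_ne` a point of its atom, `⋃ A ⊆ ⋃ Nr`;
`cl`: in the classical model `x' ∈ Nr a → ∃ x ∈ A a` with the same index, so `x' = x` (`SfCyOk.clI`): `Nr a ⊆ A a`; the atoms of two different chain rows are disjoint (`sf_cl_row_eq`, same interval `m0`, `γ 0 = i < j ≤ 1`), and `⋃ A ⊆ ⋃ Nr`: equality;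
`appr`: if `i ∉ Gk`: `d.N = univ`, `ms .. ∅ .. = 0` (`gn_ms`-lemmas / `Set.compl_univ`, `Set.indicator_empty`, `gn_en` of `0`).   If `i ∈ Gk`: `d.N = ⋃ a, Nr a` (every chain row has `im = m0`);   `tz T k b M v = adj (An ..) (mulR 1_(⋃ A) F)` with `M = 1_(gS) gM`, `F = mulR M (An .. v)`
(`gn_mulR_mulR`: `1_(⋃ A) M = M` because `gS (γ 0) m0 ⊆ ⋃ A`, unfold `SfGeD.gS`, `SfCfg.aS`), `‖F‖ ≤ ‖v‖` (`gn_mulR_norm_le`, `Tight.contr`; `M` is a mask: `sf_ge_mask_ind`, `sf_core_gM_mask`);   `sfKer L (S+1) Nn Λ1 k k = |CN| Λ1^(-Nn) 2^0 ≤ s^Cb`;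
`wid`: `2 + Λ ≤ 4 Λ` as `Λ ≥ 2`, `f > 0` (`Str.frame`), `sf_ge_gam0`. -/
theorem sf_ge_root (hO : SfCyOk Y) (hS : SfSep Y) (π : SfPar) (Ls : ℝ) (hE : SfCoreHyp Y π) : SfGeRootX Y π Ls := by
  classical
  obtain ⟨L, hL⟩ := hE.loc
  intro S Cb
  obtain ⟨Nn, hNn⟩ := sf_ge_root_num S Cb
  obtain ⟨n0, hn0⟩ := hNn (L.CN (S + 1) Nn)
  refine ⟨n0, fun c C0 α hIn hn i j Gk U S0 m0 hOk => ?_⟩
  have hs := hIn.ext.str
  have hp : Y.M.gd c.p := (hO.af _ _ _ _ _ hIn.ob.2.1).1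
  have hT := hE.gen.tight c.p hp
  obtain ⟨hΛ1, hker⟩ := hn0 c.W.E.n hn c.ε hIn.eps.1
  obtain ⟨Λ, hΛ⟩ : ∃ Λ : ℝ, Λ = c.W.E.s ^ (-(c.ε / 4)) := ⟨_, rfl⟩
  have hΛe : (2 : ℝ) ^ (c.ε / 4 * c.W.E.n) = Λ := by
    rw [hΛ, gn_s_rpow]; congr 1; ring
  rw [hΛe] at hΛ1 hker
  rw [← hΛ]
  have hsC : c.W.E.s ^ (Cb : ℝ) = 2 ^ (-((Cb : ℝ) * c.W.E.n)) := gn_s_rpow _ _
  -- the chain predicate
  obtain ⟨R, hR⟩ : ∃ R : ∀ g, c.D.Row g → Prop, ∀ g ρ, R g ρ ↔ ((U ⟨g, ρ⟩ ∨ ∃ v, U v ∧ g < v.1 ∧ c.D.Conn g v.1 ρ v.2) ∧ (g = i → S0 ⟨g, ρ⟩)) :=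
    ⟨fun g ρ => (U ⟨g, ρ⟩ ∨ ∃ v, U v ∧ g < v.1 ∧ c.D.Conn g v.1 ρ v.2) ∧ (g = i → S0 ⟨g, ρ⟩), fun _ _ => Iff.rfl⟩
  have hchn : ∀ (d : SfGeD c), d.U = U → d.S0 = S0 → d.i = i → ∀ g ρ, d.chn ⟨g, ρ⟩ ↔ R g ρ := by
    intro d hd hd2 hd3 g ρ
    rw [hR]
    unfold SfGeD.chn SfGeD.chf
    rw [hd, hd2, hd3]
  have hOk0 := hOk (fun _ _ => ∅) 0 c.W.Q0 0 0
  have hiG : i ∈ c.W.G := hOk0.gi
  have hjG : j ∈ c.W.G := hOk0.gj
  have hij : i < j := hOk0.hij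
  have hj1 : j ≤ 1 := (hs.gate.2 j hjG).2
  have hbase : ∀ i ∈ c.D.G, ∀ j ∈ c.D.G, i < j → ∀ ρ ρ', c.D.Conn i j ρ ρ' → c.D.T i ρ ≤ c.D.T j ρ' ∧ c.D.T j ρ' + c.D.len j ≤ c.D.T i ρ + c.D.len i := by
    intro i hi j hj hij ρ ρ' h
    obtain ⟨a, b, -⟩ := hIn.good.1.base i hi j hj hij ρ ρ' h
    exact ⟨a, b⟩
  have hm : ∀ ρ : c.D.Row i, R i ρ → c.im i ρ = m0 := by
    intro ρ hρ
    have h := sf_ge_chn_bel _ hs hOk0 hbase ⟨i, ρ⟩ ((hchn _ rfl rfl rfl i ρ).2 hρ) hiG le_rfl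
    unfold SfGeD.bel at h
    rw [sf_ge_gam0] at h
    exact (gn_anc_self _ _).symm.trans h
  have hm' : ∀ g, g = i → ∀ ρ : c.D.Row g, R g ρ → c.im g ρ = m0 := by
    intro g hg
    subst hg
    exact hm
  have H : ∀ g, ∃ N' : {ρ : c.D.Row g // R g ρ} → Set (Y.M.sys c.p).X, g = i → ((∀ a, MeasurableSet (N' a)) ∧ (∀ a a', a ≠ a' → Disjoint (N' a) (N' a')) ∧
      (∀ a, ∀ x' ∈ N' a, ∃ x ∈ c.sh.atm g a.1, sfCn Y c.p (2 * (Λ / 2)) (c.tm g a.1) (c.W.k g) (c.tm g a.1) (c.W.k g) x x') ∧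
      (∀ a : {ρ : c.D.Row g // R g ρ}, ∀ x ∈ c.sh.atm g a.1, ∃ a', x ∈ N' a') ∧
      (Y.hyb = false → ∀ a, N' a = c.sh.atm g a.1) ∧
      ∀ v : (Y.M.sys c.p).Kc, Real.sqrt ((Y.M.sys c.p).ms (tmL (c.W.k g) m0) (c.W.k g) (c.W.gb g + 1) (⋃ a, N' a)ᶜ
        ((Y.M.sys c.p).tz (tmL (c.W.k g) m0) (c.W.k g) (c.W.gb g) ((c.aS g (R g) m0).indicator (c.W.gM g m0)) v))
          ≤ sfKer L (S + 1) Nn (Λ / 2) (c.W.k g) (c.W.k g) * ‖v‖) := by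
    intro g
    by_cases hg : g = i
    · obtain ⟨N', h⟩ := sf_ge_root_gate hO hS _ L hL c hp hT hs (S + 1) Nn (Λ / 2) hΛ1 g (hg ▸ hiG) (by rw [hg]; linarith)
        (Nat.succ_le_succ (sf_core_gb_le c S hIn.ob g (hg ▸ hiG))) (R g) m0 (hm' g hg)
      exact ⟨N', fun _ => h⟩
    · exact ⟨fun _ => ∅, fun h => absurd h hg⟩
  choose NF hNF using H
  obtain ⟨Nr, hNr1, hNr2⟩ : ∃ Nr : ∀ g, c.D.Row g → Set (Y.M.sys c.p).X, (∀ g ρ (h : R g ρ), Nr g ρ = NF g ⟨ρ, h⟩) ∧ (∀ g ρ, ¬ R g ρ → Nr g ρ = ∅) :=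
    ⟨fun g ρ => if h : R g ρ then NF g ⟨ρ, h⟩ else ∅, fun g ρ h => dif_pos h, fun g ρ h => dif_neg h⟩
  refine ⟨Nr, fun Q0 e ka => ?_⟩
  have hOkd := hOk Nr (4 * Λ * c.W.f i) Q0 e ka
  obtain ⟨d, hd⟩ : ∃ d : SfGeD c, d = SfGeD.mk i j Gk U S0 m0 Nr (4 * Λ * c.W.f i) Q0 e ka := ⟨_, rfl⟩
  rw [← hd] at hOkd ⊢
  have hdi : d.i = i := by rw [hd]
  have hdj : d.j = j := by rw [hd]
  have hdU : d.U = U := by rw [hd]
  have hdS : d.S0 = S0 := by rw [hd]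
  have hdm : d.m0 = m0 := by rw [hd]
  have hdNr : d.Nr = Nr := by rw [hd]
  have hdf : d.f0 = 4 * Λ * c.W.f i := by rw [hd]
  have hγ : d.γ 0 = i := (sf_ge_gam0 d).trans hdi
  have hγG : d.γ 0 ∈ c.W.G := by rw [hγ]; exact hiG
  have hch := hchn d hdU hdS hdi
  obtain ⟨P1, P2, P3, P4, P5, P6⟩ := hNF (d.γ 0) hγ
  have h2Λ : 2 * (Λ / 2) = Λ := by ring
  rw [h2Λ] at P3
  refine ⟨?_, ?_, ?_, ?_, ?_, ?_, ?_⟩
  · intro ρ
    rw [hdNr]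
    by_cases h : R (d.γ 0) ρ
    · rw [hNr1 _ ρ h]; exact P1 _
    · rw [hNr2 _ ρ h]; exact MeasurableSet.empty
  · intro ρ ρ' h h' hne
    rw [hdNr, hNr1 _ ρ ((hch _ _).1 h), hNr1 _ ρ' ((hch _ _).1 h')]
    exact P2 _ _ fun e => hne (congrArg Subtype.val e)
  · intro ρ h x' hx'
    rw [hdNr, hNr1 _ ρ ((hch _ _).1 h)] at hx'
    exact P3 ⟨ρ, (hch _ _).1 h⟩ x' hx'
  · obtain ⟨v, hv⟩ := hOkd.u_ne
    obtain ⟨u, hu1, hu2, -, hu3⟩ := hOkd.u_s0 v hv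
    obtain ⟨g, ρ⟩ := u
    have hg : g = d.γ 0 := by
      have : g = d.i := hu1
      rw [this, hγ, hdi]
    subst hg
    have hvj : v.1 = d.j := hOkd.u_dep v hv
    have hRρ : R (d.γ 0) ρ := (hR _ _).2 ⟨Or.inr ⟨v, hdU ▸ hv, by rw [hvj, hγ, hdj]; exact hij, hu2⟩, fun _ => hdS ▸ hu3⟩
    obtain ⟨x, hx⟩ := c.sh.at_ne _ hγG ρ
    obtain ⟨a', ha'⟩ := P4 ⟨ρ, hRρ⟩ x hx
    refine ⟨a'.1, (hch _ _).2 a'.2, x, ?_⟩
    rw [hdNr, hNr1 _ a'.1 a'.2]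
    exact ha'
  · intro hc ρ h
    rw [hdNr, hNr1 _ ρ ((hch _ _).1 h)]
    exact P5 hc ⟨ρ, (hch _ _).1 h⟩
  · intro v
    by_cases hk : d.i ∈ d.Gk
    · have hN : d.N = ⋃ a, NF (d.γ 0) a := by
        unfold SfGeD.N
        rw [if_pos hk, hdNr]
        ext x
        simp only [Set.mem_iUnion]
        constructor
        · rintro ⟨ρ, ⟨h1, -⟩, hx⟩
          rw [hNr1 _ ρ ((hch _ _).1 h1)] at hx
          exact ⟨_, hx⟩
        · rintro ⟨a, hx⟩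
          refine ⟨a.1, ⟨(hch _ _).2 a.2, ?_⟩, ?_⟩
          · rw [hdm]
            exact hm' _ hγ a.1 a.2
          · rw [hNr1 _ a.1 a.2]; exact hx
      have hgS : d.gS (d.γ 0) d.m0 = c.aS (d.γ 0) (R (d.γ 0)) m0 := by
        have e : (fun ρ => d.chn ⟨d.γ 0, ρ⟩) = R (d.γ 0) := funext fun ρ => propext (hch _ _)
        unfold SfGeD.gS SfGeD.bel
        rw [e, hdm]
        ext x
        simp only [Set.mem_ofPred_eq, gn_anc_self, true_and]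
      have hb0 : d.b0 = c.W.gb (d.γ 0) + 1 := rfl
      rw [hN, hgS, hb0, hdm]
      refine (P6 v).trans (mul_le_mul_of_nonneg_right ?_ (norm_nonneg _))
      unfold sfKer
      rw [sub_self, mul_zero, Real.rpow_zero, mul_one, hsC]
      exact hker
    · have hN : d.N = Set.univ := by
        unfold SfGeD.N
        rw [if_neg hk]
      rw [hN, Set.compl_univ]
      have : ∀ w, (Y.M.sys c.p).ms (tmL (c.W.k (d.γ 0)) d.m0) (c.W.k (d.γ 0)) d.b0 ∅ w = 0 := by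
        intro w
        unfold PkSys.ms PkSys.en
        simp
      rw [this, Real.sqrt_zero]
      exact mul_nonneg (Real.rpow_nonneg (by unfold Xp.s; positivity) _) (norm_nonneg _)
  · rw [hdf, hγ]
    have hf : 0 < c.W.f i := (hs.frame.2.2 i hiG).2
    constructor
    · have : 2 + Λ ≤ 4 * Λ := by linarith
      exact mul_le_mul_of_nonneg_right this hf.le
    · exact le_rfl

end Claimed.Agent.R256
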