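import Claimed.Agent.R256.Soft.MGeStr

/-!
# Row 256 (S0496), unit SOFT, block M6 GE, file 7: **PRE** = `SfGePre`      (architect helper272; prefix `sf_ge_s_`)

PAPER-FREE.   The documented group experiment `d.W` inherits depths, width ratios and the compatibility (M) from the old experiment `c.W`.
`n = c.W.E.n`, `s = 2^-n`;  `n' = d.X.n = k (γ 1) - k (γ 0)`, `s' = 2^-n'`;  `δ = d.j - d.i`;  `α` = absolute accuracy of `c.W`;  `a1` = relative accuracy of `d.W`;  `|n' - δ n| ≤ 2 α n`, `n' ≤ n`.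
THE NUMERICAL HYPOTHESIS `(NUM y)`:   `y + n (α (1 + 2 |Ls|)) ≤ (δ - 2 α) n a1`   gives   `s'^(Ls x + a1) 2^y ≤ s^(Ls x δ + α)`  for `0 ≤ x ≤ 1`   (`sf_ge_s_pow`).
RULES FOR LEAVES: prove IN PLACE, statement verbatim, helper lemmas directly above the theorem (names = name of the theorem + suffix).   Statements of this file and of the imports may be cited even if still `sorry`.
NO CAST: never rewrite `d.γ g'` inside a dependent type.   `d.W.k g = c.W.k (d.γ g)`, `d.W.r g = c.W.r (d.γ g)`, `d.W.T g l = c.W.T (d.γ g) l.1`, `d.W.th g l = d.th g l.1`, `d.W.ts g l = d.ts g l.1`, `d.W.E = d.X`, `d.W.G = d.G` are `rfl` (use `show`);  `d.W.f g = if g ≤ 0 then d.f0 else c.W.f (d.γ g)`.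
-/

set_option autoImplicit false

namespace Claimed.Agent.R256

open MeasureTheory Claimed.Agent.R255

variable {Y : SfCy} {de : ℝ} {c : SfCfg Y de} (d : SfGeD c)

theorem sf_ge_s_gam_sub (g1 g2 : ℝ) : d.γ g2 - d.γ g1 = (g2 - g1) * (d.j - d.i) := by
  unfold SfGeD.γ
  ring

/-- (LEAF GE-S-NUM) the relative scale.   PLAN: `d.X.n = k (γ 1) - k (γ 0)` (`rfl`), `Nat.cast_sub (sf_ge_s_k_le ..)`; `hdep` at `γ 0`, `γ 1` (`sf_ge_s_g0`, `sf_ge_s_g1`; rewrite the REAL numbers `d.γ 0 = d.i`, `d.γ 1 = d.j` only in the factor `i * n`: `have := hdep _ (sf_ge_s_g0 d hd)`, then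
`rw [sf_ge_gam0] at this` would also rewrite `c.W.k (d.γ 0)`: harmless here, do it everywhere (also in the goal: `show |((c.W.k (d.γ 1) - c.W.k (d.γ 0) : ℕ) : ℝ) - _| ≤ _`, `rw [sf_ge_gam0, sf_ge_gam1]`); `abs_le`, `linarith`.
`n' ≤ n`: `Str.k_rg`: `k0 ≤ k (γ 0)`, `k (γ 1) ≤ kf = k0 + n`; `omega`. -/
theorem sf_ge_s_n (hs : c.W.Str (Y.tq c.p)) (hd : d.Ok) {α : ℝ} (hdep : ∀ i ∈ c.W.G, |((c.W.k i : ℝ) - c.W.E.k0) - i * c.W.E.n| ≤ α * c.W.E.n) :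
    |(d.X.n : ℝ) - (d.j - d.i) * c.W.E.n| ≤ 2 * α * c.W.E.n ∧ d.X.n ≤ c.W.E.n := by
  have hle := sf_ge_s_k_le d hs hd
  have h0 := hdep _ (sf_ge_s_g0 d hd)
  have h1 := hdep _ (sf_ge_s_g1 d hd)
  have r0 := (hs.k_rg _ (sf_ge_s_g0 d hd)).1
  have r1 := (hs.k_rg _ (sf_ge_s_g1 d hd)).2
  have hn : d.X.n = c.W.k (d.γ 1) - c.W.k (d.γ 0) := rfl
  have e0 : d.γ 0 = d.i := sf_ge_gam0 d
  have e1 : d.γ 1 = d.j := sf_ge_gam1 d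
  constructor
  · rw [hn, Nat.cast_sub hle]
    generalize (c.W.k (d.γ 1) : ℝ) = K1 at *
    generalize (c.W.k (d.γ 0) : ℝ) = K0 at *
    rw [e0] at h0
    rw [e1] at h1
    rw [abs_le] at h0 h1 ⊢
    constructor <;> linarith [h0.1, h0.2, h1.1, h1.2]
  · rw [hn]
    have hkf : c.W.E.kf = c.W.E.k0 + c.W.E.n := rfl
    omega

/-- (LEAF GE-S-NUM) PLAN: `n' (Ls x + a1) - n Ls x δ = (n' - δ n) Ls x + n' a1`;  `|(n' - δ n) Ls x| ≤ 2 α n |Ls|` (`abs_mul`, `x ≤ 1`, `0 ≤ 2 α n` from `h1`);  `n' a1 ≥ (δ n - 2 α n) a1`. -/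
theorem sf_ge_s_num {n n' δ α Ls a1 x y : ℝ} (h1 : |n' - δ * n| ≤ 2 * α * n) (hx0 : 0 ≤ x) (hx1 : x ≤ 1) (ha1 : 0 ≤ a1)
    (hy : y + n * (α * (1 + 2 * |Ls|)) ≤ (δ - 2 * α) * n * a1) : n * (Ls * (x * δ) + α) + y ≤ n' * (Ls * x + a1) := by
  have h0 : 0 ≤ 2 * α * n := le_trans (abs_nonneg _) h1
  have hA : |(n' - δ * n) * (Ls * x)| ≤ 2 * α * n * |Ls| := by
    rw [abs_mul, abs_mul, abs_of_nonneg hx0]
    have hb : |Ls| * x ≤ |Ls| := by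
      have := mul_le_mul_of_nonneg_left hx1 (abs_nonneg Ls)
      linarith
    exact mul_le_mul h1 hb (mul_nonneg (abs_nonneg _) hx0) h0
  have hB : (δ * n - 2 * α * n) * a1 ≤ n' * a1 := by
    apply mul_le_mul_of_nonneg_right _ ha1
    have := (abs_le.1 h1).1
    linarith
  have hA' := (abs_le.1 hA).1
  have key : n' * (Ls * x + a1) - n * (Ls * (x * δ)) = (n' - δ * n) * (Ls * x) + n' * a1 := by ring
  have e1 : (δ - 2 * α) * n * a1 = (δ * n - 2 * α * n) * a1 := by ring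
  have e2 : n * (α * (1 + 2 * |Ls|)) = n * α + 2 * α * n * |Ls| := by ring
  have e3 : n * (Ls * (x * δ) + α) = n * (Ls * (x * δ)) + n * α := by ring
  linarith

/-- (LEAF GE-S-NUM) PLAN: `gn_s_rpow` (`E.s ^ z = 2 ^ (-(z * E.n))`), `← Real.rpow_add`, `gn_two_mono`, `sf_ge_s_num` with `sf_ge_s_n`. -/
theorem sf_ge_s_pow (hs : c.W.Str (Y.tq c.p)) (hd : d.Ok) {α Ls a1 x y : ℝ} (hdep : ∀ i ∈ c.W.G, |((c.W.k i : ℝ) - c.W.E.k0) - i * c.W.E.n| ≤ α * c.W.E.n)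
    (hx0 : 0 ≤ x) (hx1 : x ≤ 1) (ha1 : 0 ≤ a1) (hy : y + c.W.E.n * (α * (1 + 2 * |Ls|)) ≤ (d.j - d.i - 2 * α) * c.W.E.n * a1) :
    d.X.s ^ (Ls * x + a1) * 2 ^ y ≤ c.W.E.s ^ (Ls * (x * (d.j - d.i)) + α) ∧ c.W.E.s ^ (-(Ls * (x * (d.j - d.i)) + α)) * 2 ^ y ≤ d.X.s ^ (-(Ls * x + a1)) := by
  have key := sf_ge_s_num (sf_ge_s_n d hs hd hdep).1 hx0 hx1 ha1 hy
  constructor
  · rw [gn_s_rpow, gn_s_rpow, ← gn_two_add]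
    apply gn_two_mono
    linarith
  · rw [gn_s_rpow, gn_s_rpow, ← gn_two_add]
    apply gn_two_mono
    linarith

theorem sf_ge_s_depth_num {A B Cc k0 n g γg γ0 γ1 α a1 : ℝ} (hn : 0 ≤ n) (hg0 : 0 ≤ g) (hg1 : g ≤ 1) (hγ : γg = γ0 + g * (γ1 - γ0))
    (hA : |A - k0 - γg * n| ≤ α * n) (hB : |B - k0 - γ0 * n| ≤ α * n) (hC : |Cc - k0 - γ1 * n| ≤ α * n) (ha1 : 0 ≤ a1)
    (hy : 2 * α ≤ a1 * (γ1 - γ0 - 2 * α)) : |A - B - g * (Cc - B)| ≤ a1 * (Cc - B) := by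
  obtain ⟨A1, A2⟩ := abs_le.1 hA
  obtain ⟨B1, B2⟩ := abs_le.1 hB
  obtain ⟨C1, C2⟩ := abs_le.1 hC
  have p1 : (1 - g) * (B - k0 - γ0 * n) ≤ (1 - g) * (α * n) := mul_le_mul_of_nonneg_left B2 (by linarith)
  have p2 : (1 - g) * (-(α * n)) ≤ (1 - g) * (B - k0 - γ0 * n) := mul_le_mul_of_nonneg_left B1 (by linarith)
  have p3 : g * (Cc - k0 - γ1 * n) ≤ g * (α * n) := mul_le_mul_of_nonneg_left C2 hg0
  have p4 : g * (-(α * n)) ≤ g * (Cc - k0 - γ1 * n) := mul_le_mul_of_nonneg_left C1 hg0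
  have key : A - B - g * (Cc - B) = (A - k0 - γg * n) - (1 - g) * (B - k0 - γ0 * n) - g * (Cc - k0 - γ1 * n) := by
    rw [hγ]
    ring
  have q1 : 2 * α * n ≤ a1 * (γ1 - γ0 - 2 * α) * n := mul_le_mul_of_nonneg_right hy hn
  have q2 : a1 * ((γ1 - γ0 - 2 * α) * n) ≤ a1 * (Cc - B) := mul_le_mul_of_nonneg_left (by linarith) ha1
  rw [key, abs_le]
  constructor <;> linarith

/-- (LEAF GE-S-DEP) **depths.**   PLAN: `K g = k g - k0 = g n + θ_g α n`, `|θ_g| ≤ 1`.   `d.W.k g - d.W.E.k0 = K (γ g) - K (γ 0)`, `n' = K (γ 1) - K (γ 0)` (`Nat.cast_sub`), `γ g = γ 0 + g (γ 1 - γ 0)`-type identity: `d.γ g = d.i + g (d.j - d.i)` (`rfl`/`unfold SfGeD.γ`):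
`|K (γ g) - K (γ 0) - g (K (γ 1) - K (γ 0))| ≤ α n (1 + (1 - g) + g) = 2 α n`  (`0 ≤ g ≤ 1`: `sf_ge_s_rg`; `abs_le`, `nlinarith`);   `2 α n ≤ a1 (δ - 2 α) n ≤ a1 n'` (`sf_ge_s_n`). -/
theorem sf_ge_s_depth (hs : c.W.Str (Y.tq c.p)) (hd : d.Ok) {α a1 : ℝ} (hdep : ∀ i ∈ c.W.G, |((c.W.k i : ℝ) - c.W.E.k0) - i * c.W.E.n| ≤ α * c.W.E.n)
    (ha1 : 0 ≤ a1) (hy : 2 * α ≤ a1 * (d.j - d.i - 2 * α)) : ∀ g ∈ d.W.G, |((d.W.k g : ℝ) - d.W.E.k0) - g * d.W.E.n| ≤ a1 * d.W.E.n := by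
  intro g hg
  have hg' : g ∈ d.G := hg
  obtain ⟨hm, -, -⟩ := sf_ge_s_gam_mem d hd hg'
  obtain ⟨hg0, hg1⟩ := sf_ge_s_rg d hd hg'
  have hk := sf_ge_s_k_le d hs hd
  show |((c.W.k (d.γ g) : ℝ) - (c.W.k (d.γ 0) : ℕ)) - g * ((c.W.k (d.γ 1) - c.W.k (d.γ 0) : ℕ) : ℝ)|
    ≤ a1 * ((c.W.k (d.γ 1) - c.W.k (d.γ 0) : ℕ) : ℝ)
  rw [Nat.cast_sub hk]
  have e := sf_ge_s_gam_sub d 0 1
  refine sf_ge_s_depth_num (k0 := c.W.E.k0) (n := c.W.E.n) (γg := d.γ g) (γ0 := d.γ 0) (γ1 := d.γ 1) (α := α) (Nat.cast_nonneg _) hg0 hg1 ?_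
    (hdep _ hm) (hdep _ (sf_ge_s_g0 d hd)) (hdep _ (sf_ge_s_g1 d hd)) ha1 ?_
  · unfold SfGeD.γ
    ring
  · rw [e]
    refine hy.trans (le_of_eq ?_)
    ring

/-- (LEAF GE-S-WR) **width ratios.**   PLAN: `sf_ge_s_next`: `γ g1`, `γ g2` are consecutive old gates; `hwr` there; `sf_ge_s_gam_sub`: `γ g2 - γ g1 = x δ`, `x = g2 - g1 ∈ [0,1]` (`sf_ge_s_rg`).   `sf_ge_s_pow` (with `2^y ≥ 1`) converts the powers.
`0 < g2` always: `d.W.f g2 = c.W.f (γ g2)`.   `0 < g1`: nothing else.   `g1 = 0` (`g1 ≤ 0`, `sf_ge_s_rg`; `obtain rfl`): `d.W.f 0 = d.f0`, `f ≤ f0 ≤ 4 Λ f ≤ 2^y f` (`hR.wid`, `f = c.W.f (γ 0) > 0`, `Λ ≥ 0`): lower bound by monotonicity of the quotient (`div_le_div_of_nonneg_right`, `Str.frame`),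
upper bound `f0 / f2 ≤ 2^y (f / f2) ≤ 2^y s^(-(..)) ≤ s'^(-(..))`. -/
theorem sf_ge_s_wr (hs : c.W.Str (Y.tq c.p)) (hd : d.Ok) {α Ls a1 Λ ϰ y : ℝ} (hdep : ∀ i ∈ c.W.G, |((c.W.k i : ℝ) - c.W.E.k0) - i * c.W.E.n| ≤ α * c.W.E.n)
    (hΛ : 0 ≤ Λ) (hR : d.Root Λ ϰ)
    (hwr : ∀ i j, sfNext c.W.G i j → c.W.E.s ^ (Ls * (j - i) + α) ≤ c.W.r i / c.W.r j ∧ c.W.r i / c.W.r j ≤ 1 ∧
      c.W.E.s ^ (Ls * (j - i) + α) ≤ c.W.f i / c.W.f j ∧ c.W.f i / c.W.f j ≤ c.W.E.s ^ (-(Ls * (j - i) + α)))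
    (ha1 : 0 ≤ a1) (hy0 : 0 ≤ y) (hΛy : 4 * Λ ≤ 2 ^ y) (hy : y + c.W.E.n * (α * (1 + 2 * |Ls|)) ≤ (d.j - d.i - 2 * α) * c.W.E.n * a1) :
    ∀ i j, sfNext d.W.G i j → d.W.E.s ^ (Ls * (j - i) + a1) ≤ d.W.r i / d.W.r j ∧ d.W.r i / d.W.r j ≤ 1 ∧
      d.W.E.s ^ (Ls * (j - i) + a1) ≤ d.W.f i / d.W.f j ∧ d.W.f i / d.W.f j ≤ d.W.E.s ^ (-(Ls * (j - i) + a1)) := by
  intro i j hij
  have hij' : sfNext d.G i j := hij
  have hnext := sf_ge_s_next d hd hij'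
  obtain ⟨hi, hj, hlt, -⟩ := hij'
  have hi0 := (sf_ge_s_rg d hd hi).1
  have hj1 := (sf_ge_s_rg d hd hj).2
  have hj0 : 0 < j := lt_of_le_of_lt hi0 hlt
  have hsub := sf_ge_s_gam_sub d i j
  obtain ⟨p1, p2⟩ := sf_ge_s_pow d hs hd (Ls := Ls) (a1 := a1) (x := j - i) (y := y) hdep (by linarith) (by linarith) ha1 hy
  obtain ⟨w1, w2, w3, w4⟩ := hwr _ _ hnext
  rw [hsub] at w1 w3 w4
  have h2y : (1 : ℝ) ≤ 2 ^ y := Real.one_le_rpow (by norm_num) hy0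
  have hA : 0 ≤ d.X.s ^ (Ls * (j - i) + a1) := by
    rw [gn_s_rpow]; positivity
  have hB : 0 ≤ c.W.E.s ^ (-(Ls * ((j - i) * (d.j - d.i)) + α)) := by
    rw [gn_s_rpow]; positivity
  have q1 : d.X.s ^ (Ls * (j - i) + a1) ≤ c.W.E.s ^ (Ls * ((j - i) * (d.j - d.i)) + α) :=
    le_trans (le_mul_of_one_le_right hA h2y) p1
  have q2 : c.W.E.s ^ (-(Ls * ((j - i) * (d.j - d.i)) + α)) ≤ d.X.s ^ (-(Ls * (j - i) + a1)) :=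
    le_trans (le_mul_of_one_le_right hB h2y) p2
  have hfj : d.W.f j = c.W.f (d.γ j) := if_neg (not_le.2 hj0)
  have hfjpos : 0 < c.W.f (d.γ j) := (hs.frame.2.2 _ hnext.2.1).2
  have hfipos : 0 < c.W.f (d.γ i) := (hs.frame.2.2 _ hnext.1).2
  refine ⟨q1.trans w1, w2, ?_, ?_⟩
  · rw [hfj]
    by_cases h0 : i ≤ 0
    · have hfi : d.W.f i = d.f0 := if_pos h0
      obtain rfl : i = 0 := le_antisymm h0 hi0
      rw [hfi]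
      refine (q1.trans w3).trans (div_le_div_of_nonneg_right ?_ hfjpos.le)
      have := hR.wid.1
      nlinarith
    · have hfi : d.W.f i = c.W.f (d.γ i) := if_neg h0
      rw [hfi]
      exact q1.trans w3
  · rw [hfj]
    by_cases h0 : i ≤ 0
    · have hfi : d.W.f i = d.f0 := if_pos h0
      obtain rfl : i = 0 := le_antisymm h0 hi0
      rw [hfi]
      have h1 : d.f0 ≤ 2 ^ y * c.W.f (d.γ 0) := hR.wid.2.trans (mul_le_mul_of_nonneg_right hΛy hfipos.le)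
      calc d.f0 / c.W.f (d.γ j) ≤ (2 ^ y * c.W.f (d.γ 0)) / c.W.f (d.γ j) := div_le_div_of_nonneg_right h1 hfjpos.le
        _ = c.W.f (d.γ 0) / c.W.f (d.γ j) * 2 ^ y := by ring
        _ ≤ c.W.E.s ^ (-(Ls * ((j - 0) * (d.j - d.i)) + α)) * 2 ^ y := mul_le_mul_of_nonneg_right w4 (by positivity)
        _ ≤ _ := p2
    · have hfi : d.W.f i = c.W.f (d.γ i) := if_neg h0
      rw [hfi]
      exact w4.trans q2

/-- (LEAF GE-S-MMR) **a link from a restored root row extends to a link from a row of the old atom, with the same base ray.**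
PLAN: `d.th 0 l x ≠ 0`: `x ∈ lN (γ 0) l` (`sf_ge_s_th_root le_rfl`, `Set.indicator`): `ρ`, `chn ρ`, `lb ρ = l` (`subst`), `x ∈ Nr ρ`.   `hR.near`: `y ∈ atm ρ`, `sfCn Λ` at the same cut, `c.tm (γ 0) ρ = c.W.T (γ 0) (lb ρ)` (`rfl`).   `th (lb ρ) y ≠ 0`: `at_cov`.
`sf_cn_comp hO c.p hp Λ Λ' ..` (`k ≤ k`, `k (γ 0) ≤ k'`: hypothesis `hk`).   Base ray: the index of `y` and `x` agree (third component of `sfCn`), `hO.ixB`, `hO.coX`, `hO.coB`. -/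
theorem sf_ge_s_mm_ext (hO : SfCyOk Y) (hp : Y.M.gd c.p) (hd : d.Ok) {Λ ϰ Λ' : ℝ} (hΛ : 0 ≤ Λ) (hΛ' : 0 ≤ Λ') (hR : d.Root Λ ϰ) (l : c.W.Lb (d.γ 0)) (x x' : (Y.M.sys c.p).X)
    (hx : d.th 0 l x ≠ 0) (T' : ℝ) (k' : ℕ) (hk : c.W.k (d.γ 0) ≤ k') (hc : sfCn Y c.p Λ' (c.W.T (d.γ 0) l) (c.W.k (d.γ 0)) T' k' x x') :
    ∃ y, c.W.th (d.γ 0) l y ≠ 0 ∧ sfCn Y c.p (2 * Λ + Λ') (c.W.T (d.γ 0) l) (c.W.k (d.γ 0)) T' k' y x' ∧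
      ∀ T, (Y.co c.p T y).X = (Y.co c.p T x).X ∧ (Y.co c.p T y).B = (Y.co c.p T x).B := by
  have hx1 : x ∈ d.lN (d.γ 0) l := by
    by_contra hn
    apply hx
    rw [sf_ge_s_th_root d le_rfl l, Set.indicator_of_notMem hn]
  unfold SfGeD.lN at hx1
  simp only [Set.mem_iUnion] at hx1
  obtain ⟨ρ, ⟨hch, hlb⟩, hxN⟩ := hx1
  subst hlb
  obtain ⟨y, hy, hyx⟩ := hR.near ρ hch x hxN
  have hth := ((c.sh.at_cov (d.γ 0) (sf_ge_s_g0 d hd) (c.sh.lb (d.γ 0) ρ) y).2 ⟨ρ, rfl, hy⟩).1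
  refine ⟨y, hth, sf_cn_comp hO c.p hp Λ Λ' hΛ hΛ' _ _ _ _ _ _ le_rfl hk y x x' hyx hc, ?_⟩
  intro T
  obtain ⟨h1, h2, -⟩ := hO.ixB c.p y x hyx.2.2.1
  constructor
  · rw [hO.coX, hO.coX c.p T x, h1]
  · rw [hO.coB, hO.coB c.p T x, h1, h2]

/-- a nonzero cut weight comes from a nonzero old weight -/
theorem sf_ge_s_mm_th {g' : ℝ} (h : 0 < g') (l : c.W.Lb (d.γ g')) (x : (Y.M.sys c.p).X) (hx : d.th g' l x ≠ 0) : c.W.th (d.γ g') l x ≠ 0 := by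
  rw [sf_ge_s_th_pos d h] at hx
  intro h0
  apply hx
  by_cases hm : x ∈ d.lS (d.γ g') l
  · rw [Set.indicator_of_mem hm, h0]
  · rw [Set.indicator_of_notMem hm]

/-- `Pd` sees only the base ray -/
theorem sf_ge_s_mm_pd (Q : SfTest) (T : ℝ) (z z' : Cy5) (hX : z.X = z'.X) (hB : z.B = z'.B) : Q.Pd (sfRayAt T z) = Q.Pd (sfRayAt T z') := by
  unfold SfTest.Pd SfRay.Bt sfRayAt
  simp only
  rw [hX, hB]

/-- (LEAF GE-S-MM) **compatibility (M).**   PLAN: `sf_ge_s_next`, `sf_ge_s_gam_sub`, `x = j - i ∈ [0,1]`; `0 < j`: `d.ts j l'.1 = c.W.ts (γ j) l'.1` (`sf_ge_s_ts_pos`), `d.th j l'.1 x' ≠ 0 → c.W.th (γ j) l'.1 x' ≠ 0` (`sf_ge_s_th_pos`, `Set.indicator`), `d.W.f j = c.W.f (γ j)` (`if_neg`).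
`0 < i`: the same for `l`; `sf_cn_mono` (`s'^(-ε') ≤ 2Λ + s'^(-ε') ≤ s^(-ε)`); `hmm`; the bounds are enlarged by `sf_ge_s_pow` at `y = 0` (`2^0 = 1`; `f/r² ≥ 0`, `f/r ≥ 0` by `Str.frame`).
`i = 0` (`obtain rfl`): `sf_ge_s_mm_ext` gives `y`; `sf_cn_mono` to `s^(-ε)`; `hmm` for `(l.1, l'.1, y, x')`.   `tq (d.ts 0 l.1) = { tq (ts l.1) with f := f0 }` (`sf_ge_s_ts_root`): `sfTestAt`, `.be`, `.K`, `.al`, `SfTest.Pd`, `SfTest.beAt` do not see `f`;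
`SfTest.Pd Q z = al + 2 be z.X - 2 K z.Bt Q.T` sees only `z.X`, `z.B` of `z = sfRayAt T (co T ·)`, `= ⟨X, B - T X, ..⟩`: equal for `y` and `x`. -/
theorem sf_ge_s_mm (hO : SfCyOk Y) (hp : Y.M.gd c.p) (hs : c.W.Str (Y.tq c.p)) (hd : d.Ok) {α Ls a1 Λ ϰ ε' : ℝ}
    (hdep : ∀ i ∈ c.W.G, |((c.W.k i : ℝ) - c.W.E.k0) - i * c.W.E.n| ≤ α * c.W.E.n) (hΛ : 0 ≤ Λ) (hR : d.Root Λ ϰ)
    (hmm : ∀ i j, sfNext c.W.G i j → ∀ (l : c.W.Lb i) (l' : c.W.Lb j) (x x' : (Y.M.sys c.p).X), c.W.th i l x ≠ 0 → c.W.th j l' x' ≠ 0 →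
      sfCn Y c.p (c.W.E.s ^ (-c.ε)) (c.W.T i l) (c.W.k i) (c.W.T j l') (c.W.k j) x x' →
      |(sfTestAt (c.W.T i l) (Y.tq c.p (c.W.ts i l))).be - (sfTestAt (c.W.T j l') (Y.tq c.p (c.W.ts j l'))).beAt (c.W.T i l)|
          + (2 : ℝ)⁻¹ ^ c.W.k i * |(Y.tq c.p (c.W.ts i l)).K - (Y.tq c.p (c.W.ts j l')).K| ≤ c.W.f j / c.W.r j ^ 2 * c.W.E.s ^ (-(Ls * (j - i) + α)) ∧
      |(sfTestAt (c.W.T i l) (Y.tq c.p (c.W.ts i l))).Pd (sfRayAt (c.W.T i l) (Y.co c.p (c.W.T i l) x))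
          - (sfTestAt (c.W.T j l') (Y.tq c.p (c.W.ts j l'))).Pd (sfRayAt (c.W.T i l) (Y.co c.p (c.W.T i l) x))| ≤ c.W.f j / c.W.r j * c.W.E.s ^ (-(Ls * (j - i) + α)))
    (ha1 : 0 ≤ a1) (hy : (c.W.E.n : ℝ) * (α * (1 + 2 * |Ls|)) ≤ (d.j - d.i - 2 * α) * c.W.E.n * a1) (hε : 2 * Λ + d.X.s ^ (-ε') ≤ c.W.E.s ^ (-c.ε)) :
    ∀ i j, sfNext d.W.G i j → ∀ (l : d.W.Lb i) (l' : d.W.Lb j) (x x' : (Y.M.sys c.p).X), d.W.th i l x ≠ 0 → d.W.th j l' x' ≠ 0 →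
      sfCn Y c.p (d.W.E.s ^ (-ε')) (d.W.T i l) (d.W.k i) (d.W.T j l') (d.W.k j) x x' →
      |(sfTestAt (d.W.T i l) (Y.tq c.p (d.W.ts i l))).be - (sfTestAt (d.W.T j l') (Y.tq c.p (d.W.ts j l'))).beAt (d.W.T i l)|
          + (2 : ℝ)⁻¹ ^ d.W.k i * |(Y.tq c.p (d.W.ts i l)).K - (Y.tq c.p (d.W.ts j l')).K| ≤ d.W.f j / d.W.r j ^ 2 * d.W.E.s ^ (-(Ls * (j - i) + a1)) ∧
      |(sfTestAt (d.W.T i l) (Y.tq c.p (d.W.ts i l))).Pd (sfRayAt (d.W.T i l) (Y.co c.p (d.W.T i l) x))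
          - (sfTestAt (d.W.T j l') (Y.tq c.p (d.W.ts j l'))).Pd (sfRayAt (d.W.T i l) (Y.co c.p (d.W.T i l) x))| ≤ d.W.f j / d.W.r j * d.W.E.s ^ (-(Ls * (j - i) + a1)) := by
  intro i j hij l l' x x' hx hx' hc
  have hnext : sfNext c.W.G (d.γ i) (d.γ j) := sf_ge_s_next d hd hij
  obtain ⟨hi, hj, hlt, -⟩ := hij
  have hi0 : 0 ≤ i := (sf_ge_s_rg d hd hi).1
  have hj1 : j ≤ 1 := (sf_ge_s_rg d hd hj).2
  have hj0 : 0 < j := lt_of_le_of_lt hi0 hlt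
  have hsub := sf_ge_s_gam_sub d i j
  have hpow := (sf_ge_s_pow d hs hd (Ls := Ls) (a1 := a1) (x := j - i) (y := 0) hdep (by linarith) (by linarith) ha1 (by rw [zero_add]; exact hy)).2
  rw [Real.rpow_zero, mul_one, ← hsub] at hpow
  have hfj : d.W.f j = c.W.f (d.γ j) := by
    show (if j ≤ 0 then d.f0 else c.W.f (d.γ j)) = _
    rw [if_neg (not_le.2 hj0)]
  obtain ⟨hrp, hfp⟩ := hs.frame.2.2 _ hnext.2.1
  have htsj : d.W.ts j l' = c.W.ts (d.γ j) l'.1 := sf_ge_s_ts_pos d hj0 l'.1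
  have hx'2 : c.W.th (d.γ j) l'.1 x' ≠ 0 := sf_ge_s_mm_th d hj0 l'.1 x' hx'
  have up1 : c.W.f (d.γ j) / c.W.r (d.γ j) ^ 2 * c.W.E.s ^ (-(Ls * (d.γ j - d.γ i) + α)) ≤ d.W.f j / d.W.r j ^ 2 * d.W.E.s ^ (-(Ls * (j - i) + a1)) := by
    rw [hfj]
    exact mul_le_mul_of_nonneg_left hpow (by positivity)
  have up2 : c.W.f (d.γ j) / c.W.r (d.γ j) * c.W.E.s ^ (-(Ls * (d.γ j - d.γ i) + α)) ≤ d.W.f j / d.W.r j * d.W.E.s ^ (-(Ls * (j - i) + a1)) := by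
    rw [hfj]
    exact mul_le_mul_of_nonneg_left hpow (by positivity)
  rcases hi0.lt_or_eq with hi0' | hi0'
  · have htsi : d.W.ts i l = c.W.ts (d.γ i) l.1 := sf_ge_s_ts_pos d hi0' l.1
    have hx2 : c.W.th (d.γ i) l.1 x ≠ 0 := sf_ge_s_mm_th d hi0' l.1 x hx
    have hc2 : sfCn Y c.p (c.W.E.s ^ (-c.ε)) (c.W.T (d.γ i) l.1) (c.W.k (d.γ i)) (c.W.T (d.γ j) l'.1) (c.W.k (d.γ j)) x x' :=
      sf_cn_mono hO c.p (Λ := d.X.s ^ (-ε')) (by linarith) _ _ _ _ _ _ hc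
    obtain ⟨m1, m2⟩ := hmm _ _ hnext l.1 l'.1 x x' hx2 hx'2 hc2
    rw [htsi, htsj]
    exact ⟨m1.trans up1, m2.trans up2⟩
  · subst hi0'
    have hΛ' : 0 ≤ d.X.s ^ (-ε') := (Real.rpow_pos_of_pos (gn_s_pos d.X) _).le
    obtain ⟨y, hy1, hy2, hy3⟩ := sf_ge_s_mm_ext d hO hp hd hΛ hΛ' hR l.1 x x' hx (c.W.T (d.γ j) l'.1) (c.W.k (d.γ j))
      (hs.k_mono _ hnext.1 _ hnext.2.1 hnext.2.2.1).1 hc
    have hc2 := sf_cn_mono hO c.p hε _ _ _ _ _ _ hy2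
    obtain ⟨m1, m2⟩ := hmm _ _ hnext l.1 l'.1 y x' hy1 hx'2 hc2
    have hts0 : Y.tq c.p (d.W.ts 0 l) = { Y.tq c.p (c.W.ts (d.γ 0) l.1) with f := d.f0 } := sf_ge_s_ts_root d hO le_rfl l.1
    rw [hts0, htsj]
    refine ⟨m1.trans up1, le_trans (le_of_eq ?_) (m2.trans up2)⟩
    have e := hy3 (c.W.T (d.γ 0) l.1)
    rw [sf_ge_s_mm_pd _ (c.W.T (d.γ 0) l.1) _ _ e.1 e.2, sf_ge_s_mm_pd _ (c.W.T (d.γ 0) l.1) _ _ e.1 e.2]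
    rfl

/-- (LEAF GE-S-PREP) **the group experiment is prepared at its root gate.**   PLAN: `d.W.ivs 0 = Finset.Ico (m0 * 2^(k - k)) ((m0 + 1) * 2^(k - k)) = {m0}` (`Nat.sub_self`, `pow_zero`, `mul_one`, `Nat.Ico_succ_singleton`);   `d.W.pos 0 = 0` (`if_pos le_rfl`), `List.take_zero`, `Xp.run`: `d.W.pre 0 m = d.psi`;
`d.W.gb 0 = d.b0`;  `mul_zero`, `neg_zero`, `Real.rpow_zero`, `mul_one`;  `1 ≤ s'^(-a1)` (`gn_s_anti` from `s'^0`, or `Real.one_le_rpow_of_pos_of_le_one_of_nonpos (gn_s_pos _) (gn_s_le_one _)`);  `Valid.budget`, `e_pos`.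
`Reg`: `Valid.reg Q hQ : ms .. ≤ ka wt Q`; `0 ≤ ms` (`gn_ms_nonneg`) and `ka > 0` give `0 ≤ wt Q` (as in `sf_ext_mono`), so `ka wt Q ≤ s'^(-a1) ka wt Q`. -/
theorem sf_ge_s_prep (hv : d.X.Valid) (pe de' a1 : ℝ) (ha1 : 0 ≤ a1) : d.W.Prep Y c.p pe de' a1 0 := by
  have hivs : d.W.ivs 0 = {d.m0} := by
    show Finset.Ico (d.m0 * 2 ^ (c.W.k (d.γ 0) - c.W.k (d.γ 0))) ((d.m0 + 1) * 2 ^ (c.W.k (d.γ 0) - c.W.k (d.γ 0))) = {d.m0}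
    rw [Nat.sub_self, pow_zero, mul_one, mul_one, Nat.Ico_succ_singleton]
  have hpos : d.W.pos 0 = 0 := by
    show (if (0 : ℝ) ≤ 0 then 0 else c.W.pos (d.γ 0) - c.W.pos (d.γ 0)) = 0
    rw [if_pos le_rfl]
  have hpre : ∀ m, d.W.pre 0 m = d.psi := by
    intro m
    unfold SfMD.pre
    rw [hpos, List.take_zero]
    rfl
  have hgb : d.W.gb 0 = d.b0 := by
    show (if (0 : ℝ) ≤ 0 then d.b0 else c.W.gb (d.γ 0)) = d.b0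
    rw [if_pos le_rfl]
  have hone : 1 ≤ d.X.s ^ (-a1) :=
    Real.one_le_rpow_of_pos_of_le_one_of_nonpos (gn_s_pos _) (gn_s_le_one _) (by linarith)
  have he := hv.e_pos
  have hka := hv.ka_pos
  unfold SfMD.Prep
  rw [hivs]
  refine ⟨?_, ?_⟩
  · rw [Finset.sum_singleton, hpre, mul_zero, neg_zero, Real.rpow_zero, mul_one]
    have hb : ‖d.psi‖ ^ 2 ≤ d.X.e := hv.budget
    show ‖d.psi‖ ^ 2 ≤ d.X.s ^ (-a1) * d.X.e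
    nlinarith
  · intro m hm
    rw [Finset.mem_singleton] at hm
    subst hm
    rw [hpre, hgb, mul_zero, Real.rpow_zero, mul_one]
    intro Q hQ
    have hr : (Y.M.sys c.p).ms (tmL (c.W.k (d.γ 0)) d.m0) (c.W.k (d.γ 0)) d.b0
        ((Y.M.sys c.p).cell Q (tmL (c.W.k (d.γ 0)) d.m0) (c.W.k (d.γ 0))) d.psi ≤ d.X.ka * (Y.M.sys c.p).wt Q := hv.reg Q hQ
    have h0 := gn_ms_nonneg (P := Y.M.sys c.p) (tmL (c.W.k (d.γ 0)) d.m0) (c.W.k (d.γ 0)) d.b0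
      ((Y.M.sys c.p).cell Q (tmL (c.W.k (d.γ 0)) d.m0) (c.W.k (d.γ 0))) d.psi
    have hw : 0 ≤ d.X.ka * (Y.M.sys c.p).wt Q := h0.trans hr
    show (Y.M.sys c.p).ms (tmL (c.W.k (d.γ 0)) d.m0) (c.W.k (d.γ 0)) d.b0
        ((Y.M.sys c.p).cell Q (tmL (c.W.k (d.γ 0)) d.m0) (c.W.k (d.γ 0))) d.psi ≤ d.X.s ^ (-a1) * d.X.ka * (Y.M.sys c.p).wt Q
    rw [mul_assoc]
    nlinarith

/-- the constants of `sf_ge_s_pre` -/
theorem sf_ge_s_pre_num {a1 Ls a h δ n ε S : ℝ} (ha1 : 0 < a1) (ha : a = min (1 / 8) (a1 / (8 + 8 * |Ls|))) (hh : 0 < h) (hδ : h ≤ δ) (hS : 0 ≤ S)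
    (hn1 : 4 / (h * a1) ≤ n) (hn2 : 3 * (S + 1) ≤ n) (hε1 : 1 / (S + 1) ≤ ε) (hε2 : ε ≤ a * δ) :
    0 < a ∧ 2 * (a * δ) ≤ a1 * (δ - 2 * (a * δ)) ∧ (2 + ε / 4 * n) + n * (a * δ * (1 + 2 * |Ls|)) ≤ (δ - 2 * (a * δ)) * n * a1 ∧ 2 + ε / 4 * n ≤ ε * n := by
  have hL : 0 ≤ |Ls| := abs_nonneg _
  have hden : 0 < 8 + 8 * |Ls| := by positivity
  have ha0 : 0 < a := by rw [ha]; exact lt_min (by norm_num) (div_pos ha1 hden)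
  have ha8 : a ≤ 1 / 8 := by rw [ha]; exact min_le_left _ _
  have haL : a * (8 + 8 * |Ls|) ≤ a1 := by
    have : a ≤ a1 / (8 + 8 * |Ls|) := by rw [ha]; exact min_le_right _ _
    rwa [le_div_iff₀ hden] at this
  have hδ0 : 0 < δ := lt_of_lt_of_le hh hδ
  have hn0 : 0 < n := lt_of_lt_of_le (by positivity) hn2
  have hn1' : 4 ≤ n * (h * a1) := by
    rwa [div_le_iff₀ (by positivity)] at hn1
  have hε0 : 0 < ε := lt_of_lt_of_le (by positivity) hε1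
  have hεn : 3 ≤ ε * n := by
    have h1 : 1 ≤ ε * (S + 1) := by rwa [div_le_iff₀ (by positivity)] at hε1
    nlinarith
  refine ⟨ha0, ?_, ?_, by nlinarith⟩
  · have : 2 * a ≤ a1 * (1 - 2 * a) := by nlinarith
    nlinarith
  · -- bracket
    have hb : a1 / 2 ≤ (1 - 2 * a) * a1 - a * (5 / 4 + 2 * |Ls|) := by nlinarith
    have h2 : 2 ≤ δ * n * (a1 / 2) := by nlinarith
    have h3 : δ * n * (a1 / 2) ≤ δ * n * ((1 - 2 * a) * a1 - a * (5 / 4 + 2 * |Ls|)) := mul_le_mul_of_nonneg_left hb (by positivity)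
    have h4 : ε / 4 * n ≤ a * δ / 4 * n := by
      apply mul_le_mul_of_nonneg_right _ hn0.le
      linarith
    nlinarith

/-- **(D) PRE** = `SfGePre`.      OWNER helper272 (glue).
CONSTANTS: `a = min (1/8) (a1 / (8 + 8 |Ls|))`;  `n0 ≥ 4 / (h a1)`, `n0 ≥ 3 (S + 1)`;  `α = a δ`, `Λ = s^(-(ε/4))`, `y = 2 + (ε/4) n`. -/
theorem sf_ge_s_pre (hO : SfCyOk Y) (π : SfPar) (Ls : ℝ) : SfGePre Y π Ls := by
  intro a1 ha1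
  have hden : 0 < 8 + 8 * |Ls| := by positivity
  refine ⟨min (1 / 8) (a1 / (8 + 8 * |Ls|)), lt_min (by norm_num) (div_pos ha1 hden), fun h hh S => ?_⟩
  refine ⟨max ⌈4 / (h * a1)⌉₊ (3 * (S + 1)), fun c C0 ϰ ε' d hδ hIn hn hd hR hv hq1 hq2 hε0 hε1 hcnt => ?_⟩
  set a := min (1 / 8) (a1 / (8 + 8 * |Ls|)) with ha
  have hn1 : 4 / (h * a1) ≤ (c.W.E.n : ℝ) := (Nat.le_ceil _).trans (by exact_mod_cast (le_max_left _ _).trans hn)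
  have hn2 : 3 * ((S : ℝ) + 1) ≤ (c.W.E.n : ℝ) := by exact_mod_cast (le_max_right _ _).trans hn
  obtain ⟨ha0, N1, N2, N3⟩ := sf_ge_s_pre_num ha1 ha hh hδ (Nat.cast_nonneg S) hn1 hn2 hIn.eps.1 hIn.eps.2
  have hs := hIn.ext.str
  have hp : Y.M.gd c.p := (hO.af _ _ _ _ _ hIn.ob.2.1).1
  have hΛ : 0 ≤ c.W.E.s ^ (-(c.ε / 4)) := (Real.rpow_pos_of_pos (gn_s_pos _) _).le
  have hΛe : c.W.E.s ^ (-(c.ε / 4)) = 2 ^ (c.ε / 4 * c.W.E.n) := by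
    rw [gn_s_rpow]; congr 1; ring
  have hε : 0 < c.ε := lt_of_lt_of_le (by positivity) hIn.eps.1
  have h4 : 4 * c.W.E.s ^ (-(c.ε / 4)) ≤ 2 ^ (2 + c.ε / 4 * c.W.E.n) := by
    rw [hΛe, gn_two_add]
    norm_num
  have hnn := (sf_ge_s_n d hs hd hIn.ext.depth).2
  have hΛ' : d.X.s ^ (-ε') ≤ 2 ^ (c.ε / 4 * c.W.E.n) := by
    rw [gn_s_rpow]
    apply gn_two_mono
    have h1 : (d.X.n : ℝ) ≤ c.W.E.n := by exact_mod_cast hnn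
    have h2 : (0 : ℝ) ≤ d.X.n := Nat.cast_nonneg _
    nlinarith
  have hεε : 2 * c.W.E.s ^ (-(c.ε / 4)) + d.X.s ^ (-ε') ≤ c.W.E.s ^ (-c.ε) := by
    have e : c.W.E.s ^ (-c.ε) = 2 ^ (c.ε * c.W.E.n) := by
      rw [gn_s_rpow]; congr 1; ring
    rw [e]
    have h5 : (2 : ℝ) ^ (2 + c.ε / 4 * c.W.E.n) ≤ 2 ^ (c.ε * c.W.E.n) := gn_two_mono N3
    have h6 : 0 < c.W.E.s ^ (-(c.ε / 4)) := Real.rpow_pos_of_pos (gn_s_pos _) _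
    rw [← hΛe] at hΛ'
    linarith
  have hy0 : (0 : ℝ) ≤ 2 + c.ε / 4 * c.W.E.n := by positivity
  have N2' : (c.W.E.n : ℝ) * (a * (d.j - d.i) * (1 + 2 * |Ls|)) ≤ (d.j - d.i - 2 * (a * (d.j - d.i))) * c.W.E.n * a1 := by linarith
  have hstr : d.W.Str (Y.tq c.p) := sf_ge_s_str d hO hs hd hΛ hR hv
    (fun i hi j hj hij ρ ρ' hc => ⟨(hIn.good.1.base i hi j hj hij ρ ρ' hc).1, (hIn.good.1.base i hi j hj hij ρ ρ' hc).2.1⟩) hIn.good.1.split ⟨hq1, hq2⟩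
  refine ⟨⟨hstr, sf_ge_s_depth d hs hd hIn.ext.depth ha1.le N1, hcnt, sf_ge_s_wr d hs hd hIn.ext.depth hΛ hR hIn.ext.wr ha1.le hy0 h4 N2,
    sf_ge_s_mm d hO hp hs hd hIn.ext.depth hΛ hR hIn.ext.mm ha1.le N2' hεε⟩, fun _ => sf_ge_s_prep d hv _ _ _ ha1.le⟩

end Claimed.Agent.R256
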