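import Claimed.Agent.R256.Soft.MGeIface
import Claimed.Agent.R256.Soft.MGeStrB
import Claimed.Agent.R256.Soft.MGeRoot
import Claimed.Agent.R256.Soft.MCoreTop
import Claimed.Agent.R256.Soft.MDocAf
import Claimed.Agent.R256.Soft.Mono

/-!
# Row 256 (S0496), unit SOFT, block M6 GE, TOP: `CalGe` from the exits of the sub-blocks      (helper217; prefix `sf_gt_`)

`sf_gt_top`: `SfGeRootX`, `SfGeSel`, `SfGeFrm`, `SfGeAf`, `SfGeDoc`, `SfGeCf` (`Soft/MGeIface.lean`) and `sf_core_y`   ⟹   `(sfCls Y π Ls).CalGe π Ls`.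
FLOW OF THE CONSTANTS      `t1 = min t' 1`;  CORE `(t1, h')` gives `(ac, ε0, μ0c)`;  DOC `(h', min ac t1, t1, min ε0 t1)` gives `(aD, a1, τ)`;  SEL `(min τ (Γ + 1/2), a1)` gives `aS`;  `a = min (min aS aD) (1/8)`.
`C1 C0 h S`:  FRM gives `(K, nF)`, `K1 = 2 |C1| + 1`;  SEL `(Cs, Cb)`;  ROOT `nR`;  `Nh = ⌈2/h⌉`;  AF `(Ca, A0a, n0a, μ0a)`;  DOC at `max Cs Ca` gives `S'`;  CORE at `S'` gives `(Ac, nc)`.
`σ'`:  `A' = max Ac ⌈1/σ'⌉`, `μ' = max μ0c (max (1/t1) (1/σ'))`;  DOC gives `(Ad, nd, μ0d)`;  SEL at `max Ad A0a` gives `(As, ns)`;  `σ` from `sf_gt_scale`.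
-/

set_option autoImplicit false

namespace Claimed.Agent.R256

open MeasureTheory Claimed.Agent.R255

section

variable {Y : SfCy} {π : SfPar} {Ls : ℝ}

/-- the standing hypotheses are monotone in the accuracy -/
theorem sf_gt_in_mono {c : SfCfg Y π.d} {S : ℕ} {C0 α α' : ℝ} (h0 : 0 < α) (hα : α ≤ α') (h : SfGeIn Y π Ls c S C0 α) : SfGeIn Y π Ls c S C0 α' :=
  ⟨h.ob, ⟨h.eps.1, h.eps.2.trans hα⟩, sf_good_mono _ _ _ _ _ _ h0 hα h.good, sf_ext_mono _ _ _ _ _ _ _ _ _ hα h.ext⟩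

/-- the cover: the combinatorial part of `GeHyp`, at any larger absolute accuracy -/
theorem sf_gt_cov {D : SfDoc} (hs : 0 < D.s ∧ D.s ≤ 1) {i j : ℝ} {Gk : Finset ℝ} {ι : Type} {Sb Ub : ι → D.Rw → Prop} {φ : ι → SfFrame} {a C1 α : ℝ}
    (hα : a * (j - i) ≤ α) (H : SfCls.GeHyp D i j Gk ι Sb Ub φ a C1) (hseg : ∀ g ∈ D.G, ∀ k ∈ Gk, k < g → g < j → g ∈ Gk) :
    SfGeCov D i j Gk ι Sb Ub α where
  gi := H.gi
  gj := H.gj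
  kept := H.kept
  seg := hseg
  ub_dep := H.ub_dep
  ub_disj := H.ub_disj
  ub_mass := (Real.rpow_le_rpow_of_exponent_ge hs.1 hs.2 hα).trans H.ub_mass
  sb_dep := H.sb_dep
  sb_time := fun b u u' hu hu' => (H.sb_time b u hu).trans (H.sb_time b u' hu').symm
  sb_pred := H.sb_pred
  sb_ovl := fun u => (H.sb_ovl u).trans (Real.rpow_le_rpow_of_exponent_ge hs.1 hs.2 (by linarith))
  lb_ovl := fun k hk lam => (H.lb_ovl k hk lam).trans (Real.rpow_le_rpow_of_exponent_ge hs.1 hs.2 (by linarith))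

/-- rows of one gate with the same time lie in the same interval -/
theorem sf_gt_im {de : ℝ} (c : SfCfg Y de) (hs : c.W.Str (Y.tq c.p)) {i : ℝ} (hi : i ∈ c.W.G) (u u' : c.D.Rw) (hu : u.1 = i) (hu' : u'.1 = i)
    (hT : (c.D.lab u.1 u.2).T = (c.D.lab u'.1 u'.2).T) : c.im u.1 u.2 = c.im u'.1 u'.2 := by
  obtain ⟨g, ρ⟩ := u
  obtain ⟨g', ρ'⟩ := u'
  simp only at hu hu' hT ⊢
  subst hu
  subst hu'
  have h1 := sf_core_own_T c hs g' hi ρ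
  have h2 := sf_core_own_T c hs g' hi ρ'
  have hl : 0 < c.D.len g' := by
    rw [c.sh.hlen g' hi]
    positivity
  have e : c.D.T g' ρ = c.D.T g' ρ' := hT
  rw [h1, h2] at e
  have e' : (c.im g' ρ : ℝ) = c.im g' ρ' := by
    have : (c.im g' ρ : ℝ) * c.D.len g' = (c.im g' ρ' : ℝ) * c.D.len g' := by linarith
    exact mul_right_cancel₀ hl.ne' this
  exact_mod_cast e'

/-- the conclusions of the selection are monotone in the package, the tail order, the loss -/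
theorem sf_gt_sel_mono (hS : Y.M.AdmScale) {c : SfCfg Y π.d} {d : SfGeD c} {C C' A A' : ℕ} {τ τ' a1 : ℝ} (hC : C ≤ C') (hA : A' ≤ A) (hτ : τ ≤ τ')
    (h : SfGeSelC Y π d C A τ a1) : SfGeSelC Y π d C' A' τ' a1 where
  cls := gn_cls_mono _ hS hC (gn_cls_anti _ hS hA h.cls)
  val := (gn_two_mono (mul_le_mul_of_nonneg_right (by linarith) (Nat.cast_nonneg _))).trans h.val
  cnt := h.cnt
  ebd := h.ebd
  eraw := h.eraw

/-- small scale: large tail order, large depth, fine atoms -/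
theorem sf_gt_scale {de : ℝ} (A0 n0 : ℕ) (μ0 : ℝ) : ∃ σ : ℝ, 0 < σ ∧ ∀ c : SfCfg Y de, max c.D.s (max (1 / ((c.A : ℝ) + 1)) (1 / (c.μ + 1))) < σ → 0 < c.μ →
    A0 ≤ c.A ∧ n0 ≤ c.W.E.n ∧ μ0 ≤ c.μ := by
  refine ⟨min ((2 : ℝ)⁻¹ ^ n0) (min (1 / ((A0 : ℝ) + 1)) (1 / (|μ0| + 1))), lt_min (by positivity) (lt_min (by positivity) (by positivity)), fun c hsc hμ => ?_⟩
  have h1 : c.D.s < (2 : ℝ)⁻¹ ^ n0 := (le_max_left _ _).trans_lt (hsc.trans_le (min_le_left _ _))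
  have h2 : 1 / ((c.A : ℝ) + 1) < 1 / ((A0 : ℝ) + 1) :=
    ((le_max_left _ _).trans (le_max_right _ _)).trans_lt (hsc.trans_le ((min_le_right _ _).trans (min_le_left _ _)))
  have h3 : 1 / (c.μ + 1) < 1 / (|μ0| + 1) :=
    ((le_max_right _ _).trans (le_max_right _ _)).trans_lt (hsc.trans_le ((min_le_right _ _).trans (min_le_right _ _)))
  refine ⟨?_, ?_, ?_⟩
  · have := (one_div_lt_one_div (by positivity) (by positivity)).1 h2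
    have h : (A0 : ℝ) < c.A := by linarith
    exact_mod_cast h.le
  · rw [c.sh.hs] at h1
    unfold Xp.s at h1
    exact ((pow_lt_pow_iff_right_of_lt_one₀ (by norm_num) (by norm_num)).1 h1).le
  · have := (one_div_lt_one_div (by linarith) (by positivity)).1 h3
    have := le_abs_self μ0
    linarith

/-- the depth of the piece is comparable with the old depth -/
theorem sf_gt_np {n n' : ℕ} {δ α h : ℝ} (hh : 0 < h) (hδ : h ≤ δ) (hα : α ≤ δ / 8) (H : |(n' : ℝ) - δ * n| ≤ 2 * α * n) :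
    n ≤ ⌈2 / h⌉₊ * n' ∧ ∀ M : ℕ, ⌈2 / h⌉₊ * M ≤ n → M ≤ n' := by
  have hn : (0 : ℝ) ≤ n := Nat.cast_nonneg _
  have h1 : h / 2 * n ≤ n' := by
    have := (abs_le.1 H).1
    have e1 : 2 * α * n ≤ δ / 4 * n := mul_le_mul_of_nonneg_right (by linarith) hn
    have e2 : h / 2 * n ≤ δ / 2 * n := mul_le_mul_of_nonneg_right (by linarith) hn
    have e3 : 0 ≤ δ / 4 * n := mul_nonneg (by linarith) hn
    linarith
  have hN : 2 / h ≤ (⌈2 / h⌉₊ : ℝ) := Nat.le_ceil _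
  have hN' : 1 ≤ h / 2 * (⌈2 / h⌉₊ : ℝ) := by
    have : h / 2 * (2 / h) ≤ h / 2 * (⌈2 / h⌉₊ : ℝ) := mul_le_mul_of_nonneg_left hN (by linarith)
    have e : h / 2 * (2 / h) = 1 := by field_simp
    linarith
  constructor
  · have : (n : ℝ) ≤ (⌈2 / h⌉₊ : ℝ) * n' := by
      have e1 : (⌈2 / h⌉₊ : ℝ) * (h / 2 * n) ≤ (⌈2 / h⌉₊ : ℝ) * n' := mul_le_mul_of_nonneg_left h1 (Nat.cast_nonneg _)
      have e2 : 1 * (n : ℝ) ≤ h / 2 * (⌈2 / h⌉₊ : ℝ) * n := mul_le_mul_of_nonneg_right hN' hn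
      linarith
    exact_mod_cast this
  · intro M hM
    have hM' : (⌈2 / h⌉₊ : ℝ) * M ≤ n := by exact_mod_cast hM
    have : (M : ℝ) ≤ n' := by
      have e1 : h / 2 * ((⌈2 / h⌉₊ : ℝ) * M) ≤ h / 2 * n := mul_le_mul_of_nonneg_left hM' (by linarith)
      have e2 : 1 * (M : ℝ) ≤ h / 2 * (⌈2 / h⌉₊ : ℝ) * M := mul_le_mul_of_nonneg_right hN' (Nat.cast_nonneg _)
      linarith
    exact_mod_cast this

/-- the enlargement exponent of the root gate may be increased      (helper237) -/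
theorem sf_gt_sub_mono {D' D : SfDoc} {i j : ℝ} {φ : SfFrame} {Gk : Finset ℝ} {t t1 : ℝ} {e : D'.Rw → D.Rw} (hs : 0 < D'.s ∧ D'.s ≤ 1) (htt : t ≤ t1)
    (hw : ∀ k' ∈ D'.G, 0 ≤ D.f (i + k' * (j - i)) / D.f j) (h : D'.Sub D i j φ Gk t e) : D'.Sub D i j φ Gk t1 e := by
  have hp : D'.s ^ (-t) ≤ D'.s ^ (-t1) := Real.rpow_le_rpow_of_exponent_ge hs.1 hs.2 (by linarith)
  exact { h with hf := fun k' hk' => ⟨(h.hf k' hk').1, (h.hf k' hk').2.1.trans (mul_le_mul_of_nonneg_right hp (hw k' hk')), (h.hf k' hk').2.2⟩ }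

/-- the Planck parameter of the piece      (helper237) -/
theorem sf_gt_hp {de : ℝ} (c : SfCfg Y de) {i j : ℝ} (hi : i ∈ c.W.G) (hj : j ∈ c.W.G) (hk : c.W.E.k0 ≤ c.W.k i) (hq : 0 < c.W.Q0.f) (hfj : 0 < c.W.f j) :
    Y.H c.p * 2 ^ c.W.k i / c.W.f j ^ 2 = c.hp / (c.D.len i * c.D.f j ^ 2) := by
  rw [c.sh.hlen i hi, c.sh.hf j hj]
  unfold SfCfg.hp
  have e : (2 : ℝ) ^ c.W.k i = 2 ^ c.W.E.k0 * 2 ^ (c.W.k i - c.W.E.k0) := by rw [← pow_add, Nat.add_sub_cancel' hk]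
  rw [e, inv_pow]
  have h2 : (2 : ℝ) ^ (c.W.k i - c.W.E.k0) ≠ 0 := by positivity
  field_simp

/-- `1/σ ≤ x`  ⟹  `1/(x+1) < σ` -/
theorem sf_gt_inv {x σ : ℝ} (hσ : 0 < σ) (hx : 1 / σ ≤ x) : 1 / (x + 1) < σ := by
  have hx0 : 0 < x := lt_of_lt_of_le (by positivity) hx
  rw [div_lt_iff₀ (by linarith)]
  have := (div_le_iff₀ hσ).1 hx
  nlinarith

/-- the structural hypotheses on the data of a bin with a marked row -/
theorem sf_gt_ok {c : SfCfg Y π.d} {i j : ℝ} {Gk : Finset ℝ} {ι : Type} {Sb Ub : ι → c.D.Rw → Prop} {α : ℝ} (hij : i < j) (H : SfGeCov c.D i j Gk ι Sb Ub α)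
    (m0 : ι → ℕ) (hm : ∀ b u, Sb b u → c.im u.1 u.2 = m0 b) (b : ι) (hb : ∃ v, sfGeU c.D i Ub b v)
    (Nr : ∀ g, c.D.Row g → Set (Y.M.sys c.p).X) (f0 : ℝ) (Q0 : CyT) (e ka : ℝ) :
    (SfGeD.mk i j Gk (sfGeU c.D i Ub b) (fun _ => True) (m0 b) Nr f0 Q0 e ka : SfGeD c).Ok where
  hij := hij
  gi := c.sh.hG ▸ H.gi
  gj := c.sh.hG ▸ H.gj
  kept := ⟨H.kept.1, fun k hk => ⟨c.sh.hG ▸ (H.kept.2 k hk).1, (H.kept.2 k hk).2⟩⟩
  seg := fun g hg => H.seg g (c.sh.hG.symm ▸ hg)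
  u_dep := fun v hv => H.ub_dep b v hv.1
  u_pred := fun v hv => by
    obtain ⟨u, hu, hc⟩ := hv.2
    exact ⟨u, hu, hc, hm b u (H.sb_pred b u v hv.1 hu hc)⟩
  u_ne := hb
  u_s0 := fun v hv => by
    obtain ⟨u, hu, hc⟩ := hv.2
    exact ⟨u, hu, hc, hm b u (H.sb_pred b u v hv.1 hu hc), trivial⟩

/-- the scale of the documented piece -/
theorem sf_gt_s {c : SfCfg Y π.d} {d : SfGeD c} {c' : SfCfg Y π.d} (hn : c'.W.E.n = d.X.n) : c'.D.s = d.X.s ∧ c'.D.s = (2 : ℝ)⁻¹ ^ d.X.n := by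
  rw [c'.sh.hs]
  unfold Xp.s
  rw [hn]
  exact ⟨rfl, rfl⟩

/-- gates, root rows, end rows of the documented piece -/
theorem sf_gt_rows {c : SfCfg Y π.d} (d : SfGeD c) (hd : d.Ok) {φ : SfFrame} {c' : SfCfg Y π.d} {e : c'.D.Rw → c.D.Rw} {S' A' : ℕ} {aF ε1 μ' t1 : ℝ}
    (h : SfGeDocC Y π Ls d φ c' e S' A' aF ε1 μ' t1) :
    (∀ k' ∈ c'.D.G, d.i + k' * (d.j - d.i) ∈ d.Gk) ∧ (∀ u, u.1 = 0 → (e u).1 = d.i ∧ ∃ v, d.U v ∧ c.D.Conn (e u).1 v.1 (e u).2 v.2) ∧ (∀ u, u.1 = 1 → d.U (e u)) := by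
  refine ⟨fun k' hk' => ?_, fun u hu => ?_, fun u hu => ?_⟩
  · rw [h.hG] at hk'
    exact (sf_ge_mem_G d hd.hij k').1 hk'
  · have e1 : (e u).1 = d.i := by rw [h.sub.dep u, hu]; ring
    refine ⟨e1, ?_⟩
    rcases (h.chn u (Or.inr hu)).1 with hU | ⟨v, hv, -, hc⟩
    · have := hd.u_dep _ hU
      have := hd.hij
      linarith
    · exact ⟨v, hv, hc⟩
  · have e1 : (e u).1 = d.j := by rw [h.sub.dep u, hu]; ring
    have h1 : (1 : ℝ) ∈ c'.D.G := by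
      rw [h.hG]
      refine (sf_ge_mem_G d hd.hij 1).2 ?_
      have : d.γ 1 = d.j := by unfold SfGeD.γ; ring
      rw [this]
      exact hd.kept.1
    rcases (h.chn u (Or.inl (hu ▸ h1))).1 with hU | ⟨v, hv, hlt, -⟩
    · exact hU
    · have := hd.u_dep _ hv
      linarith

/-- the labels of the documented piece are polynomially bounded at the scale of the piece -/
theorem sf_gt_lab {c : SfCfg Y π.d} (d : SfGeD c) (hd : d.Ok) {φ : SfFrame} {c' : SfCfg Y π.d} {e : c'.D.Rw → c.D.Rw} {S' A' : ℕ} {aF ε1 μ' t1 K1 Kr K : ℝ}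
    (h : SfGeDocC Y π Ls d φ c' e S' A' aF ε1 μ' t1) (hbd : SfGeBd Y π d φ K1 Kr K) : ∀ i' ∈ c'.D.G, ∀ ρ, (c'.D.lab i' ρ).size ≤ c'.D.s ^ (-K1) := by
  intro i' hi' ρ
  rw [(sf_gt_s h.hn).1, h.sub.hlab ⟨i', ρ⟩ hi']
  have h1 : (e ⟨i', ρ⟩).1 ∈ d.Gk := by
    rw [h.sub.dep ⟨i', ρ⟩]
    exact (sf_gt_rows d hd h).1 i' hi'
  exact hbd.lab (e ⟨i', ρ⟩) (h.chn ⟨i', ρ⟩ (Or.inl hi')) h1

/-- the gaps of the documented piece -/
theorem sf_gt_gap {c : SfCfg Y π.d} (d : SfGeD c) (hd : d.Ok) {φ : SfFrame} {c' : SfCfg Y π.d} {e : c'.D.Rw → c.D.Rw} {S' A' : ℕ} {aF ε1 μ' t1 h' : ℝ}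
    (h : SfGeDocC Y π Ls d φ c' e S' A' aF ε1 μ' t1) (hgap : ∀ k ∈ d.Gk, ∀ l ∈ d.Gk, k < l → h' * (d.j - d.i) ≤ l - k) : c'.D.GapK h' := by
  intro i' hi' j' hj' hij'
  have hδ : 0 < d.j - d.i := sub_pos.2 hd.hij
  have h1 := (sf_gt_rows d hd h).1 i' hi'
  have h2 := (sf_gt_rows d hd h).1 j' hj'
  have h3 := hgap _ h1 _ h2 (by have := mul_lt_mul_of_pos_right hij' hδ; linarith)
  have h4 : h' * (d.j - d.i) ≤ (j' - i') * (d.j - d.i) := by linarith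
  exact le_of_mul_le_mul_right h4 hδ

/-- **the end of the glue**: CORE and CF on the documented piece, all conclusions of `CalGe` in terms of the data `d` -/
theorem sf_gt_fin {cK : ℝ → ℝ} {h' t' t1 ac ε0 μ0c aF ε1 μ' σ' K1 Kr K : ℝ} {S' Ac nc A' : ℕ}
    (hCf : ∀ (D : SfDoc) (S' t' K1 : ℝ), 0 < t' → t' ≤ 1 → 0 ≤ K1 → D.s ≤ 1 / 32 → D.Good π Ls S' t' →
      (∀ i ∈ D.G, ∀ ρ, (D.lab i ρ).size ≤ D.s ^ (-K1)) → D.ek ≤ D.s ^ (-(4 * K1 + 5)) → D.Good π Ls (cK K1) t')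
    (hCore : ∀ c : SfCfg Y π.d, c.ob S' → 1 / ((S' : ℝ) + 1) ≤ c.ε → Ac ≤ c.A → nc ≤ c.W.E.n →
      SfMD.Ext Y c.p c.W π.p π.d Ls c.ε ac → c.ε ≤ ε0 → μ0c ≤ c.μ → c.D.GapK h' → c.D.Good π Ls S' t1)
    (ht1 : 0 < t1) (ht11 : t1 ≤ 1) (ht1t : t1 ≤ t') (haF : aF ≤ ac) (haFt : aF ≤ t1) (hε10 : ε1 ≤ ε0) (hε1t : ε1 ≤ t1) (hAc : Ac ≤ A') (hμc : μ0c ≤ μ')
    (hμt : 1 / t1 ≤ μ') (hσ' : 0 < σ') (hσA : 1 / σ' ≤ (A' : ℝ)) (hσμ : 1 / σ' ≤ μ') (hK1 : 0 ≤ K1)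
    {c : SfCfg Y π.d} (d : SfGeD c) (hstr : c.W.Str (Y.tq c.p)) (hd : d.Ok) (hgap : ∀ k ∈ d.Gk, ∀ l ∈ d.Gk, k < l → h' * (d.j - d.i) ≤ l - k)
    (hnc : nc ≤ d.X.n) (hn5 : 5 ≤ d.X.n) (hnσ : (2 : ℝ)⁻¹ ^ d.X.n < σ') (hka : 0 < d.ka)
    {φ : SfFrame} (hfr : SfGeFr Y π d φ) (hbd : SfGeBd Y π d φ K1 Kr K) (hek : d.e ≤ d.X.s ^ (-(4 * K1 + 5)) * (d.ka * cyWt Y.η d.Q0))
    {c' : SfCfg Y π.d} {e : c'.D.Rw → c.D.Rw} (h : SfGeDocC Y π Ls d φ c' e S' A' aF ε1 μ' t1) :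
    (c'.ob S' ∧ 1 / ((S' : ℝ) + 1) ≤ c'.ε) ∧ max c'.D.s (max (1 / ((c'.A : ℝ) + 1)) (1 / (c'.μ + 1))) < σ' ∧
      (c'.D.Good π Ls (cK K1) t' ∧ (SfMD.Ext Y c'.p c'.W π.p π.d Ls c'.ε t' ∧ 0 < c'.ε ∧ c'.ε ≤ t' ∧ 1 / t' ≤ c'.μ)) ∧
      c'.D.Sub c.D d.i d.j φ d.Gk t' e ∧ c'.hp = c.hp / (c.D.len d.i * c.D.f d.j ^ 2) := by
  obtain ⟨hs1, hs2⟩ := sf_gt_s h.hn
  have hs0 : 0 < c'.D.s ∧ c'.D.s ≤ 1 := by
    rw [c'.sh.hs]
    exact ⟨gn_s_pos _, gn_s_le_one _⟩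
  have hfj : 0 < c.W.f d.j := (hstr.frame.2.2 d.j hd.gj).2
  have hrj : 0 < c.W.r d.j := (hstr.frame.2.2 d.j hd.gj).1
  have hQf : 0 < c.W.Q0.f := by
    rw [hstr.frame.2.1]
    exact (hstr.frame.2.2 1 hstr.gate.1).2
  have hε0 : 0 < c'.ε := lt_of_lt_of_le (by positivity) h.eps.1
  have hgood : c'.D.Good π Ls S' t1 :=
    hCore c' h.ob h.eps.1 (h.hA ▸ hAc) (h.hn ▸ hnc) (sf_ext_mono _ _ _ _ _ _ _ _ _ haF h.ext) (h.eps.2.trans hε10) (h.hμ ▸ hμc) (sf_gt_gap d hd h hgap)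
  have h32 : c'.D.s ≤ 1 / 32 := by
    rw [hs2]
    calc (2 : ℝ)⁻¹ ^ d.X.n ≤ (2 : ℝ)⁻¹ ^ 5 := pow_le_pow_of_le_one (by norm_num) (by norm_num) hn5
      _ = 1 / 32 := by norm_num
  have hw : 0 ≤ d.ka * cyWt Y.η d.Q0 := by
    unfold cyWt
    rw [hfr.r, hfr.f]
    positivity
  have hek' : c'.D.ek ≤ c'.D.s ^ (-(4 * K1 + 5)) := by
    rw [h.hek, hs1]
    exact div_le_of_le_mul₀ hw (Real.rpow_nonneg (gn_s_pos _).le _) hek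
  have hgood' := hCf c'.D S' t1 K1 ht1 ht11 hK1 h32 hgood (sf_gt_lab d hd h hbd) hek'
  refine ⟨⟨h.ob, h.eps.1⟩, ?_, ⟨sf_good_mono _ _ _ _ _ _ ht1 ht1t hgood', sf_ext_mono _ _ _ _ _ _ _ _ _ (haFt.trans ht1t) h.ext, hε0,
    h.eps.2.trans (hε1t.trans ht1t), ?_⟩, ?_, ?_⟩
  · refine max_lt (hs2 ▸ hnσ) (max_lt ?_ ?_)
    · rw [h.hA]
      exact sf_gt_inv hσ' hσA
    · rw [h.hμ]
      exact sf_gt_inv hσ' hσμ
  · rw [h.hμ]
    exact (one_div_le_one_div_of_le ht1 ht1t).trans hμt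
  · refine sf_gt_sub_mono hs0 ht1t (fun k' hk' => ?_) h.sub
    have hg := (hd.kept.2 _ ((sf_gt_rows d hd h).1 k' hk')).1
    rw [c.sh.hf _ hg, c.sh.hf _ hd.gj]
    have := (hstr.frame.2.2 _ hg).2
    positivity
  · rw [h.hp, hfr.f]
    exact sf_gt_hp c hd.gi hd.gj (hstr.k_rg d.i hd.gi).1 hQf hfj

end

/-- **TOP of GE**: the class of shadows has group extraction, from the exits of the sub-blocks -/
theorem sf_gt_top (Y : SfCy) (hY : (∃ η, Y = sfCl η) ∨ ∃ η, Y = sfHy η) (π : SfPar) (Ls : ℝ) (hE : SfCoreHyp Y π) (H : CyHyp Y)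
    (hRoot : SfGeRootX Y π Ls) (hSel : SfGeSel Y π Ls) (hFrm : SfGeFrm Y π Ls) (hAf : SfGeAf Y π Ls) (hDoc : SfGeDoc Y π Ls) (hCf : SfGeCf π Ls) :
    (sfCls Y π Ls).CalGe π Ls := by
  obtain ⟨cK, hCf⟩ := hCf
  refine ⟨fun C1 => cK (2 * |C1| + 1), fun h' t' hh' ht' => ?_⟩
  have ht1 : 0 < min t' 1 := lt_min ht' one_pos
  obtain ⟨ac, ε0, μ0c, hac, hε0, Hc⟩ := sf_core_y hY π Ls hE (min t' 1) h' ht1 hh'
  obtain ⟨aD, a1, τ, haD, ha1, hτ, Hd⟩ := hDoc h' (min ac (min t' 1)) (min t' 1) (min ε0 (min t' 1)) hh' (lt_min hac ht1) ht1 (lt_min hε0 ht1)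
  have hΓ : 0 < π.Γ + 1 / 2 := by
    have h1 := hE.par.1.1.1
    have h2 := hE.par.1.2.1
    linarith
  obtain ⟨aS, haS, Hs⟩ := hSel (min τ (π.Γ + 1 / 2)) a1 (lt_min hτ hΓ) ha1
  have ha0 : 0 < min (min aS aD) (1 / 8) := lt_min (lt_min haS haD) (by norm_num)
  refine ⟨min (min aS aD) (1 / 8), ha0, fun C1 C0 h hh (S : ℕ) => ?_⟩
  obtain ⟨K, nF, hK, HF⟩ := hFrm C1 C0 h hh S
  obtain ⟨Cs, Cb, Hs⟩ := Hs C0 h hh S
  obtain ⟨nR, HR⟩ := hRoot S Cb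
  have hK1 : (0 : ℝ) ≤ 2 * |C1| + 1 := by positivity
  obtain ⟨Ca, A0a, n0a, μ0a, HA⟩ := hAf S Cs ⌈2 / h⌉₊ (2 * |C1| + 1) K hK1 hK
  obtain ⟨S', Hd⟩ := Hd h (2 * |C1| + 1) K hh hK1 S (max Cs Ca) hK
  obtain ⟨Ac, nc, Hc⟩ := Hc S'
  refine ⟨S', fun σ' hσ' => ?_⟩
  obtain ⟨Ad, nd, μ0d, Hd⟩ := Hd (max Ac ⌈1 / σ'⌉₊) (max μ0c (max (1 / min t' 1) (1 / σ')))
  obtain ⟨As, ns, Hs⟩ := Hs (max Ad A0a)
  obtain ⟨nσ, hnσ⟩ := exists_pow_lt_of_lt_one hσ' (by norm_num : (2 : ℝ)⁻¹ < 1)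
  obtain ⟨σ, hσ, Hσ⟩ := sf_gt_scale (Y := Y) (de := π.d) As (max (max nF nR) (max (max ns nd) (⌈2 / h⌉₊ * (max (max n0a nc) (max nσ 5))))) (max μ0a μ0d)
  refine ⟨σ, hσ, ?_⟩
  intro (c : SfCfg Y π.d) hob hsc i j hij hgd Gk ι _ (Sb : ι → c.D.Rw → Prop) (Ub : ι → c.D.Rw → Prop) φ hyp hgap hgap0 hseg
  change c.ob S ∧ 1 / ((S : ℝ) + 1) ≤ c.ε at hob
  change max c.D.s (max (1 / ((c.A : ℝ) + 1)) (1 / (c.μ + 1))) < σ at hsc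
  change c.D.Good π Ls C0 _ ∧ (SfMD.Ext Y c.p c.W π.p π.d Ls c.ε _ ∧ 0 < c.ε ∧ c.ε ≤ _ ∧ 1 / _ ≤ c.μ) at hgd
  change SfCls.GeHyp c.D i j Gk ι Sb Ub φ _ C1 at hyp
  change ∀ g ∈ c.D.G, _ at hseg
  obtain ⟨hgood, hext, hε, hεa, hμa⟩ := hgd
  have hδ : 0 < j - i := hh.trans_le hij
  have hlt : i < j := by linarith
  have hα0 : 0 < min (min aS aD) (1 / 8) * (j - i) := mul_pos ha0 hδ
  have hμ0 : 0 < c.μ := lt_of_lt_of_le (by positivity) hμa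
  obtain ⟨hA, hn, hμ⟩ := Hσ c hsc hμ0
  have hstr := hext.str
  have hiG : i ∈ c.W.G := c.sh.hG ▸ hyp.gi
  have hjG : j ∈ c.W.G := c.sh.hG ▸ hyp.gj
  have hα8 : min (min aS aD) (1 / 8) * (j - i) ≤ (j - i) / 8 := by
    have := mul_le_mul_of_nonneg_right (min_le_right (min aS aD) (1 / 8)) hδ.le
    linarith
  have hα1 : min (min aS aD) (1 / 8) * (j - i) ≤ 1 := by
    have h1 := (hstr.gate.2 i hiG).1
    have h2 := (hstr.gate.2 j hjG).2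
    linarith
  have hIn : SfGeIn Y π Ls c S C0 (min (min aS aD) (1 / 8) * (j - i)) := ⟨hob.1, ⟨hob.2, hεa⟩, hgood, hext⟩
  have hαS : min (min aS aD) (1 / 8) * (j - i) ≤ aS * (j - i) := mul_le_mul_of_nonneg_right ((min_le_left _ _).trans (min_le_left _ _)) hδ.le
  have hαD : min (min aS aD) (1 / 8) * (j - i) ≤ aD * (j - i) := mul_le_mul_of_nonneg_right ((min_le_left _ _).trans (min_le_right _ _)) hδ.le
  have hInS : SfGeIn Y π Ls c S C0 (aS * (j - i)) := sf_gt_in_mono hα0 hαS hIn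
  have hInD : SfGeIn Y π Ls c S C0 (aD * (j - i)) := sf_gt_in_mono hα0 hαD hIn
  have hs01 : 0 < c.D.s ∧ c.D.s ≤ 1 := by
    rw [c.sh.hs]
    exact ⟨gn_s_pos _, gn_s_le_one _⟩
  have hCov : SfGeCov c.D i j Gk ι Sb Ub (aS * (j - i)) := sf_gt_cov hs01 hαS hyp hseg
  have hnF : nF ≤ c.W.E.n := ((le_max_left _ _).trans (le_max_left _ _)).trans hn
  have hnR : nR ≤ c.W.E.n := ((le_max_right _ _).trans (le_max_left _ _)).trans hn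
  have hns : ns ≤ c.W.E.n := ((le_max_left _ _).trans ((le_max_left _ _).trans (le_max_right _ _))).trans hn
  have hnd : nd ≤ c.W.E.n := ((le_max_right _ _).trans ((le_max_left _ _).trans (le_max_right _ _))).trans hn
  have hnM : ⌈2 / h⌉₊ * (max (max n0a nc) (max nσ 5)) ≤ c.W.E.n := ((le_max_right _ _).trans (le_max_right _ _)).trans hn
  -- the root intervals of the bins
  obtain ⟨m0, hm0⟩ : ∃ m0 : ι → ℕ, ∀ b u, Sb b u → c.im u.1 u.2 = m0 b := by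
    classical
    refine ⟨fun b => if hb : ∃ u, Sb b u then c.im hb.choose.1 hb.choose.2 else 0, fun b u hu => ?_⟩
    have hb : ∃ u, Sb b u := ⟨u, hu⟩
    beta_reduce
    rw [dif_pos hb]
    exact sf_gt_im c hstr hiG u hb.choose (hyp.sb_dep b u hu) (hyp.sb_dep b _ hb.choose_spec)
      ((hyp.sb_time b u hu).trans (hyp.sb_time b _ hb.choose_spec).symm)
  have hOk := fun b hb Nr f0 Q0 e ka => sf_gt_ok (π := π) hlt hCov m0 hm0 b hb Nr f0 Q0 e ka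
  -- ROOT
  have hR : ∀ b, ∃ Nr : ∀ g, c.D.Row g → Set (Y.M.sys c.p).X, (∃ v, sfGeU c.D i Ub b v) → ∀ Q0 e ka,
      (SfGeD.mk i j Gk (sfGeU c.D i Ub b) (fun _ => True) (m0 b) Nr (4 * c.W.E.s ^ (-(c.ε / 4)) * c.W.f i) Q0 e ka : SfGeD c).Root
        (c.W.E.s ^ (-(c.ε / 4))) (c.W.E.s ^ (Cb : ℝ)) := by
    intro b
    by_cases hb : ∃ v, sfGeU c.D i Ub b v
    · obtain ⟨Nr, hNr⟩ := HR c C0 _ hIn hnR i j Gk (sfGeU c.D i Ub b) (fun _ => True) (m0 b) (hOk b hb)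
      exact ⟨Nr, fun _ => hNr⟩
    · exact ⟨fun _ _ => ∅, fun h => absurd h hb⟩
  choose Nr hNr using hR
  -- FRAME
  have hF : ∀ b, ∃ Q0 : CyT, (∃ v, sfGeU c.D i Ub b v) → ∀ Nr f0 e ka,
      SfGeFr Y π (SfGeD.mk i j Gk (sfGeU c.D i Ub b) (fun _ => True) (m0 b) Nr f0 Q0 e ka : SfGeD c) (φ b) ∧
      SfGeBd Y π (SfGeD.mk i j Gk (sfGeU c.D i Ub b) (fun _ => True) (m0 b) Nr f0 Q0 e ka : SfGeD c) (φ b) (2 * |C1| + 1) ((S : ℝ) + 1) K := by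
    intro b
    by_cases hb : ∃ v, sfGeU c.D i Ub b v
    · obtain ⟨Q0, hQ0⟩ := HF c _ hIn hnF i j Gk (sfGeU c.D i Ub b) (fun _ => True) (m0 b) (φ b) hij hα8 (hOk b hb) (hyp.fr b).1 (hyp.fr b).2.1 (hyp.fr b).2.2
        (fun u v hv hu hc _ => ⟨hyp.sb_time b u (hyp.sb_pred b u v hv.1 hu hc), hyp.fr_ray b u (hyp.sb_pred b u v hv.1 hu hc)⟩)
        (fun u v hv huv hu => hyp.fr_lab b u v hv.1 hu huv)
      exact ⟨Q0, fun _ => hQ0⟩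
    · exact ⟨c.W.Q0, fun h => absurd h hb⟩
  choose Q0 hQ0 using hF
  -- SEL
  obtain ⟨b, e, ka, hb, hsel⟩ := Hs c i j hij hInS hA hns Gk ι Sb Ub hCov m0 Nr (4 * c.W.E.s ^ (-(c.ε / 4)) * c.W.f i) Q0 hm0
    (fun b hb e ka => hNr b hb (Q0 b) e ka)
  have hd := hOk b hb (Nr b) (4 * c.W.E.s ^ (-(c.ε / 4)) * c.W.f i) (Q0 b) e ka
  obtain ⟨hfr, hbd⟩ := hQ0 b hb (Nr b) (4 * c.W.E.s ^ (-(c.ε / 4)) * c.W.f i) e ka
  obtain ⟨hN1, hN2⟩ := sf_gt_np hh hij hα8 (sf_ge_s_n _ hstr hd hext.depth).1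
  have hM := hN2 _ hnM
  -- AF
  obtain ⟨haf, hek⟩ := HA c C0 _ hIn hα1 ((le_max_left _ _).trans hμ) _ (φ b) (max Ad A0a) _ a1 hd (le_max_right _ _)
    (((le_max_left _ _).trans (le_max_left _ _)).trans hM) hN1 (min_le_right _ _) hsel hfr hbd
  -- DOC
  obtain ⟨c', e', hdoc⟩ := Hd c C0 _ _ (φ b) hij hInD hnd ((le_max_right _ _).trans hμ) hd hgap hgap0 (hNr b hb (Q0 b) e ka)
    (sf_gt_sel_mono hE.gen.scale (le_max_left _ _) (le_max_left _ _) (min_le_left _ _) hsel) (sf_doc_af_mono H haf (le_max_right _ _) (le_max_left _ _))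
    (hyp.fr b).1 (hyp.fr b).2.1 (hyp.fr b).2.2 hfr hbd
  -- CORE, CF
  obtain ⟨o1, o2, o3, o4, o5⟩ := sf_gt_fin (t' := t') (σ' := σ') hCf Hc ht1 (min_le_right _ _) (min_le_left _ _) (min_le_left _ _) (min_le_right _ _) (min_le_left _ _)
    (min_le_right _ _) (le_max_left _ _) (le_max_left _ _) ((le_max_left _ _).trans (le_max_right _ _)) hσ'
    ((Nat.le_ceil _).trans (by exact_mod_cast le_max_right Ac ⌈1 / σ'⌉₊)) ((le_max_right _ _).trans (le_max_right _ _)) hK1 _ hstr hd hgap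
    (((le_max_right _ _).trans (le_max_left _ _)).trans hM) (((le_max_right _ _).trans (le_max_right _ _)).trans hM)
    ((pow_le_pow_of_le_one (by norm_num) (by norm_num) (((le_max_left _ _).trans (le_max_right _ _)).trans hM)).trans_lt hnσ)
    hsel.cls.2.1.ka_pos hfr hbd hek hdoc
  obtain ⟨r1, r2, r3⟩ := sf_gt_rows _ hd hdoc
  refine ⟨c', b, e', o1, o2, o3, o4, r1, fun u hu => ?_, fun u hu => (r3 u hu).1, o5⟩
  obtain ⟨e1, v, hv, hc⟩ := r2 u hu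
  exact hyp.sb_pred b (e' u) v hv.1 e1 hc

end Claimed.Agent.R256
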