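import Claimed.Agent.R256.Soft.MGpIface
import Claimed.Agent.R256.Soft.MGeTop

/-!
# Row 256 (S0496), unit SOFT, block M6b GP, TOP: `CalGp` from the exits of the sub-blocks      (helper288; prefix `sf_gp_t_`; clone of `sf_gt_top` of helper217)

`sf_gp_t_top`: `SfGeRootX`, `SfGpSel`, `SfGeFrm`, `SfGeAf`, `SfGeDoc`, `SfGeCf` and `sf_core_y`   ⟹   `(sfCls Y π Ls).CalGp π Ls`.
Kept gates `{j}`, mesh `h' = 1`.      FLOW OF THE CONSTANTS: as in `Soft/MGeTop.lean`.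
-/

set_option autoImplicit false

namespace Claimed.Agent.R256

open MeasureTheory Claimed.Agent.R255

section

variable {Y : SfCy} {π : SfPar} {Ls : ℝ}

/-- the partition: the combinatorial part of `GpHyp`, at any larger absolute accuracy -/
theorem sf_gp_t_cov {D : SfDoc} (hs : 0 < D.s ∧ D.s ≤ 1) {i j : ℝ} {ι : Type} {Sb : ι → D.Rw → Prop} {Sx U : D.Rw → Prop} {φ : ι → SfFrame} {a t1 C1 α : ℝ}
    (hα : a * (j - i) ≤ α) (H : SfCls.GpHyp D i j ι Sb Sx U φ a t1 C1) : SfGpCov D i j ι Sb Sx U α t1 where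
  gi := H.gi
  gj := H.gj
  u_dep := H.u_dep
  sb_dep := H.sb_dep
  sb_disj := H.sb_disj
  sb_time := fun b u u' hu hu' => (H.sb_time b u hu).trans (H.sb_time b u' hu').symm
  own := H.own
  mass := (add_le_add_left (Real.rpow_le_rpow_of_exponent_ge hs.1 hs.2 hα) _).trans H.mass
  lb_ovl := fun lam => (H.lb_ovl lam).trans (Real.rpow_le_rpow_of_exponent_ge hs.1 hs.2 (by linarith))

/-- the structural hypotheses on the data of a group with a marked row -/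
theorem sf_gp_t_ok {c : SfCfg Y π.d} {i j : ℝ} {ι : Type} {Sb : ι → c.D.Rw → Prop} {Sx U : c.D.Rw → Prop} {α t1 : ℝ} (hij : i < j) (H : SfGpCov c.D i j ι Sb Sx U α t1)
    (m0 : ι → ℕ) (hm : ∀ b u, Sb b u → c.im u.1 u.2 = m0 b) (b : ι) (hb : ∃ v, sfGpU c.D Sb U b v)
    (Nr : ∀ g, c.D.Row g → Set (Y.M.sys c.p).X) (f0 : ℝ) (Q0 : CyT) (e ka : ℝ) :
    (SfGeD.mk i j {j} (sfGpU c.D Sb U b) (Sb b) (m0 b) Nr f0 Q0 e ka : SfGeD c).Ok where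
  hij := hij
  gi := c.sh.hG ▸ H.gi
  gj := c.sh.hG ▸ H.gj
  kept := ⟨Finset.mem_singleton_self j, fun k hk => by
    rw [Finset.mem_singleton.1 hk]
    exact ⟨c.sh.hG ▸ H.gj, hij.le, le_rfl⟩⟩
  seg := fun g _ k hk h1 h2 => by
    rw [Finset.mem_singleton.1 hk] at h1
    exact absurd h1 (not_lt.2 h2.le)
  u_dep := fun v hv => H.u_dep v hv.1
  u_pred := fun v hv => by
    obtain ⟨w, hw, hc⟩ := hv.2
    exact ⟨w, H.sb_dep b w hw, hc, hm b w hw⟩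
  u_ne := hb
  u_s0 := fun v hv => by
    obtain ⟨w, hw, hc⟩ := hv.2
    exact ⟨w, H.sb_dep b w hw, hc, hm b w hw, hw⟩

end

/-- **TOP of GP**: the class of shadows has group extraction in partition form, from the exits of the sub-blocks -/
theorem sf_gp_t_top (Y : SfCy) (hY : (∃ η, Y = sfCl η) ∨ ∃ η, Y = sfHy η) (π : SfPar) (Ls : ℝ) (hE : SfCoreHyp Y π) (H : CyHyp Y)
    (hRoot : SfGeRootX Y π Ls) (hSel : SfGpSel Y π Ls) (hFrm : SfGeFrm Y π Ls) (hAf : SfGeAf Y π Ls) (hDoc : SfGeDoc Y π Ls) (hCf : SfGeCf π Ls) :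
    (sfCls Y π Ls).CalGp π Ls := by
  obtain ⟨cK, hCf⟩ := hCf
  refine ⟨fun C1 => cK (2 * |C1| + 1), fun t' ht' => ?_⟩
  have ht1 : 0 < min t' 1 := lt_min ht' one_pos
  obtain ⟨ac, ε0, μ0c, hac, hε0, Hc⟩ := sf_core_y hY π Ls hE (min t' 1) 1 ht1 one_pos
  obtain ⟨aD, a1, τ, haD, ha1, hτ, Hd⟩ := hDoc 1 (min ac (min t' 1)) (min t' 1) (min ε0 (min t' 1)) one_pos (lt_min hac ht1) ht1 (lt_min hε0 ht1)
  have hΓ : 0 < π.Γ + 1 / 2 := by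
    have h1 := hE.par.1.1.1
    have h2 := hE.par.1.2.1
    linarith
  obtain ⟨aS, haS, Hs⟩ := hSel (min τ (π.Γ + 1 / 2)) a1 (lt_min hτ hΓ) ha1
  have ha0 : 0 < min (min aS aD) (1 / 8) := lt_min (lt_min haS haD) (by norm_num)
  refine ⟨min (min aS aD) (1 / 8), ha0, fun C1 C0 h tx hh htx (S : ℕ) => ?_⟩
  obtain ⟨K, nF, hK, HF⟩ := hFrm C1 C0 h hh S
  obtain ⟨Cs, Cb, Hs⟩ := Hs C0 h tx hh htx S
  obtain ⟨nR, HR⟩ := hRoot S Cb
  have hK1 : (0 : ℝ) ≤ 2 * |C1| + 1 := by positivity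
  obtain ⟨Ca, A0a, n0a, μ0a, HA⟩ := hAf S Cs ⌈2 / h⌉₊ (2 * |C1| + 1) K hK1 hK
  obtain ⟨S', Hd⟩ := Hd h (2 * |C1| + 1) K hh hK1 S (max Cs Ca) hK
  obtain ⟨Ac, nc, Hc⟩ := Hc S'
  refine ⟨S', fun σ' hσ' => ?_⟩
  obtain ⟨Ad, nd, μ0d, Hd⟩ := Hd (max Ac ⌈1 / σ'⌉₊) (max μ0c (max (1 / min t' 1) (1 / σ')))
  obtain ⟨As, ns, Hs⟩ := Hs (max Ad A0a)
  obtain ⟨nσ, hnσ⟩ := exists_pow_lt_of_lt_one hσ' (by norm_num : (2 : ℝ)⁻¹ < 1)
  obtain ⟨σ, hσ, Hσ⟩ := sf_gt_scale (Y := Y) (de := π.d) As (max (max nF nR) (max (max ns nd) (⌈2 / h⌉₊ * (max (max n0a nc) (max nσ 5))))) (max μ0a μ0d)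
  refine ⟨σ, hσ, ?_⟩
  intro (c : SfCfg Y π.d) hob hsc i j hij hgd hgx ι _ (Sb : ι → c.D.Rw → Prop) (Sx : c.D.Rw → Prop) (U : c.D.Rw → Prop) φ hyp
  change c.ob S ∧ 1 / ((S : ℝ) + 1) ≤ c.ε at hob
  change max c.D.s (max (1 / ((c.A : ℝ) + 1)) (1 / (c.μ + 1))) < σ at hsc
  change c.D.Good π Ls C0 _ ∧ (SfMD.Ext Y c.p c.W π.p π.d Ls c.ε _ ∧ 0 < c.ε ∧ c.ε ≤ _ ∧ 1 / _ ≤ c.μ) at hgd
  change c.D.Good π Ls C0 _ ∧ (SfMD.Ext Y c.p c.W π.p π.d Ls c.ε _ ∧ 0 < c.ε ∧ c.ε ≤ _ ∧ 1 / _ ≤ c.μ) at hgx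
  change SfCls.GpHyp c.D i j ι Sb Sx U φ _ tx C1 at hyp
  obtain ⟨hgood, hext, hε, hεa, hμa⟩ := hgd
  have hδ : 0 < j - i := hh.trans_le hij
  have hlt : i < j := by linarith
  have hα0 : 0 < min (min aS aD) (1 / 8) * (j - i) := mul_pos ha0 hδ
  have hμ0 : 0 < c.μ := lt_of_lt_of_le (by positivity) hμa
  obtain ⟨hA, hn, hμ⟩ := Hσ c hsc hμ0
  have hstr := hext.str
  have hiG : i ∈ c.W.G := c.sh.hG ▸ hyp.gi
  have hjG : j ∈ c.W.G := c.sh.hG ▸ hyp.gj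
  have hα8 : min (min aS aD) (1 / 8) * (j - i) ≤ (j - i) / 8 := by
    have := mul_le_mul_of_nonneg_right (min_le_right (min aS aD) (1 / 8)) hδ.le
    linarith
  have hα1 : min (min aS aD) (1 / 8) * (j - i) ≤ 1 := by
    have h1 := (hstr.gate.2 i hiG).1
    have h2 := (hstr.gate.2 j hjG).2
    linarith
  have hIn : SfGeIn Y π Ls c S C0 (min (min aS aD) (1 / 8) * (j - i)) := ⟨hob.1, ⟨hob.2, hεa⟩, hgood, hext⟩
  have hInX : SfGeIn Y π Ls c S C0 (tx / 32) := ⟨hob.1, ⟨hob.2, hgx.2.2.2.1⟩, hgx.1, hgx.2.1⟩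
  have hαS : min (min aS aD) (1 / 8) * (j - i) ≤ aS * (j - i) := mul_le_mul_of_nonneg_right ((min_le_left _ _).trans (min_le_left _ _)) hδ.le
  have hαD : min (min aS aD) (1 / 8) * (j - i) ≤ aD * (j - i) := mul_le_mul_of_nonneg_right ((min_le_left _ _).trans (min_le_right _ _)) hδ.le
  have hInS : SfGeIn Y π Ls c S C0 (aS * (j - i)) := sf_gt_in_mono hα0 hαS hIn
  have hInD : SfGeIn Y π Ls c S C0 (aD * (j - i)) := sf_gt_in_mono hα0 hαD hIn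
  have hs01 : 0 < c.D.s ∧ c.D.s ≤ 1 := by
    rw [c.sh.hs]
    exact ⟨gn_s_pos _, gn_s_le_one _⟩
  have hCov : SfGpCov c.D i j ι Sb Sx U (aS * (j - i)) tx := sf_gp_t_cov hs01 hαS hyp
  have hnF : nF ≤ c.W.E.n := ((le_max_left _ _).trans (le_max_left _ _)).trans hn
  have hnR : nR ≤ c.W.E.n := ((le_max_right _ _).trans (le_max_left _ _)).trans hn
  have hns : ns ≤ c.W.E.n := ((le_max_left _ _).trans ((le_max_left _ _).trans (le_max_right _ _))).trans hn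
  have hnd : nd ≤ c.W.E.n := ((le_max_right _ _).trans ((le_max_left _ _).trans (le_max_right _ _))).trans hn
  have hnM : ⌈2 / h⌉₊ * (max (max n0a nc) (max nσ 5)) ≤ c.W.E.n := ((le_max_right _ _).trans (le_max_right _ _)).trans hn
  have hgap : ∀ k ∈ ({j} : Finset ℝ), ∀ l ∈ ({j} : Finset ℝ), k < l → 1 * (j - i) ≤ l - k := fun k hk l hl hkl => by
    rw [Finset.mem_singleton.1 hk, Finset.mem_singleton.1 hl] at hkl
    exact absurd hkl (lt_irrefl _)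
  have hgap0 : ∀ k ∈ ({j} : Finset ℝ), k = i ∨ 1 * (j - i) ≤ k - i := fun k hk => Or.inr (by rw [Finset.mem_singleton.1 hk, one_mul])
  -- the root intervals of the groups
  obtain ⟨m0, hm0⟩ : ∃ m0 : ι → ℕ, ∀ b u, Sb b u → c.im u.1 u.2 = m0 b := by
    classical
    refine ⟨fun b => if hb : ∃ u, Sb b u then c.im hb.choose.1 hb.choose.2 else 0, fun b u hu => ?_⟩
    have hb : ∃ u, Sb b u := ⟨u, hu⟩
    beta_reduce
    rw [dif_pos hb]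
    exact sf_gt_im c hstr hiG u hb.choose (hyp.sb_dep b u hu) (hyp.sb_dep b _ hb.choose_spec)
      ((hyp.sb_time b u hu).trans (hyp.sb_time b _ hb.choose_spec).symm)
  have hOk := fun b hb Nr f0 Q0 e ka => sf_gp_t_ok (π := π) hlt hCov m0 hm0 b hb Nr f0 Q0 e ka
  -- ROOT
  have hR : ∀ b, ∃ Nr : ∀ g, c.D.Row g → Set (Y.M.sys c.p).X, (∃ v, sfGpU c.D Sb U b v) → ∀ Q0 e ka,
      (SfGeD.mk i j {j} (sfGpU c.D Sb U b) (Sb b) (m0 b) Nr (4 * c.W.E.s ^ (-(c.ε / 4)) * c.W.f i) Q0 e ka : SfGeD c).Root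
        (c.W.E.s ^ (-(c.ε / 4))) (c.W.E.s ^ (Cb : ℝ)) := by
    intro b
    by_cases hb : ∃ v, sfGpU c.D Sb U b v
    · obtain ⟨Nr, hNr⟩ := HR c C0 _ hIn hnR i j {j} (sfGpU c.D Sb U b) (Sb b) (m0 b) (hOk b hb)
      exact ⟨Nr, fun _ => hNr⟩
    · exact ⟨fun _ _ => ∅, fun h => absurd h hb⟩
  choose Nr hNr using hR
  -- FRAME
  have hF : ∀ b, ∃ Q0 : CyT, (∃ v, sfGpU c.D Sb U b v) → ∀ Nr f0 e ka,
      SfGeFr Y π (SfGeD.mk i j {j} (sfGpU c.D Sb U b) (Sb b) (m0 b) Nr f0 Q0 e ka : SfGeD c) (φ b) ∧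
      SfGeBd Y π (SfGeD.mk i j {j} (sfGpU c.D Sb U b) (Sb b) (m0 b) Nr f0 Q0 e ka : SfGeD c) (φ b) (2 * |C1| + 1) ((S : ℝ) + 1) K := by
    intro b
    by_cases hb : ∃ v, sfGpU c.D Sb U b v
    · obtain ⟨Q0, hQ0⟩ := HF c _ hIn hnF i j {j} (sfGpU c.D Sb U b) (Sb b) (m0 b) (φ b) hij hα8 (hOk b hb) (hyp.fr b).1 (hyp.fr b).2.1 (hyp.fr b).2.2
        (fun u _ _ _ _ hu => ⟨hyp.sb_time b u hu, hyp.fr_ray b u hu⟩)
        (fun u v hv huv hu => by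
          have e1 : u = v := by
            rcases huv with h1 | ⟨h1, -⟩
            · exact h1
            · rw [Finset.mem_singleton.1 hu, hyp.u_dep v hv.1] at h1
              exact absurd h1 (lt_irrefl _)
          subst e1
          obtain ⟨w, hw, hc⟩ := hv.2
          exact hyp.fr_lab b _ ⟨w, u, hw, hv.1, hc, rfl⟩)
      exact ⟨Q0, fun _ => hQ0⟩
    · exact ⟨c.W.Q0, fun h => absurd h hb⟩
  choose Q0 hQ0 using hF
  -- SEL
  obtain ⟨b, e, ka, hb, hsel⟩ := Hs c i j hij hInS hInX hA hns ι Sb Sx U hCov m0 Nr (4 * c.W.E.s ^ (-(c.ε / 4)) * c.W.f i) Q0 hm0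
    (fun b hb e ka => hNr b hb (Q0 b) e ka)
  have hd := hOk b hb (Nr b) (4 * c.W.E.s ^ (-(c.ε / 4)) * c.W.f i) (Q0 b) e ka
  obtain ⟨hfr, hbd⟩ := hQ0 b hb (Nr b) (4 * c.W.E.s ^ (-(c.ε / 4)) * c.W.f i) e ka
  obtain ⟨hN1, hN2⟩ := sf_gt_np hh hij hα8 (sf_ge_s_n _ hstr hd hext.depth).1
  have hM := hN2 _ hnM
  -- AF
  obtain ⟨haf, hek⟩ := HA c C0 _ hIn hα1 ((le_max_left _ _).trans hμ) _ (φ b) (max Ad A0a) _ a1 hd (le_max_right _ _)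
    (((le_max_left _ _).trans (le_max_left _ _)).trans hM) hN1 (min_le_right _ _) hsel hfr hbd
  -- DOC
  obtain ⟨c', e', hdoc⟩ := Hd c C0 _ _ (φ b) hij hInD hnd ((le_max_right _ _).trans hμ) hd hgap hgap0 (hNr b hb (Q0 b) e ka)
    (sf_gt_sel_mono hE.gen.scale (le_max_left _ _) (le_max_left _ _) (min_le_left _ _) hsel) (sf_doc_af_mono H haf (le_max_right _ _) (le_max_left _ _))
    (hyp.fr b).1 (hyp.fr b).2.1 (hyp.fr b).2.2 hfr hbd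
  -- CORE, CF
  obtain ⟨o1, o2, o3, o4, -⟩ := sf_gt_fin (t' := t') (σ' := σ') hCf Hc ht1 (min_le_right _ _) (min_le_left _ _) (min_le_left _ _) (min_le_right _ _) (min_le_left _ _)
    (min_le_right _ _) (le_max_left _ _) (le_max_left _ _) ((le_max_left _ _).trans (le_max_right _ _)) hσ'
    ((Nat.le_ceil _).trans (by exact_mod_cast le_max_right Ac ⌈1 / σ'⌉₊)) ((le_max_right _ _).trans (le_max_right _ _)) hK1 _ hstr hd hgap
    (((le_max_right _ _).trans (le_max_left _ _)).trans hM) (((le_max_right _ _).trans (le_max_right _ _)).trans hM)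
    ((pow_le_pow_of_le_one (by norm_num) (by norm_num) (((le_max_left _ _).trans (le_max_right _ _)).trans hM)).trans_lt hnσ)
    hsel.cls.2.1.ka_pos hfr hbd hek hdoc
  obtain ⟨-, -, r3⟩ := sf_gt_rows _ hd hdoc
  refine ⟨c', b, e', o1, o2, o3, o4, fun u hu => ?_⟩
  obtain ⟨hU, w, hw, hc⟩ := r3 u hu
  exact ⟨hU, w, e' u, hw, hU, hc, rfl⟩

end Claimed.Agent.R256
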