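import Claimed.Agent.R256.Soft.MGeCal
import Claimed.Agent.R256.Soft.MGpTop
import Claimed.Agent.R256.Soft.MGpSel

/-!
# Row 256 (S0496), unit SOFT, block M6b GP, EXIT: `sf_gs_cal : (sfCls Y π Ls).CalGp π Ls` under `SfEntry`      (helper1; clone of `sf_gt_cal` of helper217)

WIRING ONLY.   `sf_gp_t_top` (`Soft/MGpTop.lean`, helper288) applied to the exits of the sub-blocks:   ROOT, FRAME, AF, DOC, CF as in `Soft/MGeCal.lean`;   SEL (partition form) `sf_gs_main` (`Soft/MGpSel.lean`).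
LINK: the field `Cal.gp` (or the hypothesis `hgp` of `sf_sg_spg`, `Soft/ASpgMain.lean`) for `K = sfCls Y π Ls` is `sf_gs_cal Y hY π Ls hE`.
-/

set_option autoImplicit false

namespace Claimed.Agent.R256

open MeasureTheory Claimed.Agent.R255

/-- **EXIT of the block GP** -/
theorem sf_gs_cal (Y : SfCy) (hY : (∃ η, Y = sfCl η) ∨ ∃ η, Y = sfHy η) (π : SfPar) (Ls : ℝ) (hE : SfEntry Y π Ls) : (sfCls Y π Ls).CalGp π Ls := by
  obtain ⟨H⟩ := hE.hyp
  have hC : SfCoreHyp Y π := ⟨hE.par, hE.adm, hE.gen, hE.loc, hE.rate⟩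
  exact sf_gp_t_top Y hY π Ls hC H (sf_ge_root (sf_cy_ok Y hY) (sf_sep hY) π Ls hC) (sf_gs_main hY π Ls hC) (sf_gf_frm_exit Y π Ls) (sf_gh_exit H π Ls)
    (sf_gt_exit_doc Y hY π Ls hE) (sf_gf_cf_exit π Ls)

/-- the same exit under the name announced by helper288 -/
theorem sf_gp_t_cal (Y : SfCy) (hY : (∃ η, Y = sfCl η) ∨ ∃ η, Y = sfHy η) (π : SfPar) (Ls : ℝ) (hE : SfEntry Y π Ls) : (sfCls Y π Ls).CalGp π Ls :=
  sf_gs_cal Y hY π Ls hE

end Claimed.Agent.R256
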