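import Claimed.Agent.R256.Soft.MCal
import Claimed.Agent.R256.Soft.MGpCal

/-!
# Row 256 (S0496): **Q1** = `¬ Rate (cyl hyb η) (η/2)  ⟹  ∃ Γ > η/2, SfExit hyb η Γ X`      (owner of the assembly helper19)

Compile-checked glue.   The hypotheses are the contracts of the other units:
* `SfEntC Y`    [Gen 11 + Cyl 255]   `¬ Rate (η/2)` ⟹ exponents `π = (η, Γ, p, d)`, `Γ > η/2`, and all ENTRY hypotheses `SfEntry Y π Ls` of `Soft/Entry.lean`
* `SfRigC Y X`  [Chan 130]          (mem), positive cost: `X` is RIGID on the affine shadows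
* `SfRig0C Y X0` [Chan 130, Kin 132]  (mem), zero cost, classical: `X0 = CeMem` is RIGID on the zero-cost shadows
* `hCe`         [Ce 157]            `ce_main : η/2 < Γ → ¬ SfExit0 false η Γ CeMem`
* `SfHzC η`     [Hz 82]             Prop. low:hybrid-zero as ONE inequality for experiments with zero costs relative to the shear of their frame, at the Planck floor
* inside SOFT: `sf_cal` (M1-M7), `sf_dich`, `sf_zero_exit0` (A), `sf_val`, `sf_zero_cost` (M8).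
-/

set_option autoImplicit false

namespace Claimed.Agent.R256

open Claimed.Agent.R255

/-- **CONTRACT Gen + Cyl** -/
def SfEntC (Y : SfCy) : Prop := ¬ Y.M.Rate (Y.η / 2) → ∃ (π : SfPar) (Ls : ℝ), SfEntry Y π Ls

/-- **CONTRACT Chan, positive cost** -/
def SfRigC (Y : SfCy) (X : SfPar → SfDoc → ℝ → Prop) : Prop :=
  ∀ (π : SfPar) (Ls : ℝ), SfEntry Y π Ls → (sfCls Y π Ls).Rig π Ls X

/-- **CONTRACT Chan, zero cost** -/
def SfRig0C (Y : SfCy) (X0 : SfPar → SfDoc → ℝ → Prop) : Prop :=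
  ∀ (π : SfPar) (Ls : ℝ), SfEntry Y π Ls → (sfCls Y π Ls).Rig0 π Ls X0

/-- **CONTRACT Hz** (Prop. low:hybrid-zero) -/
def SfHzC (η : ℝ) : Prop :=
  ∀ γ : ℝ, 0 < γ → (sfHy η).M.Rate γ → ∃ c0 τ : ℝ, 0 < c0 ∧ 0 < τ ∧ ∀ C : ℕ, ∃ A n0 : ℕ, ∀ A' : ℕ, A ≤ A' →
    ∀ (p : (sfHy η).M.Par) (E : Xp ((sfHy η).M.sys p)) (Q0 : CyT), n0 ≤ E.n → E.Valid → E.st.length ≤ C → (sfHy η).af C A' p E Q0 →
      (∀ l, ((sfHy η).tq p (E.ts l)).r = Q0.r ∧ ((sfHy η).tq p (E.ts l)).f = Q0.f) →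
      E.s ^ (1 + τ) ≤ (sfHy η).H p * 2 ^ E.k0 / Q0.f ^ 2 →
      (∀ l, E.m l ≠ 0 →
        sfR2 (sfTestAt (tmL E.kf (E.iv l)) ((sfHy η).tq p (E.ts l))) (sfTestAt (tmL E.k0 E.i0) Q0) ((2 : ℝ)⁻¹ ^ E.kf) ≤ E.s ^ (-τ) ∧
        sfR1 (sfTestAt (tmL E.kf (E.iv l)) ((sfHy η).tq p (E.ts l))) (sfTestAt (tmL E.k0 E.i0) Q0) ≤ E.s ^ (-τ)) →
      E.val ≤ 2 ^ ((γ - c0) * E.n)

theorem sf_exit_glue_eqns_cite : True := by
  have := @SfEntC.eq_1
  have := @SfRigC.eq_1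
  have := @SfRig0C.eq_1
  have := @SfHzC.eq_1
  trivial

/-- terminal widths of a structurally valid documented experiment = widths of its frame -/
theorem sf_str_width {P : PkSys} (W : SfMD P) (tq : P.Tst → CyT) (h : W.Str tq) (l : Fin W.E.L) :
    (tq (W.E.ts l)).r = W.Q0.r ∧ (tq (W.E.ts l)).f = W.Q0.f := by
  obtain ⟨e, he⟩ := h.final
  have h1 := (he (e.symm l)).2.1
  rw [Equiv.apply_symm_apply] at h1
  have h2 := h.width 1 h.gate.1 (e.symm l)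
  rw [h1, h.frame.1, h.frame.2.1]
  exact h2

/-- **Q1, classical cylinder** -/
theorem sf_Q1_cl (η : ℝ) (X X0 : SfPar → SfDoc → ℝ → Prop)
    (hEnt : SfEntC (sfCl η)) (hX : SfRigC (sfCl η) X) (hX0 : SfRig0C (sfCl η) X0)
    (hCe : ∀ Γ : ℝ, η / 2 < Γ → ¬ SfExit0 false η Γ X0)
    (h : ¬ (cylCl η).Rate (η / 2)) :
    ∃ Γ : ℝ, η / 2 < Γ ∧ SfExit false η Γ X := by
  obtain ⟨π, Ls, hE⟩ := hEnt h
  have hη : π.η = η := hE.par.2.1
  have hb : π.hyb = false := hE.par.2.2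
  have hΓ : η / 2 < π.Γ := by have := hE.par.1.2.1; rwa [hη] at this
  have hK := sf_cal (sfCl η) (Or.inl ⟨η, rfl⟩) π Ls hE (fun hh => by simp [sfCl] at hh)
  rcases sf_dich _ π Ls hE.par.1 hK (fun _ => sf_gp_t_cal (sfCl η) (Or.inl ⟨η, rfl⟩) π Ls hE) X (hX π Ls hE) with h1 | h1
  · refine ⟨π.Γ, hΓ, ?_⟩
    rw [hb, hη] at h1
    exact h1
  · exfalso
    have h2 := sf_zero_exit0 _ π Ls hE.par.1 hK X0 (hX0 π Ls hE) h1
    rw [hb, hη] at h2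
    exact hCe π.Γ hΓ h2

/-- **Q1, hybrid cylinder** (after the classical bound) -/
theorem sf_Q1_hy (η : ℝ) (X : SfPar → SfDoc → ℝ → Prop)
    (hEnt : SfEntC (sfHy η)) (hX : SfRigC (sfHy η) X) (hHz : SfHzC η)
    (hcl : (cylCl η).Rate (η / 2)) (h : ¬ (cylHyb η).Rate (η / 2)) :
    ∃ Γ : ℝ, η / 2 < Γ ∧ SfExit true η Γ X := by
  obtain ⟨π, Ls, hE⟩ := hEnt h
  have hη : π.η = η := hE.par.2.1
  have hb : π.hyb = true := hE.par.2.2
  have hΓ : η / 2 < π.Γ := by have := hE.par.1.2.1; rwa [hη] at this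
  have hη0 : 0 < η := by have := hE.par.1.1.1; rwa [hη] at this
  have hK := sf_cal (sfHy η) (Or.inr ⟨η, rfl⟩) π Ls hE (fun _ => ⟨η / 2, hΓ, hcl⟩)
  rcases sf_dich _ π Ls hE.par.1 hK (fun _ => sf_gp_t_cal (sfHy η) (Or.inr ⟨η, rfl⟩) π Ls hE) X (hX π Ls hE) with h1 | h1
  · refine ⟨π.Γ, hΓ, ?_⟩
    rw [hb, hη] at h1
    exact h1
  · exfalso
    obtain ⟨C0, hZ⟩ := h1
    obtain ⟨c0, τ, hc0, hτ, hH⟩ := hHz π.Γ (by linarith) hE.rate
    have ht : 0 < min τ (c0 / 4) := lt_min hτ (by linarith)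
    obtain ⟨a, ha, hpl⟩ := hK.pl hb 1 (min τ (c0 / 4)) one_pos ht
    have ht1 : 0 < min (min τ (c0 / 4)) a := lt_min ht ha
    obtain ⟨C, hS⟩ := sf_ex_and_all (hZ ∅ (by simp) _ ht1) (hpl C0)
    obtain ⟨A, n0, hA⟩ := hH C
    have hs0 : 0 < min (1 / ((A : ℝ) + 1)) ((2 : ℝ)⁻¹ ^ n0) := lt_min (by positivity) (by positivity)
    obtain ⟨c, hob, hsc, ⟨-, hg, hz⟩, hp⟩ := hS _ hs0
    have hob' : c.ob C := hob.1
    have hsc' : max c.D.s (1 / ((c.A : ℝ) + 1)) < min (1 / ((A : ℝ) + 1)) ((2 : ℝ)⁻¹ ^ n0) :=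
      lt_of_le_of_lt (max_le_max le_rfl (le_max_left _ _)) hsc
    have hDs : c.D.s = c.W.E.s := c.sh.hs
    -- tail order and scale
    have hAc : A ≤ c.A := by
      by_contra hlt
      have h1 : (c.A : ℝ) + 1 ≤ (A : ℝ) + 1 := by
        have : (c.A : ℝ) ≤ A := by exact_mod_cast (not_le.1 hlt).le
        linarith
      have h2 : 1 / ((A : ℝ) + 1) ≤ 1 / ((c.A : ℝ) + 1) := one_div_le_one_div_of_le (by positivity) h1
      have h3 := lt_of_le_of_lt (le_max_right _ _) (lt_of_lt_of_le hsc' (min_le_left _ _))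
      linarith
    have hn : n0 < c.W.E.n := by
      by_contra hle
      have h1 : ((2 : ℝ)⁻¹) ^ n0 ≤ ((2 : ℝ)⁻¹) ^ c.W.E.n :=
        pow_le_pow_of_le_one (by norm_num) (by norm_num) (not_lt.1 hle)
      have h3 := lt_of_le_of_lt (le_max_left _ _) (lt_of_lt_of_le hsc' (min_le_right _ _))
      rw [hDs] at h3
      have h4 : c.W.E.s = ((2 : ℝ)⁻¹) ^ c.W.E.n := rfl
      linarith
    have hs01 : 0 < c.D.s ∧ c.D.s < 1 := hg.1.1.hs
    have hgt := sf_good_mono _ _ _ _ _ _ ht1 (min_le_left _ _) hg.1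
    have hga := sf_gd_mono _ π Ls hK.md_mono _ _ _ ht1 (min_le_right _ _) c hg
    have hzt := sf_zero_mono _ _ _ hs01 (min_le_left _ _) hz
    have hgτ := sf_good_mono _ _ _ _ _ _ ht (min_le_left _ _) hgt
    have hzτ := sf_zero_mono _ _ _ hs01 (min_le_left _ _) hzt
    -- the Planck floor
    have hP : c.W.E.s ^ (1 + τ) ≤ (sfHy η).H c.p * 2 ^ c.W.E.k0 / c.W.Q0.f ^ 2 := by
      have h1 := (hp hga).1
      have h2 : c.D.s ^ (1 + τ) ≤ c.D.s ^ (1 + min τ (c0 / 4)) :=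
        Real.rpow_le_rpow_of_exponent_ge hs01.1 hs01.2.le (by linarith [min_le_left τ (c0 / 4)])
      rw [← hDs]
      exact h2.trans h1
    have hval := hA c.A hAc c.p c.W.E c.W.Q0 hn.le hob'.2.2.1.valid hob'.1 hob'.2.1
      (sf_str_width c.W _ hob'.2.2.1) hP (fun l hm => sf_zero_cost (sfHy η) rfl π Ls C0 τ c C hob' hgτ hzτ l hm)
    have hlow := sf_val (sfHy η) π Ls c.ε _ hE.par.1 ht c.p c.W
      (sf_md_mono (sfHy η) π Ls c _ _ ht1 (min_le_left _ _) hg.2).1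
    have h5 := hlow.trans hval
    have h6 : (π.Γ - 3 * min τ (c0 / 4)) * (c.W.E.n : ℝ) ≤ (π.Γ - c0) * (c.W.E.n : ℝ) :=
      (Real.rpow_le_rpow_left_iff (by norm_num : (1 : ℝ) < 2)).1 h5
    have h7 : (0 : ℝ) < c.W.E.n := by exact_mod_cast lt_of_le_of_lt (Nat.zero_le _) hn
    have h8 : π.Γ - 3 * min τ (c0 / 4) ≤ π.Γ - c0 := le_of_mul_le_mul_right h6 h7
    have h9 := min_le_right τ (c0 / 4)
    linarith

end Claimed.Agent.R256
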