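import Claimed.Agent.R256.Soft.MResGate

/-!
# Row 256 (S0496), unit SOFT, M4 RES, file 3: THE TRIANGLE INEQUALITY PICKS A CLASS      (architect helper200; block BP-256-SOFT-RES; prefix `sf_res_`)

PAPER FREE (02 l.1195-1215 "restriction of a gate": `rd^{1/3}` is a weighted `l^3` norm of Hilbert seminorms).   `W : SfMD P`, `hS : W.Str tq`, gate `i0`, finitely many classes `b : ι` with DISJOINT row sets `R b i0 l`;
the rows of a label outside all classes carry no mass of the state entering the gate (`hcov`; hybrid: there are none; classical: rows without retained ancestors).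
EXIT: `sf_res_pick`: some class `b` keeps `rd ≥ rd(W) / |ι|^3`; its restriction `W'` is structurally valid and `SfRn W' W i0 (R b)`.
LEAVES `L-256-RES-T*`: prove IN PLACE, statement verbatim, helpers directly above.
-/

set_option autoImplicit false

namespace Claimed.Agent.R256

open MeasureTheory Claimed.Agent.R255

section

variable {P : PkSys} (W : SfMD P) {tq : P.Tst → CyT}

/-- the rows outside all classes -/
def sfResC {ι : Type} (R : ι → ∀ j, W.Lb j → Set P.X) (j : ℝ) (l : W.Lb j) : Set P.X := (⋃ b, R b j l)ᶜ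

theorem sf_res_tri_eqns_cite : True := by
  have := @sfResC.eq_1
  trivial

/-! ## LEAF L-256-RES-T1 : partition of a weight, of the mask -/

/-- PLAN: cases: `x` in no class: all indicators of classes vanish, the last one is `θ x`;  `x ∈ R b0`: by disjointness the sum is the single term `b0` (`Finset.sum_eq_single b0`), the last indicator vanishes (`Set.mem_iUnion`). -/
theorem sf_res_part {X ι : Type} [Fintype ι] (S : ι → Set X) (hd : ∀ b b', b ≠ b' → Disjoint (S b) (S b')) (θ : X → ℝ) (x : X) :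
    ∑ b, (S b).indicator θ x + (⋃ b, S b)ᶜ.indicator θ x = θ x := by
  classical
  by_cases hx : x ∈ ⋃ b, S b
  · obtain ⟨b0, hb0⟩ := Set.mem_iUnion.1 hx
    have h2 : x ∉ (⋃ b, S b)ᶜ := fun h => h hx
    rw [Set.indicator_of_notMem h2, add_zero, Finset.sum_eq_single b0]
    · exact Set.indicator_of_mem hb0 _
    · intro b _ hne
      exact Set.indicator_of_notMem (fun hb => Set.disjoint_left.1 (hd b b0 hne) hb hb0) _
    · intro hn
      exact absurd (Finset.mem_univ b0) hn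
  · have h2 : x ∈ (⋃ b, S b)ᶜ := hx
    rw [Set.indicator_of_mem h2, Finset.sum_eq_zero, zero_add]
    intro b _
    exact Set.indicator_of_notMem (fun hb => hx (Set.mem_iUnion.2 ⟨b, hb⟩)) _

/-- PLAN: unfold `rsM`, `sfResC`; `Fintype.sum_option`; exchange the sums (`Finset.sum_comm`, `Finset.sum_add_distrib`); for each label `split_ifs`, `sf_res_part`. -/
theorem sf_res_part_mask {ι : Type} [Fintype ι] (R : ι → ∀ j, W.Lb j → Set P.X) (i0 : ℝ) (hd : ∀ b b' l, b ≠ b' → Disjoint (R b i0 l) (R b' i0 l)) (m : ℕ) (x : P.X) :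
    ∑ o : Option ι, (match o with | some b => W.rsM (R b) i0 m x | none => W.rsM (sfResC W R) i0 m x) = ∑ l, if W.iv i0 l = m then W.th i0 l x else 0 := by
  rw [Fintype.sum_option]
  simp only [SfMD.rsM]
  rw [Finset.sum_comm, add_comm, ← Finset.sum_add_distrib]
  refine Finset.sum_congr rfl fun l _ => ?_
  by_cases h : W.iv i0 l = m
  · simp only [h, if_true]
    exact sf_res_part (fun b => R b i0 l) (fun b b' hne => hd b b' l hne) (W.th i0 l) x
  · simp only [h, if_false, Finset.sum_const_zero, add_zero]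

/-! ## LEAF L-256-RES-T2 : a mask that reads no mass kills the state -/

/-- PLAN: `PkSys.tz`; it suffices that `P.mulR k M (An v) = 0` (`map_zero`); `norm_eq_zero`, `gn_mulR_normsq` : `‖mulR M F‖² = ∫ M² |F|²`, `M² ≤ M` for a mask, so `≤ en M v = 0` (`gn_en_mono` with `gn_mask_sq`, or `integral_mono` + `gn_en_integrable`); `≥ 0`. -/
theorem sf_res_tz_zero (T : ℝ) (k b : ℕ) {M : P.X → ℝ} (hM : IsMask M) (v : P.Kc) (h : P.en T k b M v = 0) : P.tz T k b M v = 0 := by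
  unfold PkSys.tz
  have h0 : P.mulR k M (P.An T k b v) = 0 := by
    rw [← norm_eq_zero]
    have h1 : ‖P.mulR k M (P.An T k b v)‖ ^ 2 ≤ 0 := by
      rw [gn_mulR_normsq k hM]
      have h2 := gn_en_mono T k b (gn_mask_sq hM) hM (fun x => by
        have := hM.2 x
        nlinarith [this.1, this.2]) v
      rw [h] at h2
      exact h2
    have h3 : ‖P.mulR k M (P.An T k b v)‖ ^ 2 = 0 := le_antisymm h1 (by positivity)
    exact pow_eq_zero_iff (by norm_num) |>.1 h3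
  rw [h0, map_zero]

/-- the energy read by a restricted mask = the sum over the labels of the interval.   PLAN: `rsM` is a finite sum of masks (`if` outside: `split_ifs`, the zero function is a mask); `gn_en_sum`; for `iv l = m`: `W.T i0 l = tmL (W.k i0) m` (unfold `SfMD.T`); else `en 0 = 0` (`simp [PkSys.en]`). -/
theorem sf_res_en_mask (hS : W.Str tq) {i0 : ℝ} (hi : i0 ∈ W.G) (R : ∀ j, W.Lb j → Set P.X) (hm : ∀ l, MeasurableSet (R i0 l)) (m : ℕ) (v : P.Kc) :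
    P.en (tmL (W.k i0) m) (W.k i0) (W.gb i0) (W.rsM R i0 m) v
      = ∑ l, if W.iv i0 l = m then P.en (W.T i0 l) (W.k i0) (W.gb i0) ((R i0 l).indicator (W.th i0 l)) v else 0 := by
  have hz : IsMask (fun _ : P.X => (0 : ℝ)) := ⟨measurable_const, fun _ => ⟨le_rfl, zero_le_one⟩⟩
  have e : W.rsM R i0 m = fun x => ∑ l ∈ (Finset.univ : Finset (W.Lb i0)),
      (if W.iv i0 l = m then (R i0 l).indicator (W.th i0 l) else fun _ => 0) x := by
    ext x
    unfold SfMD.rsM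
    refine Finset.sum_congr rfl fun l _ => ?_
    split_ifs <;> rfl
  rw [e, gn_en_sum]
  · refine Finset.sum_congr rfl fun l _ => ?_
    by_cases h : W.iv i0 l = m
    · simp only [h, if_true]
      unfold SfMD.T
      rw [h]
    · simp only [h, if_false]
      simp [PkSys.en]
  · intro l _
    split_ifs
    · exact sf_doc_ind_mask (sf_doc_th_mask hS hi l) (hm l)
    · exact hz

/-! ## LEAF L-256-RES-T3 : the readout vanishes if the restricted gate kills the states -/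

/-- PLAN: `Xp.rd`, `Xp.m`, `Xp.fin` of `W.E.withSt (W.rsSt R i0)`: `run kf i (t ++ σ' :: d) v = run kf i d (tz (tmL k a) k gb (rsM R i0 a) (run kf i t v))`, `a = ancI kf k i`, `k = W.k i0` (`gn_run_append`, `Xp.run`);
`run kf i t v = run k a t v = W.pre i0 a` (`gn_run_anc`: `k ≤ kf` by `hS.k_rg`; the stages of `t = st.take (pos i0)` have depth `≤ σ.k = k`: `sf_res_split`, `hS.valid.st_mono`, `List.pairwise_append`);   `hz`, `gn_run_zero`, `gn_en_zero`, `Real.zero_rpow`, `zero_div`, `Finset.sum_const_zero`. -/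
theorem sf_res_rd_zero (hS : W.Str tq) {i0 : ℝ} (hi : i0 ∈ W.G) (h1 : i0 < 1) (R : ∀ j, W.Lb j → Set P.X)
    (hz : ∀ m, P.tz (tmL (W.k i0) m) (W.k i0) (W.gb i0) (W.rsM R i0 m) (W.pre i0 m) = 0) : (W.E.withSt (W.rsSt R i0)).rd = 0 := by
  obtain ⟨σ, e, -, hσk, -, -⟩ := sf_res_split W hS hi h1
  have hkf : W.k i0 ≤ W.E.kf := (hS.k_rg i0 hi).2
  have hdep : ∀ τ ∈ W.E.st.take (W.pos i0), τ.k ≤ W.k i0 := by
    intro τ hτ
    have hm := hS.valid.st_mono
    rw [e] at hm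
    rw [← hσk]
    exact (List.pairwise_append.1 hm).2.2 τ hτ σ List.mem_cons_self
  have hfin : ∀ i, (W.E.withSt (W.rsSt R i0)).fin i = 0 := by
    intro i
    show Xp.run W.E.kf i (W.E.st.take (W.pos i0) ++ ⟨W.k i0, W.gb i0, W.rsM R i0⟩ :: W.E.st.drop (W.pos i0 + 1)) W.E.v = 0
    rw [gn_run_append, gn_run_anc hkf i _ hdep]
    show Xp.run W.E.kf i (W.E.st.drop (W.pos i0 + 1))
      (P.tz (tmL (W.k i0) (ancI W.E.kf (W.k i0) i)) (W.k i0) (W.gb i0) (W.rsM R i0 (ancI W.E.kf (W.k i0) i)) (W.pre i0 (ancI W.E.kf (W.k i0) i))) = 0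
    rw [hz, gn_run_zero]
  unfold Xp.rd
  refine Finset.sum_eq_zero fun l _ => ?_
  have hm0 : (W.E.withSt (W.rsSt R i0)).m l = 0 := by
    unfold Xp.m
    rw [hfin, gn_en_zero]
  rw [hm0, Real.zero_rpow (by norm_num), zero_div]

/-! ## LEAF L-256-RES-T4 : the triangle inequality at a gate `i0 < 1` -/

/-- PLAN: `sf_res_split` gives `st = t ++ σ :: d`, `σ.k = W.k i0`, `σ.b = W.gb i0`;  `cy_split_mask hT W.E hS.valid t d σ e (Finset.univ : Finset (Option ι)) Mk` with `Mk (some b) = W.rsM (R b) i0`, `Mk none = W.rsM (sfResC W R) i0`;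
masks: `sf_res_mask` (`sfResC` is measurable: `MeasurableSet.iUnion`, `.compl`; `ι` is countable);  sum: `sf_res_part_mask` and the formula for `σ.M`;  `Fintype.sum_option`;  the term `none` vanishes: `sf_res_rd_zero` with `sf_res_tz_zero`, `sf_res_en_mask`, `hcov`
(each summand: `iv l = m`, rewrite `m`), `Real.zero_rpow`.   The stages `⟨σ.k, σ.b, _⟩` are those of `rsSt` after rewriting `σ.k`, `σ.b`. -/
theorem sf_res_s_tri (hT : P.Tight) (hS : W.Str tq) {i0 : ℝ} (hi : i0 ∈ W.G) (h1 : i0 < 1) {ι : Type} [Fintype ι] (R : ι → ∀ j, W.Lb j → Set P.X)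
    (hm : ∀ b l, MeasurableSet (R b i0 l)) (hd : ∀ b b' l, b ≠ b' → Disjoint (R b i0 l) (R b' i0 l))
    (hcov : ∀ l, P.en (W.T i0 l) (W.k i0) (W.gb i0) ((sfResC W R i0 l).indicator (W.th i0 l)) (W.pre i0 (W.iv i0 l)) = 0) :
    W.E.rd ^ (1 / 3 : ℝ) ≤ ∑ b, (W.E.withSt (W.rsSt (R b) i0)).rd ^ (1 / 3 : ℝ) := by
  obtain ⟨σ, e, -, hk, hb, hM⟩ := sf_res_split W hS hi h1
  have hmC : ∀ l, MeasurableSet (sfResC W R i0 l) := fun l => (MeasurableSet.iUnion fun b => hm b l).compl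
  have hmaskC : ∀ m, IsMask (W.rsM (sfResC W R) i0 m) := fun m => sf_res_mask W (sfResC W R) hS hi hmC m
  have h := cy_split_mask hT W.E hS.valid _ _ σ e (Finset.univ : Finset (Option ι))
    (fun o => Option.casesOn o (W.rsM (sfResC W R) i0) (fun b => W.rsM (R b) i0))
    (by
      intro o _ m
      cases o with
      | none => exact hmaskC m
      | some b => exact sf_res_mask W (R b) hS hi (hm b) m)
    (by
      intro m x
      rw [hM m x, ← sf_res_part_mask W R i0 hd m x, Fintype.sum_option, Fintype.sum_option])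
  rw [Fintype.sum_option, hk, hb] at h
  have hz : ∀ m, P.tz (tmL (W.k i0) m) (W.k i0) (W.gb i0) (W.rsM (sfResC W R) i0 m) (W.pre i0 m) = 0 := by
    intro m
    apply sf_res_tz_zero _ _ _ (hmaskC m)
    rw [sf_res_en_mask W hS hi (sfResC W R) hmC m]
    refine Finset.sum_eq_zero fun l _ => ?_
    split_ifs with hl
    · rw [← hl]
      exact hcov l
    · rfl
  have h0 : (W.E.withSt (W.rsSt (sfResC W R) i0)).rd = 0 := sf_res_rd_zero W hS hi h1 (sfResC W R) hz
  have h0' : (W.E.withSt (W.E.st.take (W.pos i0) ++ ⟨W.k i0, W.gb i0, W.rsM (sfResC W R) i0⟩ :: W.E.st.drop (W.pos i0 + 1))).rd = 0 := h0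
  simp only at h
  rw [h0', Real.zero_rpow (by norm_num), zero_add] at h
  exact h

/-- a class with a positive readout keeps a row.   PLAN: by contradiction all restricted weights vanish identically, so `rsM R i0 m = 0`, `en = 0` (`simp [PkSys.en]`), `sf_res_tz_zero` (the zero function is a mask), `sf_res_rd_zero`. -/
theorem sf_res_s_ne (hS : W.Str tq) {i0 : ℝ} (hi : i0 ∈ W.G) (h1 : i0 < 1) (R : ∀ j, W.Lb j → Set P.X) (hpos : 0 < (W.E.withSt (W.rsSt R i0)).rd) :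
    ∃ l, ∃ x ∈ R i0 l, W.th i0 l x ≠ 0 := by
  by_contra hcon
  push Not at hcon
  have hM0 : ∀ m, W.rsM R i0 m = fun _ => 0 := by
    intro m
    funext x
    unfold SfMD.rsM
    refine Finset.sum_eq_zero fun l _ => ?_
    split_ifs
    · by_cases hx : x ∈ R i0 l
      · rw [Set.indicator_of_mem hx]
        exact hcon l x hx
      · exact Set.indicator_of_notMem hx _
    · rfl
  have hz : ∀ m, P.tz (tmL (W.k i0) m) (W.k i0) (W.gb i0) (W.rsM R i0 m) (W.pre i0 m) = 0 := by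
    intro m
    rw [hM0 m]
    apply sf_res_tz_zero _ _ _ ⟨measurable_const, fun _ => ⟨le_rfl, zero_le_one⟩⟩
    simp [PkSys.en]
  rw [sf_res_rd_zero W hS hi h1 R hz] at hpos
  exact lt_irrefl _ hpos

/-! ## LEAF L-256-RES-T5 : the final gate -/

/-- the readout in terms of the labels of the gate `1`.   PLAN: `hS.final` gives `e`; `Equiv.sum_comp e`; `Xp.m`, `Xp.w`, `Xp.fin`, `SfMD.m`, `SfMD.pre`, `SfMD.T`: `W.k 1 = kf`, `W.gb 1 = bT`, `W.pos 1 = st.length` (`hS.k_one`), `List.take_length`. -/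
theorem sf_res_rd_lab (hS : W.Str tq) : W.E.rd = ∑ l : W.Lb 1, W.m 1 l ^ (3 / 2 : ℝ) / Real.sqrt (P.wt (W.ts 1 l)) := by
  obtain ⟨e, he⟩ := hS.final
  unfold Xp.rd
  rw [← Equiv.sum_comp e]
  refine Finset.sum_congr rfl fun l _ => ?_
  obtain ⟨a1, a2, a3⟩ := he l
  unfold Xp.m Xp.w Xp.fin SfMD.m SfMD.pre SfMD.T
  rw [a1, a2, a3, hS.k_one.1, hS.k_one.2.1, hS.k_one.2.2, List.take_length]

/-- the readout of the restricted final assignment in terms of ALL labels of the gate `1` -/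
theorem sf_res_f_tri_rd (hS : W.Str tq) (R : ∀ j, W.Lb j → Set P.X) :
    (W.rsFE R).rd = ∑ l : W.Lb 1, P.en (W.T 1 l) (W.k 1) (W.gb 1) ((R 1 l).indicator (W.th 1 l)) (W.pre 1 (W.iv 1 l)) ^ (3 / 2 : ℝ) / Real.sqrt (P.wt (W.ts 1 l)) := by
  rw [← sf_res_sum_kp W R 1 (fun l => P.en (W.T 1 l) (W.k 1) (W.gb 1) ((R 1 l).indicator (W.th 1 l)) (W.pre 1 (W.iv 1 l)) ^ (3 / 2 : ℝ) / Real.sqrt (P.wt (W.ts 1 l)))
    (fun l hl => by
      have : (R 1 l).indicator (W.th 1 l) = fun _ => 0 := funext fun x => sf_res_drop_zero W R hl x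
      rw [this]
      simp [PkSys.en])]
  rw [← Equiv.sum_comp (Fintype.equivFin {l : W.Lb 1 // W.Kp R 1 l}).symm]
  unfold Xp.rd
  refine Finset.sum_congr rfl fun a _ => ?_
  unfold SfMD.pre SfMD.T
  rw [hS.k_one.1, hS.k_one.2.1, hS.k_one.2.2, List.take_length]
  rfl

/-- PLAN: `sf_res_rd_lab` for `W` and for `W.rsF (R b)` (`sf_res_f_str`; if the class keeps no row its readout is `≥ 0`: avoid `Str` by computing `(W.rsFE R).rd` directly: reindex by `Fintype.equivFin`, then `sf_res_sum_kp`: a dropped label reads `en 0 = 0`, `0^(3/2) = 0`):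
`(W.rsFE (R b)).rd = ∑ l : W.Lb 1, m_b l ^ (3/2) / √w l`, `m_b l = en (1_{R b 1 l} th)`.   For each `l`: `W.m 1 l = ∑ b, m_b l` (`gn_en_sum` on `Option ι` or on `ι` plus the complement, `sf_res_part`, `hcov`),
`(∑ b, m_b)^(3/2) ≤ |ι|^(1/2) ∑ b, m_b^(3/2)` (`Real.rpow_sum_le_const_mul_sum_rpow_of_nonneg`, `p = 3/2`); divide by `√w ≥ 0`, sum, exchange the sums. -/
theorem sf_res_f_tri (hS : W.Str tq) {ι : Type} [Fintype ι] (R : ι → ∀ j, W.Lb j → Set P.X)
    (hm : ∀ b l, MeasurableSet (R b 1 l)) (hd : ∀ b b' l, b ≠ b' → Disjoint (R b 1 l) (R b' 1 l))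
    (hcov : ∀ l, P.en (W.T 1 l) (W.k 1) (W.gb 1) ((sfResC W R 1 l).indicator (W.th 1 l)) (W.pre 1 (W.iv 1 l)) = 0) :
    W.E.rd ≤ (Fintype.card ι : ℝ) ^ (1 / 2 : ℝ) * ∑ b, (W.rsFE (R b)).rd := by
  have h1G := hS.gate.1
  rw [sf_res_rd_lab W hS]
  simp_rw [sf_res_f_tri_rd W hS]
  rw [Finset.sum_comm, Finset.mul_sum]
  refine Finset.sum_le_sum fun l _ => ?_
  have hth := sf_doc_th_mask hS h1G l
  have hmask : ∀ S : Set P.X, MeasurableSet S → IsMask (S.indicator (W.th 1 l)) := by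
    intro S hSm
    refine ⟨hth.1.indicator hSm, fun x => ⟨Set.indicator_nonneg (fun y _ => (hth.2 y).1) x, ?_⟩⟩
    exact (Set.indicator_le_self' (fun y _ => (hth.2 y).1) x).trans (hth.2 x).2
  have hmC : MeasurableSet (sfResC W R 1 l) := (MeasurableSet.iUnion fun b => hm b l).compl
  have hsum : W.m 1 l = ∑ b, P.en (W.T 1 l) (W.k 1) (W.gb 1) ((R b 1 l).indicator (W.th 1 l)) (W.pre 1 (W.iv 1 l)) := by
    have e1 : W.th 1 l = fun x => ∑ o : Option ι, (Option.casesOn o ((sfResC W R 1 l).indicator (W.th 1 l)) (fun b => (R b 1 l).indicator (W.th 1 l)) : P.X → ℝ) x := by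
      funext x
      rw [Fintype.sum_option]
      have := sf_res_part (fun b => R b 1 l) (fun b b' hbb => hd b b' l hbb) (W.th 1 l) x
      rw [← this]
      simp only
      rw [add_comm]
      rfl
    unfold SfMD.m
    conv_lhs => rw [e1]
    rw [gn_en_sum _ _ _ Finset.univ _ (by
      intro o _
      cases o with
      | none => exact hmask _ hmC
      | some b => exact hmask _ (hm b l)), Fintype.sum_option]
    simp only
    rw [hcov l, zero_add]
  rw [hsum, ← Finset.sum_div, ← mul_div_assoc]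
  apply div_le_div_of_nonneg_right _ (Real.sqrt_nonneg _)
  have := Real.rpow_sum_le_const_mul_sum_rpow_of_nonneg (Finset.univ : Finset ι)
    (f := fun b => P.en (W.T 1 l) (W.k 1) (W.gb 1) ((R b 1 l).indicator (W.th 1 l)) (W.pre 1 (W.iv 1 l))) (p := 3 / 2) (by norm_num)
    (fun b _ => gn_en_nonneg _ _ _ (fun x => ((hmask _ (hm b l)).2 x).1) _)
  rw [show (3 / 2 : ℝ) - 1 = 1 / 2 by norm_num, Finset.card_univ] at this
  exact this

/-- PLAN: if no label keeps a row then `{l // Kp}` is empty (`1 ∈ G`), `(W.rsFE R).L = 0`, the sum `rd` is empty. -/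
theorem sf_res_f_ne (hS : W.Str tq) (R : ∀ j, W.Lb j → Set P.X) (hpos : 0 < (W.rsFE R).rd) : ∃ l, ∃ x ∈ R 1 l, W.th 1 l x ≠ 0 := by
  by_contra hcon
  have hE : IsEmpty {l : W.Lb 1 // W.Kp R 1 l} := ⟨fun l => hcon ⟨l.1, l.2 hS.gate.1⟩⟩
  have hL : (W.rsFE R).L = 0 := Fintype.card_eq_zero_iff.2 hE
  have hF : IsEmpty (Fin (W.rsFE R).L) := by
    rw [hL]
    infer_instance
  unfold Xp.rd at hpos
  rw [Finset.univ_eq_empty, Finset.sum_empty] at hpos
  exact lt_irrefl _ hpos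

/-! ## LEAF L-256-RES-T6 : pigeonhole (Mathlib only) -/

/-- PLAN: `ι` is nonempty (else `a^(1/3) ≤ 0`, `a > 0`); `b` = a maximiser of `x` (`Finite.exists_max` / `Finset.exists_max_image`); `a^(1/3) ≤ N * x b^(1/3)`; cube: `Real.rpow_le_rpow`, `Real.mul_rpow`, `← Real.rpow_mul`, `Real.rpow_natCast`. -/
theorem sf_res_pig3 {ι : Type} [Fintype ι] (a : ℝ) (x : ι → ℝ) (ha : 0 < a) (hx : ∀ b, 0 ≤ x b) (h : a ^ (1 / 3 : ℝ) ≤ ∑ b, x b ^ (1 / 3 : ℝ)) :
    ∃ b, a ≤ (Fintype.card ι : ℝ) ^ 3 * x b ∧ 0 < x b := by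
  have ha3 : 0 < a ^ (1 / 3 : ℝ) := Real.rpow_pos_of_pos ha _
  have hne : Nonempty ι := by
    by_contra hcon
    rw [not_nonempty_iff] at hcon
    rw [Finset.univ_eq_empty, Finset.sum_empty] at h
    linarith
  obtain ⟨b, hb⟩ := Finite.exists_max x
  have h1 : a ^ (1 / 3 : ℝ) ≤ (Fintype.card ι : ℝ) * x b ^ (1 / 3 : ℝ) := by
    refine h.trans ?_
    calc ∑ b', x b' ^ (1 / 3 : ℝ) ≤ ∑ _b' : ι, x b ^ (1 / 3 : ℝ) :=
          Finset.sum_le_sum (fun b' _ => Real.rpow_le_rpow (hx b') (hb b') (by norm_num))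
      _ = (Fintype.card ι : ℝ) * x b ^ (1 / 3 : ℝ) := by
          rw [Finset.sum_const, nsmul_eq_mul, Finset.card_univ]
  have h2 : (a ^ (1 / 3 : ℝ)) ^ 3 ≤ ((Fintype.card ι : ℝ) * x b ^ (1 / 3 : ℝ)) ^ 3 := pow_le_pow_left₀ ha3.le h1 3
  have e1 : ∀ y : ℝ, 0 ≤ y → (y ^ (1 / 3 : ℝ)) ^ 3 = y := by
    intro y hy
    rw [← Real.rpow_natCast, ← Real.rpow_mul hy]
    norm_num
  rw [e1 a ha.le, mul_pow, e1 _ (hx b)] at h2
  refine ⟨b, h2, ?_⟩
  rcases (hx b).lt_or_eq with h0 | h0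
  · exact h0
  · rw [← h0, mul_zero] at h2
    linarith

/-- PLAN: maximiser `b`; `a ≤ N^(1/2) * (N * x b)`, `N^(1/2) * N ≤ N^3` for `N ≥ 1` (`N^(1/2) ≤ N ≤ N²`). -/
theorem sf_res_pig1 {ι : Type} [Fintype ι] (a : ℝ) (x : ι → ℝ) (ha : 0 < a) (hx : ∀ b, 0 ≤ x b) (h : a ≤ (Fintype.card ι : ℝ) ^ (1 / 2 : ℝ) * ∑ b, x b) :
    ∃ b, a ≤ (Fintype.card ι : ℝ) ^ 3 * x b ∧ 0 < x b := by
  have hne : Nonempty ι := by
    by_contra hcon
    rw [not_nonempty_iff] at hcon
    rw [Finset.univ_eq_empty, Finset.sum_empty, mul_zero] at h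
    linarith
  obtain ⟨b, hb⟩ := Finite.exists_max x
  have hN : (1 : ℝ) ≤ (Fintype.card ι : ℝ) := by exact_mod_cast Fintype.card_pos
  have h1 : ∑ b', x b' ≤ (Fintype.card ι : ℝ) * x b := by
    calc ∑ b', x b' ≤ ∑ _b' : ι, x b := Finset.sum_le_sum (fun b' _ => hb b')
      _ = (Fintype.card ι : ℝ) * x b := by rw [Finset.sum_const, nsmul_eq_mul, Finset.card_univ]
  have h3 : (Fintype.card ι : ℝ) ^ (1 / 2 : ℝ) ≤ (Fintype.card ι : ℝ) := by
    calc (Fintype.card ι : ℝ) ^ (1 / 2 : ℝ) ≤ (Fintype.card ι : ℝ) ^ (1 : ℝ) := Real.rpow_le_rpow_of_exponent_le hN (by norm_num)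
      _ = _ := Real.rpow_one _
  have h0 : 0 ≤ (Fintype.card ι : ℝ) ^ (1 / 2 : ℝ) := by positivity
  have h2 : a ≤ (Fintype.card ι : ℝ) ^ 3 * x b := by
    calc a ≤ (Fintype.card ι : ℝ) ^ (1 / 2 : ℝ) * ∑ b, x b := h
      _ ≤ (Fintype.card ι : ℝ) ^ (1 / 2 : ℝ) * ((Fintype.card ι : ℝ) * x b) := mul_le_mul_of_nonneg_left h1 h0
      _ ≤ (Fintype.card ι : ℝ) * ((Fintype.card ι : ℝ) * x b) := mul_le_mul_of_nonneg_right h3 (mul_nonneg (by positivity) (hx b))
      _ = (Fintype.card ι : ℝ) ^ 2 * x b := by ring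
      _ ≤ (Fintype.card ι : ℝ) ^ 3 * x b := by
          refine mul_le_mul_of_nonneg_right ?_ (hx b)
          exact pow_le_pow_right₀ hN (by norm_num)
  refine ⟨b, h2, ?_⟩
  rcases (hx b).lt_or_eq with h0 | h0
  · exact h0
  · rw [← h0, mul_zero] at h2
    linarith

/-- **(RES-PICK)** -/
theorem sf_res_pick (hT : P.Tight) (hS : W.Str tq) {i0 : ℝ} (hi : i0 ∈ W.G) {ι : Type} [Finite ι] (R : ι → ∀ j, W.Lb j → Set P.X)
    (hm : ∀ b j l, MeasurableSet (R b j l)) (hu : ∀ b j, j ≠ i0 → ∀ l, R b j l = Set.univ) (hd : ∀ b b' l, b ≠ b' → Disjoint (R b i0 l) (R b' i0 l))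
    (hcov : ∀ l, P.en (W.T i0 l) (W.k i0) (W.gb i0) ((sfResC W R i0 l).indicator (W.th i0 l)) (W.pre i0 (W.iv i0 l)) = 0) (hpos : 0 < W.E.rd) :
    ∃ (b : ι) (W' : SfMD P), Nonempty (SfRn W' W i0 (R b)) ∧ W'.Str tq ∧ W.E.rd ≤ (Nat.card ι : ℝ) ^ 3 * W'.E.rd ∧ W'.E.st.length = W.E.st.length ∧
      (∀ C, W.E.GenLe C → W'.E.GenLe C) ∧ W'.pos = W.pos := by
  have := Fintype.ofFinite ι
  rw [Nat.card_eq_fintype_card]
  rcases lt_or_eq_of_le (hS.gate.2 i0 hi).2 with h1 | h1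
  · have hv : ∀ b, (W.E.withSt (W.rsSt (R b) i0)).Valid := fun b => sf_res_s_valid W (R b) hS hi h1 (hm b i0)
    obtain ⟨b, hb, hb0⟩ := sf_res_pig3 W.E.rd (fun b => (W.E.withSt (W.rsSt (R b) i0)).rd) hpos (fun b => gn_rd_nonneg _ (hv b))
      (sf_res_s_tri W hT hS hi h1 R (fun b => hm b i0) hd hcov)
    have hR : SfRh W (R b) i0 := ⟨hm b, hu b, sf_res_s_ne W hS hi h1 (R b) hb0⟩
    exact ⟨b, W.rsS (R b) i0, ⟨sfResRfS W (R b) hS hi h1⟩, sf_res_s_str W (R b) hS hi h1 hR, hb, sf_res_len W (R b) hS hi h1,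
      fun C hC => sf_res_s_gen W (R b) hS hi h1 C hC, rfl⟩
  · subst h1
    have hv : ∀ b, (W.rsFE (R b)).Valid := fun b => sf_res_f_valid W (R b) hS (hm b 1)
    obtain ⟨b, hb, hb0⟩ := sf_res_pig1 W.E.rd (fun b => (W.rsFE (R b)).rd) hpos (fun b => gn_rd_nonneg _ (hv b))
      (sf_res_f_tri W hS R (fun b => hm b 1) hd hcov)
    have hR : SfRh W (R b) 1 := ⟨hm b, hu b, sf_res_f_ne W hS (R b) hb0⟩
    exact ⟨b, W.rsF (R b), ⟨sfResRfF W (R b)⟩, sf_res_f_str W (R b) hS hR, hb, rfl, fun C hC => hC, rfl⟩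

end

end Claimed.Agent.R256
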