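import Claimed.Agent.R256.Soft.Model

/-!
# Row 256 (S0496), unit SOFT, M8 VAL: auxiliary lemmas      (helper265)
`sf_val_core`: structure + read mass + weight count AT THE FINAL GATE give the near extremal value (Hoelder, cubic form).   Independent of the shadow.
-/

set_option autoImplicit false

namespace Claimed.Agent.R256

open MeasureTheory Claimed.Agent.R255

/-- powers of the scale -/
theorem sf_val_aux_s (n : ℕ) (x : ℝ) : ((2 : ℝ)⁻¹ ^ n) ^ x = 2 ^ (-(x * n)) := by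
  rw [← Real.rpow_natCast, ← Real.rpow_mul (by positivity), Real.inv_rpow (by norm_num), ← Real.rpow_neg (by norm_num)]
  congr 1
  ring

/-- Hölder, cubic form: `(Σ m)³ ≤ (Σ m^(3/2) w^(-1/2))² Σ w` -/
theorem sf_val_aux_holder {ι : Type} (S : Finset ι) (m w : ι → ℝ) (hm : ∀ i ∈ S, 0 ≤ m i) (hw : ∀ i ∈ S, 0 < w i) :
    (∑ i ∈ S, m i) ^ 3 ≤ (∑ i ∈ S, m i ^ (3 / 2 : ℝ) / Real.sqrt (w i)) ^ 2 * ∑ i ∈ S, w i := by
  have hpq : (3 / 2 : ℝ).HolderConjugate 3 := Real.holderConjugate_iff.2 ⟨by norm_num, by norm_num⟩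
  have h := Real.inner_le_Lp_mul_Lq_of_nonneg S (f := fun i => m i / w i ^ (1 / 3 : ℝ)) (g := fun i => w i ^ (1 / 3 : ℝ)) hpq
    (fun i hi => div_nonneg (hm i hi) (Real.rpow_nonneg (hw i hi).le _)) (fun i hi => Real.rpow_nonneg (hw i hi).le _)
  have e1 : ∑ i ∈ S, m i / w i ^ (1 / 3 : ℝ) * w i ^ (1 / 3 : ℝ) = ∑ i ∈ S, m i :=
    Finset.sum_congr rfl fun i hi => div_mul_cancel₀ _ (Real.rpow_pos_of_pos (hw i hi) _).ne'
  have e2 : ∑ i ∈ S, (m i / w i ^ (1 / 3 : ℝ)) ^ (3 / 2 : ℝ) = ∑ i ∈ S, m i ^ (3 / 2 : ℝ) / Real.sqrt (w i) := by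
    refine Finset.sum_congr rfl fun i hi => ?_
    rw [Real.div_rpow (hm i hi) (Real.rpow_nonneg (hw i hi).le _), ← Real.rpow_mul (hw i hi).le, Real.sqrt_eq_rpow]
    norm_num
  have e3 : ∑ i ∈ S, (w i ^ (1 / 3 : ℝ)) ^ (3 : ℝ) = ∑ i ∈ S, w i := by
    refine Finset.sum_congr rfl fun i hi => ?_
    rw [← Real.rpow_mul (hw i hi).le]
    norm_num
  rw [e1, e2, e3] at h
  have hR : 0 ≤ ∑ i ∈ S, m i ^ (3 / 2 : ℝ) / Real.sqrt (w i) :=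
    Finset.sum_nonneg fun i hi => div_nonneg (Real.rpow_nonneg (hm i hi) _) (Real.sqrt_nonneg _)
  have hW : 0 ≤ ∑ i ∈ S, w i := Finset.sum_nonneg fun i hi => (hw i hi).le
  have hM : 0 ≤ ∑ i ∈ S, m i := Finset.sum_nonneg hm
  have h3 := pow_le_pow_left₀ hM h 3
  have c1 : ((∑ i ∈ S, m i ^ (3 / 2 : ℝ) / Real.sqrt (w i)) ^ (1 / (3 / 2 : ℝ))) ^ 3 = (∑ i ∈ S, m i ^ (3 / 2 : ℝ) / Real.sqrt (w i)) ^ 2 := by
    rw [← Real.rpow_natCast, ← Real.rpow_mul hR, ← Real.rpow_natCast]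
    congr 1
    norm_num
  have c2 : ((∑ i ∈ S, w i) ^ (1 / 3 : ℝ)) ^ 3 = ∑ i ∈ S, w i := by
    rw [← Real.rpow_natCast, ← Real.rpow_mul hW]
    norm_num
  rw [mul_pow, c1, c2] at h3
  exact h3

/-- the numerology of `sf_val` -/
theorem sf_val_aux_num (s e κ t d p Γ M Wt rd : ℝ) (hs : 0 < s) (hs1 : s ≤ 1) (he : 0 < e) (hκ : 0 < κ) (ht : 0 < t)
    (hΓ : Γ = d + (1 - p) / 2) (hM : s ^ t * e * s ^ (-(d * 1)) ≤ M) (hW : Wt ≤ s ^ (-t) * (e / κ) * s ^ (-((p + d) * 1)))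
    (hrd : 0 ≤ rd) (hH : M ^ 3 ≤ rd ^ 2 * Wt) : s ^ (3 * t - Γ) ≤ s ^ (-(1 / 2 : ℝ)) / (e * Real.sqrt κ) * rd := by
  have hx : 0 < s ^ (2 * t - Γ) := Real.rpow_pos_of_pos hs _
  have h0 : s ^ (3 * t - Γ) ≤ s ^ (2 * t - Γ) := Real.rpow_le_rpow_of_exponent_ge hs hs1 (by linarith)
  refine h0.trans ?_
  have hV : 0 ≤ s ^ (-(1 / 2 : ℝ)) / (e * Real.sqrt κ) * rd := by positivity
  refine (pow_le_pow_iff_left₀ hx.le hV two_ne_zero).1 ?_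
  have a1 : (s ^ (-(1 / 2 : ℝ))) ^ 2 = s ^ (-1 : ℝ) := by
    rw [← Real.rpow_natCast, ← Real.rpow_mul hs.le]
    norm_num
  have a2 : (s ^ (-(1 / 2 : ℝ)) / (e * Real.sqrt κ) * rd) ^ 2 = s ^ (-1 : ℝ) * rd ^ 2 / (e ^ 2 * κ) := by
    rw [mul_pow, div_pow, mul_pow, Real.sq_sqrt hκ.le, a1]
    ring
  rw [a2, le_div_iff₀ (by positivity)]
  have key : (s ^ (2 * t - Γ)) ^ 2 * (s ^ (-t) * s ^ (-((p + d) * 1))) = s ^ (-1 : ℝ) * (s ^ t * s ^ (-(d * 1))) ^ 3 := by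
    rw [← Real.rpow_add hs, ← Real.rpow_add hs, ← Real.rpow_natCast, ← Real.rpow_natCast, ← Real.rpow_mul hs.le, ← Real.rpow_mul hs.le,
      ← Real.rpow_add hs, ← Real.rpow_add hs]
    congr 1
    rw [hΓ]
    push_cast
    ring
  have hW0 : 0 < s ^ (-t) * (e / κ) * s ^ (-((p + d) * 1)) := by positivity
  have hM0 : 0 ≤ s ^ t * e * s ^ (-(d * 1)) := by positivity
  have id1 : (s ^ (2 * t - Γ)) ^ 2 * (e ^ 2 * κ) * (s ^ (-t) * (e / κ) * s ^ (-((p + d) * 1))) = s ^ (-1 : ℝ) * (s ^ t * e * s ^ (-(d * 1))) ^ 3 := by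
    have b1 : (s ^ (2 * t - Γ)) ^ 2 * (e ^ 2 * κ) * (s ^ (-t) * (e / κ) * s ^ (-((p + d) * 1))) =
        e ^ 3 * ((s ^ (2 * t - Γ)) ^ 2 * (s ^ (-t) * s ^ (-((p + d) * 1)))) := by
      field_simp
    rw [b1, key]
    ring
  have c1 : (s ^ t * e * s ^ (-(d * 1))) ^ 3 ≤ rd ^ 2 * (s ^ (-t) * (e / κ) * s ^ (-((p + d) * 1))) :=
    (pow_le_pow_left₀ hM0 hM 3).trans (hH.trans (mul_le_mul_of_nonneg_left hW (sq_nonneg _)))
  have hs' : 0 < s ^ (-1 : ℝ) := Real.rpow_pos_of_pos hs _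
  refine le_of_mul_le_mul_right ?_ hW0
  rw [id1]
  calc s ^ (-1 : ℝ) * (s ^ t * e * s ^ (-(d * 1))) ^ 3 ≤ s ^ (-1 : ℝ) * (rd ^ 2 * (s ^ (-t) * (e / κ) * s ^ (-((p + d) * 1)))) :=
        mul_le_mul_of_nonneg_left c1 hs'.le
    _ = s ^ (-1 : ℝ) * rd ^ 2 * (s ^ (-t) * (e / κ) * s ^ (-((p + d) * 1))) := by ring

/-- the final gate of a documented experiment is the final assignment: masses -/
theorem sf_val_aux_m {P : PkSys} (W : SfMD P) (tq : P.Tst → CyT) (hS : W.Str tq) (e : W.Lb 1 ≃ Fin W.E.L)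
    (he : ∀ l, W.E.iv (e l) = W.iv 1 l ∧ W.E.ts (e l) = W.ts 1 l ∧ W.E.th (e l) = W.th 1 l) (l : W.Lb 1) : W.m 1 l = W.E.m (e l) := by
  obtain ⟨h1, _, h3⟩ := he l
  show P.en (tmL (W.k 1) (W.iv 1 l)) (W.k 1) (W.gb 1) (W.th 1 l) (Xp.run (W.k 1) (W.iv 1 l) (W.E.st.take (W.pos 1)) W.E.v) =
    P.en (tmL W.E.kf (W.E.iv (e l))) W.E.kf W.E.bT (W.E.th (e l)) (Xp.run W.E.kf (W.E.iv (e l)) W.E.st W.E.v)
  rw [hS.k_one.1, hS.k_one.2.1, hS.k_one.2.2, List.take_length, h1, h3]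

/-- **core of M8 VAL**: read mass and weight count at the final gate give a near extremal value -/
theorem sf_val_core {P : PkSys} (W : SfMD P) (tq : P.Tst → CyT) (hS : W.Str tq) (Γ p d t : ℝ) (hΓ : Γ = d + (1 - p) / 2) (ht : 0 < t)
    (h1 : W.E.s ^ t * W.E.e * W.E.s ^ (-(d * 1)) ≤ W.tot 1)
    (h2 : ∑ l, P.wt (W.ts 1 l) ≤ W.E.s ^ (-t) * (W.E.e / W.E.ka) * W.E.s ^ (-((p + d) * 1))) :
    (2 : ℝ) ^ ((Γ - 3 * t) * W.E.n) ≤ W.E.val := by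
  have hV := hS.valid
  obtain ⟨e, he⟩ := hS.final
  have hm : ∀ l ∈ (Finset.univ : Finset (Fin W.E.L)), 0 ≤ W.E.m l := fun l _ =>
    integral_nonneg fun x => mul_nonneg (hV.th_nn l x) (sq_nonneg _)
  have hH := sf_val_aux_holder Finset.univ W.E.m W.E.w hm (fun l _ => hV.w_pos l)
  have hM : W.tot 1 = ∑ l, W.E.m l := by
    show ∑ l, W.m 1 l = _
    rw [← Equiv.sum_comp e]
    exact Finset.sum_congr rfl fun l _ => sf_val_aux_m W _ hS e he l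
  have hW : ∑ l, P.wt (W.ts 1 l) = ∑ l, W.E.w l := by
    rw [← Equiv.sum_comp e]
    refine Finset.sum_congr rfl fun l _ => ?_
    show _ = P.wt (W.E.ts (e l))
    rw [(he l).2.1]
  rw [hM] at h1
  rw [hW] at h2
  have hs : 0 < W.E.s := by
    show 0 < (2 : ℝ)⁻¹ ^ W.E.n
    positivity
  have hs1 : W.E.s ≤ 1 := pow_le_one₀ (by norm_num) (by norm_num)
  have hrd : 0 ≤ W.E.rd := Finset.sum_nonneg fun l _ => div_nonneg (Real.rpow_nonneg (hm l (Finset.mem_univ _)) _) (Real.sqrt_nonneg _)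
  have key := sf_val_aux_num W.E.s W.E.e W.E.ka t d p Γ _ _ W.E.rd hs hs1 hV.e_pos hV.ka_pos ht hΓ h1 h2 hrd hH
  have e1 : W.E.s ^ (3 * t - Γ) = (2 : ℝ) ^ ((Γ - 3 * t) * W.E.n) := by
    rw [show W.E.s = (2 : ℝ)⁻¹ ^ W.E.n from rfl, sf_val_aux_s]
    congr 1
    ring
  have e2 : W.E.s ^ (-(1 / 2 : ℝ)) = (2 : ℝ) ^ ((W.E.n : ℝ) / 2) := by
    rw [show W.E.s = (2 : ℝ)⁻¹ ^ W.E.n from rfl, sf_val_aux_s]
    congr 1
    ring
  rw [e1, e2] at key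
  exact key

end Claimed.Agent.R256
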