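import Claimed.Agent.R256.Cyl.TopA
import Claimed.Agent.R256.Soft.MDocAf
import Claimed.Agent.R256.Soft.MValAux

/-!
# Row 256 (S0496), unit SOFT, M3 EX/DOC, file 2: FROM A DOCUMENTED EXPERIMENT TO A CONFIGURATION AND BACK      (architect helper39; block BP-256-SOFT-DOC; prefix `sf_doc_`)

* `SfDocMat Y Ls`    Prop. cyl:matched-chain in the form used by EX/DOC: the frame is an INPUT (`W.Q0 = {Q0 with r := r1, f := f1}`), the labels of all gates are polynomial in the root frame.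
* `sf_doc_ext_eps`   `Ext` survives a smaller truncation exponent.
* `sf_doc_pkg`       polynomial labels ⟹ the size clause of `SfCfg.ob` for ANY shadow, with the package `3 C + 5`.
* `sf_doc_tot_pos`   read masses are positive.
* `sfDocKeep`, `sf_doc_keep_*`    DOC, input side: the terminal labels WITH A ROW in the old shadow carry the whole value; the picked experiment satisfies the hypotheses of `SfDocMat`.
* `sf_doc_lab_old`   DOC, output side: the terminal labels of the new shadow are terminal labels of rows of the old shadow, in the same frame.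
-/

set_option autoImplicit false

namespace Claimed.Agent.R256

open MeasureTheory Claimed.Agent.R255

/-- **Prop. cyl:matched-chain**, form used by EX/DOC -/
def SfDocMat (Y : SfCy) (Ls : ℝ) : Prop :=
  ∀ F : Finset ℝ, (∀ i ∈ F, 0 ≤ i ∧ i ≤ 1) → ∃ ε0 : ℝ, 0 < ε0 ∧ ∀ a : ℝ, 0 < a → ∃ τ : ℝ, 0 < τ ∧
    ∀ C : ℕ, ∃ C' : ℕ, ∀ A' : ℕ, ∃ A n0 : ℕ, ∀ (p : Y.M.Par) (E : Xp (Y.M.sys p)) (Q0 : CyT) (r1 f1 : ℝ), n0 ≤ E.n → Y.M.Cls C A p E →
      Y.af C A p E Q0 → (∀ l, (Y.tq p (E.ts l)).r = r1 ∧ (Y.tq p (E.ts l)).f = f1) →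
      E.tw ≤ E.e / E.ka * E.s ^ (-(Y.M.p0 + Y.M.d0) - τ) → 2 ^ ((Y.M.Gam - τ) * E.n) ≤ E.val →
      ∃ W : SfMD (Y.M.sys p), W.G = insert 1 F ∧ W.Q0 = { Q0 with r := r1, f := f1 } ∧ Y.M.Cls C' A' p W.E ∧ Y.af C' A' p W.E W.Q0 ∧
        Mdl.SameRoot E W.E ∧ W.E.n = E.n ∧ CySubLab E W.E ∧ E.s ^ a * E.val ≤ W.E.val ∧ W.Ext Y p Y.M.p0 Y.M.d0 Ls ε0 a ∧
        ∀ i ∈ W.G, ∀ l, CyBdd (W.E.s ^ (C' : ℝ)) (cyNrm (tmL W.E.k0 W.E.i0) W.E.k0 W.Q0 (W.T i l) (Y.tq p (W.ts i l)))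

theorem sf_doc_glue_eqns_cite : True := by
  have := @SfDocMat.eq_1
  trivial

/-- `Ext` survives a smaller truncation exponent -/
theorem sf_doc_ext_eps {Y : SfCy} (H : CyHyp Y) {p : Y.M.Par} {W : SfMD (Y.M.sys p)} {pe de Ls ε ε' a : ℝ} (h : W.Ext Y p pe de Ls ε a)
    (hε : ε' ≤ ε) : W.Ext Y p pe de Ls ε' a :=
  ⟨h.str, h.depth, h.cnt, h.en, h.reg, h.read, h.wr, fun i j hij l l' x x' h1 h2 h3 =>
    h.mm i j hij l l' x x' h1 h2 (sf_doc_cn_mono H (gn_s_anti W.E (by linarith)) h3)⟩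

theorem sf_doc_lab_nrm (Y : SfCy) (p : Y.M.Par) (W : SfMD (Y.M.sys p)) (i : ℝ) (l : W.Lb i) :
    sfDocLab Y p W i l = cyNrm (tmL W.E.k0 W.E.i0) W.E.k0 W.Q0 (W.T i l) (Y.tq p (W.ts i l)) := rfl

/-- read masses are positive -/
theorem sf_doc_tot_pos {Y : SfCy} {p : Y.M.Par} {W : SfMD (Y.M.sys p)} {pe de Ls ε a : ℝ} (h : W.Ext Y p pe de Ls ε a) :
    ∀ i ∈ W.G, 0 < W.tot i := by
  intro i hi
  refine lt_of_lt_of_le ?_ (h.read i hi)
  have h1 := h.str.valid.e_pos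
  have h2 : 0 < W.E.s ^ a := Real.rpow_pos_of_pos (gn_s_pos W.E) _
  have h3 : 0 < W.E.s ^ (-(de * i)) := Real.rpow_pos_of_pos (gn_s_pos W.E) _
  positivity

/-- **the size clause of the package** -/
theorem sf_doc_pkg (Y : SfCy) (hg : SfGeo Y) (p : Y.M.Par) (W : SfMD (Y.M.sys p)) (hS : W.Str (Y.tq p)) {de ε μ : ℝ} {D : SfDoc}
    (sh : SfSh Y p W de ε μ D) (C : ℕ) (hn : 1 ≤ W.E.n)
    (hb : ∀ i ∈ W.G, ∀ l, CyBdd (W.E.s ^ (C : ℝ)) (cyNrm (tmL W.E.k0 W.E.i0) W.E.k0 W.Q0 (W.T i l) (Y.tq p (W.ts i l)))) :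
    ∀ i ∈ D.G, ∀ ρ, (D.ray i ρ).size ≤ D.s ^ (-((3 * C + 5 : ℕ) : ℝ)) ∧ (D.lab i ρ).size ≤ D.s ^ (-((3 * C + 5 : ℕ) : ℝ)) := by
  have hs0 := gn_s_pos W.E
  have hs1 := gn_s_le_one W.E
  have eB : (W.E.s ^ (C : ℝ))⁻¹ = W.E.s ^ (-(C : ℝ)) := (Real.rpow_neg hs0.le _).symm
  have hB : 1 ≤ W.E.s ^ (-(C : ℝ)) := by
    have := gn_s_anti W.E (show -(C : ℝ) ≤ 0 by simp)
    rwa [Real.rpow_zero] at this
  have key := sf_doc_sizes Y hg p W hS sh hB (fun i hi l => by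
    obtain ⟨b1, -, b2, -, b3⟩ := hb i hi l
    rw [eB] at b1 b2 b3
    exact ⟨b1, b2, b3⟩)
  have h32 : (32 : ℝ) ≤ W.E.s ^ (-(5 : ℝ)) := by
    rw [gn_s_rpow]
    have h1 : (1 : ℝ) ≤ W.E.n := by exact_mod_cast hn
    calc (32 : ℝ) = 2 ^ (5 : ℝ) := by norm_num
      _ ≤ 2 ^ (-(-(5 : ℝ) * W.E.n)) := gn_two_mono (by linarith)
  have e3 : (W.E.s ^ (-(C : ℝ))) ^ 3 = W.E.s ^ (-(3 * (C : ℝ))) := by
    rw [← Real.rpow_natCast, ← Real.rpow_mul hs0.le]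
    congr 1
    push_cast
    ring
  have eS : W.E.s ^ (-((3 * C + 5 : ℕ) : ℝ)) = W.E.s ^ (-(5 : ℝ)) * W.E.s ^ (-(3 * (C : ℝ))) := by
    rw [← Real.rpow_add hs0]
    congr 1
    push_cast
    ring
  intro i hi ρ
  obtain ⟨k1, k2⟩ := key i hi ρ
  rw [sh.hs, eS]
  have hp3 : 0 < W.E.s ^ (-(3 * (C : ℝ))) := Real.rpow_pos_of_pos hs0 _
  constructor
  · rw [e3] at k1
    exact k1.trans (mul_le_mul_of_nonneg_right h32 hp3.le)
  · refine k2.trans ?_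
    have h4 : W.E.s ^ (-(C : ℝ)) ≤ W.E.s ^ (-(3 * (C : ℝ))) := gn_s_anti W.E (by
      have : (0 : ℝ) ≤ C := Nat.cast_nonneg _
      linarith)
    calc W.E.s ^ (-(C : ℝ)) ≤ 1 * W.E.s ^ (-(3 * (C : ℝ))) := by rw [one_mul]; exact h4
      _ ≤ W.E.s ^ (-(5 : ℝ)) * W.E.s ^ (-(3 * (C : ℝ))) := mul_le_mul_of_nonneg_right (by linarith) hp3.le

/-! ## DOC, input side -/

/-- a label without rows to cover reads no mass -/
theorem sf_doc_m_zero (Y : SfCy) (p : Y.M.Par) (W : SfMD (Y.M.sys p)) (hO : Y.hyb = false → W.NoOrph) {i : ℝ} (hi : i ∈ W.G) (l : W.Lb i)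
    (h : sfDocSup Y p W i l = ∅) : W.m i l = 0 := by
  by_cases hc : Y.hyb = true
  · have h0 : ∀ x, W.th i l x = 0 := by
      intro x
      by_contra hx
      have : x ∈ sfDocSup Y p W i l := ⟨hx, fun h' => by rw [hc] at h'; exact absurd h' (by simp)⟩
      rw [h] at this
      exact this
    unfold SfMD.m PkSys.en
    simp [h0]
  · have hc' : Y.hyb = false := by simpa using hc
    have e : W.th i l = {x | ¬ W.Anc i l x}.indicator (W.th i l) := by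
      funext x
      by_cases hx : W.Anc i l x
      · have h1 : W.th i l x = 0 := by
          by_contra h2
          have : x ∈ sfDocSup Y p W i l := ⟨h2, fun _ => hx⟩
          rw [h] at this
          exact this
        rw [Set.indicator_of_notMem (by simpa using hx), h1]
      · rw [Set.indicator_of_mem (by simpa using hx)]
    unfold SfMD.m
    rw [e]
    exact hO hc' i hi l

section

variable {Y : SfCy} {p : Y.M.Par} {W : SfMD (Y.M.sys p)} {de ε μ : ℝ} {D : SfDoc}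

open Classical in
/-- the terminal labels that have a row in the shadow -/
noncomputable def sfDocKeep (sh : SfSh Y p W de ε μ D) : Finset (Fin W.E.L) :=
  Finset.univ.filter fun l => ∃ ρ : D.Row 1, W.E.iv l = W.iv 1 (sh.lb 1 ρ) ∧ W.E.ts l = W.ts 1 (sh.lb 1 ρ)

/-- the experiment restricted to these labels -/
noncomputable def sfDocE1 (sh : SfSh Y p W de ε μ D) : Xp (Y.M.sys p) := W.E.pick (W.E.sel (sfDocKeep sh))

theorem sf_doc_keep_eqns_cite : True := by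
  have := @sfDocKeep.eq_1
  have := @sfDocE1.eq_1
  trivial

theorem sf_doc_keep_tr (sh : SfSh Y p W de ε μ D) (hS : W.Str (Y.tq p)) (hO : Y.hyb = false → W.NoOrph) (l : Fin W.E.L)
    (hl : l ∉ sfDocKeep sh) : W.E.tr l = 0 := by
  classical
  obtain ⟨e, he⟩ := hS.final
  have h1 : sfDocSup Y p W 1 (e.symm l) = ∅ := by
    by_contra hne
    obtain ⟨x, hx⟩ := Set.nonempty_iff_ne_empty.2 hne
    obtain ⟨ρ, hρ, -⟩ := (sh.at_cov 1 hS.gate.1 (e.symm l) x).1 hx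
    refine hl (Finset.mem_filter.2 ⟨Finset.mem_univ _, ρ, ?_, ?_⟩)
    · rw [hρ, ← (he (e.symm l)).1, Equiv.apply_symm_apply]
    · rw [hρ, ← (he (e.symm l)).2.1, Equiv.apply_symm_apply]
  have h2 := sf_doc_m_zero Y p W hO hS.gate.1 (e.symm l) h1
  rw [sf_val_aux_m W (Y.tq p) hS e he, Equiv.apply_symm_apply] at h2
  unfold Xp.tr
  rw [h2, Real.zero_rpow (by norm_num), zero_div]

theorem sf_doc_keep_val (sh : SfSh Y p W de ε μ D) (hS : W.Str (Y.tq p)) (hO : Y.hyb = false → W.NoOrph) : (sfDocE1 sh).val = W.E.val := by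
  unfold sfDocE1
  rw [gn_pick_sel_val]
  have : ∑ l ∈ sfDocKeep sh, W.E.tr l = ∑ l, W.E.tr l :=
    Finset.sum_subset (Finset.subset_univ _) fun l _ hl => sf_doc_keep_tr sh hS hO l hl
  rw [this]
  rfl

theorem sf_doc_keep_tw (sh : SfSh Y p W de ε μ D) (hS : W.Str (Y.tq p)) : (sfDocE1 sh).tw ≤ ∑ l, (Y.M.sys p).wt (W.ts 1 l) := by
  have h1 : (sfDocE1 sh).tw = ∑ l ∈ sfDocKeep sh, W.E.w l := by
    rw [← gn_sel_sum W.E (sfDocKeep sh) W.E.w]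
    rfl
  rw [h1]
  refine (Finset.sum_le_sum_of_subset_of_nonneg (Finset.subset_univ _) fun l _ _ => (hS.valid.w_pos l).le).trans (le_of_eq ?_)
  obtain ⟨e, he⟩ := hS.final
  rw [← Equiv.sum_comp e]
  refine Finset.sum_congr rfl fun l _ => ?_
  unfold Xp.w
  rw [(he l).2.1]

/-- **DOC, input side**: the picked experiment satisfies the hypotheses of `SfDocMat` in the old frame -/
theorem sf_doc_keep_hyp (H : CyHyp Y) (sh : SfSh Y p W de ε μ D) {pe Ls a Γ τ : ℝ} (hx : W.Ext Y p pe de Ls ε a) (hO : Y.hyb = false → W.NoOrph)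
    (hΓ : Γ = de + (1 - pe) / 2) (ha : 0 < a) (hτ : 3 * a ≤ τ) {C A : ℕ} (h1 : W.E.st.length ≤ C) (h2 : W.E.GenLe C) (h3 : Y.af C A p W.E W.Q0) :
    Y.M.Cls C A p (sfDocE1 sh) ∧ Y.af C A p (sfDocE1 sh) W.Q0 ∧
      (∀ l, (Y.tq p ((sfDocE1 sh).ts l)).r = W.Q0.r ∧ (Y.tq p ((sfDocE1 sh).ts l)).f = W.Q0.f) ∧
      (sfDocE1 sh).tw ≤ (sfDocE1 sh).e / (sfDocE1 sh).ka * (sfDocE1 sh).s ^ (-(pe + de) - τ) ∧ 2 ^ ((Γ - τ) * (sfDocE1 sh).n) ≤ (sfDocE1 sh).val := by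
  have hS := hx.str
  have hgd : Y.M.gd p := ((H.af_def C A p W.E W.Q0).1 h3).1
  have hcls : Y.M.Cls C A p W.E := ⟨hgd, hS.valid, h1, h2, (H.af_iff C A p W.E hgd).2 ⟨W.Q0, h3⟩⟩
  refine ⟨gn_cls_pick Y.M H.gen.root hcls _ (gn_sel_inj _ _), sf_doc_af_root H h3 ⟨rfl, rfl, rfl, rfl, rfl, rfl⟩ rfl, ?_, ?_, ?_⟩
  · intro l
    obtain ⟨e, he⟩ := hS.final
    have e1 : (sfDocE1 sh).ts l = W.ts 1 (e.symm (W.E.sel (sfDocKeep sh) l)) := by
      rw [← (he _).2.1, Equiv.apply_symm_apply]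
      rfl
    rw [e1, (hS.width 1 hS.gate.1 _).1, (hS.width 1 hS.gate.1 _).2, hS.frame.1, hS.frame.2.1]
    exact ⟨rfl, rfl⟩
  · refine (sf_doc_keep_tw sh hS).trans ((hx.cnt 1 hS.gate.1).trans ?_)
    show W.E.s ^ (-a) * (W.E.e / W.E.ka) * W.E.s ^ (-((pe + de) * 1)) ≤ W.E.e / W.E.ka * W.E.s ^ (-(pe + de) - τ)
    have hs0 := gn_s_pos W.E
    have hek : 0 < W.E.e / W.E.ka := div_pos hS.valid.e_pos hS.valid.ka_pos
    have e2 : W.E.s ^ (-a) * (W.E.e / W.E.ka) * W.E.s ^ (-((pe + de) * 1)) = W.E.e / W.E.ka * W.E.s ^ (-(pe + de) - a) := by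
      rw [show -(pe + de) - a = -a + -((pe + de) * 1) by ring, Real.rpow_add hs0]
      ring
    rw [e2]
    exact mul_le_mul_of_nonneg_left (gn_s_anti W.E (by linarith)) hek.le
  · rw [sf_doc_keep_val sh hS hO]
    refine le_trans ?_ (sf_val_core W (Y.tq p) hS Γ pe de a hΓ ha (hx.read 1 hS.gate.1) (hx.cnt 1 hS.gate.1))
    show (2 : ℝ) ^ ((Γ - τ) * W.E.n) ≤ _
    refine gn_two_mono (mul_le_mul_of_nonneg_right (by linarith) (Nat.cast_nonneg _))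

/-- **DOC, output side**: the terminal labels of a sub-document are labels of rows of the old shadow, in the same frame -/
theorem sf_doc_lab_old (sh : SfSh Y p W de ε μ D) (hS : W.Str (Y.tq p)) {W' : SfMD (Y.M.sys p)} (hS' : W'.Str (Y.tq p))
    (hroot : Mdl.SameRoot (sfDocE1 sh) W'.E) (hn : W'.E.n = (sfDocE1 sh).n) (hQ : W'.Q0 = W.Q0) (hsub : CySubLab (sfDocE1 sh) W'.E) (l' : W'.Lb 1) :
    ∃ ρ : D.Row 1, sfDocLab Y p W' 1 l' = D.lab 1 ρ := by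
  classical
  obtain ⟨e', he'⟩ := hS'.final
  obtain ⟨φ, -, hφ⟩ := hsub
  obtain ⟨ρ, r1, r2⟩ := (Finset.mem_filter.1 (gn_sel_mem W.E (sfDocKeep sh) (φ (e' l')))).2
  refine ⟨ρ, ?_⟩
  rw [sh.hlab 1 hS.gate.1 ρ]
  have k0 : W'.E.k0 = W.E.k0 := hroot.1
  have i0 : W'.E.i0 = W.E.i0 := hroot.2.1
  have hn' : W'.E.n = W.E.n := hn
  have iv : W'.iv 1 l' = W.iv 1 (sh.lb 1 ρ) := by
    rw [← (he' l').1, (hφ (e' l')).1, ← r1]
    rfl
  have ts : W'.ts 1 l' = W.ts 1 (sh.lb 1 ρ) := by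
    rw [← (he' l').2.1, (hφ (e' l')).2.1, ← r2]
    rfl
  have hT : W'.T 1 l' = W.T 1 (sh.lb 1 ρ) := by
    unfold SfMD.T
    rw [iv, hS'.k_one.1, hS.k_one.1]
    unfold Xp.kf
    rw [k0, hn']
  unfold sfDocLab SfMD.fr
  rw [hT, ts, k0, i0, hQ]

end

end Claimed.Agent.R256
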