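import Claimed.Agent.R256.Soft.Entry
import Claimed.Agent.R256.Cyl.Top

/-!
# Row 256 (S0496), unit SOFT: `SfPrepC` FROM `CyForward`      (helper44; prefix `sf_ent_`)

`CyForward` asks `CyGap W.G h` (gaps `≥ h` AND no gate in `(0,h)`; SS2 needs relative depths `≥ h`), `SfPrepC` gives only the gaps.      REPAIR, local to this file: with `K = 1 + |p| + |d| + 2 Ls`,
`(a1B, τB) = CyForward (h, a/2)`, `h₂ = min h (a1B/2K) (a/2K) (1/2)`, `(a1A, τA) = CyForward (h₂, a)`: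
 (A) no gate in `(0, h₂)`: `CyGap W.G h₂`, `CyForward (h₂, a)`.
 (B) a gate `i₁ ∈ (0, h₂)` (it is the first gate, `0 ∉ W.G`): the gates are RELABELLED by the swap `ι = (0 i₁)` (`SfMD.rel`): all exponents move by `≤ K i₁`; `CyForward (h, a/2)` for the relabelled document; relabel back (`ι ∘ ι = id`).
-/

set_option autoImplicit false

namespace Claimed.Agent.R256

open MeasureTheory Claimed.Agent.R255

/-- relabelling of the gates along `ι` -/
def SfMD.rel {P : PkSys} (W : SfMD P) (ι : ℝ → ℝ) (G' : Finset ℝ) : SfMD P where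
  E := W.E
  Q0 := W.Q0
  G := G'
  k := fun i => W.k (ι i)
  pos := fun i => W.pos (ι i)
  gb := fun i => W.gb (ι i)
  Lb := fun i => W.Lb (ι i)
  fLb := fun i => W.fLb (ι i)
  iv := fun i => W.iv (ι i)
  ts := fun i => W.ts (ι i)
  th := fun i => W.th (ι i)
  r := fun i => W.r (ι i)
  f := fun i => W.f (ι i)

/-- `ι` is an order isomorphism of the mesh `G'` onto the mesh `G`, `δ`-close to the identity, fixing `1` -/
structure SfRel (G G' : Finset ℝ) (ι : ℝ → ℝ) (δ : ℝ) : Prop where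
  map : ∀ i ∈ G', ι i ∈ G
  surj : ∀ k ∈ G, ∃ k' ∈ G', ι k' = k
  mono : ∀ i ∈ G', ∀ j ∈ G', i < j → ι i < ι j
  one : ι 1 = 1
  one_mem : (1 : ℝ) ∈ G'
  rg : ∀ i ∈ G', 0 ≤ i ∧ i ≤ 1
  near : ∀ i ∈ G', |ι i - i| ≤ δ

theorem sf_ent_rel_eqns_cite : True := by
  have := @SfMD.rel.eq_1
  trivial

variable {P : PkSys}

theorem sf_ent_rel_str {W : SfMD P} {tq : P.Tst → CyT} (hs : W.Str tq) {G' : Finset ℝ} {ι : ℝ → ℝ} {δ : ℝ} (hr : SfRel W.G G' ι δ) : (W.rel ι G').Str tq := by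
  have hlt : ∀ i ∈ G', i < 1 → ι i < 1 := fun i hi h1 => by
    have := hr.mono i hi 1 hr.one_mem h1
    rwa [hr.one] at this
  have hfin : ∀ x : ℝ, x = 1 → ∃ e : W.Lb x ≃ Fin W.E.L, ∀ l, W.E.iv (e l) = W.iv x l ∧ W.E.ts (e l) = W.ts x l ∧ W.E.th (e l) = W.th x l := by
    rintro x rfl
    exact hs.final
  have hone : ∀ x : ℝ, x = 1 → (W.k x = W.E.kf ∧ W.pos x = W.E.st.length ∧ W.gb x = W.E.bT) ∧ W.Q0.r = W.r x ∧ W.Q0.f = W.f x := by
    rintro x rfl
    exact ⟨hs.k_one, hs.frame.1, hs.frame.2.1⟩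
  exact
    { valid := hs.valid
      gate := ⟨hr.one_mem, hr.rg⟩
      k_one := (hone _ hr.one).1
      k_rg := fun i hi => hs.k_rg _ (hr.map i hi)
      k_mono := fun i hi j hj hij => hs.k_mono _ (hr.map i hi) _ (hr.map j hj) (hr.mono i hi j hj hij)
      stage := fun i hi h1 => hs.stage _ (hr.map i hi) (hlt i hi h1)
      zero_one := fun i hi h1 => hs.zero_one _ (hr.map i hi) (hlt i hi h1)
      final := hfin _ hr.one
      meas := fun i hi => hs.meas _ (hr.map i hi)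
      ne := fun i hi => hs.ne _ (hr.map i hi)
      lb_ne := fun i => hs.lb_ne _
      nn := fun i hi => hs.nn _ (hr.map i hi)
      sum_le := fun i hi => hs.sum_le _ (hr.map i hi)
      supp := fun i hi => hs.supp _ (hr.map i hi)
      iv_in := fun i hi => hs.iv_in _ (hr.map i hi)
      ok := fun i hi => hs.ok _ (hr.map i hi)
      width := fun i hi => hs.width _ (hr.map i hi)
      frame := ⟨(hone _ hr.one).2.1, (hone _ hr.one).2.2, fun i hi => hs.frame.2.2 _ (hr.map i hi)⟩ }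

theorem sf_ent_rel_next {G G' : Finset ℝ} {ι : ℝ → ℝ} {δ : ℝ} (hr : SfRel G G' ι δ) {i j : ℝ} (h : sfNext G' i j) : sfNext G (ι i) (ι j) := by
  obtain ⟨hi, hj, hij, hno⟩ := h
  refine ⟨hr.map i hi, hr.map j hj, hr.mono i hi j hj hij, fun k hk hb => ?_⟩
  obtain ⟨k', hk', rfl⟩ := hr.surj k hk
  refine hno k' hk' ⟨?_, ?_⟩
  · by_contra hc
    rcases (not_lt.1 hc).eq_or_lt with he | hl
    · rw [he] at hb
      exact lt_irrefl _ hb.1
    · exact lt_asymm hb.1 (hr.mono k' hk' i hi hl)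
  · by_contra hc
    rcases (not_lt.1 hc).eq_or_lt with he | hl
    · rw [← he] at hb
      exact lt_irrefl _ hb.2
    · exact lt_asymm hb.2 (hr.mono j hj k' hk' hl)

/-- the arithmetic of the exponents -/
theorem sf_ent_rel_num {pe de Ls δ a a' x y : ℝ} (hLs : 0 ≤ Ls) (hK : a + (1 + |pe| + |de| + 2 * Ls) * δ ≤ a') (hx : |x| ≤ δ) (hy : |y| ≤ δ) :
    a + |x| ≤ a' ∧ a + (pe + de) * x ≤ a' ∧ a + de * x ≤ a' ∧ a + pe * x ≤ a' ∧ a + Ls * (x - y) ≤ a' := by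
  have hδ : 0 ≤ δ := (abs_nonneg x).trans hx
  have h1 : pe * x ≤ |pe| * δ := (le_abs_self _).trans (by rw [abs_mul]; exact mul_le_mul_of_nonneg_left hx (abs_nonneg _))
  have h2 : de * x ≤ |de| * δ := (le_abs_self _).trans (by rw [abs_mul]; exact mul_le_mul_of_nonneg_left hx (abs_nonneg _))
  have h3 : Ls * (x - y) ≤ Ls * (2 * δ) := by
    refine mul_le_mul_of_nonneg_left ?_ hLs
    have := le_abs_self x
    have := neg_abs_le y
    linarith
  have h4 : 0 ≤ |pe| * δ := mul_nonneg (abs_nonneg _) hδ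
  have h5 : 0 ≤ |de| * δ := mul_nonneg (abs_nonneg _) hδ
  have h6 : 0 ≤ Ls * δ := mul_nonneg hLs hδ
  refine ⟨?_, ?_, ?_, ?_, ?_⟩ <;> nlinarith

variable {Y : SfCy} {p : Y.M.Par}

theorem sf_ent_rel_pre {W : SfMD (Y.M.sys p)} {pe de Ls ε a a' δ : ℝ} (h : W.Pre Y p pe de Ls ε a) {G' : Finset ℝ} {ι : ℝ → ℝ} (hr : SfRel W.G G' ι δ)
    (hLs : 0 ≤ Ls) (hK : a + (1 + |pe| + |de| + 2 * Ls) * δ ≤ a') : (W.rel ι G').Pre Y p pe de Ls ε a' := by
  have hs := gn_s_pos W.E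
  have hv := h.str.valid
  have hn : (0 : ℝ) ≤ W.E.n := Nat.cast_nonneg _
  refine ⟨sf_ent_rel_str h.str hr, fun i hi => ?_, fun i hi => ?_, fun i j hij => ?_, fun i j hij l l' x x' h1 h2 h3 => ?_⟩
  · have h0 := h.depth _ (hr.map i hi)
    obtain ⟨n1, -⟩ := sf_ent_rel_num (pe := pe) (de := de) hLs hK (hr.near i hi) (hr.near i hi)
    show |((W.k (ι i) : ℝ) - W.E.k0) - i * W.E.n| ≤ a' * W.E.n
    have e : ((W.k (ι i) : ℝ) - W.E.k0) - i * W.E.n = (((W.k (ι i) : ℝ) - W.E.k0) - ι i * W.E.n) + (ι i - i) * W.E.n := by ring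
    rw [e]
    refine (abs_add_le _ _).trans ?_
    rw [abs_mul, abs_of_nonneg hn]
    calc _ ≤ a * W.E.n + |ι i - i| * W.E.n := by linarith
      _ = (a + |ι i - i|) * W.E.n := by ring
      _ ≤ a' * W.E.n := mul_le_mul_of_nonneg_right n1 hn
  · have h0 := h.cnt _ (hr.map i hi)
    obtain ⟨-, n2, -⟩ := sf_ent_rel_num (pe := pe) (de := de) hLs hK (hr.near i hi) (hr.near i hi)
    refine h0.trans ?_
    show W.E.s ^ (-a) * (W.E.e / W.E.ka) * W.E.s ^ (-((pe + de) * ι i)) ≤ W.E.s ^ (-a') * (W.E.e / W.E.ka) * W.E.s ^ (-((pe + de) * i))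
    have hek : 0 ≤ W.E.e / W.E.ka := (div_pos hv.e_pos hv.ka_pos).le
    have e1 : ∀ u v : ℝ, W.E.s ^ u * (W.E.e / W.E.ka) * W.E.s ^ v = W.E.s ^ (u + v) * (W.E.e / W.E.ka) := fun u v => by
      rw [Real.rpow_add hs]; ring
    rw [e1, e1]
    exact mul_le_mul_of_nonneg_right (gn_s_anti W.E (by nlinarith)) hek
  · have h0 := h.wr _ _ (sf_ent_rel_next hr hij)
    obtain ⟨-, -, -, -, n5⟩ := sf_ent_rel_num (pe := pe) (de := de) hLs hK (hr.near j hij.2.1) (hr.near i hij.1)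
    have e : Ls * (ι j - ι i) + a ≤ Ls * (j - i) + a' := by nlinarith
    exact ⟨(gn_s_anti W.E e).trans h0.1, h0.2.1, (gn_s_anti W.E e).trans h0.2.2.1, h0.2.2.2.trans (gn_s_anti W.E (by linarith))⟩
  · have h0 := h.mm _ _ (sf_ent_rel_next hr hij) l l' x x' h1 h2 h3
    obtain ⟨-, -, -, -, n5⟩ := sf_ent_rel_num (pe := pe) (de := de) hLs hK (hr.near j hij.2.1) (hr.near i hij.1)
    have e : Ls * (ι j - ι i) + a ≤ Ls * (j - i) + a' := by nlinarith
    have hpos := h.str.frame.2.2 _ (hr.map j hij.2.1)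
    have e2 : W.E.s ^ (-(Ls * (ι j - ι i) + a)) ≤ W.E.s ^ (-(Ls * (j - i) + a')) := gn_s_anti W.E (by linarith)
    exact ⟨h0.1.trans (mul_le_mul_of_nonneg_left e2 (div_pos hpos.2 (pow_pos hpos.1 2)).le), h0.2.trans (mul_le_mul_of_nonneg_left e2 (div_pos hpos.2 hpos.1).le)⟩

theorem sf_ent_rel_prep (hT : (Y.M.sys p).Tight) {W : SfMD (Y.M.sys p)} (hv : W.E.Valid) {pe de Ls a a' δ : ℝ} (G' : Finset ℝ) {ι : ℝ → ℝ} {i : ℝ} (h : W.Prep Y p pe de a (ι i))
    (hi : |ι i - i| ≤ δ) (hLs : 0 ≤ Ls) (hK : a + (1 + |pe| + |de| + 2 * Ls) * δ ≤ a') : (W.rel ι G').Prep Y p pe de a' i := by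
  have hs := gn_s_pos W.E
  obtain ⟨-, -, n3, -, -⟩ := sf_ent_rel_num (pe := pe) (de := de) hLs hK hi hi
  have hi' : |i - ι i| ≤ δ := by rwa [abs_sub_comm]
  obtain ⟨-, -, -, n4, -⟩ := sf_ent_rel_num (pe := pe) (de := de) hLs hK hi' hi'
  refine ⟨h.1.trans ?_, fun m hm => gn_reg_mono hT (h.2 m hm) ?_⟩
  · show W.E.s ^ (-a) * W.E.e * W.E.s ^ (-(de * ι i)) ≤ W.E.s ^ (-a') * W.E.e * W.E.s ^ (-(de * i))
    have e1 : ∀ u v : ℝ, W.E.s ^ u * W.E.e * W.E.s ^ v = W.E.s ^ (u + v) * W.E.e := fun u v => by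
      rw [Real.rpow_add hs]; ring
    rw [e1, e1]
    exact mul_le_mul_of_nonneg_right (gn_s_anti W.E (by nlinarith)) hv.e_pos.le
  · show W.E.s ^ (-a) * W.E.ka * W.E.s ^ (pe * ι i) ≤ W.E.s ^ (-a') * W.E.ka * W.E.s ^ (pe * i)
    have e1 : ∀ u v : ℝ, W.E.s ^ u * W.E.ka * W.E.s ^ v = W.E.s ^ (u + v) * W.E.ka := fun u v => by
      rw [Real.rpow_add hs]; ring
    rw [e1, e1]
    exact mul_le_mul_of_nonneg_right (gn_s_anti W.E (by nlinarith)) hv.ka_pos.le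

theorem sf_ent_rel_ext (hT : (Y.M.sys p).Tight) {W : SfMD (Y.M.sys p)} {pe de Ls ε a a' δ : ℝ} (h : W.Ext Y p pe de Ls ε a) {G' : Finset ℝ} {ι : ℝ → ℝ} (hr : SfRel W.G G' ι δ)
    (hLs : 0 ≤ Ls) (hK : a + (1 + |pe| + |de| + 2 * Ls) * δ ≤ a') : (W.rel ι G').Ext Y p pe de Ls ε a' := by
  have hs := gn_s_pos W.E
  have hv := h.str.valid
  refine cy_ext_of (sf_ent_rel_pre (cy_pre_of h) hr hLs hK)
    (fun i hi => sf_ent_rel_prep hT hv G' ⟨h.en _ (hr.map i hi), h.reg _ (hr.map i hi)⟩ (hr.near i hi) hLs hK) (fun i hi => ?_)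
  refine le_trans ?_ (h.read _ (hr.map i hi))
  have hi' : |i - ι i| ≤ δ := by rw [abs_sub_comm]; exact hr.near i hi
  obtain ⟨-, -, n3, -, -⟩ := sf_ent_rel_num (pe := pe) (de := de) hLs hK hi' hi'
  show W.E.s ^ a' * W.E.e * W.E.s ^ (-(de * i)) ≤ W.E.s ^ a * W.E.e * W.E.s ^ (-(de * ι i))
  have e1 : ∀ u v : ℝ, W.E.s ^ u * W.E.e * W.E.s ^ v = W.E.s ^ (u + v) * W.E.e := fun u v => by
    rw [Real.rpow_add hs]; ring
  rw [e1, e1]
  exact mul_le_mul_of_nonneg_right (gn_s_anti W.E (by nlinarith)) hv.e_pos.le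

/-! ## the swap `(0 i₁)` -/

/-- relabelling twice by an involution -/
theorem sf_ent_rel_rel {P : PkSys} (W : SfMD P) (E' : Xp P) (posx : ℝ → ℕ) (κ : ℝ → ℝ) (hκ : κ = id) :
    (⟨E', W.Q0, W.G, fun i => W.k (κ i), posx, fun i => W.gb (κ i), fun i => W.Lb (κ i), fun i => W.fLb (κ i), fun i => W.iv (κ i), fun i => W.ts (κ i),
      fun i => W.th (κ i), fun i => W.r (κ i), fun i => W.f (κ i)⟩ : SfMD P) = { W with E := E', pos := posx } := by
  subst hκ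
  rfl

/-- the first gate `i₁ > 0` of a mesh -/
structure SfFst (G : Finset ℝ) (i₁ : ℝ) : Prop where
  mem : i₁ ∈ G
  pos : 0 < i₁
  lt_one : i₁ < 1
  fst : ∀ j ∈ G, j = i₁ ∨ i₁ < j
  one_mem : (1 : ℝ) ∈ G
  rg : ∀ i ∈ G, 0 ≤ i ∧ i ≤ 1

theorem sf_ent_swap_val {G : Finset ℝ} {i₁ : ℝ} (h : SfFst G i₁) {j : ℝ} (hj : j ∈ G) : (j = i₁ ∧ Equiv.swap 0 i₁ j = 0) ∨ (i₁ < j ∧ Equiv.swap 0 i₁ j = j) := by
  rcases h.fst j hj with rfl | hl
  · exact Or.inl ⟨rfl, Equiv.swap_apply_right _ _⟩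
  · exact Or.inr ⟨hl, Equiv.swap_apply_of_ne_of_ne (h.pos.trans hl).ne' hl.ne'⟩

/-- back: from the relabelled mesh to the mesh -/
theorem sf_ent_swap_rel2 {G : Finset ℝ} {i₁ : ℝ} (h : SfFst G i₁) : SfRel (G.image (Equiv.swap 0 i₁)) G (Equiv.swap 0 i₁) i₁ where
  map := fun i hi => Finset.mem_image_of_mem _ hi
  surj := fun k hk => by
    obtain ⟨k', hk', rfl⟩ := Finset.mem_image.1 hk
    exact ⟨k', hk', rfl⟩
  mono := fun i hi j hj hij => by
    rcases sf_ent_swap_val h hi with ⟨a1, a2⟩ | ⟨a1, a2⟩ <;> rcases sf_ent_swap_val h hj with ⟨b1, b2⟩ | ⟨b1, b2⟩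
    · rw [a1, b1] at hij
      exact absurd hij (lt_irrefl _)
    · rw [a2, b2]
      exact h.pos.trans b1
    · rw [b1] at hij
      exact absurd hij (lt_asymm a1)
    · rwa [a2, b2]
  one := Equiv.swap_apply_of_ne_of_ne one_ne_zero h.lt_one.ne'
  one_mem := h.one_mem
  rg := h.rg
  near := fun i hi => by
    rcases sf_ent_swap_val h hi with ⟨a1, a2⟩ | ⟨a1, a2⟩
    · rw [a2, a1, zero_sub, abs_neg, abs_of_pos h.pos]
    · rw [a2, sub_self, abs_zero]
      exact h.pos.le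

/-- forth: from the mesh to the relabelled mesh -/
theorem sf_ent_swap_rel1 {G : Finset ℝ} {i₁ : ℝ} (h : SfFst G i₁) : SfRel G (G.image (Equiv.swap 0 i₁)) (Equiv.swap 0 i₁) i₁ where
  map := fun i hi => by
    obtain ⟨k, hk, rfl⟩ := Finset.mem_image.1 hi
    rwa [Equiv.swap_apply_self]
  surj := fun k hk => ⟨_, Finset.mem_image_of_mem _ hk, Equiv.swap_apply_self _ _ _⟩
  mono := fun i hi j hj hij => by
    obtain ⟨k, hk, rfl⟩ := Finset.mem_image.1 hi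
    obtain ⟨l, hl, rfl⟩ := Finset.mem_image.1 hj
    rw [Equiv.swap_apply_self, Equiv.swap_apply_self]
    by_contra hc
    rcases (not_lt.1 hc).eq_or_lt with he | hlt
    · rw [he] at hij
      exact lt_irrefl _ hij
    · exact lt_asymm hij ((sf_ent_swap_rel2 h).mono l hl k hk hlt)
  one := Equiv.swap_apply_of_ne_of_ne one_ne_zero h.lt_one.ne'
  one_mem := by
    have := Finset.mem_image_of_mem (Equiv.swap 0 i₁) h.one_mem
    rwa [Equiv.swap_apply_of_ne_of_ne one_ne_zero h.lt_one.ne'] at this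
  rg := fun i hi => by
    obtain ⟨k, hk, rfl⟩ := Finset.mem_image.1 hi
    rcases sf_ent_swap_val h hk with ⟨a1, a2⟩ | ⟨a1, a2⟩
    · rw [a2]
      exact ⟨le_rfl, zero_le_one⟩
    · rw [a2]
      exact h.rg k hk
  near := fun i hi => by
    obtain ⟨k, hk, rfl⟩ := Finset.mem_image.1 hi
    rw [Equiv.swap_apply_self, abs_sub_comm]
    exact (sf_ent_swap_rel2 h).near k hk

/-- the relabelled mesh has no gate in `(0,h)` -/
theorem sf_ent_swap_gap {G : Finset ℝ} {i₁ h : ℝ} (hf : SfFst G i₁) (hg : ∀ i ∈ G, ∀ j ∈ G, i < j → h ≤ j - i) : CyGap (G.image (Equiv.swap 0 i₁)) h := by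
  constructor
  · intro i hi j hj hij
    obtain ⟨k, hk, rfl⟩ := Finset.mem_image.1 hi
    obtain ⟨l, hl, rfl⟩ := Finset.mem_image.1 hj
    rcases sf_ent_swap_val hf hk with ⟨a1, a2⟩ | ⟨a1, a2⟩ <;> rcases sf_ent_swap_val hf hl with ⟨b1, b2⟩ | ⟨b1, b2⟩
    · rw [a2, b2] at hij
      exact absurd hij (lt_irrefl _)
    · rw [a2, b2]
      have := hg i₁ hf.mem l hl b1
      have := hf.pos
      linarith
    · rw [a2, b2] at hij
      have := hf.pos
      linarith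
    · rw [a2, b2] at hij ⊢
      exact hg k hk l hl hij
  · intro i hi
    obtain ⟨k, hk, rfl⟩ := Finset.mem_image.1 hi
    rcases sf_ent_swap_val hf hk with ⟨a1, a2⟩ | ⟨a1, a2⟩
    · exact Or.inl a2
    · rw [a2]
      have := hg i₁ hf.mem k hk a1
      have := hf.pos
      exact Or.inr (by linarith)

/-- a mesh in `[0,1]` with gaps `≥ h` -/
theorem sf_ent_card {G : Finset ℝ} {h : ℝ} (hh : 0 < h) (h01 : ∀ i ∈ G, 0 ≤ i ∧ i ≤ 1) (hg : ∀ i ∈ G, ∀ j ∈ G, i < j → h ≤ j - i) : G.card ≤ ⌊1 / h⌋₊ + 1 := by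
  have hinj : Set.InjOn (fun i : ℝ => ⌊i / h⌋₊) G := by
    intro i hi j hj hij
    simp only at hij
    by_contra hne
    wlog hlt : i < j generalizing i j
    · exact this hj hi hij.symm (Ne.symm hne) (lt_of_le_of_ne (not_lt.1 hlt) (Ne.symm hne))
    have h1 := hg i hi j hj hlt
    have h2 : i / h + 1 ≤ j / h := by
      rw [← sub_nonneg]
      have : j / h - (i / h + 1) = (j - i - h) / h := by
        field_simp
        ring
      rw [this]
      exact div_nonneg (by linarith) hh.le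
    have h3 : ⌊i / h⌋₊ + 1 ≤ ⌊j / h⌋₊ := by
      rw [← Nat.floor_add_one (div_nonneg (h01 i hi).1 hh.le)]
      exact Nat.floor_le_floor h2
    omega
  have hmap : ∀ i ∈ G, ⌊i / h⌋₊ ∈ Finset.range (⌊1 / h⌋₊ + 1) := by
    intro i hi
    rw [Finset.mem_range, Nat.lt_succ_iff]
    exact Nat.floor_le_floor (div_le_div_of_nonneg_right (h01 i hi).2 hh.le)
  have := Finset.card_le_card_of_injOn _ hmap hinj
  rwa [Finset.card_range] at this

/-! ## `SfPrepC` -/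

/-- the answer of `SfPrepC` from a new stack -/
theorem sf_ent_prep_out (H : CyHyp Y) {W : SfMD (Y.M.sys p)} {pe de Ls ε a i0 : ℝ} {C C' A A' : ℕ} (haf : Y.af C A p W.E W.Q0) (hC : C ≤ C') (hA : A' ≤ A)
    (st' : List (Stg (Y.M.sys p))) (pos' : ℝ → ℕ)
    (hold : ∀ i ∈ W.G, i ≤ i0 → pos' i = W.pos i ∧ st'.take (W.pos i + 1) = W.E.st.take (W.pos i + 1))
    (hcls : Y.M.Cls C' A' p (W.E.withSt st')) (hext : SfMD.Ext Y p { W with E := W.E.withSt st', pos := pos' } pe de Ls ε a) :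
    ∃ W' : SfMD (Y.M.sys p), W'.Ref W i0 ∧ SfMD.Ext Y p W' pe de Ls ε a ∧ W'.E.st.length ≤ C' ∧ W'.E.GenLe C' ∧ Y.af C' A' p W'.E W'.Q0 :=
  ⟨{ W with E := W.E.withSt st', pos := pos' },
    { root := ⟨rfl, rfl, rfl, rfl, rfl, rfl, rfl⟩
      q0 := rfl
      hG := rfl
      hk := fun _ _ => ⟨rfl, rfl, rfl⟩
      lab := ⟨fun _ l => l, fun i _ => ⟨Function.injective_id, fun l => ⟨rfl, rfl, fun x => le_rfl⟩, fun _ => ⟨Function.surjective_id, fun l => rfl⟩⟩⟩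
      old := fun i hi h0 => ⟨(hold i hi h0).1, rfl, (hold i hi h0).2⟩ },
    hext, hcls.2.2.1, hcls.2.2.2.1, cy_tp_af H haf ⟨rfl, rfl, rfl, rfl, rfl, rfl⟩ rfl hC hA⟩

/-- **PREP** -/
theorem sf_ent_prep_pf (Y : SfCy) (H : CyHyp Y) (hW : CyForward Y) (Ls : ℝ) (hLs : 0 < Ls) : SfPrepC Y Y.M.Gam Y.M.p0 Y.M.d0 Ls := by
  classical
  intro h a ε hh ha hε
  set K : ℝ := 1 + |Y.M.p0| + |Y.M.d0| + 2 * Ls with hKdef
  have hK0 : 0 < K := by positivity
  obtain ⟨a1B, τB, ha1B, hτB, HB⟩ := hW h (a / 2) hh (by positivity)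
  set h₂ : ℝ := min (min h (1 / 2)) (min (a1B / (2 * K)) (a / (2 * K))) with hh₂
  have hh₂0 : 0 < h₂ := lt_min (lt_min hh (by norm_num)) (lt_min (by positivity) (by positivity))
  have g1 : h₂ ≤ h := (min_le_left _ _).trans (min_le_left _ _)
  have g2 : h₂ ≤ 1 / 2 := (min_le_left _ _).trans (min_le_right _ _)
  have g3 : K * h₂ ≤ a1B / 2 := by
    have : h₂ ≤ a1B / (2 * K) := (min_le_right _ _).trans (min_le_left _ _)
    calc K * h₂ ≤ K * (a1B / (2 * K)) := mul_le_mul_of_nonneg_left this hK0.le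
      _ = a1B / 2 := by field_simp
  have g4 : K * h₂ ≤ a / 2 := by
    have : h₂ ≤ a / (2 * K) := (min_le_right _ _).trans (min_le_right _ _)
    calc K * h₂ ≤ K * (a / (2 * K)) := mul_le_mul_of_nonneg_left this hK0.le
      _ = a / 2 := by field_simp
  obtain ⟨a1A, τA, ha1A, hτA, HA⟩ := hW h₂ a hh₂0 ha
  set τ : ℝ := min (min a1A τA) (min (a1B / 2) τB) with hτdef
  have t1 : τ ≤ a1A := (min_le_left _ _).trans (min_le_left _ _)
  have t2 : τ ≤ τA := (min_le_left _ _).trans (min_le_right _ _)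
  have t3 : τ ≤ a1B / 2 := (min_le_right _ _).trans (min_le_left _ _)
  have t4 : τ ≤ τB := (min_le_right _ _).trans (min_le_right _ _)
  refine ⟨τ, lt_min (lt_min ha1A hτA) (lt_min (by positivity) hτB), fun C => ?_⟩
  obtain ⟨CA, HA⟩ := HA (max C (⌊1 / h⌋₊ + 1))
  obtain ⟨CB, HB⟩ := HB (max C (⌊1 / h⌋₊ + 1))
  refine ⟨max (max CA CB) C, fun A' => ?_⟩
  obtain ⟨AA, nA, HA⟩ := HA A'
  obtain ⟨AB, nB, HB⟩ := HB A'
  refine ⟨max (max AA AB) A', max nA nB, fun p W i0 hn hlen hgen haf hP hgap => ?_⟩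
  have hstr := hP.str
  have hcls0 : Y.M.Cls C (max (max AA AB) A') p W.E := by
    have hgd := ((H.af_def _ _ p W.E W.Q0).1 haf).1
    exact ⟨hgd, hstr.valid, hlen, hgen, (H.af_iff _ _ p W.E hgd).2 ⟨W.Q0, haf⟩⟩
  have hT := H.gen.tight p hcls0.1
  have hcls1 : ∀ A1, A1 ≤ max (max AA AB) A' → Y.M.Cls (max C (⌊1 / h⌋₊ + 1)) A1 p W.E := fun A1 hA1 =>
    gn_cls_mono Y.M H.gen.scale (le_max_left _ _) (gn_cls_anti Y.M H.gen.scale hA1 hcls0)
  have hcard : W.G.card ≤ max C (⌊1 / h⌋₊ + 1) := (sf_ent_card hh hstr.gate.2 hgap).trans (le_max_right _ _)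
  have hpre : W.Pre Y p Y.M.p0 Y.M.d0 Ls ε τ := ⟨hP.str, hP.depth, hP.cnt, hP.wr, hP.mm⟩
  have hn0 : (0 : ℝ) ≤ W.E.n := Nat.cast_nonneg _
  have hval : ∀ τ' : ℝ, τ ≤ τ' → 2 ^ ((Y.M.Gam - τ') * W.E.n) ≤ W.E.val := fun τ' hτ' =>
    le_trans (gn_two_mono (mul_le_mul_of_nonneg_right (by linarith) hn0)) hP.val
  have hprep : ∀ i ∈ W.G, i ≤ i0 → W.Prep Y p Y.M.p0 Y.M.d0 τ i := fun i hi h0 => ⟨hP.en i hi h0, hP.reg i hi h0⟩
  by_cases hB : ∃ i₁ ∈ W.G, 0 < i₁ ∧ i₁ < h₂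
  · -- (B) the first gate is relabelled
    obtain ⟨i₁, hi₁, hpos, hlt⟩ := hB
    have hf : SfFst W.G i₁ :=
      { mem := hi₁
        pos := hpos
        lt_one := by linarith
        fst := fun j hj => by
          rcases lt_trichotomy j i₁ with hl | he | hl
          · have := hgap j hj i₁ hi₁ hl
            have := (hstr.gate.2 j hj).1
            linarith
          · exact Or.inl he
          · exact Or.inr hl
        one_mem := hstr.gate.1
        rg := hstr.gate.2 }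
    have hKi : K * i₁ ≤ K * h₂ := mul_le_mul_of_nonneg_left hlt.le hK0.le
    have hr1 := sf_ent_swap_rel1 hf
    have hr2 := sf_ent_swap_rel2 hf
    obtain ⟨st', pos', -, hold, hcls', -, hext⟩ := HB p (W.rel (Equiv.swap 0 i₁) (W.G.image (Equiv.swap 0 i₁))) Ls ε (if i₁ ≤ i0 then i0 else -1)
      ((le_max_right _ _).trans hn) (hcls1 AB ((le_max_right _ _).trans (le_max_left _ _))) (Finset.card_image_le.trans hcard) (sf_ent_swap_gap hf hgap)
      (sf_ent_rel_pre hpre hr1 hLs.le (by linarith)) (hval τB t4)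
      (fun j hj hjs => by
        obtain ⟨k, hk, rfl⟩ := Finset.mem_image.1 hj
        by_cases hc : i₁ ≤ i0
        · rw [if_pos hc] at hjs
          have hk0 : k ≤ i0 := by
            rcases sf_ent_swap_val hf hk with ⟨a1, a2⟩ | ⟨a1, a2⟩
            · rw [a1]; exact hc
            · rwa [a2] at hjs
          refine sf_ent_rel_prep hT hstr.valid _ ?_ (hr1.near _ hj) hLs.le (by linarith : τ + K * i₁ ≤ a1B)
          rw [Equiv.swap_apply_self]
          exact hprep k hk hk0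
        · rw [if_neg hc] at hjs
          have := (hr1.rg _ hj).1
          linarith)
    have hext2 := sf_ent_rel_ext hT hext (G' := W.G) (ι := Equiv.swap 0 i₁) (δ := i₁) hr2 hLs.le (by linarith : a / 2 + K * i₁ ≤ a)
    have hEq := sf_ent_rel_rel W (W.E.withSt st') (fun i => pos' (Equiv.swap 0 i₁ i)) (fun i => Equiv.swap 0 i₁ (Equiv.swap 0 i₁ i))
      (funext fun i => Equiv.swap_apply_self _ _ _)
    refine sf_ent_prep_out H haf (le_max_right _ _) (le_max_right _ _) st' (fun i => pos' (Equiv.swap 0 i₁ i)) (fun i hi h0 => ?_)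
      (gn_cls_mono Y.M H.gen.scale ((le_max_right _ _).trans (le_max_left _ _)) hcls') (hEq ▸ hext2)
    have hc : i₁ ≤ i0 := by
      rcases hf.fst i hi with he | hl
      · rw [← he]; exact h0
      · linarith
    have h1 := hold _ (Finset.mem_image_of_mem _ hi) (by
      rw [if_pos hc]
      rcases sf_ent_swap_val hf hi with ⟨a1, a2⟩ | ⟨a1, a2⟩
      · rw [a2]; linarith
      · rw [a2]; exact h0)
    have e : (W.rel (Equiv.swap 0 i₁) (W.G.image (Equiv.swap 0 i₁))).pos (Equiv.swap 0 i₁ i) = W.pos i := by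
      show W.pos (Equiv.swap 0 i₁ (Equiv.swap 0 i₁ i)) = W.pos i
      rw [Equiv.swap_apply_self]
    rw [e] at h1
    exact h1
  · -- (A) no gate in `(0, h₂)`
    push Not at hB
    have hgap2 : CyGap W.G h₂ := by
      refine ⟨fun i hi j hj hij => g1.trans (hgap i hi j hj hij), fun i hi => ?_⟩
      rcases (hstr.gate.2 i hi).1.eq_or_lt with h0 | h0
      · exact Or.inl h0.symm
      · exact Or.inr (hB i hi h0)
    obtain ⟨st', pos', -, hold, hcls', -, hext⟩ := HA p W Ls ε i0 ((le_max_left _ _).trans hn) (hcls1 AA ((le_max_left _ _).trans (le_max_left _ _))) hcard hgap2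
      (cy_fw_pre_mono hpre t1) (hval τA t2) (fun i hi h0 => cy_fw_prep_mono H.gen.tight hcls0.1 hstr.valid (hprep i hi h0) t1)
    exact sf_ent_prep_out H haf (le_max_right _ _) (le_max_right _ _) st' pos' hold
      (gn_cls_mono Y.M H.gen.scale ((le_max_left _ _).trans (le_max_left _ _)) hcls') hext

end Claimed.Agent.R256
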