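import Claimed.Agent.R256.Soft.Exit
import Claimed.Agent.R256.Cyl.Contract
import Claimed.Agent.R256.Cyl.Top
import Claimed.Agent.R256.Cyl.TopX
import Claimed.Agent.R256.Soft.EntPrep

/-!
# Row 256 (S0496), unit SOFT: THE ENTRY HYPOTHESES FROM CYL + GEN, ONCE FOR BOTH CYLINDERS      (helper44; prefix `sf_ent_`)

EXIT   `sf_ent_of (Y) (H : CyHyp Y) (J : CyJit Y) : SfEntC Y`.      `Soft/HubQ1.lean`: `sf_ent_cl := sf_ent_of _ (cyHypCl ..) (cy_jit_cl ..)`,  `sf_ent_hy := sf_ent_of _ (cyHypHy ..) (cy_jit_hy ..)`.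
Exponents: `π = (η, Γ, p, d) = (Y.η, Y.M.Gam, Y.M.p0, Y.M.d0)`;  `Ls` = the constant of `CyMatched`.
Fields of `SfEntry`:   `par` (`gn_p0_ge`, `gn_p0_le`, `gn_d0_le`, `gn_rate_gam`) | `adm` (`H.af_iff`, `H.af_def`) | `gen` (`H.gen`) | `loc` (`H.L`, `H.cn`) | `rate` (`gn_rate_gam`) | `ex` | `mat` | `prep`.
-/

set_option autoImplicit false

namespace Claimed.Agent.R256

open MeasureTheory Claimed.Agent.R255

/-- the exponents of the model -/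
noncomputable def sfEntPar (Y : SfCy) : SfPar := ⟨Y.η, Y.M.Gam, Y.M.p0, Y.M.d0, 0, 0, 0, 0, Y.hyb⟩

theorem sf_ent_eqns_cite : True := by
  have := @sfEntPar.eq_1
  trivial

/-- the exponent is `> η/2` -/
theorem sf_ent_gam (Y : SfCy) (H : CyHyp Y) (hR : ¬ Y.M.Rate (Y.η / 2)) : Y.η / 2 < Y.M.Gam := by
  by_contra hcon
  exact hR (Y.M.bs_rate_mono (gn_rate_gam Y.M _ H.gen) (not_lt.1 hcon))

theorem sf_ent_par (Y : SfCy) (H : CyHyp Y) (hR : ¬ Y.M.Rate (Y.η / 2)) : (sfEntPar Y).Pd := by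
  have hg := sf_ent_gam Y H hR
  have hΓ : 0 < Y.M.Gam := lt_trans (by have := H.eta.1; positivity) hg
  have h1 := gn_p0_ge Y.M _ H.gen hΓ
  have h2 := gn_p0_le Y.M _ H.gen hΓ
  have h3 := gn_d0_le Y.M _ H.gen hΓ
  refine ⟨H.eta, hg, ?_, ⟨?_, ?_⟩, h3⟩
  · show Y.M.Gam = Y.M.d0 + (1 - Y.M.p0) / 2
    unfold Mdl.d0
    ring
  · show 1 ≤ Y.M.p0
    have := H.eta.1
    linarith
  · show Y.M.p0 < 3
    linarith

theorem sf_ent_adm (Y : SfCy) (H : CyHyp Y) (C A : ℕ) (p : Y.M.Par) (E : Xp (Y.M.sys p)) : (Y.M.gd p ∧ Y.M.adm C A p E) ↔ ∃ Q0, Y.af C A p E Q0 := by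
  constructor
  · rintro ⟨h1, h2⟩
    exact (H.af_iff C A p E h1).1 h2
  · rintro ⟨Q0, h⟩
    have h1 := ((H.af_def C A p E Q0).1 h).1
    exact ⟨h1, (H.af_iff C A p E h1).2 ⟨Q0, h⟩⟩

theorem sf_ent_loc (Y : SfCy) (H : CyHyp Y) : SfLocC Y (1 + Y.η / 2) H.L := by
  intro p Λ T k T' k' x x' h1 h2 h3
  obtain ⟨a, b, c⟩ := (H.cn p Λ T k T' k' x x').1 h2
  exact ⟨h3.2.1, h1, a, b, c⟩

/-- the class from the explicit frame -/
theorem sf_ent_cls {Y : SfCy} (H : CyHyp Y) {C A : ℕ} {p : Y.M.Par} {E : Xp (Y.M.sys p)} {Q0 : CyT} (hV : E.Valid) (hl : E.st.length ≤ C) (hg : E.GenLe C)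
    (h : Y.af C A p E Q0) : Y.M.Cls C A p E :=
  ⟨((sf_ent_adm Y H C A p E).2 ⟨Q0, h⟩).1, hV, hl, hg, ((sf_ent_adm Y H C A p E).2 ⟨Q0, h⟩).2⟩

theorem sf_ent_genle {P : PkSys} {E : Xp P} {C C' : ℕ} (h : E.GenLe C) (hC : C ≤ C') : E.GenLe C' :=
  ⟨h.1.trans hC, h.2.1.trans hC, fun σ hσ => (h.2.2 σ hσ).trans hC⟩

/-- **EX**.    PLAN.   `τ' = min (τ/4) (1/2)`, `ξ' = τ/4`.   `C` from `hX ξ' τ'`;  `C1, Ap, np` from `cy_tp_frame H (cy_frm Y H) C`;  `A1, n1` from `gn_rate_gam Y.M _ H.gen C τ'`.   Package `max C C1`.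
Given `A n0`: `hX` at `(max (max A Ap) A1, max (max n0 np) n1)` gives `p E r1 f1`;  `cy_tp_frame` (`2^(-(n/2)) ≤ 2^((Γ-τ')n) ≤ val`, `Γ ≥ 0`) gives `Q0'`, frame `Q0 = { Q0' with r := r1, f := f1 }`;  `cy_tp_af` lowers `A` and raises `C`.
`SfNear`: `width` by `rfl`-rewriting; `val`: `gn_two_mono`; `cnt`: `gn_cnt E _ Γ p0 ξ' τ'` (third part; `Mdl.d0` unfolds to `Γ + (p0-1)/2`; `E.tw = ∑ l, E.w l` by `rfl`), `gn_s_anti`. -/
theorem sf_ent_ex (Y : SfCy) (H : CyHyp Y) (hX : CyExtr Y) : SfExC Y Y.M.Gam Y.M.p0 Y.M.d0 := by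
  intro τ hτ
  have hτ'0 : 0 < min (τ / 4) (1 / 2) := lt_min (by linarith) (by norm_num)
  have hτ'1 : min (τ / 4) (1 / 2) ≤ τ / 4 := min_le_left _ _
  have hτ'2 : min (τ / 4) (1 / 2) ≤ 1 / 2 := min_le_right _ _
  obtain ⟨τ', hτ'⟩ : ∃ τ', τ' = min (τ / 4) (1 / 2) := ⟨_, rfl⟩
  rw [← hτ'] at hτ'0 hτ'1 hτ'2
  obtain ⟨C, hC⟩ := hX (τ / 4) τ' (by linarith) hτ'0
  obtain ⟨C1, Ap, np, hfr⟩ := cy_tp_frame H (cy_frm Y H) C
  obtain ⟨A1, n1, hrate⟩ := gn_rate_gam Y.M _ H.gen C τ' hτ'0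
  refine ⟨max C C1, fun A n0 => ?_⟩
  obtain ⟨p, E, r1, f1, hn, hcls, hHom, hval, hw⟩ := hC (max (max A Ap) A1) (max (max n0 np) n1)
  have hn0 : n0 ≤ E.n := le_trans (le_trans (le_max_left _ _) (le_max_left _ _)) hn
  have hnp : np ≤ E.n := le_trans (le_trans (le_max_right _ _) (le_max_left _ _)) hn
  have hn1 : n1 ≤ E.n := le_trans (le_max_right _ _) hn
  have hA0 : A ≤ max (max A Ap) A1 := le_trans (le_max_left _ _) (le_max_left _ _)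
  have hAp : Ap ≤ max (max A Ap) A1 := le_trans (le_max_right _ _) (le_max_left _ _)
  have hA1 : A1 ≤ max (max A Ap) A1 := le_max_right _ _
  have hΓ := Y.M.bs_gam_nonneg
  have hnn : (0 : ℝ) ≤ E.n := Nat.cast_nonneg _
  have hhalf : (2 : ℝ) ^ (-((E.n : ℝ) / 2)) ≤ E.val := by
    refine le_trans (gn_two_mono ?_) hval
    nlinarith
  obtain ⟨hr1, hf1, Q0, hQ0⟩ := hfr _ p E r1 f1 hAp hnp hcls hw hhalf
  have hhi := hrate p E hn1 (gn_cls_anti Y.M H.gen.scale hA1 hcls)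
  refine ⟨p, E, { Q0 with r := r1, f := f1 }, hn0, hcls.2.1, hcls.2.2.1.trans (le_max_left _ _), sf_ent_genle hcls.2.2.2.1 (le_max_left _ _),
    cy_tp_af H hQ0 ⟨rfl, rfl, rfl, rfl, rfl, rfl⟩ rfl (le_max_right _ _) hA0, ⟨hw, ?_, ?_⟩⟩
  · refine le_trans (gn_two_mono ?_) hval
    have : Y.M.Gam - τ ≤ Y.M.Gam - τ' := by linarith
    exact mul_le_mul_of_nonneg_right this hnn
  · have h3 := (gn_cnt E hcls.2.1 Y.M.Gam Y.M.p0 (τ / 4) τ' (by linarith) hτ'0.le hHom hval hhi).2.2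
    refine le_trans h3 ?_
    have hek : 0 ≤ E.e / E.ka := div_nonneg hcls.2.1.e_pos.le hcls.2.1.ka_pos.le
    refine mul_le_mul_of_nonneg_left (gn_s_anti E ?_) hek
    unfold Mdl.d0
    linarith

theorem sf_ent_ext_q0 {Y : SfCy} {p : Y.M.Par} {W : SfMD (Y.M.sys p)} {pe de Ls ε a : ℝ} (h : W.Ext Y p pe de Ls ε a) (Q0 : CyT)
    (hr : Q0.r = W.r 1) (hf : Q0.f = W.f 1) : SfMD.Ext Y p { W with Q0 := Q0 } pe de Ls ε a :=
  { str :=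
      { valid := h.str.valid
        gate := h.str.gate
        k_one := h.str.k_one
        k_rg := h.str.k_rg
        k_mono := h.str.k_mono
        stage := h.str.stage
        zero_one := h.str.zero_one
        final := h.str.final
        meas := h.str.meas
        ne := h.str.ne
        lb_ne := h.str.lb_ne
        nn := h.str.nn
        sum_le := h.str.sum_le
        supp := h.str.supp
        iv_in := h.str.iv_in
        ok := h.str.ok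
        width := h.str.width
        frame := ⟨hr, hf, h.str.frame.2.2⟩ }
    depth := h.depth
    cnt := h.cnt
    en := h.en
    reg := h.reg
    read := h.read
    wr := h.wr
    mm := h.mm }

/-- **MAT**.    PLAN.   `ε0` from `hM F`, `τ` from `hM .. a`;  `C'` := `max C'₀ C`, `A := max A₀ A'`.   `Cls` by `sf_ent_cls` + `gn_cls_anti`;  `r1 = Q0.r`, `f1 = Q0.f` (`SfNear.width`).   `hM` gives `W`.
Answer `W2 = { W with Q0 := Q0 }`:  `Ext` sees `W.Q0` only through `Str.frame`;  `W.r 1 = Q0.r`: take `l : W.Lb 1` (`Str.lb_ne`), `Str.width`, `Str.final`, `CySubLab`, `SfNear.width`.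
`af C' A' p W.E Q0` by `cy_tp_af` from the hypothesis (same root, same `n`).   Labels: `CySubLab` + `E.Valid.th_nn`. -/
theorem sf_ent_mat (Y : SfCy) (H : CyHyp Y) (Ls : ℝ)
    (hM : ∀ F : Finset ℝ, (∀ i ∈ F, 0 ≤ i ∧ i ≤ 1) → ∃ ε0 : ℝ, 0 < ε0 ∧ ∀ a : ℝ, 0 < a → ∃ τ : ℝ, 0 < τ ∧
      ∀ C : ℕ, ∃ C' : ℕ, ∀ A' : ℕ, ∃ A n0 : ℕ, ∀ (p : Y.M.Par) (E : Xp (Y.M.sys p)) (r1 f1 : ℝ), n0 ≤ E.n → Y.M.Cls C A p E →
        (∀ l, (Y.tq p (E.ts l)).r = r1 ∧ (Y.tq p (E.ts l)).f = f1) →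
        E.tw ≤ E.e / E.ka * E.s ^ (-(Y.M.p0 + Y.M.d0) - τ) → 2 ^ ((Y.M.Gam - τ) * E.n) ≤ E.val →
        ∃ W : SfMD (Y.M.sys p), W.G = insert 1 F ∧ Y.M.Cls C' A' p W.E ∧ Y.af C' A' p W.E W.Q0 ∧ Mdl.SameRoot E W.E ∧ W.E.n = E.n ∧
          CySubLab E W.E ∧ E.s ^ a * E.val ≤ W.E.val ∧ W.Ext Y p Y.M.p0 Y.M.d0 Ls ε0 a) :
    SfMatC Y Y.M.Gam Y.M.p0 Y.M.d0 Ls := by
  intro F hF a ha
  obtain ⟨ε0, hε0, h1⟩ := hM F hF
  obtain ⟨τ, hτ, h2⟩ := h1 a ha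
  refine ⟨τ, ε0, hτ, hε0, fun C => ?_⟩
  obtain ⟨C'0, h3⟩ := h2 C
  refine ⟨max C'0 C, fun A' => ?_⟩
  obtain ⟨A0, n0, h4⟩ := h3 A'
  refine ⟨max A0 A', n0, fun p E Q0 hn hV hl hg haf hnear => ?_⟩
  have hcls : Y.M.Cls C (max A0 A') p E := sf_ent_cls H hV hl hg haf
  have hcls0 := gn_cls_anti Y.M H.gen.scale (le_max_left _ _) hcls
  obtain ⟨W, hG, hWcls, hWaf, hroot, hWn, hsub, hval, hExt⟩ := h4 p E Q0.r Q0.f hn hcls0 hnear.width hnear.cnt hnear.val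
  obtain ⟨l⟩ := hExt.str.lb_ne 1
  obtain ⟨e, he⟩ := hExt.str.final
  obtain ⟨φ, hφi, hφ⟩ := hsub
  have hw := hExt.str.width 1 hExt.str.gate.1 l
  have h5 := (he l).2.1
  have h6 := (hφ (e l)).2.1
  have h7 := hnear.width (φ (e l))
  rw [← h5, h6] at hw
  have hr : Q0.r = W.r 1 := h7.1.symm.trans hw.1
  have hf : Q0.f = W.f 1 := h7.2.symm.trans hw.2
  refine ⟨{ W with Q0 := Q0 }, sf_ent_ext_q0 hExt Q0 hr hf, hG, rfl,
    ⟨hroot.1, hroot.2.1, hWn, hroot.2.2.1, hroot.2.2.2.1, hroot.2.2.2.2.1, hroot.2.2.2.2.2⟩,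
    hWcls.2.2.1.trans (le_max_left _ _), sf_ent_genle hWcls.2.2.2.1 (le_max_left _ _),
    cy_tp_af H haf hroot hWn (le_max_right _ _) (le_max_right _ _), fun l' => ⟨φ l', (hφ l').1, (hφ l').2.1, fun x => ?_⟩⟩
  rcases (hφ l').2.2 x with h | h
  · exact h.le
  · exact h.le.trans (hV.th_nn _ _)

/-- **PREP**.    `CyForward` asks `CyGap W.G h` (gaps `≥ h` AND no gate in `(0,h)`), `SfPrepC` gives only the gaps.   A gate `i₁ ∈ (0, h₂)`, `h₂` tiny, is RELABELLED as the gate `0` (all exponents move by `≤ K i₁`); otherwise `CyGap W.G h₂`. -/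
theorem sf_ent_prep (Y : SfCy) (H : CyHyp Y) (hW : CyForward Y) (Ls : ℝ) (hLs : 0 < Ls) : SfPrepC Y Y.M.Gam Y.M.p0 Y.M.d0 Ls :=
  sf_ent_prep_pf Y H hW Ls hLs

/-- OWNER helper1 / helper255 (Cyl TOP + STEP with the `CyBdd` clause), EST 300 lines: Prop. cyl:matched-chain with the frame as input and polynomial labels. -/
theorem sf_ent_dmat (Y : SfCy) (H : CyHyp Y) (J : CyJit Y) (hΓ : 0 < Y.M.Gam) : ∃ Ls : ℝ, 0 < Ls ∧ SfDocMat Y Ls := by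
  obtain ⟨Ls, hLs, hS⟩ := cy_step Y H J hΓ
  exact ⟨Ls, hLs, cy_tx_main Y H hS (cy_forward Y H hΓ) (cy_frm Y H)⟩

/-- **ENTRY of SOFT** for a cylinder model with the bundle of sec. 2A -/
theorem sf_ent_of (Y : SfCy) (H : CyHyp Y) (J : CyJit Y) : SfEntC Y := by
  intro hR
  have hg := sf_ent_gam Y H hR
  have hΓ : 0 < Y.M.Gam := lt_trans (by have := H.eta.1; positivity) hg
  obtain ⟨Ls, hLs, hM⟩ := sf_ent_dmat Y H J hΓ
  exact ⟨sfEntPar Y, Ls, ⟨sf_ent_par Y H hR, rfl, rfl⟩, sf_ent_adm Y H, H.gen, ⟨H.L, sf_ent_loc Y H⟩, gn_rate_gam Y.M _ H.gen,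
    ⟨rfl, rfl, rfl⟩, hLs, ⟨H⟩, J, cy_extr Y H hΓ, cy_forward Y H hΓ, cy_frm Y H, hM⟩

end Claimed.Agent.R256
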