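import Claimed.Agent.R256.Soft.Exit
import Claimed.Agent.R256.Soft.Ent
import Claimed.Agent.R256.Hz.Main
import Claimed.Agent.R256.Ce.Contract
import Claimed.Agent.R256.Act.Main
import Claimed.Agent.R256.Chan.Rig

/-!
# Row 256 (S0496): **Q1, closed form for the hub**      (owner helper19)

`sf_hub_q1 (hyb) : HubQ1 hyb (hubX hyb)`   (`hubX _ = nmX`, Nm/X.lean, Act/Main.lean).      All glue is compile checked (`Soft/Exit.lean`, `Soft/Contract.lean`, `Soft/MCal.lean`); the sorries are NAMED contract theorems: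
* `sf_ent_cl`, `sf_ent_hy : SfEntC Y`   [OWNER helper255 (Cyl) + helper199 (Gen)]   `¬ Rate (η/2)` ⟹ exponents `π = (η, Γ, p, d)`, `Γ > η/2`, and all ENTRY hypotheses `SfEntry Y π Ls` of `Soft/Entry.lean`
* `sf_rig_mem : SfRigC Y nmX`           [OWNER helper130 (Chan) + block BP-256-SOFT-MEM]   (mem), positive cost, RIGID on the affine shadows
* `sf_rig0_mem : SfRig0C (sfCl η) CeMem` [OWNER helper130 (Chan) + block BP-256-SOFT-MEM]   (mem), zero cost, classical
* `ce_main` [helper157, Ce/Contract],   `hz_sf` [helper82, Hz/Main],   `ac_hub_q2 false` [helper277, Act/Main] (the classical bound feeds the strict gap of the hybrid case)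
* inside SOFT (OWNER helper19 + blocks BP-256-SOFT-*): `sf_cal_ex, _dc` (DOC 4k), `sf_cal_rs, _pr` (RES 2.5k), `sf_cal_ge` (GE 3.5k), `sf_cal_pl` (PL 5k), `sf_core` (CORE 5k), `sf_val`, `sf_zero_cost` (VAL 0.5k),
  `sf_fin2, sf_fin1, sf_minc, sf_minc_all, sf_zn` (MINC 4k), `sf_af` (AB+SH+AF 13k, helper19), leaves of Frame (0.3k), Mono (0.4k).
-/

set_option autoImplicit false

namespace Claimed.Agent.R256

open Claimed.Agent.R255

/-! ### named promises of the suppliers -/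

/-- OWNER helper255 (Cyl) + helper199 (Gen), EST: glue 300 lines on `Cyl/Contract.lean` (CyExt, CyMatched, CyForward), `Gen/Contract.lean` (R0-R2), instance `Gen`, `Loc` of the classical cylinder. -/
theorem sf_ent_cl (η : ℝ) (h0 : 0 < η) (h1 : η < 1) : SfEntC (sfCl η) :=
  sf_ent_of (sfCl η) (cyHypCl η h0 h1) (cy_jit_cl η h0 h1)

/-- OWNER helper255 (Cyl) + helper199 (Gen) + helper82 (Hyb instance), EST: glue 300 lines, as `sf_ent_cl`. -/
theorem sf_ent_hy (η : ℝ) (h0 : 0 < η) (h1 : η < 1) : SfEntC (sfHy η) :=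
  sf_ent_of (sfHy η) (cyHypHy η h0 h1) (cy_jit_hy η h0 h1)

/-- OWNER helper130 (Chan) + BP-256-SOFT-MEM, EST 2500 lines: (mem) on shadows from `ch_mem_cl`, `ch_mem_hyb` + `SfMD.Ext`. -/
theorem sf_rig_mem (Y : SfCy) (hY : (∃ η, Y = sfCl η) ∨ ∃ η, Y = sfHy η) : SfRigC Y nmX :=
  ch_rig Y hY

/-- OWNER helper130 (Chan) + BP-256-SOFT-MEM, EST 1000 lines: zero-cost memory (Cor. low:zero-memory) on classical shadows. -/
theorem sf_rig0_mem (η : ℝ) (_h0 : 0 < η) (_h1 : η < 1) : SfRig0C (sfCl η) CeMem :=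
  ch_rig0_cl η

/-! ### the closed theorems of the hub -/

theorem sf_hub_q1_cl : HubQ1 false (hubX false) := by
  intro _ η h0 h1 h
  exact sf_Q1_cl η nmX CeMem (sf_ent_cl η h0 h1) (sf_rig_mem _ (Or.inl ⟨η, rfl⟩))
    (sf_rig0_mem η h0 h1) (fun Γ hΓ => ce_main η Γ h0 h1 hΓ) (by simpa [hubCyl] using h)

theorem sf_hub_q1_hy : HubQ1 true (hubX true) := by
  intro h6 η h0 h1 h
  exact sf_Q1_hy η nmX (sf_ent_hy η h0 h1) (sf_rig_mem _ (Or.inr ⟨η, rfl⟩)) (hz_sf η h0 h1)
    (h6 rfl η h0 h1) (by simpa [hubCyl] using h)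

/-- **Q1** -/
theorem sf_hub_q1 (hyb : Bool) : HubQ1 hyb (hubX hyb) := by
  cases hyb
  · exact sf_hub_q1_cl
  · exact sf_hub_q1_hy

end Claimed.Agent.R256
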