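import Claimed.Agent.R256.Soft.Voc

/-!
# Row 256 (S0496), unit SOFT, A8 MINC, file 1: KIT      (architect helper286; chief helper19; prefix `sf_mc_`, `sfMc`, `SfMc`)

Doc-level tools for `sf_minc` (P6, cost rigidity), all on ONE `D : SfDoc` with `D.Good π Ls C0 t`; no class, no pattern.
* `sf_mc_anti`, `sf_mc_len_pos`, `sf_mc_width`    powers of the scale, lengths, polynomial widths (from `Mat.wr` against the gate `1`)
* `sfMcAncT`, `sf_mc_anc_eq`                       the time of the interval of the gate `i` above a time of the gate `j` (unique by `Core.grid`)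
* `sfMcSg`, `sfMcFr`                               the frame of a bin: root time `T`, units `(len i, r j, f j)`, centre `0`, shear = the NON-CONSTANT part of the given shear `sg`, re-based at `T`
                                                   (`SfTest.size` controls neither `sg.T` nor, through it, `d(t) = d + (t - T) c`; the costs do not see `c, d`)
* `sf_mc_R2`, `sf_mc_R1`                           the costs after subtraction of `sfMcSg sg T` = the costs after subtraction of `sg`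
-/

set_option autoImplicit false

namespace Claimed.Agent.R256

open Claimed.Agent.R255

theorem sf_mc_anti {s x y : ℝ} (h0 : 0 < s) (h1 : s < 1) (hxy : x ≤ y) : s ^ y ≤ s ^ x :=
  Real.rpow_le_rpow_of_exponent_ge h0 h1.le hxy

theorem sf_mc_len_pos (D : SfDoc) (π : SfPar) (C0 t : ℝ) (h : D.Core π C0 t) (i : ℝ) (hi : i ∈ D.G) : 0 < D.len i :=
  lt_of_lt_of_le (Real.rpow_pos_of_pos h.hs.1 _) (h.hlen.2 i hi).1

/-- polynomial widths -/
theorem sf_mc_width (D : SfDoc) (π : SfPar) (Ls C0 t : ℝ) (ht : 0 < t) (h : D.Good π Ls C0 t) (i : ℝ) (hi : i ∈ D.G) :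
    D.s ^ (|Ls| + t) ≤ D.r i ∧ D.r i ≤ 1 ∧ D.s ^ (|Ls| + t) ≤ D.f i ∧ D.f i ≤ D.s ^ (-(|Ls| + t)) := by
  have hs := h.1.hs
  have hi01 := h.1.gate.2 i hi
  have hL : 0 ≤ |Ls| := abs_nonneg _
  rcases hi01.2.lt_or_eq with hlt | heq
  · have hw := h.2.wr i hi 1 h.1.gate.1 hlt
    rw [h.1.hw.1, h.1.hw.2.1, div_one, div_one] at hw
    have hx : Ls * (1 - i) + t ≤ |Ls| + t := by
      have h1 : Ls * (1 - i) ≤ |Ls| * 1 := by
        calc Ls * (1 - i) ≤ |Ls| * (1 - i) := mul_le_mul_of_nonneg_right (le_abs_self _) (by linarith)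
          _ ≤ |Ls| * 1 := mul_le_mul_of_nonneg_left (by linarith) hL
      linarith
    refine ⟨(sf_mc_anti hs.1 hs.2 hx).trans hw.1, hw.2.1, (sf_mc_anti hs.1 hs.2 hx).trans hw.2.2.1, hw.2.2.2.trans ?_⟩
    exact sf_mc_anti hs.1 hs.2 (by linarith)
  · subst heq
    rw [h.1.hw.1, h.1.hw.2.1]
    have h1 : D.s ^ (|Ls| + t) ≤ 1 := Real.rpow_le_one hs.1.le hs.2.le (by linarith)
    refine ⟨h1, le_refl _, h1, ?_⟩
    rw [Real.rpow_neg hs.1.le]
    exact (one_le_inv₀ (Real.rpow_pos_of_pos hs.1 _)).2 h1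

/-- the time of the interval of the gate `i` that contains the interval `[T', T' + len j]` (default `0`) -/
noncomputable def sfMcAncT (D : SfDoc) (i j T' : ℝ) : ℝ :=
  open Classical in
  if h : ∃ ρ : D.Row i, D.T i ρ ≤ T' ∧ T' + D.len j ≤ D.T i ρ + D.len i then D.T i h.choose else 0

theorem sf_mc_anc_eq (D : SfDoc) (π : SfPar) (C0 t : ℝ) (h : D.Core π C0 t) (i j : ℝ) (hi : i ∈ D.G) (hj : j ∈ D.G) (T' : ℝ)
    (ρ : D.Row i) (h1 : D.T i ρ ≤ T') (h2 : T' + D.len j ≤ D.T i ρ + D.len i) : sfMcAncT D i j T' = D.T i ρ := by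
  classical
  have hex : ∃ ρ : D.Row i, D.T i ρ ≤ T' ∧ T' + D.len j ≤ D.T i ρ + D.len i := ⟨ρ, h1, h2⟩
  unfold sfMcAncT
  rw [dif_pos hex]
  by_contra hne
  have hg := h.grid i hi _ _ hne
  have hc := hex.choose_spec
  have hl := sf_mc_len_pos D π C0 t h j hj
  have : |D.T i hex.choose - D.T i ρ| < D.len i := by
    rw [abs_lt]
    constructor <;> linarith [hc.1, hc.2]
  linarith

/-- the time of a predecessor -/
theorem sf_mc_anc_conn (D : SfDoc) (π : SfPar) (C0 t : ℝ) (h : D.Core π C0 t) (i j : ℝ) (hi : i ∈ D.G) (hj : j ∈ D.G) (hij : i < j)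
    (ρ : D.Row i) (ρ' : D.Row j) (hc : D.Conn i j ρ ρ') : sfMcAncT D i j (D.T j ρ') = D.T i ρ := by
  have hb := h.base i hi j hj hij ρ ρ' hc
  exact sf_mc_anc_eq D π C0 t h i j hi hj _ ρ hb.1 hb.2.1

/-- the non-constant part of a shear, re-based at the time `T` -/
def sfMcSg (sg : SfTest) (T : ℝ) : SfTest := ⟨T, 0, 0, 0, 0, 0, sg.al, sg.beAt T, sg.K, 0, 0⟩

/-- the frame of a bin -/
def sfMcFr (D : SfDoc) (i j : ℝ) (sg : SfTest) (T : ℝ) : SfFrame := ⟨T, D.len i, 0, 0, 0, D.r j, D.f j, sfMcSg sg T⟩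

theorem sf_mc_kit_eqns_cite : True := by
  have := @sfMcAncT.eq_1
  have := @sfMcSg.eq_1
  have := @sfMcFr.eq_1
  trivial

theorem sf_mc_beAt (sg : SfTest) (T t : ℝ) : (sfMcSg sg T).beAt t = sg.beAt t := by
  simp only [sfMcSg, SfTest.beAt]
  ring

theorem sf_mc_R2 (Q sg : SfTest) (T l : ℝ) : sfR2 Q (sfMcSg sg T) l = sfR2 Q sg l := by
  unfold sfR2
  rw [sf_mc_beAt]
  rfl

theorem sf_mc_R1 (Q sg : SfTest) (T : ℝ) : sfR1 Q (sfMcSg sg T) = sfR1 Q sg := by
  unfold sfR1 SfTest.PdAt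
  rw [sf_mc_beAt]
  rfl

end Claimed.Agent.R256
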