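import Claimed.Agent.R256.Soft.AAbDefs
import Claimed.Agent.R256.Soft.AMinKit
import Claimed.Agent.R255.Ent.Basic

/-!
# Row 256 (S0496), unit SOFT, A5 AB, file 2: CONTRACT of the DOC LEVEL part      (architect helper55; prefix `sf_ab_`)

All statements are about ONE `D : SfDoc` with `D.Fm π Ls C0 a μ h` (`Soft/AAbDefs.lean`): `Good` at the accuracy `a`, `0 ∈ G`, `μ`-fine mesh, gaps `≥ h`, `8 a ≤ d h`, `card G ≤ s^(-a)`, `s^a ≤ 1/16`.   PAPER FREE.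
Form: `∃ e0 > 0, ∀ D .., a ≤ e0 → μ ≤ e0 → ..`: THE PROVER CHOOSES `e0` (it may depend on `Ls` and on the target tolerance `t` only).   Never change a statement; a defect goes to helper55.
TOOLS: `0 < s < 1`, `x ≤ y → s^y ≤ s^x` (`sf_mc_anti`), `sf_mc_width` (`s^(|Ls|+a) ≤ r i ≤ 1`, `s^(|Ls|+a) ≤ f i ≤ s^(-(|Ls|+a))`), `sf_mc_len_pos`, `sfMcAncT`, `sf_mc_anc_conn` (`Soft/AMinKit.lean`), `ent_pr_*` (`R255/Ent/Basic.lean`).
A constant `n ≤ 16` is absorbed by `s^(-a)`.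
LEAVES:  KIT (`sf_ab_w_one` .. `sf_ab_next`), TELE, A-BE, A-K, A-P, B, K, PC, P.
-/

set_option autoImplicit false

namespace Claimed.Agent.R256

open Claimed.Agent.R255

/-! ## 0. Kit      (leaf L-256-SOFT-AB-KIT, ~250 l.) -/

theorem sf_ab_w_one (D : SfDoc) (π : SfPar) (C0 a : ℝ) (h : D.Core π C0 a) : D.w2 1 = 1 ∧ D.w1 1 = 1 := by
  unfold SfDoc.w2 SfDoc.w1
  rw [h.hw.1, h.hw.2.1]
  norm_num

theorem sf_ab_w_pos (D : SfDoc) (π : SfPar) (C0 a : ℝ) (h : D.Core π C0 a) (i : ℝ) (hi : i ∈ D.G) : 0 < D.w2 i ∧ 0 < D.w1 i := by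
  have hp := h.hw.2.2 i hi
  exact ⟨div_pos hp.2 (pow_pos hp.1 2), div_pos hp.2 hp.1⟩

/-- Lipschitz bounds of the width exponents (`Mat.wr`): with `e = |Ls| (j - i) + a` -/
theorem sf_ab_lip (D : SfDoc) (π : SfPar) (Ls C0 a : ℝ) (h : D.Good π Ls C0 a) (i j : ℝ) (hi : i ∈ D.G) (hj : j ∈ D.G) (hij : i < j) :
    D.r i ≤ D.r j ∧
    D.w2 i ≤ D.w2 j * D.s ^ (-(3 * (|Ls| * (j - i) + a))) ∧ D.w2 j ≤ D.w2 i * D.s ^ (-(3 * (|Ls| * (j - i) + a))) ∧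
    D.w1 i ≤ D.w1 j * D.s ^ (-(3 * (|Ls| * (j - i) + a))) ∧ D.w1 j ≤ D.w1 i * D.s ^ (-(3 * (|Ls| * (j - i) + a))) := by
  have hs := h.1.hs
  obtain ⟨hri, hfi⟩ := h.1.hw.2.2 i hi
  obtain ⟨hrj, hfj⟩ := h.1.hw.2.2 j hj
  obtain ⟨w1, w2, w3, w4⟩ := h.2.wr i hi j hj hij
  obtain ⟨x, hx⟩ : ∃ x, x = Ls * (j - i) + a := ⟨_, rfl⟩
  obtain ⟨e, he⟩ : ∃ e, e = |Ls| * (j - i) + a := ⟨_, rfl⟩
  rw [← hx] at w1 w3 w4
  rw [← he]
  have hxe : x ≤ e := by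
    rw [hx, he]
    have := mul_le_mul_of_nonneg_right (le_abs_self Ls) (by linarith : 0 ≤ j - i)
    linarith
  have hx0 : 0 ≤ x := by
    by_contra hneg
    push Not at hneg
    have := Real.one_lt_rpow_of_pos_of_lt_one_of_neg hs.1 hs.2 hneg
    linarith
  obtain ⟨p, hp⟩ : ∃ p, p = D.s ^ x := ⟨_, rfl⟩
  have hp0 : 0 < p := hp ▸ Real.rpow_pos_of_pos hs.1 _
  have hp1 : p ≤ 1 := hp ▸ Real.rpow_le_one hs.1.le hs.2.le hx0
  have hneg : D.s ^ (-x) = p⁻¹ := by rw [Real.rpow_neg hs.1.le, hp]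
  rw [← hp] at w1 w3
  rw [hneg] at w4
  -- the big factor
  obtain ⟨M, hM⟩ : ∃ M, M = D.s ^ (-(3 * e)) := ⟨_, rfl⟩
  rw [← hM]
  have hM3 : (p⁻¹) ^ 3 ≤ M := by
    rw [hM, hp, ← Real.rpow_neg hs.1.le, ← Real.rpow_natCast, ← Real.rpow_mul hs.1.le]
    exact sf_mc_anti hs.1 hs.2 (by push_cast; linarith)
  have hq1 : 1 ≤ p⁻¹ := (one_le_inv₀ hp0).2 hp1
  obtain ⟨q, hq⟩ : ∃ q, q = p⁻¹ := ⟨_, rfl⟩
  rw [← hq] at hM3 hq1 w4
  have hpq : p * q = 1 := by rw [hq]; exact mul_inv_cancel₀ hp0.ne'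
  have hq0 : 0 < q := by linarith
  have hq2 : q ^ 2 ≤ q ^ 3 := pow_le_pow_right₀ hq1 (by norm_num)
  have hq12 : q ≤ q ^ 3 := by
    calc q = q ^ 1 := (pow_one q).symm
      _ ≤ q ^ 3 := pow_le_pow_right₀ hq1 (by norm_num)
  -- clean inequalities
  have a1 : p * D.r j ≤ D.r i := (le_div_iff₀ hrj).1 w1
  have a2 : D.r i ≤ D.r j := by have := (div_le_iff₀ hrj).1 w2; linarith
  have a3 : p * D.f j ≤ D.f i := (le_div_iff₀ hfj).1 w3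
  have a4 : D.f i ≤ q * D.f j := (div_le_iff₀ hfj).1 w4
  have b1 : D.r j ≤ q * D.r i := by
    have := mul_le_mul_of_nonneg_left a1 hq0.le
    rw [← mul_assoc, mul_comm q p, hpq, one_mul] at this
    exact this
  have b3 : D.f j ≤ q * D.f i := by
    have := mul_le_mul_of_nonneg_left a3 hq0.le
    rw [← mul_assoc, mul_comm q p, hpq, one_mul] at this
    exact this
  have hM0 : 0 < M := lt_of_lt_of_le (pow_pos hq0 3) hM3
  refine ⟨a2, ?_, ?_, ?_, ?_⟩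
  · -- f i / r i ^2 ≤ f j / r j ^ 2 * M
    unfold SfDoc.w2
    rw [div_le_iff₀ (pow_pos hri 2), div_mul_eq_mul_div, div_mul_eq_mul_div, le_div_iff₀ (pow_pos hrj 2)]
    calc D.f i * D.r j ^ 2 ≤ (q * D.f j) * (q * D.r i) ^ 2 :=
          mul_le_mul a4 (pow_le_pow_left₀ hrj.le b1 2) (by positivity) (by positivity)
      _ = D.f j * q ^ 3 * D.r i ^ 2 := by ring
      _ ≤ D.f j * M * D.r i ^ 2 := by gcongr
  · unfold SfDoc.w2
    rw [div_le_iff₀ (pow_pos hrj 2), div_mul_eq_mul_div, div_mul_eq_mul_div, le_div_iff₀ (pow_pos hri 2)]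
    calc D.f j * D.r i ^ 2 ≤ (q * D.f i) * D.r j ^ 2 :=
          mul_le_mul b3 (pow_le_pow_left₀ hri.le a2 2) (by positivity) (by positivity)
      _ = D.f i * q * D.r j ^ 2 := by ring
      _ ≤ D.f i * M * D.r j ^ 2 := by gcongr; exact hq12.trans hM3
  · unfold SfDoc.w1
    rw [div_le_iff₀ hri, div_mul_eq_mul_div, div_mul_eq_mul_div, le_div_iff₀ hrj]
    calc D.f i * D.r j ≤ (q * D.f j) * (q * D.r i) :=
          mul_le_mul a4 b1 (by positivity) (by positivity)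
      _ = D.f j * q ^ 2 * D.r i := by ring
      _ ≤ D.f j * M * D.r i := by gcongr; exact hq2.trans hM3
  · unfold SfDoc.w1
    rw [div_le_iff₀ hrj, div_mul_eq_mul_div, div_mul_eq_mul_div, le_div_iff₀ hri]
    calc D.f j * D.r i ≤ (q * D.f i) * D.r j :=
          mul_le_mul b3 a2 (by positivity) (by positivity)
      _ = D.f i * q * D.r j := by ring
      _ ≤ D.f i * M * D.r j := by gcongr; exact hq12.trans hM3

/-- crude bounds -/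
theorem sf_ab_w_crude (D : SfDoc) (π : SfPar) (Ls C0 a : ℝ) (ha : 0 < a) (h : D.Good π Ls C0 a) (i : ℝ) (hi : i ∈ D.G) :
    D.w2 i ≤ D.s ^ (-(3 * (|Ls| + a))) ∧ D.s ^ (|Ls| + a) ≤ D.w2 i ∧ D.w1 i ≤ D.s ^ (-(3 * (|Ls| + a))) ∧ D.s ^ (|Ls| + a) ≤ D.w1 i := by
  have hs := h.1.hs
  obtain ⟨hri, hfi⟩ := h.1.hw.2.2 i hi
  obtain ⟨w1, w2, w3, w4⟩ := sf_mc_width D π Ls C0 a ha h i hi
  obtain ⟨e, he⟩ : ∃ e, e = |Ls| + a := ⟨_, rfl⟩
  have he0 : 0 < e := by rw [he]; have := abs_nonneg Ls; linarith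
  rw [← he] at w1 w3 w4 ⊢
  obtain ⟨p, hp⟩ : ∃ p, p = D.s ^ e := ⟨_, rfl⟩
  have hp0 : 0 < p := hp ▸ Real.rpow_pos_of_pos hs.1 _
  have hp1 : p ≤ 1 := hp ▸ Real.rpow_le_one hs.1.le hs.2.le he0.le
  have hneg : D.s ^ (-e) = p⁻¹ := by rw [Real.rpow_neg hs.1.le, hp]
  have hM3 : D.s ^ (-(3 * e)) = (p⁻¹) ^ 3 := by
    rw [hp, ← Real.rpow_neg hs.1.le, ← Real.rpow_natCast, ← Real.rpow_mul hs.1.le]
    congr 1
    push_cast
    ring
  rw [hM3, ← hp]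
  rw [← hp] at w1 w3
  rw [hneg] at w4
  have hq1 : 1 ≤ p⁻¹ := (one_le_inv₀ hp0).2 hp1
  obtain ⟨q, hq⟩ : ∃ q, q = p⁻¹ := ⟨_, rfl⟩
  rw [← hq] at hq1 w4 ⊢
  have hpq : p * q = 1 := by rw [hq]; exact mul_inv_cancel₀ hp0.ne'
  have hq0 : 0 < q := by linarith
  have hq2 : q ^ 2 ≤ q ^ 3 := pow_le_pow_right₀ hq1 (by norm_num)
  have b1 : 1 ≤ q * D.r i := by
    have := mul_le_mul_of_nonneg_left w1 hq0.le
    rw [mul_comm q p, hpq] at this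
    exact this
  refine ⟨?_, ?_, ?_, ?_⟩
  · unfold SfDoc.w2
    rw [div_le_iff₀ (pow_pos hri 2)]
    calc D.f i ≤ q * 1 := by linarith
      _ ≤ q * (q * D.r i) ^ 2 := by gcongr; exact one_le_pow₀ b1
      _ = q ^ 3 * D.r i ^ 2 := by ring
  · unfold SfDoc.w2
    rw [le_div_iff₀ (pow_pos hri 2)]
    calc p * D.r i ^ 2 ≤ p * 1 := by gcongr; exact pow_le_one₀ hri.le w2
      _ ≤ D.f i := by linarith
  · unfold SfDoc.w1
    rw [div_le_iff₀ hri]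
    calc D.f i ≤ q * 1 := by linarith
      _ ≤ q * (q * D.r i) := by gcongr
      _ = q ^ 2 * D.r i := by ring
      _ ≤ q ^ 3 * D.r i := by gcongr
  · unfold SfDoc.w1
    rw [le_div_iff₀ hri]
    calc p * D.r i ≤ p * 1 := by gcongr
      _ ≤ D.f i := by linarith

/-- ratios of the lengths -/
theorem sf_ab_len (D : SfDoc) (π : SfPar) (C0 a : ℝ) (h : D.Core π C0 a) (i j : ℝ) (hi : i ∈ D.G) (hj : j ∈ D.G) :
    D.len j ≤ D.len i * D.s ^ ((j - i) - 2 * a) ∧ D.len i * D.s ^ ((j - i) + 2 * a) ≤ D.len j := by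
  have hs := h.hs
  obtain ⟨i1, i2⟩ := h.hlen.2 i hi
  obtain ⟨j1, j2⟩ := h.hlen.2 j hj
  constructor
  · calc D.len j ≤ D.s ^ (j - a) := j2
      _ = D.s ^ (i + a) * D.s ^ ((j - i) - 2 * a) := by rw [← Real.rpow_add hs.1]; congr 1; ring
      _ ≤ D.len i * D.s ^ ((j - i) - 2 * a) := mul_le_mul_of_nonneg_right i1 (Real.rpow_nonneg hs.1.le _)
  · calc D.len i * D.s ^ ((j - i) + 2 * a) ≤ D.s ^ (i - a) * D.s ^ ((j - i) + 2 * a) :=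
          mul_le_mul_of_nonneg_right i2 (Real.rpow_nonneg hs.1.le _)
      _ = D.s ^ (j + a) := by rw [← Real.rpow_add hs.1]; congr 1; ring
      _ ≤ D.len j := j1

/-- the terminal costs are the curvature and the centre derivative of the terminal label -/
theorem sf_ab_cost (D : SfDoc) (π : SfPar) (C0 a : ℝ) (h : D.Core π C0 a) (ρ : D.Row 1) :
    sfR2 (D.lab 1 ρ) sfZero D.s = D.cv ⟨1, ρ⟩ ∧ sfR1 (D.lab 1 ρ) sfZero = |(D.lab 1 ρ).Pc| := by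
  obtain ⟨o1, o2, -⟩ := h.own 1 h.gate.1 ρ
  constructor
  · unfold sfR2 SfDoc.cv
    rw [o1, o2, h.hw.1, h.hw.2.1, h.hlen.1]
    simp [sfZero, SfTest.beAt]
  · unfold sfR1
    rw [o1, o2, h.hw.1, h.hw.2.1]
    simp [sfZero, SfTest.beAt, SfTest.PdAt]

/-- the costs of a row of the gate `j` without subtraction -/
theorem sf_ab_cost_j (D : SfDoc) (π : SfPar) (C0 a : ℝ) (h : D.Core π C0 a) (j : ℝ) (hj : j ∈ D.G) (ρ : D.Row j) :
    sfR2 (D.lab j ρ) sfZero (D.len j) = D.cv ⟨j, ρ⟩ / D.w2 j ∧ sfR1 (D.lab j ρ) sfZero = |(D.lab j ρ).Pc| / D.w1 j := by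
  obtain ⟨o1, o2, -⟩ := h.own j hj ρ
  obtain ⟨hrj, hfj⟩ := h.hw.2.2 j hj
  constructor
  · unfold sfR2 SfDoc.cv SfDoc.w2
    rw [o1, o2]
    simp only [sfZero, SfTest.beAt, mul_zero, add_zero, sub_zero]
    field_simp
  · unfold sfR1 SfDoc.w1
    rw [o1, o2]
    simp only [sfZero, SfTest.beAt, SfTest.PdAt, mul_zero, add_zero, sub_zero, zero_mul]
    field_simp

/-- every gate has a row -/
theorem sf_ab_row_ne (D : SfDoc) (i : ℝ) : Nonempty (D.Row i) := by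
  by_contra hne
  rw [not_nonempty_iff] at hne
  have := (D.P i).sum_one
  rw [Finset.univ_eq_empty, Finset.sum_empty] at this
  exact zero_ne_one this

/-- monotonicity of the row bounds in the tolerance -/
theorem sf_ab_row_mono (D : SfDoc) (hs : 0 < D.s ∧ D.s < 1) (c t t' : ℝ) (htt : t ≤ t') (u : D.Rw) :
    (D.RowB c t u → D.RowB c t' u) ∧ (D.RowK c t u → D.RowK c t' u) ∧ (D.RowP c t u → D.RowP c t' u) := by
  have hm : D.s ^ (-t) ≤ D.s ^ (-t') := sf_mc_anti hs.1 hs.2 (by linarith)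
  have hV : ∀ V : ℝ, D.s ^ (-c) ≤ V → V * D.s ^ (-t) ≤ V * D.s ^ (-t') := fun V hV =>
    mul_le_mul_of_nonneg_left hm ((Real.rpow_nonneg hs.1.le _).trans hV)
  refine ⟨fun H V h1 h2 => (H V h1 h2).trans (hV V h1), fun H V h1 h2 h3 => (H V h1 h2 h3).trans (hV V h1),
    fun H V h1 h2 => (H V h1 h2).trans (hV V h1)⟩

theorem sf_ab_chA_mono (D : SfDoc) (π : SfPar) (C0 a : ℝ) (h : D.Core π C0 a) (t t' : ℝ) (htt : t ≤ t') (hA : D.ChA t) : D.ChA t' := by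
  have hs := h.hs
  have hm : D.s ^ (-t) ≤ D.s ^ (-t') := sf_mc_anti hs.1 hs.2 (by linarith)
  refine ⟨fun i hi j hj hij ρ ρ' hc V hV => (hA.be i hi j hj hij ρ ρ' hc V hV).trans (mul_le_mul_of_nonneg_left hm ?_),
    fun i hi j hj hij ρ ρ' hc V hV => (hA.K i hi j hj hij ρ ρ' hc V hV).trans (mul_le_mul_of_nonneg_left hm ?_),
    fun i hi j hj hij ρ ρ' hc V hV => (hA.P i hi j hj hij ρ ρ' hc V hV).trans (mul_le_mul_of_nonneg_left hm ?_)⟩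
  · exact (sf_ab_w_pos D π C0 a h i hi).1.le.trans (hV i hi le_rfl hij.le)
  · exact (div_pos (sf_ab_w_pos D π C0 a h i hi).1 (sf_mc_len_pos D π C0 a h i hi)).le.trans (hV i hi le_rfl hij.le)
  · exact (sf_ab_w_pos D π C0 a h i hi).2.le.trans (hV i hi le_rfl hij.le)

/-- a gate in `[x, x + μ]`      (the least gate `≥ x`; if it is not `≤ x + μ`, apply `Fine` to the largest gate `< x`, which exists since `0 ∈ G`) -/
theorem sf_ab_next (D : SfDoc) (π : SfPar) (C0 a μ : ℝ) (h : D.Core π C0 a) (h0 : (0 : ℝ) ∈ D.G) (hf : D.FineM μ) (x : ℝ) (hx0 : 0 ≤ x) (hx1 : x ≤ 1) :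
    ∃ k ∈ D.G, x ≤ k ∧ k ≤ x + μ := by
  have hμ : 0 < μ := by
    obtain ⟨j, -, h1, h2⟩ := hf 0 h0 one_pos
    linarith
  by_cases hxG : x ∈ D.G
  · exact ⟨x, hxG, le_rfl, by linarith⟩
  have hx00 : 0 < x := lt_of_le_of_ne hx0 (fun he => hxG (he ▸ h0))
  have hne : (D.G.filter (fun g => g < x)).Nonempty := ⟨0, Finset.mem_filter.2 ⟨h0, hx00⟩⟩
  obtain ⟨hgG, hgx⟩ := Finset.mem_filter.1 (Finset.max'_mem _ hne)
  obtain ⟨g, hg⟩ : ∃ g, g = (D.G.filter (fun g => g < x)).max' hne := ⟨_, rfl⟩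
  rw [← hg] at hgG hgx
  obtain ⟨j, hjG, h1, h2⟩ := hf g hgG (by linarith)
  refine ⟨j, hjG, ?_, by linarith⟩
  by_contra hlt
  push Not at hlt
  have := Finset.le_max' (D.G.filter (fun g => g < x)) j (Finset.mem_filter.2 ⟨hjG, hlt⟩)
  rw [← hg] at this
  linarith

/-- the time of a later connected row lies in the interval of the earlier row -/
theorem sf_ab_time (D : SfDoc) (π : SfPar) (C0 a : ℝ) (h : D.Core π C0 a) (i j : ℝ) (hi : i ∈ D.G) (hj : j ∈ D.G) (hij : i < j) (ρ : D.Row i) (ρ' : D.Row j)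
    (hc : D.Conn i j ρ ρ') : 0 ≤ D.T j ρ' - D.T i ρ ∧ D.T j ρ' - D.T i ρ ≤ D.len i := by
  obtain ⟨b1, b2, -⟩ := h.base i hi j hj hij ρ ρ' hc
  have := sf_mc_len_pos D π C0 a h j hj
  constructor <;> linarith

/-- the derivative at the ray and at the centre: `own` -/
theorem sf_ab_Pd_Pc (D : SfDoc) (π : SfPar) (C0 a : ℝ) (h : D.Core π C0 a) (i : ℝ) (hi : i ∈ D.G) (ρ : D.Row i) :
    |(D.lab i ρ).Pd (D.ray i ρ) - (D.lab i ρ).Pc| ≤ 2 * D.r i * D.cv ⟨i, ρ⟩ := by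
  obtain ⟨o1, -, o3, -⟩ := h.own i hi ρ
  obtain ⟨m1, m2, -⟩ := o3
  rw [o1] at m1 m2
  obtain ⟨hri, -⟩ := h.hw.2.2 i hi
  have hl := sf_mc_len_pos D π C0 a h i hi
  unfold SfDoc.cv SfTest.Pd SfTest.Pc
  have e : (D.lab i ρ).al + 2 * (D.lab i ρ).be * (D.ray i ρ).X - 2 * (D.lab i ρ).K * (D.ray i ρ).Bt (D.lab i ρ).T
      - ((D.lab i ρ).al + 2 * (D.lab i ρ).be * (D.lab i ρ).x - 2 * (D.lab i ρ).K * (D.lab i ρ).b)
      = 2 * ((D.lab i ρ).be * ((D.ray i ρ).X - (D.lab i ρ).x)) - 2 * ((D.lab i ρ).K * ((D.ray i ρ).Bt (D.lab i ρ).T - (D.lab i ρ).b)) := by ring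
  rw [e]
  have t1 : |(D.lab i ρ).be * ((D.ray i ρ).X - (D.lab i ρ).x)| ≤ |(D.lab i ρ).be| * D.r i := by
    rw [abs_mul]; exact mul_le_mul_of_nonneg_left m1 (abs_nonneg _)
  have t2 : |(D.lab i ρ).K * ((D.ray i ρ).Bt (D.lab i ρ).T - (D.lab i ρ).b)| ≤ |(D.lab i ρ).K| * (D.len i * D.r i) := by
    rw [abs_mul]; exact mul_le_mul_of_nonneg_left m2 (abs_nonneg _)
  have t3 := abs_sub (2 * ((D.lab i ρ).be * ((D.ray i ρ).X - (D.lab i ρ).x))) (2 * ((D.lab i ρ).K * ((D.ray i ρ).Bt (D.lab i ρ).T - (D.lab i ρ).b)))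
  rw [abs_mul, abs_mul 2 ((D.lab i ρ).K * _), abs_two] at t3
  refine t3.trans ?_
  show _ ≤ 2 * D.r i * (|(D.lab i ρ).be| + D.len i * |(D.lab i ρ).K|)
  nlinarith [t1, t2]

/-- the difference of two derivatives is affine in the base ray: for every time `τ` -/
theorem sf_ab_Pd_diff (Q Q' : SfTest) (z z' : SfRay) (τ : ℝ) :
    (Q.Pd z - Q'.Pd z) - (Q.Pd z' - Q'.Pd z') = 2 * (Q.beAt τ - Q'.beAt τ) * (z.X - z'.X) - 2 * (Q.K - Q'.K) * (z.Bt τ - z'.Bt τ) := by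
  unfold SfTest.Pd SfTest.beAt SfRay.Bt
  ring

/-- rows without predecessor are negligible, rows without continuation cannot carry the later gate (`Core.sp`) -/
theorem sf_ab_sp_ex (D : SfDoc) (π : SfPar) (C0 a : ℝ) (h : D.Core π C0 a) (ha : 0 < a) (i j : ℝ) (hi : i ∈ D.G) (hj : j ∈ D.G) (hij : i < j) :
    ∃ (ρ : D.Row i) (ρ' : D.Row j), D.Conn i j ρ ρ' := by
  by_contra hno
  push Not at hno
  have hs := h.hs
  have hsp := h.sp i hi j hj hij (fun _ => True) (fun _ => False) (fun ρ' _ ρ hc => hno ρ ρ' hc)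
  rw [ent_pr_true, ent_pr_false, Real.zero_rpow (by norm_num), mul_zero, zero_add] at hsp
  have := Real.rpow_lt_one hs.1.le hs.2 (by positivity : 0 < 1 / a)
  linarith

/-! ## 1. Telescoping      (leaf L-256-SOFT-AB-TELE, ~120 l.) -/

/-- **TELE.**   `Y` = a number attached to every row.   If `|Y u - Y v| ≤ E` for connected rows of gates at distance `≤ μ` on chains from `u0` to `v0`, then `|Y u0 - Y v0| ≤ card G * E`.
PROOF.   Induction on `n ≥ card {g ∈ G | u.1 < g ≤ v0.1}` for the statement: every `u` with `u0.1 ≤ u.1 < v0.1`, `(u = u0 ∨ Conn u0 u)`, `Conn u v0` has `|Y u - Y v0| ≤ n * E`.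
Take `k ∈ G`, `u.1 < k ≤ u.1 + μ` (`Fine`).   If `v0.1 ≤ k`: one step `(u, v0)`.   Otherwise `Core.split` at `k` gives `v` with `Conn u v`, `Conn v v0`; `Conn u0 v` by `Core.trans`; the filter for `v` has lost `k`. -/
theorem sf_ab_tele (D : SfDoc) (π : SfPar) (C0 a μ : ℝ) (hc : D.Core π C0 a) (hf : D.FineM μ) (u0 v0 : D.Rw) (hu0 : u0.1 ∈ D.G) (hv0 : v0.1 ∈ D.G)
    (hlt : u0.1 < v0.1) (h0 : D.Conn u0.1 v0.1 u0.2 v0.2) (Y : D.Rw → ℝ) (E : ℝ) (hE : 0 ≤ E)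
    (hstep : ∀ u v : D.Rw, u.1 ∈ D.G → v.1 ∈ D.G → u.1 < v.1 → v.1 ≤ u.1 + μ → u0.1 ≤ u.1 → v.1 ≤ v0.1 → D.Conn u.1 v.1 u.2 v.2 →
      (u = u0 ∨ D.Conn u0.1 u.1 u0.2 u.2) → (v = v0 ∨ D.Conn v.1 v0.1 v.2 v0.2) → |Y u - Y v| ≤ E) :
    |Y u0 - Y v0| ≤ D.G.card * E := by
  have key : ∀ n : ℕ, ∀ u : D.Rw, u.1 ∈ D.G → u.1 < v0.1 → (u = u0 ∨ (u0.1 < u.1 ∧ D.Conn u0.1 u.1 u0.2 u.2)) → D.Conn u.1 v0.1 u.2 v0.2 →
      (D.G.filter (fun g => u.1 < g ∧ g ≤ v0.1)).card ≤ n → |Y u - Y v0| ≤ n * E := by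
    intro n
    induction n with
    | zero =>
      intro u hu hul _ _ hcard
      have : v0.1 ∈ D.G.filter (fun g => u.1 < g ∧ g ≤ v0.1) := Finset.mem_filter.2 ⟨hv0, hul, le_rfl⟩
      have := Finset.card_pos.2 ⟨_, this⟩
      omega
    | succ n ih =>
      intro u hu hul hu0' hcv hcard
      have hle : u0.1 ≤ u.1 := by
        rcases hu0' with rfl | h
        · exact le_rfl
        · exact h.1.le
      have hor : u = u0 ∨ D.Conn u0.1 u.1 u0.2 u.2 := hu0'.imp id fun h => h.2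
      obtain ⟨k, hk, huk, hkμ⟩ := hf u.1 hu (hul.trans_le (hc.gate.2 _ hv0).2)
      push_cast
      by_cases hkv : v0.1 ≤ k
      · have := hstep u v0 hu hv0 hul (hkv.trans hkμ) hle le_rfl hcv hor (Or.inl rfl)
        nlinarith
      · push Not at hkv
        obtain ⟨ρ', c1, c2⟩ := hc.split u.1 hu k hk v0.1 hv0 huk hkv u.2 v0.2 hcv
        have hcu : u0.1 < k ∧ D.Conn u0.1 k u0.2 ρ' := by
          rcases hu0' with rfl | h
          · exact ⟨huk, c1⟩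
          · exact ⟨h.1.trans huk, hc.trans u0.1 hu0 u.1 hu k hk h.1 huk u0.2 u.2 ρ' h.2 c1⟩
        have s1 := hstep u ⟨k, ρ'⟩ hu hk huk hkμ hle hkv.le c1 hor (Or.inr c2)
        have hsub : D.G.filter (fun g => k < g ∧ g ≤ v0.1) ⊆ (D.G.filter (fun g => u.1 < g ∧ g ≤ v0.1)).erase k := by
          intro g hg
          obtain ⟨g1, g2, g3⟩ := Finset.mem_filter.1 hg
          exact Finset.mem_erase.2 ⟨g2.ne', Finset.mem_filter.2 ⟨g1, huk.trans g2, g3⟩⟩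
        have hkm : k ∈ D.G.filter (fun g => u.1 < g ∧ g ≤ v0.1) := Finset.mem_filter.2 ⟨hk, huk, hkv.le⟩
        have hc2 := Finset.card_le_card hsub
        rw [Finset.card_erase_of_mem hkm] at hc2
        have hc3 : (D.G.filter (fun g => k < g ∧ g ≤ v0.1)).card ≤ n := by omega
        have s2 := ih ⟨k, ρ'⟩ hk hkv (Or.inr hcu) c2 hc3
        have := abs_sub_le (Y u) (Y ⟨k, ρ'⟩) (Y v0)
        linarith
  exact key D.G.card u0 hu0 hlt (Or.inl rfl) h0 (Finset.card_filter_le _ _)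

/-! ## 2. (A) -/

/-- the exponent of one step -/
theorem sf_ab_A_aux_exp (D : SfDoc) (hs : 0 < D.s ∧ D.s < 1) (Ls a μ x y : ℝ) (hxy : x < y) (hμ : y ≤ x + μ) :
    D.s ^ (-((3 * Ls + 1) * (y - x) + a)) ≤ D.s ^ (-((3 * |Ls| + 1) * μ + a)) := by
  refine Real.rpow_le_rpow_of_exponent_ge hs.1 hs.2.le ?_
  have h1 : (3 * Ls + 1) * (y - x) ≤ (3 * |Ls| + 1) * (y - x) :=
    mul_le_mul_of_nonneg_right (by linarith [le_abs_self Ls]) (by linarith)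
  have h2 : (3 * |Ls| + 1) * (y - x) ≤ (3 * |Ls| + 1) * μ :=
    mul_le_mul_of_nonneg_left (by linarith) (by positivity)
  linarith

/-- one step of the first comparison -/
theorem sf_ab_A_be_step (D : SfDoc) (π : SfPar) (Ls C0 a μ : ℝ) (hg : D.Good π Ls C0 a) (u v : D.Rw) (hu : u.1 ∈ D.G)
    (hv : v.1 ∈ D.G) (huv : u.1 < v.1) (hμ : v.1 ≤ u.1 + μ) (hc : D.Conn u.1 v.1 u.2 v.2) (τ : ℝ)
    (h0 : 0 ≤ τ - D.T u.1 u.2) (h1 : τ - D.T u.1 u.2 ≤ D.len u.1) (V : ℝ) (hV : D.w2 v.1 ≤ V) :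
    |(D.lab u.1 u.2).beAt τ - (D.lab v.1 v.2).beAt τ| ≤ V * D.s ^ (-((3 * |Ls| + 1) * μ + a)) := by
  have hm := (hg.2.mm u.1 hu v.1 hv huv u.2 v.2 hc).1
  have hs := hg.1.hs
  have e : (D.lab u.1 u.2).beAt τ - (D.lab v.1 v.2).beAt τ
      = ((D.lab u.1 u.2).be - (D.lab v.1 v.2).beAt (D.T u.1 u.2))
        + (τ - D.T u.1 u.2) * ((D.lab u.1 u.2).K - (D.lab v.1 v.2).K) := by
    unfold SfTest.beAt SfDoc.T
    ring
  have h2 : |(τ - D.T u.1 u.2) * ((D.lab u.1 u.2).K - (D.lab v.1 v.2).K)|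
      ≤ D.len u.1 * |(D.lab u.1 u.2).K - (D.lab v.1 v.2).K| := by
    rw [abs_mul, abs_of_nonneg h0]
    exact mul_le_mul_of_nonneg_right h1 (abs_nonneg _)
  have h3 : 0 < D.w2 v.1 := (sf_ab_w_pos D π C0 a hg.1 v.1 hv).1
  have h4 := sf_ab_A_aux_exp D hs Ls a μ u.1 v.1 huv hμ
  rw [e]
  calc _ ≤ |(D.lab u.1 u.2).be - (D.lab v.1 v.2).beAt (D.T u.1 u.2)|
        + |(τ - D.T u.1 u.2) * ((D.lab u.1 u.2).K - (D.lab v.1 v.2).K)| := abs_add_le _ _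
    _ ≤ D.w2 v.1 * D.s ^ (-((3 * Ls + 1) * (v.1 - u.1) + a)) := by
        unfold SfDoc.w2
        linarith
    _ ≤ V * D.s ^ (-((3 * |Ls| + 1) * μ + a)) :=
        mul_le_mul hV h4 (Real.rpow_pos_of_pos hs.1 _).le (h3.le.trans hV)

/-- **A-BE** (leaf L-256-SOFT-AB-ABE, ~200 l.).   `sf_ab_tele` with `Y u = (lab u).beAt τ`, `τ = T j ρ'`, `E = V * s^(-((3|Ls|+1) μ + a))`.
Step `(u, v)`: `β_u(τ) - β_v(τ) = (be_u - β_v(T_u)) + (τ - T_u) (K_u - K_v)`, `0 ≤ τ - T_u ≤ len u.1` (`sf_ab_time`: `u` is connected to the last row by `trans`, or `v` is the last row), so `Mat.mm` gives `≤ w2 v.1 * s^(-((3Ls+1)(v.1-u.1)+a))`.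
`card G ≤ s^(-a)`.   `e0 = t / (3|Ls| + 4)` works. -/
theorem sf_ab_A_be (Ls t : ℝ) (ht : 0 < t) : ∃ e0 : ℝ, 0 < e0 ∧ ∀ (D : SfDoc) (π : SfPar) (C0 a μ h : ℝ), D.Fm π Ls C0 a μ h → a ≤ e0 → μ ≤ e0 →
    ∀ i ∈ D.G, ∀ j ∈ D.G, i < j → ∀ ρ ρ', D.Conn i j ρ ρ' → ∀ V : ℝ, (∀ k ∈ D.G, i ≤ k → k ≤ j → D.w2 k ≤ V) →
      |(D.lab i ρ).beAt (D.T j ρ') - (D.lab j ρ').be| ≤ V * D.s ^ (-t) := by
  classical
  have hden : 0 < 3 * |Ls| + 4 := by positivity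
  refine ⟨t / (3 * |Ls| + 4), by positivity, ?_⟩
  intro D π C0 a μ h hF ha hμ i hi j hj hij ρ ρ' hc V hV
  have hcore := hF.good.1
  have hs := hcore.hs
  obtain ⟨τ, hτ⟩ : ∃ τ, τ = D.T j ρ' := ⟨_, rfl⟩
  obtain ⟨u0, hu0⟩ : ∃ u0 : D.Rw, u0 = ⟨i, ρ⟩ := ⟨_, rfl⟩
  obtain ⟨v0, hv0⟩ : ∃ v0 : D.Rw, v0 = ⟨j, ρ'⟩ := ⟨_, rfl⟩
  have hu01 : u0.1 = i := by rw [hu0]
  have hv01 : v0.1 = j := by rw [hv0]
  have hτ' : τ = D.T v0.1 v0.2 := by rw [hτ, hv0]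
  have hc0 : D.Conn u0.1 v0.1 u0.2 v0.2 := by rw [hu0, hv0]; exact hc
  have hVpos : 0 < V := lt_of_lt_of_le (sf_ab_w_pos D π C0 a hcore j hj).1 (hV j hj hij.le le_rfl)
  -- the rows which are connected to the last row
  let Gd : D.Rw → Prop := fun u => u = v0 ∨ (u.1 < v0.1 ∧ D.Conn u.1 v0.1 u.2 v0.2)
  let Y : D.Rw → ℝ := fun u => if Gd u then (D.lab u.1 u.2).beAt τ else (D.lab v0.1 v0.2).beAt τ
  obtain ⟨E, hE⟩ : ∃ E, E = V * D.s ^ (-((3 * |Ls| + 1) * μ + a)) := ⟨_, rfl⟩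
  have hE0 : 0 ≤ E := by
    rw [hE]
    exact mul_nonneg hVpos.le (Real.rpow_pos_of_pos hs.1 _).le
  -- a genuine step
  have hreal : ∀ u v : D.Rw, u.1 ∈ D.G → v.1 ∈ D.G → u.1 < v.1 → v.1 ≤ u.1 + μ → u0.1 ≤ u.1 → v.1 ≤ v0.1 →
      D.Conn u.1 v.1 u.2 v.2 → D.Conn u.1 v0.1 u.2 v0.2 →
      |(D.lab u.1 u.2).beAt τ - (D.lab v.1 v.2).beAt τ| ≤ E := by
    intro u v hu hv huv hvμ hu0u hvv0 hcuv hcuv0
    have htm := sf_ab_time D π C0 a hcore u.1 v0.1 hu (by rw [hv01]; exact hj) (lt_of_lt_of_le huv hvv0) u.2 v0.2 hcuv0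
    rw [← hτ'] at htm
    rw [hE]
    exact sf_ab_A_be_step D π Ls C0 a μ hF.good u v hu hv huv hvμ hcuv τ htm.1 htm.2 V
      (hV v.1 hv (by rw [← hu01]; linarith) (by rw [← hv01]; exact hvv0))
  have key := sf_ab_tele D π C0 a μ hcore hF.fine u0 v0 (by rw [hu01]; exact hi) (by rw [hv01]; exact hj)
    (by rw [hu01, hv01]; exact hij) hc0 Y E hE0 (by
      intro u v hu hv huv hvμ hu0u hvv0 hcuv _ hvc
      by_cases hGu : Gd u
      · have hcu : D.Conn u.1 v0.1 u.2 v0.2 := by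
          rcases hGu with rfl | h2
          · exact absurd (lt_of_lt_of_le huv hvv0) (lt_irrefl _)
          · exact h2.2
        by_cases hGv : Gd v
        · show |(if Gd u then _ else _) - (if Gd v then _ else _)| ≤ E
          rw [if_pos hGu, if_pos hGv]
          exact hreal u v hu hv huv hvμ hu0u hvv0 hcuv hcu
        · show |(if Gd u then _ else _) - (if Gd v then _ else _)| ≤ E
          rw [if_pos hGu, if_neg hGv]
          have hveq : v.1 = v0.1 := by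
            rcases hvc with rfl | h2
            · exact absurd (Or.inl rfl) hGv
            · by_contra hne
              exact hGv (Or.inr ⟨lt_of_le_of_ne hvv0 hne, h2⟩)
          exact hreal u v0 hu (by rw [hv01]; exact hj) (by rw [← hveq]; exact huv) (by rw [← hveq]; exact hvμ) hu0u le_rfl
            hcu hcu
      · have hGv : ¬ Gd v := by
          intro hGv
          apply hGu
          rcases hGv with rfl | h2
          · exact Or.inr ⟨huv, hcuv⟩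
          · exact Or.inr ⟨huv.trans h2.1, hcore.trans u.1 hu v.1 hv v0.1 (by rw [hv01]; exact hj) huv h2.1 u.2 v.2 v0.2 hcuv h2.2⟩
        show |(if Gd u then _ else _) - (if Gd v then _ else _)| ≤ E
        rw [if_neg hGu, if_neg hGv, sub_self, abs_zero]
        exact hE0)
  have hY0 : Y u0 = (D.lab i ρ).beAt (D.T j ρ') := by
    show (if Gd u0 then _ else _) = _
    rw [if_pos (Or.inr ⟨by rw [hu01, hv01]; exact hij, hc0⟩), hu0, hτ]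
  have hY1 : Y v0 = (D.lab j ρ').be := by
    show (if Gd v0 then _ else _) = _
    rw [if_pos (Or.inl rfl), hv0, hτ]
    unfold SfTest.beAt SfDoc.T
    ring
  rw [hY0, hY1] at key
  refine key.trans ?_
  have h1 : (D.G.card : ℝ) * E ≤ D.s ^ (-a) * E := mul_le_mul_of_nonneg_right hF.card hE0
  refine h1.trans ?_
  rw [hE]
  have e2 : D.s ^ (-a) * (V * D.s ^ (-((3 * |Ls| + 1) * μ + a))) = V * D.s ^ (-((3 * |Ls| + 1) * μ + 2 * a)) := by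
    rw [mul_left_comm, ← Real.rpow_add hs.1]
    congr 2
    ring
  rw [e2]
  refine mul_le_mul_of_nonneg_left (Real.rpow_le_rpow_of_exponent_ge hs.1 hs.2.le ?_) hVpos.le
  have h3 : (3 * |Ls| + 1) * μ ≤ (3 * |Ls| + 1) * (t / (3 * |Ls| + 4)) :=
    mul_le_mul_of_nonneg_left hμ (by positivity)
  have h4 : (3 * |Ls| + 1) * (t / (3 * |Ls| + 4)) + 2 * (t / (3 * |Ls| + 4)) ≤ t := by
    have : (3 * |Ls| + 1) * (t / (3 * |Ls| + 4)) + 2 * (t / (3 * |Ls| + 4)) = t * ((3 * |Ls| + 3) / (3 * |Ls| + 4)) := by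
      field_simp
      ring
    rw [this]
    have h5 : (3 * |Ls| + 3) / (3 * |Ls| + 4) ≤ 1 := by
      rw [div_le_one hden]; linarith
    nlinarith
  linarith

/-- **A-K** (leaf L-256-SOFT-AB-AK, ~180 l.).   `sf_ab_tele` with `Y u = (lab u).K`.   Step: `Mat.mm` gives `len u.1 * |K_u - K_v| ≤ w2 v.1 * s^(-..)`; `1 / len u.1 ≤ s^(-2a) / len v.1` (`sf_ab_len`). -/
theorem sf_ab_A_K (Ls t : ℝ) (ht : 0 < t) : ∃ e0 : ℝ, 0 < e0 ∧ ∀ (D : SfDoc) (π : SfPar) (C0 a μ h : ℝ), D.Fm π Ls C0 a μ h → a ≤ e0 → μ ≤ e0 →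
    ∀ i ∈ D.G, ∀ j ∈ D.G, i < j → ∀ ρ ρ', D.Conn i j ρ ρ' → ∀ V : ℝ, (∀ k ∈ D.G, i ≤ k → k ≤ j → D.w2 k / D.len k ≤ V) →
      |(D.lab i ρ).K - (D.lab j ρ').K| ≤ V * D.s ^ (-t) := by
  have hden : 0 < 3 * |Ls| + 6 := by positivity
  refine ⟨t / (3 * |Ls| + 6), by positivity, ?_⟩
  intro D π C0 a μ h hF ha hμ i hi j hj hij ρ ρ' hc V hV
  have hcore := hF.good.1
  have hs := hcore.hs
  have hlenpos : ∀ k ∈ D.G, 0 < D.len k := fun k hk =>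
    lt_of_lt_of_le (Real.rpow_pos_of_pos hs.1 _) ((hcore.hlen.2 k hk).1)
  have hVpos : 0 < V := lt_of_lt_of_le (div_pos (sf_ab_w_pos D π C0 a hcore j hj).1 (hlenpos j hj)) (hV j hj hij.le le_rfl)
  obtain ⟨E, hE⟩ : ∃ E, E = V * D.s ^ (-((3 * |Ls| + 1) * μ + 3 * a)) := ⟨_, rfl⟩
  have hE0 : 0 ≤ E := by
    rw [hE]
    exact mul_nonneg hVpos.le (Real.rpow_pos_of_pos hs.1 _).le
  have key := sf_ab_tele D π C0 a μ hcore hF.fine ⟨i, ρ⟩ ⟨j, ρ'⟩ hi hj hij hc (fun u => (D.lab u.1 u.2).K) E hE0 (by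
      intro u v hu hv huv hvμ hu0u hvv0 hcuv _ _
      have hm := (hF.good.2.mm u.1 hu v.1 hv huv u.2 v.2 hcuv).1
      have h1 : D.len u.1 * |(D.lab u.1 u.2).K - (D.lab v.1 v.2).K|
          ≤ D.w2 v.1 * D.s ^ (-((3 * Ls + 1) * (v.1 - u.1) + a)) := by
        unfold SfDoc.w2
        linarith [abs_nonneg ((D.lab u.1 u.2).be - (D.lab v.1 v.2).beAt (D.T u.1 u.2))]
      have h2 := sf_ab_A_aux_exp D hs Ls a μ u.1 v.1 huv hvμ
      have hw := (sf_ab_w_pos D π C0 a hcore v.1 hv).1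
      have h3 : D.len v.1 ≤ D.len u.1 * D.s ^ (-(2 * a)) := by
        refine (sf_ab_len D π C0 a hcore u.1 v.1 hu hv).1.trans ?_
        exact mul_le_mul_of_nonneg_left (Real.rpow_le_rpow_of_exponent_ge hs.1 hs.2.le (by linarith)) (hlenpos u.1 hu).le
      have hVv := hV v.1 hv (hu0u.trans huv.le) hvv0
      have hlu := hlenpos u.1 hu
      have hlv := hlenpos v.1 hv
      have h4 : D.w2 v.1 ≤ V * D.len v.1 := by rwa [div_le_iff₀ hlv] at hVv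
      have hp1 : 0 < D.s ^ (-((3 * |Ls| + 1) * μ + a)) := Real.rpow_pos_of_pos hs.1 _
      have hp2 : 0 < D.s ^ (-(2 * a)) := Real.rpow_pos_of_pos hs.1 _
      have h5 : D.len u.1 * |(D.lab u.1 u.2).K - (D.lab v.1 v.2).K|
          ≤ D.len u.1 * (V * (D.s ^ (-(2 * a)) * D.s ^ (-((3 * |Ls| + 1) * μ + a)))) := by
        calc _ ≤ D.w2 v.1 * D.s ^ (-((3 * Ls + 1) * (v.1 - u.1) + a)) := h1
          _ ≤ (V * (D.len u.1 * D.s ^ (-(2 * a)))) * D.s ^ (-((3 * |Ls| + 1) * μ + a)) :=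
              mul_le_mul (h4.trans (mul_le_mul_of_nonneg_left h3 hVpos.le)) h2 (Real.rpow_pos_of_pos hs.1 _).le
                (by positivity)
          _ = _ := by ring
      have h6 := le_of_mul_le_mul_left h5 hlu
      rw [← Real.rpow_add hs.1] at h6
      rw [hE]
      refine h6.trans (le_of_eq ?_)
      congr 2
      ring)
  refine key.trans ?_
  have h1 : (D.G.card : ℝ) * E ≤ D.s ^ (-a) * E := mul_le_mul_of_nonneg_right hF.card hE0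
  refine h1.trans ?_
  rw [hE]
  have e2 : D.s ^ (-a) * (V * D.s ^ (-((3 * |Ls| + 1) * μ + 3 * a))) = V * D.s ^ (-((3 * |Ls| + 1) * μ + 4 * a)) := by
    rw [mul_left_comm, ← Real.rpow_add hs.1]
    congr 2
    ring
  rw [e2]
  refine mul_le_mul_of_nonneg_left (Real.rpow_le_rpow_of_exponent_ge hs.1 hs.2.le ?_) hVpos.le
  have h3 : (3 * |Ls| + 1) * μ ≤ (3 * |Ls| + 1) * (t / (3 * |Ls| + 6)) :=
    mul_le_mul_of_nonneg_left hμ (by positivity)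
  have h4 : (3 * |Ls| + 1) * (t / (3 * |Ls| + 6)) + 4 * (t / (3 * |Ls| + 6)) ≤ t := by
    have : (3 * |Ls| + 1) * (t / (3 * |Ls| + 6)) + 4 * (t / (3 * |Ls| + 6)) = t * ((3 * |Ls| + 5) / (3 * |Ls| + 6)) := by
      field_simp
      ring
    rw [this]
    have h5 : (3 * |Ls| + 5) / (3 * |Ls| + 6) ≤ 1 := by
      rw [div_le_one hden]; linarith
    nlinarith
  linarith

/-- one step of the third comparison: the ray `z` is negligibly close to the ray of `u` -/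
theorem sf_ab_A_P_step (D : SfDoc) (π : SfPar) (Ls C0 a μ : ℝ) (ha0 : 0 < a) (hg : D.Good π Ls C0 a) (hsm : D.s ^ a ≤ 1 / 16)
    (hsmall : 4 * |Ls| + 7 * a + (3 * |Ls| + 1) * μ + 1 ≤ 1 / a)
    (u v : D.Rw) (hu : u.1 ∈ D.G) (hv : v.1 ∈ D.G) (huv : u.1 < v.1) (hμ : v.1 ≤ u.1 + μ) (hc : D.Conn u.1 v.1 u.2 v.2) (z : SfRay)
    (hzX : |z.X - (D.ray u.1 u.2).X| ≤ 2 * D.s ^ (1 / a)) (hzB : |z.B - (D.ray u.1 u.2).B| ≤ 2 * D.s ^ (1 / a))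
    (V : ℝ) (hV : D.w1 v.1 ≤ V) (hV2 : D.s ^ (|Ls| + a) ≤ V) :
    |(D.lab u.1 u.2).Pd z - (D.lab v.1 v.2).Pd z| ≤ V * D.s ^ (-((3 * |Ls| + 1) * μ + 2 * a)) := by
  have hcore := hg.1
  have hs := hcore.hs
  obtain ⟨hm1, hm2⟩ := hg.2.mm u.1 hu v.1 hv huv u.2 v.2 hc
  have hexp := sf_ab_A_aux_exp D hs Ls a μ u.1 v.1 huv hμ
  have hown := hcore.own u.1 hu u.2
  have hτ0 : 0 ≤ D.T u.1 u.2 := hown.2.2.2.1
  have hlen0 : 0 < D.len u.1 := sf_mc_len_pos D π C0 a hcore u.1 hu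
  have hτ1 : D.T u.1 u.2 ≤ 1 := by linarith [hown.2.2.2.2]
  have hdiff := sf_ab_Pd_diff (D.lab u.1 u.2) (D.lab v.1 v.2) z (D.ray u.1 u.2) (D.T u.1 u.2)
  have hbe : (D.lab u.1 u.2).beAt (D.T u.1 u.2) = (D.lab u.1 u.2).be := by
    unfold SfTest.beAt SfDoc.T
    ring
  rw [hbe] at hdiff
  have hVp : 0 < V := lt_of_lt_of_le (Real.rpow_pos_of_pos hs.1 _) hV2
  have h16 : 16 ≤ D.s ^ (-a) := by
    have hp : 0 < D.s ^ a := Real.rpow_pos_of_pos hs.1 _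
    rw [Real.rpow_neg hs.1.le, ← one_div, le_div_iff₀ hp]
    linarith
  -- the change of the ray
  obtain ⟨S, hS⟩ : ∃ S, S = D.s ^ (1 / a) := ⟨_, rfl⟩
  rw [← hS] at hzX hzB
  have hS0 : 0 < S := by rw [hS]; exact Real.rpow_pos_of_pos hs.1 _
  have hdB : |z.Bt (D.T u.1 u.2) - (D.ray u.1 u.2).Bt (D.T u.1 u.2)| ≤ 4 * S := by
    have e : z.Bt (D.T u.1 u.2) - (D.ray u.1 u.2).Bt (D.T u.1 u.2)
        = (z.B - (D.ray u.1 u.2).B) + D.T u.1 u.2 * (z.X - (D.ray u.1 u.2).X) := by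
      unfold SfRay.Bt
      ring
    rw [e]
    refine (abs_add_le _ _).trans ?_
    rw [abs_mul, abs_of_nonneg hτ0]
    have : D.T u.1 u.2 * |z.X - (D.ray u.1 u.2).X| ≤ 1 * (2 * S) := mul_le_mul hτ1 hzX (abs_nonneg _) zero_le_one
    linarith
  -- the curvature differences
  obtain ⟨a1, ha1⟩ : ∃ a1, a1 = |(D.lab u.1 u.2).be - (D.lab v.1 v.2).beAt (D.T u.1 u.2)| := ⟨_, rfl⟩
  obtain ⟨a2, ha2⟩ : ∃ a2, a2 = |(D.lab u.1 u.2).K - (D.lab v.1 v.2).K| := ⟨_, rfl⟩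
  rw [← ha1, ← ha2] at hm1
  have ha10 : 0 ≤ a1 := by rw [ha1]; exact abs_nonneg _
  have ha20 : 0 ≤ a2 := by rw [ha2]; exact abs_nonneg _
  obtain ⟨x0, hx0⟩ : ∃ x0, x0 = (3 * |Ls| + 1) * μ + a := ⟨_, rfl⟩
  rw [← hx0] at hexp
  have hw2 : D.f v.1 / D.r v.1 ^ 2 ≤ D.s ^ (-(3 * (|Ls| + a))) := (sf_ab_w_crude D π Ls C0 a ha0 hg v.1 hv).1
  have hw2p : 0 < D.f v.1 / D.r v.1 ^ 2 := (sf_ab_w_pos D π C0 a hcore v.1 hv).1
  have hW0 : a1 + D.len u.1 * a2 ≤ D.s ^ (-(3 * (|Ls| + a)) + -x0) := by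
    rw [Real.rpow_add hs.1]
    exact hm1.trans (mul_le_mul hw2 hexp (Real.rpow_pos_of_pos hs.1 _).le (Real.rpow_pos_of_pos hs.1 _).le)
  have hl0 : D.s ^ (1 + a) ≤ D.len u.1 :=
    (sf_mc_anti hs.1 hs.2 (by linarith [(hcore.gate.2 u.1 hu).2])).trans (hcore.hlen.2 u.1 hu).1
  obtain ⟨W1, hW1⟩ : ∃ W1, W1 = D.s ^ (-(3 * (|Ls| + a)) + -x0 + -(1 + a)) := ⟨_, rfl⟩
  have hW1p : 0 < W1 := by rw [hW1]; exact Real.rpow_pos_of_pos hs.1 _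
  have hl0p : 0 < D.s ^ (1 + a) := Real.rpow_pos_of_pos hs.1 _
  have hW01 : D.s ^ (-(3 * (|Ls| + a)) + -x0) = D.s ^ (1 + a) * W1 := by
    rw [hW1, ← Real.rpow_add hs.1]
    congr 1
    ring
  have ha2W : a2 ≤ W1 := by
    have h1 : D.s ^ (1 + a) * a2 ≤ D.s ^ (1 + a) * W1 := by
      rw [← hW01]
      have := mul_le_mul_of_nonneg_right hl0 ha20
      linarith
    exact le_of_mul_le_mul_left h1 hl0p
  have ha1W : a1 ≤ W1 := by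
    have h1 : D.s ^ (-(3 * (|Ls| + a)) + -x0) ≤ W1 := by
      rw [hW1]
      exact sf_mc_anti hs.1 hs.2 (by linarith)
    have := mul_nonneg hlen0.le ha20
    linarith
  -- the error
  have herr : |2 * ((D.lab u.1 u.2).be - (D.lab v.1 v.2).beAt (D.T u.1 u.2)) * (z.X - (D.ray u.1 u.2).X)
      - 2 * ((D.lab u.1 u.2).K - (D.lab v.1 v.2).K) * (z.Bt (D.T u.1 u.2) - (D.ray u.1 u.2).Bt (D.T u.1 u.2))| ≤ V := by
    have h1 : |2 * ((D.lab u.1 u.2).be - (D.lab v.1 v.2).beAt (D.T u.1 u.2)) * (z.X - (D.ray u.1 u.2).X)| ≤ 2 * W1 * (2 * S) := by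
      rw [abs_mul, abs_mul, ← ha1, abs_of_pos (by norm_num : (0 : ℝ) < 2)]
      exact mul_le_mul (by linarith) hzX (abs_nonneg _) (by positivity)
    have h2 : |2 * ((D.lab u.1 u.2).K - (D.lab v.1 v.2).K) * (z.Bt (D.T u.1 u.2) - (D.ray u.1 u.2).Bt (D.T u.1 u.2))| ≤ 2 * W1 * (4 * S) := by
      rw [abs_mul, abs_mul, ← ha2, abs_of_pos (by norm_num : (0 : ℝ) < 2)]
      exact mul_le_mul (by linarith) hdB (abs_nonneg _) (by positivity)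
    have h3 : D.s ^ (-a) * (S * W1) ≤ D.s ^ (|Ls| + a) := by
      rw [hS, hW1, ← Real.rpow_add hs.1, ← Real.rpow_add hs.1]
      apply sf_mc_anti hs.1 hs.2
      rw [hx0]
      linarith
    have h4 : 16 * (S * W1) ≤ D.s ^ (-a) * (S * W1) := mul_le_mul_of_nonneg_right h16 (by positivity)
    have h5 : 0 < S * W1 := by positivity
    refine (abs_sub _ _).trans ?_
    nlinarith
  -- the main term
  have hw1p : 0 < D.f v.1 / D.r v.1 := (sf_ab_w_pos D π C0 a hcore v.1 hv).2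
  have hmain : |(D.lab u.1 u.2).Pd (D.ray u.1 u.2) - (D.lab v.1 v.2).Pd (D.ray u.1 u.2)| ≤ V * D.s ^ (-x0) :=
    hm2.trans (mul_le_mul hV hexp (Real.rpow_pos_of_pos hs.1 _).le hVp.le)
  have hx00 : 1 ≤ D.s ^ (-x0) := by
    have hμ0 : 0 ≤ μ := by linarith
    have : -x0 ≤ 0 := by
      rw [hx0]
      have : 0 ≤ (3 * |Ls| + 1) * μ := by positivity
      linarith
    have := sf_mc_anti hs.1 hs.2 this
    rwa [Real.rpow_zero] at this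
  have etot : (D.lab u.1 u.2).Pd z - (D.lab v.1 v.2).Pd z
      = ((D.lab u.1 u.2).Pd (D.ray u.1 u.2) - (D.lab v.1 v.2).Pd (D.ray u.1 u.2))
        + (2 * ((D.lab u.1 u.2).be - (D.lab v.1 v.2).beAt (D.T u.1 u.2)) * (z.X - (D.ray u.1 u.2).X)
      - 2 * ((D.lab u.1 u.2).K - (D.lab v.1 v.2).K) * (z.Bt (D.T u.1 u.2) - (D.ray u.1 u.2).Bt (D.T u.1 u.2))) := by
    rw [← hdiff]
    ring
  rw [etot]
  refine (abs_add_le _ _).trans ?_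
  have e2 : V * D.s ^ (-((3 * |Ls| + 1) * μ + 2 * a)) = V * D.s ^ (-x0) * D.s ^ (-a) := by
    rw [mul_assoc, ← Real.rpow_add hs.1, hx0]
    congr 2
    ring
  rw [e2]
  have h6 : V ≤ V * D.s ^ (-x0) := le_mul_of_one_le_right hVp.le hx00
  have h7 : V * D.s ^ (-x0) * 16 ≤ V * D.s ^ (-x0) * D.s ^ (-a) := mul_le_mul_of_nonneg_left h16 (by positivity)
  have h8 : 0 < V * D.s ^ (-x0) := by positivity
  linarith

/-- **A-P** (leaf L-256-SOFT-AB-AP, ~300 l.).   `sf_ab_tele` with `Y u = (lab u).Pd z`, `z = ray i ρ` FIXED.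
Step `(u, v)`: `Mat.mm` bounds `|P_u(z_u) - P_v(z_u)| ≤ w1 v.1 * s^(-..)`; by `sf_ab_Pd_diff` at `τ = T_u` the change of the ray costs `2 |be_u - β_v(T_u)| |X - X_u| + 2 |K_u - K_v| |B_τ - B_{u,τ}|`,
where `|X - X_u| ≤ s^(1/a)`, `|B_τ - B_{u,τ}| ≤ 2 s^(1/a)` (`Core.base` for `Conn u0 u`, `0 ≤ τ ≤ 1`; nothing if `u = u0`), and `|be_u - β_v(T_u)| + len |K_u - K_v| ≤ w2 v.1 * s^(-..) ≤ s^(-(3|Ls| + ..))` (`Mat.mm`, `sf_ab_w_crude`), `len ≥ s^(1+a)`.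
The error is `≤ s^(1/a - 7|Ls| - 14) * s^(|Ls| + a) ≤ V` since `V ≥ w1 j ≥ s^(|Ls|+a)`.   NO support constant `C0` enters. -/
theorem sf_ab_A_P (Ls t : ℝ) (ht : 0 < t) : ∃ e0 : ℝ, 0 < e0 ∧ ∀ (D : SfDoc) (π : SfPar) (C0 a μ h : ℝ), D.Fm π Ls C0 a μ h → a ≤ e0 → μ ≤ e0 →
    ∀ i ∈ D.G, ∀ j ∈ D.G, i < j → ∀ ρ ρ', D.Conn i j ρ ρ' → ∀ V : ℝ, (∀ k ∈ D.G, i ≤ k → k ≤ j → D.w1 k ≤ V) →
      |(D.lab i ρ).Pd (D.ray i ρ) - (D.lab j ρ').Pd (D.ray i ρ)| ≤ V * D.s ^ (-t) := by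
  classical
  have hL : 0 ≤ |Ls| := abs_nonneg _
  have hden : 0 < 3 * |Ls| + 4 := by positivity
  have hden2 : 0 < 7 * |Ls| + 9 := by positivity
  refine ⟨min (t / (3 * |Ls| + 4)) (1 / (7 * |Ls| + 9)), lt_min (by positivity) (by positivity), ?_⟩
  intro D π C0 a μ h hF ha hμ i hi j hj hij ρ ρ' hc V hV
  have hcore := hF.good.1
  have hs := hcore.hs
  have ha0 := hF.a0
  have hμ0 : 0 < μ := by
    obtain ⟨k, _, hk1, hk2⟩ := hF.fine 0 hF.g0 one_pos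
    linarith
  have ha1 : a * (3 * |Ls| + 4) ≤ t := by
    have := ha.trans (min_le_left _ _)
    rwa [le_div_iff₀ hden] at this
  have hμ1 : μ * (3 * |Ls| + 4) ≤ t := by
    have := hμ.trans (min_le_left _ _)
    rwa [le_div_iff₀ hden] at this
  have ha2 : a * (7 * |Ls| + 9) ≤ 1 := by
    have := ha.trans (min_le_right _ _)
    rwa [le_div_iff₀ hden2] at this
  have hμ2 : μ * (7 * |Ls| + 9) ≤ 1 := by
    have := hμ.trans (min_le_right _ _)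
    rwa [le_div_iff₀ hden2] at this
  have hale : a ≤ 1 := by nlinarith
  have hμle : μ ≤ 1 := by nlinarith
  have hsmall : 4 * |Ls| + 7 * a + (3 * |Ls| + 1) * μ + 1 ≤ 1 / a := by
    rw [le_div_iff₀ ha0]
    have h1 : (3 * |Ls| + 1) * μ ≤ (3 * |Ls| + 1) * 1 := mul_le_mul_of_nonneg_left hμle (by positivity)
    have h2 : (4 * |Ls| + 7 * a + (3 * |Ls| + 1) * μ + 1) ≤ 7 * |Ls| + 9 := by linarith
    exact (mul_le_mul_of_nonneg_right h2 ha0.le).trans (by linarith)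
  obtain ⟨z, hz⟩ : ∃ z, z = D.ray i ρ := ⟨_, rfl⟩
  obtain ⟨u0, hu0⟩ : ∃ u0 : D.Rw, u0 = ⟨i, ρ⟩ := ⟨_, rfl⟩
  obtain ⟨v0, hv0⟩ : ∃ v0 : D.Rw, v0 = ⟨j, ρ'⟩ := ⟨_, rfl⟩
  have hu01 : u0.1 = i := by rw [hu0]
  have hv01 : v0.1 = j := by rw [hv0]
  have hv0G : v0.1 ∈ D.G := by rw [hv01]; exact hj
  have hc0 : D.Conn u0.1 v0.1 u0.2 v0.2 := by rw [hu0, hv0]; exact hc
  have hV2 : D.s ^ (|Ls| + a) ≤ V := (sf_ab_w_crude D π Ls C0 a ha0 hF.good j hj).2.2.2.trans (hV j hj hij.le le_rfl)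
  have hVpos : 0 < V := lt_of_lt_of_le (Real.rpow_pos_of_pos hs.1 _) hV2
  have hbz : z.bdist (D.ray v0.1 v0.2) ≤ D.s ^ (1 / a) := by
    rw [hz, hv0]
    exact (hcore.base i hi j hj hij ρ ρ' hc).2.2.2
  -- the rows which are connected to the last row
  let Gd : D.Rw → Prop := fun u => u = v0 ∨ (u.1 < v0.1 ∧ D.Conn u.1 v0.1 u.2 v0.2)
  let Y : D.Rw → ℝ := fun u => if Gd u then (D.lab u.1 u.2).Pd z else (D.lab v0.1 v0.2).Pd z
  obtain ⟨E, hE⟩ : ∃ E, E = V * D.s ^ (-((3 * |Ls| + 1) * μ + 2 * a)) := ⟨_, rfl⟩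
  have hE0 : 0 ≤ E := by
    rw [hE]
    exact mul_nonneg hVpos.le (Real.rpow_pos_of_pos hs.1 _).le
  -- a genuine step
  have hreal : ∀ u v : D.Rw, u.1 ∈ D.G → v.1 ∈ D.G → u.1 < v.1 → v.1 ≤ u.1 + μ → u0.1 ≤ u.1 → v.1 ≤ v0.1 →
      D.Conn u.1 v.1 u.2 v.2 → D.Conn u.1 v0.1 u.2 v0.2 →
      |(D.lab u.1 u.2).Pd z - (D.lab v.1 v.2).Pd z| ≤ E := by
    intro u v hu hv huv hvμ hu0u hvv0 hcuv hcuv0
    have hbu := (hcore.base u.1 hu v0.1 hv0G (lt_of_lt_of_le huv hvv0) u.2 v0.2 hcuv0).2.2.2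
    unfold SfRay.bdist at hbu hbz
    have hX1 := (le_max_left _ _).trans hbz
    have hB1 := ((le_max_left _ _).trans (le_max_right _ _)).trans hbz
    have hX2 := (le_max_left _ _).trans hbu
    have hB2 := ((le_max_left _ _).trans (le_max_right _ _)).trans hbu
    have hzX : |z.X - (D.ray u.1 u.2).X| ≤ 2 * D.s ^ (1 / a) := by
      have := abs_sub_le z.X (D.ray v0.1 v0.2).X (D.ray u.1 u.2).X
      rw [abs_sub_comm (D.ray v0.1 v0.2).X] at this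
      linarith
    have hzB : |z.B - (D.ray u.1 u.2).B| ≤ 2 * D.s ^ (1 / a) := by
      have := abs_sub_le z.B (D.ray v0.1 v0.2).B (D.ray u.1 u.2).B
      rw [abs_sub_comm (D.ray v0.1 v0.2).B] at this
      linarith
    rw [hE]
    exact sf_ab_A_P_step D π Ls C0 a μ ha0 hF.good hF.small hsmall u v hu hv huv hvμ hcuv z hzX hzB V
      (hV v.1 hv (by rw [← hu01]; linarith) (by rw [← hv01]; exact hvv0)) hV2
  have key := sf_ab_tele D π C0 a μ hcore hF.fine u0 v0 (by rw [hu01]; exact hi) hv0G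
    (by rw [hu01, hv01]; exact hij) hc0 Y E hE0 (by
      intro u v hu hv huv hvμ hu0u hvv0 hcuv _ hvc
      by_cases hGu : Gd u
      · have hcu : D.Conn u.1 v0.1 u.2 v0.2 := by
          rcases hGu with rfl | h2
          · exact absurd (lt_of_lt_of_le huv hvv0) (lt_irrefl _)
          · exact h2.2
        by_cases hGv : Gd v
        · show |(if Gd u then _ else _) - (if Gd v then _ else _)| ≤ E
          rw [if_pos hGu, if_pos hGv]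
          exact hreal u v hu hv huv hvμ hu0u hvv0 hcuv hcu
        · show |(if Gd u then _ else _) - (if Gd v then _ else _)| ≤ E
          rw [if_pos hGu, if_neg hGv]
          have hveq : v.1 = v0.1 := by
            rcases hvc with rfl | h2
            · exact absurd (Or.inl rfl) hGv
            · by_contra hne
              exact hGv (Or.inr ⟨lt_of_le_of_ne hvv0 hne, h2⟩)
          exact hreal u v0 hu hv0G (by rw [← hveq]; exact huv) (by rw [← hveq]; exact hvμ) hu0u le_rfl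
            hcu hcu
      · have hGv : ¬ Gd v := by
          intro hGv
          apply hGu
          rcases hGv with rfl | h2
          · exact Or.inr ⟨huv, hcuv⟩
          · exact Or.inr ⟨huv.trans h2.1, hcore.trans u.1 hu v.1 hv v0.1 hv0G huv h2.1 u.2 v.2 v0.2 hcuv h2.2⟩
        show |(if Gd u then _ else _) - (if Gd v then _ else _)| ≤ E
        rw [if_neg hGu, if_neg hGv, sub_self, abs_zero]
        exact hE0)
  have hY0 : Y u0 = (D.lab i ρ).Pd (D.ray i ρ) := by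
    show (if Gd u0 then _ else _) = _
    rw [if_pos (Or.inr ⟨by rw [hu01, hv01]; exact hij, hc0⟩), hu0, hz]
  have hY1 : Y v0 = (D.lab j ρ').Pd (D.ray i ρ) := by
    show (if Gd v0 then _ else _) = _
    rw [if_pos (Or.inl rfl), hv0, hz]
  rw [hY0, hY1] at key
  refine key.trans ?_
  have h1 : (D.G.card : ℝ) * E ≤ D.s ^ (-a) * E := mul_le_mul_of_nonneg_right hF.card hE0
  refine h1.trans ?_
  rw [hE]
  have e2 : D.s ^ (-a) * (V * D.s ^ (-((3 * |Ls| + 1) * μ + 2 * a))) = V * D.s ^ (-((3 * |Ls| + 1) * μ + 3 * a)) := by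
    rw [mul_left_comm, ← Real.rpow_add hs.1]
    congr 2
    ring
  rw [e2]
  refine mul_le_mul_of_nonneg_left (Real.rpow_le_rpow_of_exponent_ge hs.1 hs.2.le ?_) hVpos.le
  -- `(3|Ls|+1) μ + 3 a ≤ t`
  obtain ⟨e0, he0⟩ : ∃ e0, e0 = t / (3 * |Ls| + 4) := ⟨_, rfl⟩
  have he0t : e0 * (3 * |Ls| + 4) = t := by
    rw [he0]
    field_simp
  have hae : a ≤ e0 := by rw [he0]; exact ha.trans (min_le_left _ _)
  have hμe : μ ≤ e0 := by rw [he0]; exact hμ.trans (min_le_left _ _)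
  have h3 : (3 * |Ls| + 1) * μ ≤ (3 * |Ls| + 1) * e0 := mul_le_mul_of_nonneg_left hμe (by positivity)
  nlinarith

/-- **(A)** -/
theorem sf_ab_chA (Ls t : ℝ) (ht : 0 < t) : ∃ e0 : ℝ, 0 < e0 ∧ ∀ (D : SfDoc) (π : SfPar) (C0 a μ h : ℝ), D.Fm π Ls C0 a μ h → a ≤ e0 → μ ≤ e0 → D.ChA t := by
  obtain ⟨e1, h1, H1⟩ := sf_ab_A_be Ls t ht
  obtain ⟨e2, h2, H2⟩ := sf_ab_A_K Ls t ht
  obtain ⟨e3, h3, H3⟩ := sf_ab_A_P Ls t ht
  refine ⟨min e1 (min e2 e3), lt_min h1 (lt_min h2 h3), fun D π C0 a μ h hF ha hμ => ⟨?_, ?_, ?_⟩⟩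
  · exact H1 D π C0 a μ h hF (ha.trans (min_le_left _ _)) (hμ.trans (min_le_left _ _))
  · exact H2 D π C0 a μ h hF (ha.trans ((min_le_right _ _).trans (min_le_left _ _))) (hμ.trans ((min_le_right _ _).trans (min_le_left _ _)))
  · exact H3 D π C0 a μ h hF (ha.trans ((min_le_right _ _).trans (min_le_right _ _))) (hμ.trans ((min_le_right _ _).trans (min_le_right _ _)))

/-! ## 3. Not all rows of a gate are bad -/

/-- among three reals at pairwise distances `≥ L > 0` two are at distance `≥ 2 L` -/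
theorem sf_ab_B_ne_three (x y z L : ℝ) (hxy : L ≤ |x - y|) (hxz : L ≤ |x - z|) (hyz : L ≤ |y - z|) :
    2 * L ≤ |x - y| ∨ 2 * L ≤ |x - z| ∨ 2 * L ≤ |y - z| := by
  rcases le_total x y with h1 | h1 <;> rcases le_total x z with h2 | h2 <;> rcases le_total y z with h3 | h3 <;>
    simp only [abs_of_nonneg, abs_of_nonpos, sub_nonneg, sub_nonpos, h1, h2, h3] at hxy hxz hyz ⊢ <;>
    first
      | (left; linarith)
      | (right; left; linarith)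
      | (right; right; linarith)

/-- an affine function small at two times at distance `≥ L` -/
theorem sf_ab_B_ne_alg (be K T0 τ τ' L Li W R : ℝ) (h1 : |be + (τ - T0) * K| ≤ W) (h2 : |be + (τ' - T0) * K| ≤ W) (hL : L ≤ |τ - τ'|)
    (h0 : 0 ≤ τ - T0) (hLi : τ - T0 ≤ Li) (hR : Li ≤ L * R) (hR1 : 1 ≤ R) : |be| + Li * |K| ≤ 5 * W * R := by
  have hW : 0 ≤ W := (abs_nonneg _).trans h1
  have hK : 0 ≤ |K| := abs_nonneg K
  have e1 : L * |K| ≤ 2 * W := by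
    have : |τ - τ'| * |K| ≤ 2 * W := by
      rw [← abs_mul]
      have e : (τ - τ') * K = (be + (τ - T0) * K) - (be + (τ' - T0) * K) := by ring
      rw [e]
      exact (abs_sub _ _).trans (by linarith)
    exact (mul_le_mul_of_nonneg_right hL hK).trans this
  have e2 : Li * |K| ≤ 2 * W * R := by
    calc Li * |K| ≤ L * R * |K| := mul_le_mul_of_nonneg_right hR hK
      _ = L * |K| * R := by ring
      _ ≤ 2 * W * R := mul_le_mul_of_nonneg_right e1 (by linarith)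
  have e3 : |be| ≤ W + Li * |K| := by
    have e : be = (be + (τ - T0) * K) - (τ - T0) * K := by ring
    have : |be| ≤ |be + (τ - T0) * K| + |(τ - T0) * K| := by
      conv_lhs => rw [e]
      exact abs_sub _ _
    rw [abs_mul, abs_of_nonneg h0] at this
    have := mul_le_mul_of_nonneg_right hLi hK
    linarith
  have e4 : W ≤ W * R := le_mul_of_one_le_right hW hR1
  nlinarith

/-- the shear of a row at the time of a terminal continuation -/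
theorem sf_ab_B_ne_term (D : SfDoc) (π : SfPar) (C0 a c tA : ℝ) (hc : D.Core π C0 a) (ha : a ≤ tA)
    (hA : ∀ i ∈ D.G, ∀ j ∈ D.G, i < j → ∀ ρ ρ', D.Conn i j ρ ρ' → ∀ V : ℝ, (∀ k ∈ D.G, i ≤ k → k ≤ j → D.w2 k ≤ V) →
      |(D.lab i ρ).beAt (D.T j ρ') - (D.lab j ρ').be| ≤ V * D.s ^ (-tA))
    (hT : ∀ ρ : D.Row 1, D.cv ⟨1, ρ⟩ ≤ D.s ^ (-(c + a)))
    (i : ℝ) (hi : i ∈ D.G) (hi1 : i < 1) (ρ : D.Row i) (ρ'' : D.Row 1) (hcn : D.Conn i 1 ρ ρ'') (V : ℝ) (hV : D.s ^ (-c) ≤ V)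
    (hV2 : ∀ k ∈ D.G, i ≤ k → D.w2 k ≤ V) : |(D.lab i ρ).beAt (D.T 1 ρ'')| ≤ 2 * V * D.s ^ (-tA) := by
  have hs := hc.hs
  have h1 := hA i hi 1 hc.gate.1 hi1 ρ ρ'' hcn V (fun k hk h1 _ => hV2 k hk h1)
  have h2 : |(D.lab 1 ρ'').be| ≤ V * D.s ^ (-tA) := by
    have h3 := hT ρ''
    have h4 : |(D.lab 1 ρ'').be| ≤ D.cv ⟨1, ρ''⟩ := by
      have : 0 ≤ D.len 1 * |(D.lab 1 ρ'').K| := mul_nonneg (sf_mc_len_pos D π C0 a hc 1 hc.gate.1).le (abs_nonneg _)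
      show _ ≤ |(D.lab 1 ρ'').be| + D.len 1 * |(D.lab 1 ρ'').K|
      linarith
    have h5 : D.s ^ (-(c + a)) = D.s ^ (-c) * D.s ^ (-a) := by
      rw [← Real.rpow_add hs.1]; congr 1; ring
    have h6 : D.s ^ (-a) ≤ D.s ^ (-tA) := sf_mc_anti hs.1 hs.2 (by linarith)
    calc _ ≤ D.s ^ (-c) * D.s ^ (-a) := by rw [← h5]; exact h4.trans h3
      _ ≤ V * D.s ^ (-tA) := mul_le_mul hV h6 (Real.rpow_nonneg hs.1.le _) ((Real.rpow_nonneg hs.1.le _).trans hV)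
  have e : (D.lab i ρ).beAt (D.T 1 ρ'') = ((D.lab i ρ).beAt (D.T 1 ρ'') - (D.lab 1 ρ'').be) + (D.lab 1 ρ'').be := by ring
  rw [e]
  exact (abs_add_le _ _).trans (by linarith)

/-- the terminal continuation of a row of the next gate -/
theorem sf_ab_B_ne_cont (D : SfDoc) (π : SfPar) (C0 a : ℝ) (hc : D.Core π C0 a) (i j : ℝ) (hi : i ∈ D.G) (hj : j ∈ D.G) (hij : i < j)
    (ρ : D.Row i) (ρ' : D.Row j) (hcn : D.Conn i j ρ ρ') (hU : j = 1 ∨ ∃ ρ'' : D.Row 1, D.Conn j 1 ρ' ρ'') :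
    ∃ ρ'' : D.Row 1, D.Conn i 1 ρ ρ'' ∧ D.T j ρ' ≤ D.T 1 ρ'' ∧ D.T 1 ρ'' ≤ D.T j ρ' + D.len j := by
  rcases eq_or_lt_of_le (hc.gate.2 j hj).2 with h1 | h1
  · subst h1
    exact ⟨ρ', hcn, le_rfl, by have := sf_mc_len_pos D π C0 a hc 1 hj; linarith⟩
  · rcases hU with h | ⟨ρ'', h⟩
    · exact absurd h h1.ne
    · have hb := hc.base j hj 1 hc.gate.1 h1 ρ' ρ'' h
      have := sf_mc_len_pos D π C0 a hc 1 hc.gate.1
      exact ⟨ρ'', hc.trans i hi j hj 1 hc.gate.1 hij h1 ρ ρ' ρ'' hcn h, hb.1, by linarith [hb.2.1]⟩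

/-- a row which predicts two times of the next gate at distance `≥ 2 len j` is good -/
theorem sf_ab_B_ne_pair (D : SfDoc) (π : SfPar) (C0 a μ c tA t : ℝ) (hc : D.Core π C0 a) (ha0 : 0 < a) (ha : a ≤ tA) (hsm : D.s ^ a ≤ 1 / 16)
    (htt : tA + μ + 3 * a ≤ t)
    (hA : ∀ i ∈ D.G, ∀ j ∈ D.G, i < j → ∀ ρ ρ', D.Conn i j ρ ρ' → ∀ V : ℝ, (∀ k ∈ D.G, i ≤ k → k ≤ j → D.w2 k ≤ V) →
      |(D.lab i ρ).beAt (D.T j ρ') - (D.lab j ρ').be| ≤ V * D.s ^ (-tA))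
    (hT : ∀ ρ : D.Row 1, D.cv ⟨1, ρ⟩ ≤ D.s ^ (-(c + a)))
    (i j : ℝ) (hi : i ∈ D.G) (hj : j ∈ D.G) (hij : i < j) (hjμ : j ≤ i + μ) (ρ : D.Row i) (ρ1 ρ2 : D.Row j)
    (c1 : D.Conn i j ρ ρ1) (c2 : D.Conn i j ρ ρ2) (U1 : j = 1 ∨ ∃ ρ'' : D.Row 1, D.Conn j 1 ρ1 ρ'') (U2 : j = 1 ∨ ∃ ρ'' : D.Row 1, D.Conn j 1 ρ2 ρ'')
    (hd : 2 * D.len j ≤ |D.T j ρ1 - D.T j ρ2|) (V : ℝ) (hV : D.s ^ (-c) ≤ V) (hV2 : ∀ k ∈ D.G, i ≤ k → D.w2 k ≤ V) :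
    D.cv ⟨i, ρ⟩ ≤ V * D.s ^ (-t) := by
  have hs := hc.hs
  have hi1 : i < 1 := lt_of_lt_of_le hij (hc.gate.2 j hj).2
  obtain ⟨σ1, d1, l1, u1⟩ := sf_ab_B_ne_cont D π C0 a hc i j hi hj hij ρ ρ1 c1 U1
  obtain ⟨σ2, d2, l2, u2⟩ := sf_ab_B_ne_cont D π C0 a hc i j hi hj hij ρ ρ2 c2 U2
  have b1 := sf_ab_B_ne_term D π C0 a c tA hc ha hA hT i hi hi1 ρ σ1 d1 V hV hV2
  have b2 := sf_ab_B_ne_term D π C0 a c tA hc ha hA hT i hi hi1 ρ σ2 d2 V hV hV2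
  have hlj := sf_mc_len_pos D π C0 a hc j hj
  have hl1 := sf_mc_len_pos D π C0 a hc 1 hc.gate.1
  have hb := hc.base i hi 1 hc.gate.1 hi1 ρ σ1 d1
  have hV0 : 0 ≤ V := (Real.rpow_nonneg hs.1.le _).trans hV
  have hdist : D.len j ≤ |D.T 1 σ1 - D.T 1 σ2| := by
    rcases le_total (D.T j ρ1) (D.T j ρ2) with h | h
    · rw [abs_of_nonpos (by linarith)] at hd
      rw [abs_of_nonpos (by linarith)]
      linarith
    · rw [abs_of_nonneg (by linarith)] at hd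
      rw [abs_of_nonneg (by linarith)]
      linarith
  have hlen := (sf_ab_len D π C0 a hc i j hi hj).2
  have hR : D.len i ≤ D.len j * D.s ^ (-(μ + 2 * a)) := by
    have e1 : D.len i = D.len i * D.s ^ ((j - i) + 2 * a) * D.s ^ (-((j - i) + 2 * a)) := by
      rw [mul_assoc, ← Real.rpow_add hs.1, add_neg_cancel, Real.rpow_zero, mul_one]
    rw [e1]
    exact mul_le_mul hlen (sf_mc_anti hs.1 hs.2 (by linarith)) (Real.rpow_nonneg hs.1.le _) hlj.le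
  have hR1 : 1 ≤ D.s ^ (-(μ + 2 * a)) := Real.one_le_rpow_of_pos_of_le_one_of_nonpos hs.1 hs.2.le (by linarith)
  have key := sf_ab_B_ne_alg (D.lab i ρ).be (D.lab i ρ).K (D.lab i ρ).T (D.T 1 σ1) (D.T 1 σ2) (D.len j) (D.len i) (2 * V * D.s ^ (-tA))
    (D.s ^ (-(μ + 2 * a))) b1 b2 hdist (by have := hb.1; unfold SfDoc.T at this ⊢; linarith)
    (by have := hb.2.1; unfold SfDoc.T at this ⊢; linarith) hR hR1
  have h16 : (16 : ℝ) ≤ D.s ^ (-a) := by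
    rw [Real.rpow_neg hs.1.le]
    have hp : 0 < D.s ^ a := Real.rpow_pos_of_pos hs.1 _
    rw [le_inv_comm₀ (by norm_num) hp]
    linarith
  have hp1 : 0 < D.s ^ (-tA) := Real.rpow_pos_of_pos hs.1 _
  have hp2 : 0 < D.s ^ (-(μ + 2 * a)) := Real.rpow_pos_of_pos hs.1 _
  calc D.cv ⟨i, ρ⟩ ≤ 5 * (2 * V * D.s ^ (-tA)) * D.s ^ (-(μ + 2 * a)) := key
    _ = 10 * (V * (D.s ^ (-tA) * D.s ^ (-(μ + 2 * a)))) := by ring
    _ ≤ D.s ^ (-a) * (V * (D.s ^ (-tA) * D.s ^ (-(μ + 2 * a)))) := mul_le_mul_of_nonneg_right (by linarith) (by positivity)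
    _ = V * D.s ^ (-(tA + μ + 3 * a)) := by
      have : D.s ^ (-(tA + μ + 3 * a)) = D.s ^ (-a) * (D.s ^ (-tA) * D.s ^ (-(μ + 2 * a))) := by
        rw [← Real.rpow_add hs.1, ← Real.rpow_add hs.1]; congr 1; ring
      rw [this]; ring
    _ ≤ V * D.s ^ (-t) := mul_le_mul_of_nonneg_left (sf_mc_anti hs.1 hs.2 (by linarith)) hV0

/-- (i) MULTIPLICITY: a bad row predicts at most two times of the next gate -/
theorem sf_ab_B_ne_mult (D : SfDoc) (π : SfPar) (C0 a μ c tA t : ℝ) (hc : D.Core π C0 a) (ha0 : 0 < a) (ha : a ≤ tA) (hsm : D.s ^ a ≤ 1 / 16)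
    (htt : tA + μ + 3 * a ≤ t)
    (hA : ∀ i ∈ D.G, ∀ j ∈ D.G, i < j → ∀ ρ ρ', D.Conn i j ρ ρ' → ∀ V : ℝ, (∀ k ∈ D.G, i ≤ k → k ≤ j → D.w2 k ≤ V) →
      |(D.lab i ρ).beAt (D.T j ρ') - (D.lab j ρ').be| ≤ V * D.s ^ (-tA))
    (hT : ∀ ρ : D.Row 1, D.cv ⟨1, ρ⟩ ≤ D.s ^ (-(c + a)))
    (i j : ℝ) (hi : i ∈ D.G) (hj : j ∈ D.G) (hij : i < j) (hjμ : j ≤ i + μ) (ρ : D.Row i) (hbad : ¬ D.RowB c t ⟨i, ρ⟩) :
    (({t' | ∃ ρ', (j = 1 ∨ ∃ ρ'' : D.Row 1, D.Conn j 1 ρ' ρ'') ∧ D.Conn i j ρ ρ' ∧ D.T j ρ' = t'} : Set ℝ).ncard : ℝ) ≤ 2 := by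
  by_contra hcon
  apply hbad
  intro V hV hV2
  have h2 : 2 < ({t' | ∃ ρ', (j = 1 ∨ ∃ ρ'' : D.Row 1, D.Conn j 1 ρ' ρ'') ∧ D.Conn i j ρ ρ' ∧ D.T j ρ' = t'} : Set ℝ).ncard := by
    have : (2 : ℝ) < _ := not_le.mp hcon
    exact_mod_cast this
  have hfin := Set.finite_of_ncard_pos (lt_trans (by norm_num) h2)
  obtain ⟨x, y, z, ⟨ρx, Ux, cx, rfl⟩, ⟨ρy, Uy, cy, rfl⟩, ⟨ρz, Uz, cz, rfl⟩, hxy, hxz, hyz⟩ := (Set.two_lt_ncard_iff hfin).1 h2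
  have P := sf_ab_B_ne_pair D π C0 a μ c tA t hc ha0 ha hsm htt hA hT i j hi hj hij hjμ ρ
  rcases sf_ab_B_ne_three _ _ _ _ (hc.grid j hj ρx ρy hxy) (hc.grid j hj ρx ρz hxz) (hc.grid j hj ρy ρz hyz) with h | h | h
  · exact P ρx ρy cx cy Ux Uy h V hV hV2
  · exact P ρx ρz cx cz Ux Uz h V hV hV2
  · exact P ρy ρz cy cz Uy Uz h V hV hV2

/-- **B** (leaf L-256-SOFT-AB-B, ~450 l.; may be cut: (i) multiplicity, (ii) masses).   Lemma cyl:profiles, (B).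
`i = 1`: every row is good (`cv ≤ s^(-c) s^(-a) ≤ V s^(-t)`).   `i < 1`: take `j ∈ G`, `i < j ≤ i + μ` (`Fine`), `j - i ≥ h`.   Suppose every row of the gate `i` is bad: `ρ` has `V_ρ ≥ s^(-c)`, `V_ρ ≥ w2 k` (`k ≥ i`), `cv ρ > V_ρ s^(-t)`.
`U ρ' := j = 1 ∨ ∃ ρ'', Conn j 1 ρ' ρ''`.
(i) MULTIPLICITY `≤ 2`.   Let `ρ'` be in `U`, `Conn i j ρ ρ'`, `ρ''` its terminal continuation (`ρ'' = ρ'` if `j = 1`), `τ = T 1 ρ''`.   Then `T j ρ' ≤ τ ≤ T j ρ' + len j`, `T i ρ ≤ τ ≤ T i ρ + len i`, `Conn i 1 ρ ρ''`, and by (A) (`sf_ab_A_be` at `tA = t/4`) and the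
    terminal cost `|β_ρ(τ)| ≤ 2 V_ρ s^(-tA)`.   Three different times `t1 < t2 < t3` of the gate `j` (`Core.grid`: distances `≥ len j`) give `τ3 - τ1 ≥ len j`, so `len j |K_ρ| ≤ 4 V s^(-tA)`, `len i ≤ len j s^(-μ-2a)`,
    `|be_ρ| ≤ |β_ρ(τ1)| + len i |K_ρ|`, `cv ρ ≤ 10 V s^(-tA-μ-2a) ≤ V s^(-t)`: contradiction.   So the set of times has `ncard ≤ 2`.
(ii) MASSES.   `Core.tp` (`S = True`, `M = 2`): `P_j(U) ≤ 2 s^(-a) s^(d (j-i)) + s^(1/a) ≤ 3 s^(7a) ≤ s^(6a)`.   `Core.sp` for `(j, 1)`, all terminal rows, `S = U` (if `j < 1`): `1 ≤ s^(-a) P_j(U)^(2/3) + s^(1/a) ≤ s^(3a) + s^(7a) < 1`.   If `j = 1`: `P_j(U) = 1`. -/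
theorem sf_ab_B_ne (Ls t : ℝ) (ht : 0 < t) : ∃ e0 : ℝ, 0 < e0 ∧ ∀ (D : SfDoc) (π : SfPar) (C0 a μ h c : ℝ), D.Fm π Ls C0 a μ h → a ≤ e0 → μ ≤ e0 → 0 ≤ c →
    (∀ ρ : D.Row 1, D.cv ⟨1, ρ⟩ ≤ D.s ^ (-(c + a))) → ∀ i ∈ D.G, ∃ ρ : D.Row i, D.RowB c t ⟨i, ρ⟩ := by
  obtain ⟨eA, heA, HA⟩ := sf_ab_A_be Ls (t / 4) (by positivity)
  refine ⟨min eA (min (t / 8) (1 / 3)), by positivity, fun D π C0 a μ h c hF ha hμ _ hT i hi => ?_⟩
  have hcore := hF.good.1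
  have hs := hcore.hs
  have ha0 := hF.a0
  have haA : a ≤ eA := ha.trans (min_le_left _ _)
  have ha8 : a ≤ t / 8 := ha.trans ((min_le_right _ _).trans (min_le_left _ _))
  have ha3 : a ≤ 1 / 3 := ha.trans ((min_le_right _ _).trans (min_le_right _ _))
  have hμA : μ ≤ eA := hμ.trans (min_le_left _ _)
  have hμ8 : μ ≤ t / 8 := hμ.trans ((min_le_right _ _).trans (min_le_left _ _))
  have hA := HA D π C0 a μ h hF haA hμA
  rcases eq_or_lt_of_le (hcore.gate.2 i hi).2 with h1 | h1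
  · subst h1
    obtain ⟨ρ⟩ := sf_ab_row_ne D 1
    refine ⟨ρ, fun V hV _ => (hT ρ).trans ?_⟩
    have h5 : D.s ^ (-(c + a)) = D.s ^ (-c) * D.s ^ (-a) := by
      rw [← Real.rpow_add hs.1]; congr 1; ring
    rw [h5]
    exact mul_le_mul hV (sf_mc_anti hs.1 hs.2 (by linarith)) (Real.rpow_nonneg hs.1.le _) ((Real.rpow_nonneg hs.1.le _).trans hV)
  · by_contra hcon
    push Not at hcon
    obtain ⟨j, hj, hij, hjμ⟩ := hF.fine i hi h1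
    have hgap := hF.gap.1 i hi j hj hij
    have htp := hcore.tp i hi j hj hij (fun ρ' => j = 1 ∨ ∃ ρ'' : D.Row 1, D.Conn j 1 ρ' ρ'') (fun _ => True) 2 (fun _ _ _ _ => trivial)
      (fun ρ _ => sf_ab_B_ne_mult D π C0 a μ c (t / 4) t hcore ha0 (by linarith) hF.small (by linarith) hA hT i j hi hj hij hjμ ρ (hcon ρ))
    rw [ent_pr_true, mul_one] at htp
    have hx : D.s ^ a ≤ 1 / 16 := hF.small
    have hxp : 0 < D.s ^ a := Real.rpow_pos_of_pos hs.1 _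
    have h16 : (16 : ℝ) ≤ D.s ^ (-a) := by
      rw [Real.rpow_neg hs.1.le, le_inv_comm₀ (by norm_num) hxp]
      linarith
    have hd0 : 0 < π.d := by
      have := hF.hd
      have h0 := hF.h0
      by_contra hneg
      have : π.d * h ≤ 0 := mul_nonpos_of_nonpos_of_nonneg (not_lt.mp hneg) h0.le
      linarith
    have h8 : D.s ^ (π.d * (j - i)) ≤ D.s ^ (8 * a) := sf_mc_anti hs.1 hs.2 (hF.hd.trans (mul_le_mul_of_nonneg_left hgap hd0.le))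
    have h7 : D.s ^ (1 / a) ≤ D.s ^ (7 * a) := sf_mc_anti hs.1 hs.2 (by rw [le_div_iff₀ ha0]; nlinarith)
    have hP6 : (D.P j).pr (fun ρ' => j = 1 ∨ ∃ ρ'' : D.Row 1, D.Conn j 1 ρ' ρ'') ≤ D.s ^ (6 * a) := by
      have e7 : D.s ^ (-a) * D.s ^ (8 * a) = D.s ^ (7 * a) := by rw [← Real.rpow_add hs.1]; congr 1; ring
      have e6 : D.s ^ (-a) * D.s ^ (7 * a) = D.s ^ (6 * a) := by rw [← Real.rpow_add hs.1]; congr 1; ring
      have hp7 : 0 < D.s ^ (7 * a) := Real.rpow_pos_of_pos hs.1 _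
      have hpa : 0 < D.s ^ (-a) := Real.rpow_pos_of_pos hs.1 _
      calc _ ≤ D.s ^ (-a) * 2 * D.s ^ (π.d * (j - i)) + D.s ^ (1 / a) := htp
        _ ≤ D.s ^ (-a) * 2 * D.s ^ (8 * a) + D.s ^ (7 * a) := add_le_add (mul_le_mul_of_nonneg_left h8 (by positivity)) h7
        _ = 3 * D.s ^ (7 * a) := by rw [← e7]; ring
        _ ≤ D.s ^ (-a) * D.s ^ (7 * a) := mul_le_mul_of_nonneg_right (by linarith) hp7.le
        _ = D.s ^ (6 * a) := e6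
    have h6a : D.s ^ (6 * a) ≤ D.s ^ a := sf_mc_anti hs.1 hs.2 (by linarith)
    rcases eq_or_lt_of_le (hcore.gate.2 j hj).2 with hj1 | hj1
    · have : (D.P j).pr (fun ρ' => j = 1 ∨ ∃ ρ'' : D.Row 1, D.Conn j 1 ρ' ρ'') = 1 := ent_pr_eq_one _ fun _ _ => Or.inl hj1
      linarith
    · have hsp := hcore.sp j hj 1 hcore.gate.1 hj1 (fun _ => True) (fun ρ' => j = 1 ∨ ∃ ρ'' : D.Row 1, D.Conn j 1 ρ' ρ'')
        (fun ρ'' _ ρ' hc' => Or.inr ⟨ρ'', hc'⟩)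
      rw [ent_pr_true] at hsp
      have hpw : (D.P j).pr (fun ρ' => j = 1 ∨ ∃ ρ'' : D.Row 1, D.Conn j 1 ρ' ρ'') ^ ((2 : ℝ) / 3) ≤ D.s ^ (4 * a) := by
        have : D.s ^ (4 * a) = (D.s ^ (6 * a)) ^ ((2 : ℝ) / 3) := by rw [← Real.rpow_mul hs.1.le]; congr 1; ring
        rw [this]
        exact Real.rpow_le_rpow (ent_pr_nonneg _ _) hP6 (by norm_num)
      have e3 : D.s ^ (-a) * D.s ^ (4 * a) = D.s ^ (3 * a) := by rw [← Real.rpow_add hs.1]; congr 1; ring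
      have h3a : D.s ^ (3 * a) ≤ D.s ^ a := sf_mc_anti hs.1 hs.2 (by linarith)
      have h7a : D.s ^ (7 * a) ≤ D.s ^ a := sf_mc_anti hs.1 hs.2 (by linarith)
      have := mul_le_mul_of_nonneg_left hpw (Real.rpow_nonneg hs.1.le (-a))
      linarith

/-- **K** (leaf L-256-SOFT-AB-K, ~200 l.).   (cyl:K-profile).   `i = 0`: `|K| ≤ cv / len 0 ≤ V s^(-tB-a)`.   `i > 0`: `sf_ab_sp_ex` gives `ρ0`, `ρ` with `Conn 0 i ρ0 ρ`; `|K_ρ| ≤ |K_ρ0| + |K_ρ0 - K_ρ| ≤ V s^(-tB-a) + V s^(-tA)` (`sf_ab_A_K`). -/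
theorem sf_ab_K_ne (Ls t : ℝ) (ht : 0 < t) : ∃ e0 : ℝ, 0 < e0 ∧ ∀ (D : SfDoc) (π : SfPar) (C0 a μ h c tB : ℝ), D.Fm π Ls C0 a μ h → a ≤ e0 → μ ≤ e0 → tB ≤ e0 →
    (∀ ρ : D.Row 0, D.RowB c tB ⟨0, ρ⟩) → ∀ i ∈ D.G, ∃ ρ : D.Row i, D.RowK c t ⟨i, ρ⟩ := by
  obtain ⟨eA, heA, HA⟩ := sf_ab_A_K Ls (t / 2) (by linarith)
  refine ⟨min eA (t / 4), lt_min heA (by linarith), ?_⟩
  intro D π C0 a μ h c tB hF ha hμ htB hB i hi
  have core := hF.good.1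
  obtain ⟨s0, s1⟩ := core.hs
  have ha4 : a ≤ t / 4 := ha.trans (min_le_right _ _)
  have htB4 : tB ≤ t / 4 := htB.trans (min_le_right _ _)
  have ha0 := hF.a0
  have hroot : ∀ ρ0 : D.Row 0, ∀ V : ℝ, D.s ^ (-c) ≤ V → (∀ k ∈ D.G, D.w2 k ≤ V) → |(D.lab 0 ρ0).K| ≤ V * D.s ^ (-(t / 2)) := by
    intro ρ0 V hV h2
    have hV0 : 0 < V := lt_of_lt_of_le (Real.rpow_pos_of_pos s0 _) hV
    have b1 : D.cv ⟨0, ρ0⟩ ≤ V * D.s ^ (-tB) := hB ρ0 V hV (fun k hk _ => h2 k hk)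
    have b2 : |(D.lab 0 ρ0).be| + D.len 0 * |(D.lab 0 ρ0).K| ≤ V * D.s ^ (-tB) := b1
    have b3 : D.s ^ a ≤ D.len 0 := by
      have := (core.hlen.2 0 hF.g0).1
      rwa [zero_add] at this
    have b4 : D.s ^ a * |(D.lab 0 ρ0).K| ≤ V * D.s ^ (-tB) := by
      have := mul_le_mul_of_nonneg_right b3 (abs_nonneg (D.lab 0 ρ0).K)
      have := abs_nonneg (D.lab 0 ρ0).be
      linarith
    have pa : 0 < D.s ^ a := Real.rpow_pos_of_pos s0 _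
    have b5 : V * D.s ^ (-tB) ≤ D.s ^ a * (V * D.s ^ (-(t / 2))) := by
      have e : D.s ^ a * (V * D.s ^ (-(t / 2))) = V * D.s ^ (a + -(t / 2)) := by
        rw [Real.rpow_add s0]
        ring
      rw [e]
      exact mul_le_mul_of_nonneg_left (sf_mc_anti s0 s1 (by linarith)) hV0.le
    exact le_of_mul_le_mul_left (b4.trans b5) pa
  rcases eq_or_lt_of_le (core.gate.2 i hi).1 with h0 | h0
  · subst h0
    obtain ⟨ρ⟩ := sf_ab_row_ne D 0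
    refine ⟨ρ, ?_⟩
    intro V hV h2 _
    have hV0 : 0 < V := lt_of_lt_of_le (Real.rpow_pos_of_pos s0 _) hV
    exact (hroot ρ V hV h2).trans (mul_le_mul_of_nonneg_left (sf_mc_anti s0 s1 (by linarith)) hV0.le)
  · obtain ⟨ρ0, ρ, hc⟩ := sf_ab_sp_ex D π C0 a core ha0 0 i hF.g0 hi h0
    refine ⟨ρ, ?_⟩
    intro V hV h2 h3
    have hV0 : 0 < V := lt_of_lt_of_le (Real.rpow_pos_of_pos s0 _) hV
    have a1 := HA D π C0 a μ h hF (ha.trans (min_le_left _ _)) (hμ.trans (min_le_left _ _)) 0 hF.g0 i hi h0 ρ0 ρ hc V (fun k hk _ hki => h3 k hk hki)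
    have a2 := hroot ρ0 V hV h2
    have a3 : |(D.lab i ρ).K| ≤ |(D.lab 0 ρ0).K| + |(D.lab 0 ρ0).K - (D.lab i ρ).K| := by
      have := abs_sub_abs_le_abs_sub (D.lab i ρ).K (D.lab 0 ρ0).K
      rw [abs_sub_comm] at this
      linarith
    have pa : 0 < D.s ^ a := Real.rpow_pos_of_pos s0 _
    have a4 : (2 : ℝ) ≤ D.s ^ (-a) := by
      rw [Real.rpow_neg s0.le, le_inv_comm₀ (by norm_num) pa]
      exact hF.small.trans (by norm_num)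
    have pt : 0 < D.s ^ (-(t / 2)) := Real.rpow_pos_of_pos s0 _
    show |(D.lab i ρ).K| ≤ V * D.s ^ (-t)
    calc |(D.lab i ρ).K| ≤ 2 * (V * D.s ^ (-(t / 2))) := by linarith
      _ ≤ D.s ^ (-a) * (V * D.s ^ (-(t / 2))) := mul_le_mul_of_nonneg_right a4 (by positivity)
      _ = V * D.s ^ (-a + -(t / 2)) := by
          rw [Real.rpow_add s0]
          ring
      _ ≤ V * D.s ^ (-t) := mul_le_mul_of_nonneg_left (sf_mc_anti s0 s1 (by linarith)) hV0.le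

theorem sf_ab_Pc_cmp_tri (a1 a2 a3 a4 b1 b2 b3 b4 : ℝ) (h1 : |a1| ≤ b1) (h2 : |a2| ≤ b2) (h3 : |a3| ≤ b3) (h4 : |a4| ≤ b4) :
    |-a1 + a2 + a3 + a4| ≤ b1 + b2 + b3 + b4 := by
  rw [abs_le] at h1 h2 h3 h4 ⊢
  constructor <;> linarith [h1.1, h1.2, h2.1, h2.2, h3.1, h3.2, h4.1, h4.2]

theorem sf_ab_Pc_cmp_ray (be K T dX dB ε : ℝ) (hT0 : 0 ≤ T) (hT1 : T ≤ 1) (hX : |dX| ≤ ε) (hB : |dB| ≤ ε) :
    |2 * (be * dX) - 2 * (K * dB) - 2 * (T * (K * dX))| ≤ (2 * |be| + 4 * |K|) * ε := by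
  have q1 : |be * dX| ≤ |be| * ε := by
    rw [abs_mul]
    exact mul_le_mul_of_nonneg_left hX (abs_nonneg _)
  have q2 : |K * dB| ≤ |K| * ε := by
    rw [abs_mul]
    exact mul_le_mul_of_nonneg_left hB (abs_nonneg _)
  have q3 : |K * dX| ≤ |K| * ε := by
    rw [abs_mul]
    exact mul_le_mul_of_nonneg_left hX (abs_nonneg _)
  have q4 : |T * (K * dX)| ≤ |K| * ε := by
    rw [abs_mul, abs_of_nonneg hT0]
    calc T * |K * dX| ≤ 1 * |K * dX| := mul_le_mul_of_nonneg_right hT1 (abs_nonneg _)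
      _ ≤ _ := by rw [one_mul]; exact q3
  rw [abs_le] at q1 q2 q4 ⊢
  constructor <;> linarith [q1.1, q1.2, q2.1, q2.2, q4.1, q4.2]

/-- the curvature of a row of a gate `k0 ≥ i` when the curvature cost is zero -/
theorem sf_ab_Pc_cmp_cv (D : SfDoc) (π : SfPar) (Ls C0 a μ h e0 : ℝ) (hF : D.Fm π Ls C0 a μ h) (hB : ∀ u : D.Rw, u.1 ∈ D.G → D.RowB 0 e0 u) (i V : ℝ) (hV : 1 ≤ V)
    (hVw : ∀ k ∈ D.G, i ≤ k → D.w1 k ≤ V) (k0 : ℝ) (hk0 : k0 ∈ D.G) (hik : i ≤ k0) (σ : D.Row k0) : D.cv ⟨k0, σ⟩ ≤ V / D.r k0 * D.s ^ (-e0) := by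
  have hcore := hF.good.1
  have hV0 : 0 < V := by linarith
  have hr0 := (hcore.hw.2.2 k0 hk0).1
  have hr1 := (sf_mc_width D π Ls C0 a hF.a0 hF.good k0 hk0).2.1
  refine hB ⟨k0, σ⟩ hk0 (V / D.r k0) ?_ ?_
  · rw [neg_zero, Real.rpow_zero, le_div_iff₀ hr0]
    linarith
  · intro k hk hk0k
    have hk0k' : k0 ≤ k := hk0k
    have hrk := (hcore.hw.2.2 k hk).1
    have hrr : D.r k0 ≤ D.r k := by
      rcases hk0k'.lt_or_eq with hlt | heq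
      · exact (sf_ab_lip D π Ls C0 a hF.good k0 k hk0 hk hlt).1
      · rw [heq]
    have hw := hVw k hk (hik.trans hk0k')
    have e : D.w2 k = D.w1 k / D.r k := by
      unfold SfDoc.w2 SfDoc.w1
      field_simp
    rw [e]
    calc D.w1 k / D.r k ≤ V / D.r k := div_le_div_of_nonneg_right hw hrk.le
      _ ≤ V / D.r k0 := div_le_div_of_nonneg_left hV0.le hr0 hrr

/-- derivative at the ray and at the centre -/
theorem sf_ab_Pc_cmp_own (D : SfDoc) (π : SfPar) (Ls C0 a μ h e0 : ℝ) (hF : D.Fm π Ls C0 a μ h) (hB : ∀ u : D.Rw, u.1 ∈ D.G → D.RowB 0 e0 u) (i V : ℝ) (hV : 1 ≤ V)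
    (hVw : ∀ k ∈ D.G, i ≤ k → D.w1 k ≤ V) (k0 : ℝ) (hk0 : k0 ∈ D.G) (hik : i ≤ k0) (σ : D.Row k0) :
    |(D.lab k0 σ).Pd (D.ray k0 σ) - (D.lab k0 σ).Pc| ≤ 2 * (V * D.s ^ (-e0)) := by
  have hcore := hF.good.1
  have hr0 := (hcore.hw.2.2 k0 hk0).1
  have c1 := sf_ab_Pc_cmp_cv D π Ls C0 a μ h e0 hF hB i V hV hVw k0 hk0 hik σ
  refine (sf_ab_Pd_Pc D π C0 a hcore k0 hk0 σ).trans ?_
  have h5 : D.r k0 * D.cv ⟨k0, σ⟩ ≤ D.r k0 * (V / D.r k0 * D.s ^ (-e0)) := mul_le_mul_of_nonneg_left c1 hr0.le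
  have e : D.r k0 * (V / D.r k0 * D.s ^ (-e0)) = V * D.s ^ (-e0) := by field_simp
  linarith

/-- change of the ray in the later label -/
theorem sf_ab_Pc_cmp_chg (D : SfDoc) (π : SfPar) (Ls C0 a μ h e0 : ℝ) (hF : D.Fm π Ls C0 a μ h) (hB : ∀ u : D.Rw, u.1 ∈ D.G → D.RowB 0 e0 u) (he : |Ls| + 1 + 2 * a + e0 ≤ 1 / a)
    (i : ℝ) (hi : i ∈ D.G) (j : ℝ) (hj : j ∈ D.G) (hij : i < j) (ρ : D.Row i) (ρ' : D.Row j) (hc : D.Conn i j ρ ρ') (V : ℝ) (hV : 1 ≤ V) (hVw : ∀ k ∈ D.G, i ≤ k → D.w1 k ≤ V) :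
    |(D.lab j ρ').Pd (D.ray i ρ) - (D.lab j ρ').Pd (D.ray j ρ')| ≤ 4 * V := by
  have hcore := hF.good.1
  have hs := hcore.hs
  have ha0 := hF.a0
  have hV0 : 0 < V := by linarith
  have hrj := (hcore.hw.2.2 j hj).1
  have c2 := sf_ab_Pc_cmp_cv D π Ls C0 a μ h e0 hF hB i V hV hVw j hj hij.le ρ'
  obtain ⟨S, hS⟩ : ∃ S : ℝ, S = D.s ^ (-e0) := ⟨_, rfl⟩
  rw [← hS] at c2
  have hSpos : 0 < S := hS ▸ Real.rpow_pos_of_pos hs.1 _
  have hbase := (hcore.base i hi j hj hij ρ ρ' hc).2.2.2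
  obtain ⟨ε, hε⟩ : ∃ ε : ℝ, ε = D.s ^ (1 / a) := ⟨_, rfl⟩
  rw [← hε] at hbase
  have hε0 : 0 < ε := hε ▸ Real.rpow_pos_of_pos hs.1 _
  have hX : |(D.ray i ρ).X - (D.ray j ρ').X| ≤ ε := (le_max_left _ _).trans hbase
  have hBB : |(D.ray i ρ).B - (D.ray j ρ').B| ≤ ε := ((le_max_left _ _).trans (le_max_right _ _)).trans hbase
  have hown := hcore.own j hj ρ'
  have hlen := sf_mc_len_pos D π C0 a hcore j hj
  have hT0 : 0 ≤ (D.lab j ρ').T := hown.2.2.2.1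
  have hT1 : (D.lab j ρ').T + D.len j ≤ 1 := hown.2.2.2.2
  have hl1 : D.len j ≤ 1 := by linarith
  have p3 : |(D.lab j ρ').Pd (D.ray i ρ) - (D.lab j ρ').Pd (D.ray j ρ')| ≤ (2 * |(D.lab j ρ').be| + 4 * |(D.lab j ρ').K|) * ε := by
    have e : (D.lab j ρ').Pd (D.ray i ρ) - (D.lab j ρ').Pd (D.ray j ρ')
        = 2 * ((D.lab j ρ').be * ((D.ray i ρ).X - (D.ray j ρ').X)) - 2 * ((D.lab j ρ').K * ((D.ray i ρ).B - (D.ray j ρ').B))
          - 2 * ((D.lab j ρ').T * ((D.lab j ρ').K * ((D.ray i ρ).X - (D.ray j ρ').X))) := by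
      unfold SfTest.Pd SfRay.Bt
      ring
    rw [e]
    exact sf_ab_Pc_cmp_ray _ _ _ _ _ _ hT0 (by linarith) hX hBB
  have hcv : 2 * |(D.lab j ρ').be| + 4 * |(D.lab j ρ').K| ≤ 4 * (D.cv ⟨j, ρ'⟩ / D.len j) := by
    have e : D.cv ⟨j, ρ'⟩ / D.len j = |(D.lab j ρ').be| / D.len j + |(D.lab j ρ').K| := by
      unfold SfDoc.cv
      field_simp
    rw [e]
    have h8 : |(D.lab j ρ').be| ≤ |(D.lab j ρ').be| / D.len j := by
      rw [le_div_iff₀ hlen]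
      calc |(D.lab j ρ').be| * D.len j ≤ |(D.lab j ρ').be| * 1 := mul_le_mul_of_nonneg_left hl1 (abs_nonneg _)
        _ = _ := mul_one _
    have h9 := abs_nonneg (D.lab j ρ').be
    linarith
  have hwid := (sf_mc_width D π Ls C0 a ha0 hF.good j hj).1
  have hj1 := (hcore.gate.2 j hj).2
  have hlj : D.s ^ (1 + a) ≤ D.len j := (sf_mc_anti hs.1 hs.2 (by linarith)).trans (hcore.hlen.2 j hj).1
  have hSE : S * ε ≤ D.r j * D.len j := by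
    calc S * ε = D.s ^ (-e0 + 1 / a) := by rw [hS, hε, Real.rpow_add hs.1]
      _ ≤ D.s ^ ((|Ls| + a) + (1 + a)) := sf_mc_anti hs.1 hs.2 (by linarith)
      _ = D.s ^ (|Ls| + a) * D.s ^ (1 + a) := Real.rpow_add hs.1 _ _
      _ ≤ D.r j * D.len j := mul_le_mul hwid hlj (Real.rpow_pos_of_pos hs.1 _).le hrj.le
  refine p3.trans ?_
  have h5 : D.cv ⟨j, ρ'⟩ / D.len j ≤ V / D.r j * S / D.len j := div_le_div_of_nonneg_right c2 hlen.le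
  have h6 : V / D.r j * S / D.len j * ε = V * ((S * ε) / (D.r j * D.len j)) := by field_simp
  have h7 : (S * ε) / (D.r j * D.len j) ≤ 1 := (div_le_one (by positivity)).2 hSE
  calc (2 * |(D.lab j ρ').be| + 4 * |(D.lab j ρ').K|) * ε ≤ 4 * (V / D.r j * S / D.len j) * ε :=
        mul_le_mul_of_nonneg_right (hcv.trans (by linarith)) hε0.le
    _ = 4 * (V * ((S * ε) / (D.r j * D.len j))) := by rw [mul_assoc, h6]
    _ ≤ 4 * (V * 1) := by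
        have := mul_le_mul_of_nonneg_left h7 hV0.le
        linarith
    _ = 4 * V := by ring

/-- **PC** (leaf L-256-SOFT-AB-PC, ~300 l.).   Centre derivatives of connected labels when the curvature cost is zero.
`|Pc_ρ - P_ρ(z_ρ)| ≤ 2 r_i cv ρ ≤ 2 V s^(-tB)`: `RowB 0` with `V / r_i` (`≥ 1` since `r_i ≤ 1 ≤ V`; `w2 k = w1 k / r_k ≤ V / r_k ≤ V / r_i` for `k ≥ i`, `sf_ab_lip`).   `|P_ρ(z_ρ) - P_ρ'(z_ρ)| ≤ V s^(-tA)` (`sf_ab_A_P`).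
`|P_ρ'(z_ρ) - P_ρ'(z_ρ')| ≤ (2 |be'| + 4 |K'|) s^(1/a)` (`Core.base`), `|be'| + len j |K'| = cv ρ' ≤ (V / r_j) s^(-tB)`, `r_j ≥ s^(|Ls|+a)`, `len j ≥ s^(1+a)`: `≤ V`.   `|P_ρ'(z_ρ') - Pc_ρ'| ≤ 2 r_j cv ρ' ≤ 2 V s^(-tB)`. -/
theorem sf_ab_Pc_cmp (Ls t : ℝ) (ht : 0 < t) : ∃ e0 : ℝ, 0 < e0 ∧ ∀ (D : SfDoc) (π : SfPar) (C0 a μ h tB : ℝ), D.Fm π Ls C0 a μ h → a ≤ e0 → μ ≤ e0 → tB ≤ e0 →
    (∀ u : D.Rw, u.1 ∈ D.G → D.RowB 0 tB u) → ∀ i ∈ D.G, ∀ j ∈ D.G, i < j → ∀ ρ ρ', D.Conn i j ρ ρ' →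
      ∀ V : ℝ, 1 ≤ V → (∀ k ∈ D.G, i ≤ k → D.w1 k ≤ V) → |(D.lab i ρ).Pc - (D.lab j ρ').Pc| ≤ V * D.s ^ (-t) := by
  obtain ⟨eA, heA, HA⟩ := sf_ab_A_P Ls (t / 2) (by linarith)
  have hL : 0 ≤ |Ls| := abs_nonneg _
  obtain ⟨e0, he0⟩ : ∃ e0 : ℝ, e0 = min eA (min (t / 2) (min 1 (1 / (|Ls| + 4)))) := ⟨_, rfl⟩
  have h0 : 0 < e0 := by
    rw [he0]
    exact lt_min heA (lt_min (by linarith) (lt_min one_pos (by positivity)))
  have h1 : e0 ≤ eA := he0 ▸ min_le_left _ _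
  have h2 : e0 ≤ t / 2 := he0 ▸ (min_le_right _ _).trans (min_le_left _ _)
  have h3 : e0 ≤ 1 := he0 ▸ (min_le_right _ _).trans ((min_le_right _ _).trans (min_le_left _ _))
  have h4 : e0 ≤ 1 / (|Ls| + 4) := he0 ▸ (min_le_right _ _).trans ((min_le_right _ _).trans (min_le_right _ _))
  refine ⟨e0, h0, fun D π C0 a μ h tB hF ha hμ htB hB i hi j hj hij ρ ρ' hc V hV hVw => ?_⟩
  have hcore := hF.good.1
  have hs := hcore.hs
  have ha0 := hF.a0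
  have hV0 : 0 < V := by linarith
  have hB' : ∀ u : D.Rw, u.1 ∈ D.G → D.RowB 0 e0 u := fun u hu => (sf_ab_row_mono D hs 0 tB e0 htB u).1 (hB u hu)
  have he : |Ls| + 1 + 2 * a + e0 ≤ 1 / a := by
    have h6 : |Ls| + 4 ≤ 1 / a := by
      rw [le_div_iff₀ ha0]
      have h7 : (|Ls| + 4) * e0 ≤ 1 := by
        rw [le_div_iff₀ (by positivity)] at h4
        linarith
      calc (|Ls| + 4) * a ≤ (|Ls| + 4) * e0 := mul_le_mul_of_nonneg_left ha (by positivity)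
        _ ≤ 1 := h7
    linarith
  have p1 := sf_ab_Pc_cmp_own D π Ls C0 a μ h e0 hF hB' i V hV hVw i hi le_rfl ρ
  have p4 := sf_ab_Pc_cmp_own D π Ls C0 a μ h e0 hF hB' i V hV hVw j hj hij.le ρ'
  have p2 := HA D π C0 a μ h hF (ha.trans h1) (hμ.trans h1) i hi j hj hij ρ ρ' hc V (fun k hk hik _ => hVw k hk hik)
  have p3 := sf_ab_Pc_cmp_chg D π Ls C0 a μ h e0 hF hB' he i hi j hj hij ρ ρ' hc V hV hVw
  have tri := sf_ab_Pc_cmp_tri _ _ _ _ _ _ _ _ p1 p2 p3 p4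
  have e : (D.lab i ρ).Pc - (D.lab j ρ').Pc = -((D.lab i ρ).Pd (D.ray i ρ) - (D.lab i ρ).Pc) + ((D.lab i ρ).Pd (D.ray i ρ) - (D.lab j ρ').Pd (D.ray i ρ))
      + ((D.lab j ρ').Pd (D.ray i ρ) - (D.lab j ρ').Pd (D.ray j ρ')) + ((D.lab j ρ').Pd (D.ray j ρ') - (D.lab j ρ').Pc) := by ring
  rw [e]
  refine tri.trans ?_
  obtain ⟨S, hS⟩ : ∃ S : ℝ, S = D.s ^ (-e0) := ⟨_, rfl⟩
  obtain ⟨S2, hS2⟩ : ∃ S2 : ℝ, S2 = D.s ^ (-(t / 2)) := ⟨_, rfl⟩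
  rw [← hS, ← hS2]
  have hSS2 : S ≤ S2 := by
    rw [hS, hS2]
    exact sf_mc_anti hs.1 hs.2 (by linarith)
  have hS21 : 1 ≤ S2 := by
    rw [hS2, ← Real.rpow_zero D.s]
    exact sf_mc_anti hs.1 hs.2 (by linarith)
  have h16 : 16 ≤ D.s ^ (-a) := by
    rw [Real.rpow_neg hs.1.le]
    have hp := Real.rpow_pos_of_pos hs.1 a
    rw [le_inv_comm₀ (by norm_num) hp]
    have := hF.small
    norm_num at this ⊢
    linarith
  have hVS : V * S ≤ V * S2 := mul_le_mul_of_nonneg_left hSS2 hV0.le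
  have hV1 : V * 1 ≤ V * S2 := mul_le_mul_of_nonneg_left hS21 hV0.le
  have hVS0 : 0 ≤ V * S2 := by positivity
  calc 2 * (V * S) + V * S2 + 4 * V + 2 * (V * S) ≤ 16 * (V * S2) := by linarith
    _ ≤ D.s ^ (-a) * (V * S2) := mul_le_mul_of_nonneg_right h16 hVS0
    _ = V * D.s ^ (-a + -(t / 2)) := by rw [hS2, Real.rpow_add hs.1]; ring
    _ ≤ V * D.s ^ (-t) := mul_le_mul_of_nonneg_left (sf_mc_anti hs.1 hs.2 (by linarith)) hV0.le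

/-- **P** (leaf L-256-SOFT-AB-P, ~120 l.).   `i = 1`: terminal cost.   `i < 1`: `sf_ab_sp_ex` gives `ρ`, `ρ''` with `Conn i 1 ρ ρ''`; `|Pc_ρ| ≤ |Pc_ρ - Pc_ρ''| + |Pc_ρ''| ≤ V s^(-t/2) + s^(-c1) s^(-a)` (`sf_ab_Pc_cmp`; `V ≥ s^(-c1) ≥ 1`). -/
theorem sf_ab_P_ne (Ls t : ℝ) (ht : 0 < t) : ∃ e0 : ℝ, 0 < e0 ∧ ∀ (D : SfDoc) (π : SfPar) (C0 a μ h c1 tB : ℝ), D.Fm π Ls C0 a μ h → a ≤ e0 → μ ≤ e0 → tB ≤ e0 → 0 ≤ c1 →
    (∀ ρ : D.Row 1, |(D.lab 1 ρ).Pc| ≤ D.s ^ (-(c1 + a))) → (∀ u : D.Rw, u.1 ∈ D.G → D.RowB 0 tB u) →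
      ∀ i ∈ D.G, ∃ ρ : D.Row i, D.RowP c1 t ⟨i, ρ⟩ := by
  obtain ⟨eC, heC, HC⟩ := sf_ab_Pc_cmp Ls (t / 2) (by linarith)
  refine ⟨min eC (t / 2), lt_min heC (by linarith), fun D π C0 a μ h c1 tB hF ha hμ htB hc1 hterm hB i hi => ?_⟩
  have hcore := hF.good.1
  have hs := hcore.hs
  have ha0 := hF.a0
  have hat : a ≤ t / 2 := ha.trans (min_le_right _ _)
  have hterm' : ∀ (ρ : D.Row 1) (V : ℝ), D.s ^ (-c1) ≤ V → |(D.lab 1 ρ).Pc| ≤ V * D.s ^ (-a) := by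
    intro ρ V hV
    refine (hterm ρ).trans ?_
    rw [neg_add, Real.rpow_add hs.1]
    exact mul_le_mul_of_nonneg_right hV (Real.rpow_pos_of_pos hs.1 _).le
  rcases eq_or_lt_of_le (hcore.gate.2 i hi).2 with rfl | hlt
  · obtain ⟨ρ⟩ := sf_ab_row_ne D 1
    refine ⟨ρ, fun V hV _ => (hterm' ρ V hV).trans ?_⟩
    have hV0 : 0 < V := lt_of_lt_of_le (Real.rpow_pos_of_pos hs.1 _) hV
    exact mul_le_mul_of_nonneg_left (sf_mc_anti hs.1 hs.2 (by linarith)) hV0.le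
  · obtain ⟨ρ, ρ'', hc⟩ := sf_ab_sp_ex D π C0 a hcore ha0 i 1 hi hcore.gate.1 hlt
    refine ⟨ρ, fun V hV hVw => ?_⟩
    have hV1 : 1 ≤ V := by
      refine le_trans ?_ hV
      rw [← Real.rpow_zero D.s]
      exact sf_mc_anti hs.1 hs.2 (by linarith)
    have hV0 : 0 < V := by linarith
    have q1 := HC D π C0 a μ h tB hF (ha.trans (min_le_left _ _)) (hμ.trans (min_le_left _ _)) (htB.trans (min_le_left _ _)) hB i hi 1 hcore.gate.1 hlt ρ ρ'' hc V hV1 hVw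
    have q2 := hterm' ρ'' V hV
    obtain ⟨S2, hS2⟩ : ∃ S2 : ℝ, S2 = D.s ^ (-(t / 2)) := ⟨_, rfl⟩
    rw [← hS2] at q1
    have hS2pos : 0 < S2 := hS2 ▸ Real.rpow_pos_of_pos hs.1 _
    have hSa : D.s ^ (-a) ≤ S2 := by
      rw [hS2]
      exact sf_mc_anti hs.1 hs.2 (by linarith)
    have h16 : 16 ≤ D.s ^ (-a) := by
      rw [Real.rpow_neg hs.1.le]
      have hp := Real.rpow_pos_of_pos hs.1 a
      rw [le_inv_comm₀ (by norm_num) hp]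
      have := hF.small
      norm_num at this ⊢
      linarith
    have q3 : |(D.lab i ρ).Pc| ≤ V * S2 + V * D.s ^ (-a) := by
      have e : (D.lab i ρ).Pc = ((D.lab i ρ).Pc - (D.lab 1 ρ'').Pc) + (D.lab 1 ρ'').Pc := by ring
      rw [e]
      exact (abs_add_le _ _).trans (add_le_add q1 q2)
    have hVS0 : 0 ≤ V * S2 := by positivity
    have hVa : V * D.s ^ (-a) ≤ V * S2 := mul_le_mul_of_nonneg_left hSa hV0.le
    show |(D.lab i ρ).Pc| ≤ V * D.s ^ (-t)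
    calc |(D.lab i ρ).Pc| ≤ V * S2 + V * D.s ^ (-a) := q3
      _ ≤ 16 * (V * S2) := by linarith
      _ ≤ D.s ^ (-a) * (V * S2) := mul_le_mul_of_nonneg_right h16 hVS0
      _ = V * D.s ^ (-a + -(t / 2)) := by rw [hS2, Real.rpow_add hs.1]; ring
      _ ≤ V * D.s ^ (-t) := mul_le_mul_of_nonneg_left (sf_mc_anti hs.1 hs.2 (by linarith)) hV0.le

end Claimed.Agent.R256
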