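import Claimed.Agent.R256.Soft.Voc

/-!
# Row 256 (S0496), unit SOFT, A5 AB + A6 SH, file 1: DEFINITIONS AND PLAN      (architect helper55; chief helper19; A7 AF top-down: helper10)      no sorry

Chain under `sf_af` (`Soft/Contract.lean`; 02-cylinder.tex l.890-1094: Lemma cyl:profiles, Prop. cyl:shape-constraints).      Prefixes `sf_ab_`, `sf_sh_`.
## EXIT (entry of A7 AF)
`sf_sh_out` (`Soft/AOut*.lean`):   `∀ F t, ∃ C0, SfEx (F ⊆ G ∧ K.Gd π Ls C0 t c ∧ (K.doc c).Out π' t)`,   `π' = {π with c2 := K.c2 π Ls, c1 := K.c1 π Ls}`.      `G` also contains `0` and a fine mesh.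
## NO LOGARITHMS
`w2 k = f_k / r_k² = s^(b_2(k))`, `w1 k = f_k / r_k = s^(b_1(k))`.   A bound `x ≤ s^(min_{k ∈ [i,j]} b_2(k) - t)` of the paper is written   `∀ V, (∀ k ∈ G, i ≤ k → k ≤ j → w2 k ≤ V) → x ≤ V * s^(-t)`.
## PLAN
1. (A) `ChA`: DOC LEVEL.  Telescoping of `Mat.mm` along `Core.split` over a `μ`-fine mesh; the number of gates is `≤ s^(-a)`.  The third comparison keeps the ray of the EARLIER row on both sides (changing the ray costs differences of curvatures,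
   bounded by the first two comparisons with crude `V`, times `s^(1/a)`; no support constant `C0` enters).
2. ROW BOUNDS by CLEANING.  `RowB` = (B), `RowK` = (cyl:K-profile), `RowP` = bound of the centre derivative (`c2 = 0`).  They depend only on the label of the row, the scale, the lengths and the widths: INVARIANT under RES (`Sub` in the frame `sfFrame1`).
   DOC LEVEL facts "not all rows of a gate are bad" (`sf_ab_B_ne`, `sf_ab_K_ne`, `sf_ab_P_ne`):
     (B)  if all rows of the gate `i` are bad, every row predicts `≤ 2` times of the next gate `j` among the rows continuing to the gate `1` (an affine function which is large at `T_i` or has a large duration-scaled slope is small on a time set shorter than `len j`);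
          `Core.tp` gives `P_j(U) ≤ 2 s^(d (j-i) - a) + negl`, `Core.sp` gives `P_j(U) ≥ s^(3a)`.
     (K)  a row with a predecessor at the gate `0` is good ((B) at the gate `0` + (A)); rows without predecessor have mass `≤ s^(1/a)` (`Core.sp` with `S = ∅`).
     (P)  a row with a continuation to the gate `1` is good (terminal cost + (A) + (B) + `own`); if no row continues, `Core.sp` gives `1 ≤ s^(1/a)`.
   PATTERN LEVEL: the combinator `sf_ab_clean`: RES at the gate `i` with the two classes good / bad; the class bad is impossible by the DOC LEVEL fact applied to the new configuration; induction on the number of gates which are not clean.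
3. SHAPE: DOC LEVEL, with `MinC` (= `sf_minc`, helper286, RIGID for all `Gd` configurations, no affine structure needed) as a black box.  No PRE, no GE.
     `sf_sh_s1`, `sf_sh_s3lo`   prefix argument = `MinC` on `[0, j]` with ONE bin, `sg = sfZero`, at a future maximum `j` of `w2` (`w1`): all rows of the gate have an improved cost, but mass `1 > s^(κ0 j)`.      Small `j`: Lipschitz (`Mat.wr`).
     `sf_sh_s2lt`, `sf_sh_s2gt`, `sf_sh_s3hi`   tail argument = `MinC` on `[i, 1]`; bins = rounded parameters of the END label (`β` if `c < 1`; `(T_i, β(T_i), K)` if `c > 1`; `Pc` if `c = 0`), so the cost after subtraction is small by construction,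
     `Ub` is disjoint, a label lies in one bin, and (A) (+ `RowK` if `c < 1`) bounds the number of bins reached from one starting row.
4. ASSEMBLY (`sf_sh_out`): `Feas` → DOC on the mesh → CLEAN (B) → CLEAN (K) → CLEAN (P) → intersect with the RIGID statements `sf_minc`, `CalPl`, small scale → DOC LEVEL.
All DOC LEVEL leaves have the form  `∀ targets, ∃ thresholds > 0, ∀ D (tolerances ≤ thresholds), ..`:  the prover chooses the thresholds.
## IDEAS FOR A7 (helper10)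
(a) `c2 = 1`: `SfPar.Valid.fam` only asks `q ≤ 1`;  `s1` + `sf_win_slope` give affine windows of slope `≤ 1 + a`, compactness closes; the bins (iii) serve `q = 1` and `q < 1`: no dichotomy.
(b) bins by the END rows `v` of the gate `B` (rounded shear of `lab v` at `T_A`, rounded base centre): `Ub` disjoint for free, every comparison is (A) for a pair `(l, B)`.
(c) compactness at the OUTER level (`sf_cmp` on configurations with a chosen window; queries = depths + the two slopes); `G = insert 1 F` exactly comes from `Gk`.      (d) windows inside `[1/2, 1]` (PL needs `i ≥ i0`).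
-/

set_option autoImplicit false

namespace Claimed.Agent.R256

open Claimed.Agent.R255

namespace SfDoc

/-- `f_k / r_k² = s^(b_2(k))` -/
noncomputable def w2 (D : SfDoc) (k : ℝ) : ℝ := D.f k / D.r k ^ 2

/-- `f_k / r_k = s^(b_1(k))` -/
noncomputable def w1 (D : SfDoc) (k : ℝ) : ℝ := D.f k / D.r k

/-- the curvature of a row: `|β_i(T_i)| + ℓ_i |K_i|` -/
def cv (D : SfDoc) (u : D.Rw) : ℝ := |(D.lab u.1 u.2).be| + D.len u.1 * |(D.lab u.1 u.2).K|

/-- every gate `< 1` has a later gate within `μ` -/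
def FineM (D : SfDoc) (μ : ℝ) : Prop := ∀ i ∈ D.G, i < 1 → ∃ j ∈ D.G, i < j ∧ j ≤ i + μ

/-- terminal costs `≤ s^(-(c2 + t))`, and `≤ s^(-(c1 + t))` if `c2 = 0` -/
def Cost (D : SfDoc) (π : SfPar) (t : ℝ) : Prop :=
  ∀ ρ, sfR2 (D.lab 1 ρ) sfZero D.s ≤ D.s ^ (-(π.c2 + t)) ∧ (π.c2 = 0 → sfR1 (D.lab 1 ρ) sfZero ≤ D.s ^ (-(π.c1 + t)))

/-- **(A)**: comparison of the shears of two connected labels -/
structure ChA (D : SfDoc) (t : ℝ) : Prop where
  be : ∀ i ∈ D.G, ∀ j ∈ D.G, i < j → ∀ ρ ρ', D.Conn i j ρ ρ' → ∀ V : ℝ, (∀ k ∈ D.G, i ≤ k → k ≤ j → D.w2 k ≤ V) →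
    |(D.lab i ρ).beAt (D.T j ρ') - (D.lab j ρ').be| ≤ V * D.s ^ (-t)
  K : ∀ i ∈ D.G, ∀ j ∈ D.G, i < j → ∀ ρ ρ', D.Conn i j ρ ρ' → ∀ V : ℝ, (∀ k ∈ D.G, i ≤ k → k ≤ j → D.w2 k / D.len k ≤ V) →
    |(D.lab i ρ).K - (D.lab j ρ').K| ≤ V * D.s ^ (-t)
  P : ∀ i ∈ D.G, ∀ j ∈ D.G, i < j → ∀ ρ ρ', D.Conn i j ρ ρ' → ∀ V : ℝ, (∀ k ∈ D.G, i ≤ k → k ≤ j → D.w1 k ≤ V) →
    |(D.lab i ρ).Pd (D.ray i ρ) - (D.lab j ρ').Pd (D.ray i ρ)| ≤ V * D.s ^ (-t)

/-- **(B)** for one row: `|β| + ℓ |K| ≤ s^(min(-c, min_{k ≥ i} b_2(k)) - t)` -/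
def RowB (D : SfDoc) (c t : ℝ) (u : D.Rw) : Prop :=
  ∀ V : ℝ, D.s ^ (-c) ≤ V → (∀ k ∈ D.G, u.1 ≤ k → D.w2 k ≤ V) → D.cv u ≤ V * D.s ^ (-t)

/-- **(cyl:K-profile)** for one row, before the shape constraints: `|K| ≤ s^(min(-c, min_k b_2(k), min_{k ≤ i} (b_2(k) - k)) - t)` -/
def RowK (D : SfDoc) (c t : ℝ) (u : D.Rw) : Prop :=
  ∀ V : ℝ, D.s ^ (-c) ≤ V → (∀ k ∈ D.G, D.w2 k ≤ V) → (∀ k ∈ D.G, k ≤ u.1 → D.w2 k / D.len k ≤ V) → |(D.lab u.1 u.2).K| ≤ V * D.s ^ (-t)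

/-- the centre derivative of one row: `|P_c| ≤ s^(min(-c1, min_{k ≥ i} b_1(k)) - t)` -/
def RowP (D : SfDoc) (c1 t : ℝ) (u : D.Rw) : Prop :=
  ∀ V : ℝ, D.s ^ (-c1) ≤ V → (∀ k ∈ D.G, u.1 ≤ k → D.w1 k ≤ V) → |(D.lab u.1 u.2).Pc| ≤ V * D.s ^ (-t)

/-- the standing hypotheses of the DOC LEVEL leaves: accuracy `a`, mesh `μ`, gap `h` -/
structure Fm (D : SfDoc) (π : SfPar) (Ls C0 a μ h : ℝ) : Prop where
  good : D.Good π Ls C0 a
  a0 : 0 < a
  g0 : (0 : ℝ) ∈ D.G
  fine : D.FineM μ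
  gap : D.Gap h
  h0 : 0 < h
  /-- the gap beats the accuracy -/
  hd : 8 * a ≤ π.d * h
  card : (D.G.card : ℝ) ≤ D.s ^ (-a)
  small : D.s ^ a ≤ 1 / 16

/-- **the outer configuration** = entry of A7 AF.   Only `c2`, `c1`, `hyb` of `π` are used. -/
structure Out (D : SfDoc) (π : SfPar) (t : ℝ) : Prop where
  g0 : (0 : ℝ) ∈ D.G
  cost : D.Cost π t
  chA : D.ChA t
  rowB : ∀ u : D.Rw, u.1 ∈ D.G → D.RowB π.c2 t u
  /-- (cyl:K-profile) -/
  rowK : 0 < π.c2 → ∀ u : D.Rw, u.1 ∈ D.G → ∀ V : ℝ, D.s ^ (-π.c2) ≤ V → (∀ k ∈ D.G, k ≤ u.1 → D.w2 k / D.len k ≤ V) →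
    |(D.lab u.1 u.2).K| ≤ V * D.s ^ (-t)
  rowP : π.c2 = 0 → ∀ u : D.Rw, u.1 ∈ D.G → D.RowP π.c1 t u
  /-- `b_2(i) ≥ c (i - 1)` -/
  s1 : 0 < π.c2 → ∀ i ∈ D.G, D.w2 i ≤ D.s ^ (π.c2 * (i - 1) - t)
  /-- equality if `c ≠ 1` -/
  s2 : 0 < π.c2 → π.c2 ≠ 1 → ∀ i ∈ D.G, D.s ^ (π.c2 * (i - 1) + t) ≤ D.w2 i
  /-- `b_1(i) = c_1 (i - 1)` -/
  s3 : π.c2 = 0 → ∀ i ∈ D.G, D.s ^ (π.c1 * (i - 1) + t) ≤ D.w1 i ∧ D.w1 i ≤ D.s ^ (π.c1 * (i - 1) - t)
  /-- (Pl) -/
  pl : π.hyb = true → ∀ i ∈ D.G, 1 / 4 ≤ i → D.s ^ ((1 - i) / 2 + t) ≤ D.f i ∧ D.f i ≤ D.s ^ ((1 - i) / 2 - t)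

end SfDoc

theorem sf_ab_eqns_cite : True := by
  have := @SfDoc.w2.eq_1
  have := @SfDoc.w1.eq_1
  have := @SfDoc.cv.eq_1
  have := @SfDoc.FineM.eq_1
  have := @SfDoc.Cost.eq_1
  have := @SfDoc.RowB.eq_1
  have := @SfDoc.RowK.eq_1
  have := @SfDoc.RowP.eq_1
  trivial

end Claimed.Agent.R256
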