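import Claimed.Agent.R256.Soft.AMinOut

/-!
# Row 256 (S0496), unit SOFT, A4 FIN: COVERS BY SHEAR BINS      (architect helper286; prefix `sf_cv_`, `SfCv`, `sfCv`)

Doc-level, on ONE `D : SfDoc` with `D.Good π Ls C0 t`.   The part of `Soft/AMin*.lean` that does not speak about costs, for ARBITRARY bins of the rows of the gate `j` with shears `sg b` that are polynomial on `[0,1]`:
`SfCv D κ0 z i j ι Ub sg` (disjoint bins, overlaps `≤ s^(-κ0 (j-i))`, shears `≤ s^-z`, mass `≥ s^(κ0 (j-i))`)   ⟹   the fields of `SfCls.GeHyp D i j {j} ..` for the refined bins `SfMcBin`, the marked rows `sfMcUb`,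
the exact predecessor sets `sfMcSb` and the frames `sfMcFr D i j (sg b.1) b.2`, with `C1 (j-i) ≥ sfCvM C0 Ls t z`.      `sf_cv_out`: costs of the extracted piece.
-/

set_option autoImplicit false

namespace Claimed.Agent.R256

open Claimed.Agent.R255

/-- a cover of the gate `j` by shear bins -/
structure SfCv (D : SfDoc) (κ0 z i j : ℝ) (ι : Type) (Ub : ι → D.Row j → Prop) (sg : ι → SfTest) : Prop where
  hi : i ∈ D.G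
  hj : j ∈ D.G
  hij : i < j
  disj : ∀ b b' ρ', Ub b ρ' → Ub b' ρ' → b = b'
  sovl : ∀ ρ : D.Row i, (({b | ∃ ρ', Ub b ρ' ∧ D.Conn i j ρ ρ'} : Set ι).ncard : ℝ) ≤ D.s ^ (-(κ0 * (j - i)))
  lovl : ∀ lam, (({b | ∃ ρ', Ub b ρ' ∧ D.lab j ρ' = lam} : Set ι).ncard : ℝ) ≤ D.s ^ (-(κ0 * (j - i)))
  shear : ∀ b ρ', Ub b ρ' → ∀ T : ℝ, 0 ≤ T → T ≤ 1 →
    |(sg b).al| ≤ D.s ^ (-z) ∧ |(sg b).beAt T| ≤ D.s ^ (-z) ∧ |(sg b).K| ≤ D.s ^ (-z)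
  big : D.s ^ (κ0 * (j - i)) ≤ (D.P j).pr (fun ρ' => ∃ b, Ub b ρ')

/-- the exponent of the frames -/
noncomputable def sfCvM (C0 Ls t z : ℝ) : ℝ := z + 2 * |C0| + t + 3 * (1 + (|Ls| + t)) + 1

theorem sf_cv_eqns_cite : True := by
  have := @sfCvM.eq_1
  trivial

section

variable {D : SfDoc} {π : SfPar} {Ls C0 κ0 z t i j : ℝ} {ι : Type} {Ub : ι → D.Row j → Prop} {sg : ι → SfTest}

theorem sf_cv_ub_disj (hB : SfCv D κ0 z i j ι Ub sg) (b b' : SfMcBin D i j ι) (u : D.Rw)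
    (h : sfMcUb D i j Ub b u) (h' : sfMcUb D i j Ub b' u) : b = b' := by
  obtain ⟨ρ', rfl, h1, h2⟩ := h
  obtain ⟨ρ'', e, h1', h2'⟩ := h'
  have e' : ρ' = ρ'' := eq_of_heq (Sigma.mk.inj e).2
  subst e'
  exact Prod.ext (hB.disj _ _ _ h1 h1') (Subtype.ext (h2.symm.trans h2'))

theorem sf_cv_ub_mass (hg : D.Good π Ls C0 t) (hB : SfCv D κ0 z i j ι Ub sg) (a : ℝ) (ha : κ0 ≤ a) :
    D.s ^ (a * (j - i)) ≤ (D.P j).pr (fun ρ' => ∃ b : SfMcBin D i j ι, sfMcUb D i j Ub b ⟨j, ρ'⟩) := by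
  have e : (fun ρ' => ∃ b : SfMcBin D i j ι, sfMcUb D i j Ub b ⟨j, ρ'⟩) = fun ρ' => ∃ b, Ub b ρ' :=
    funext fun ρ' => propext (sf_mc_ub_iff ρ')
  rw [e]
  refine le_trans ?_ hB.big
  exact sf_mc_anti hg.1.hs.1 hg.1.hs.2 (mul_le_mul_of_nonneg_right ha (by linarith [hB.hij]))

theorem sf_cv_sb_time (hg : D.Good π Ls C0 t) (hB : SfCv D κ0 z i j ι Ub sg) (b : SfMcBin D i j ι) (u : D.Rw)
    (h : sfMcSb D i j Ub b u) : (D.lab u.1 u.2).T = (sfMcFr D i j (sg b.1) b.2.1).T0 := by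
  obtain ⟨ρ, ρ', rfl, -, h2, h3⟩ := h
  have := sf_mc_anc_conn D π C0 t hg.1 i j hB.hi hB.hj hB.hij ρ ρ' h3
  exact (this.symm.trans h2)

theorem sf_cv_sb_ovl [Finite ι] (hg : D.Good π Ls C0 t) (hB : SfCv D κ0 z i j ι Ub sg) (a : ℝ) (ha : κ0 ≤ a) (u : D.Rw) :
    (({b | sfMcSb D i j Ub b u} : Set (SfMcBin D i j ι)).ncard : ℝ) ≤ D.s ^ (-(a * (j - i))) := by
  have hs := hg.1.hs
  have hmono : D.s ^ (-(κ0 * (j - i))) ≤ D.s ^ (-(a * (j - i))) :=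
    sf_mc_anti hs.1 hs.2 (neg_le_neg (mul_le_mul_of_nonneg_right ha (by linarith [hB.hij])))
  by_cases hu : ∃ ρ : D.Row i, u = ⟨i, ρ⟩
  · obtain ⟨ρ, rfl⟩ := hu
    refine le_trans ?_ ((hB.sovl ρ).trans hmono)
    have : ({b | sfMcSb D i j Ub b ⟨i, ρ⟩} : Set (SfMcBin D i j ι)).ncard ≤ ({b | ∃ ρ', Ub b ρ' ∧ D.Conn i j ρ ρ'} : Set ι).ncard := by
      refine Set.ncard_le_ncard_of_injOn Prod.fst ?_ ?_ (Set.toFinite _)
      · rintro b ⟨ρ1, ρ', e, h1, -, h3⟩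
        have e' : ρ = ρ1 := eq_of_heq (Sigma.mk.inj e).2
        subst e'
        exact ⟨ρ', h1, h3⟩
      · rintro b ⟨ρ1, ρ', e, -, h2, h3⟩ b' ⟨ρ2, ρ'', e2, -, h2', h3'⟩ hbb
        have e' : ρ = ρ1 := eq_of_heq (Sigma.mk.inj e).2
        have e'' : ρ = ρ2 := eq_of_heq (Sigma.mk.inj e2).2
        subst e'
        subst e''
        have t1 := sf_mc_anc_conn D π C0 t hg.1 i j hB.hi hB.hj hB.hij ρ ρ' h3
        have t2 := sf_mc_anc_conn D π C0 t hg.1 i j hB.hi hB.hj hB.hij ρ ρ'' h3'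
        exact Prod.ext hbb (Subtype.ext (h2.symm.trans (t1.trans (t2.symm.trans h2'))))
    exact_mod_cast this
  · have : ({b | sfMcSb D i j Ub b u} : Set (SfMcBin D i j ι)) = ∅ := by
      ext b
      simp only [Set.mem_ofPred_eq, Set.mem_empty_iff_false, iff_false]
      rintro ⟨ρ, ρ', e, -⟩
      exact hu ⟨ρ, e⟩
    rw [this, Set.ncard_empty]
    exact_mod_cast (Real.rpow_pos_of_pos hs.1 _).le

theorem sf_cv_lb_ovl [Finite ι] (hg : D.Good π Ls C0 t) (hB : SfCv D κ0 z i j ι Ub sg) (a : ℝ) (ha : κ0 ≤ a) (lam : SfTest) :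
    (({b | ∃ v : D.Rw, D.lab v.1 v.2 = lam ∧ sfMcUb D i j Ub b v} : Set (SfMcBin D i j ι)).ncard : ℝ) ≤ D.s ^ (-(a * (j - i))) := by
  have hs := hg.1.hs
  have hmono : D.s ^ (-(κ0 * (j - i))) ≤ D.s ^ (-(a * (j - i))) :=
    sf_mc_anti hs.1 hs.2 (neg_le_neg (mul_le_mul_of_nonneg_right ha (by linarith [hB.hij])))
  refine le_trans ?_ ((hB.lovl lam).trans hmono)
  have : ({b | ∃ v : D.Rw, D.lab v.1 v.2 = lam ∧ sfMcUb D i j Ub b v} : Set (SfMcBin D i j ι)).ncard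
      ≤ ({b | ∃ ρ', Ub b ρ' ∧ D.lab j ρ' = lam} : Set ι).ncard := by
    refine Set.ncard_le_ncard_of_injOn Prod.fst ?_ ?_ (Set.toFinite _)
    · rintro b ⟨v, hl, ρ', rfl, h1, -⟩
      exact ⟨ρ', h1, hl⟩
    · rintro b ⟨v, hl, ρ', rfl, -, h2⟩ b' ⟨v', hl', ρ'', rfl, -, h2'⟩ hbb
      have hT : D.T j ρ' = D.T j ρ'' := by
        unfold SfDoc.T
        simp only at hl hl'
        rw [hl, hl']
      refine Prod.ext hbb (Subtype.ext ?_)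
      rw [← h2, ← h2', hT]
  exact_mod_cast this

theorem sf_cv_fr_ray (hg : D.Good π Ls C0 t) (hB : SfCv D κ0 z i j ι Ub sg) (ht : 0 < t) (hz : 0 ≤ z) (h30 : D.s ≤ 1 / 30)
    (b : SfMcBin D i j ι) (u : D.Rw) (hu : sfMcSb D i j Ub b u) :
    ((sfMcFr D i j (sg b.1) b.2.1).ray (D.ray u.1 u.2)).size ≤ D.s ^ (-(sfCvM C0 Ls t z)) := by
  obtain ⟨ρ, ρ', rfl, hU, hanc, hc⟩ := hu
  have hs := hg.1.hs
  have hT : 0 ≤ b.2.1 ∧ b.2.1 ≤ 1 := by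
    rw [← hanc]; exact sf_mc_anc_mem D π C0 t hg.1 i j hB.hi _
  obtain ⟨hm, hL, hr, hF, -, -⟩ := sf_mc_units hg ht hB.hi hB.hj
  obtain ⟨hal, hbe, hK⟩ := hB.shear b.1 ρ' hU b.2.1 hT.1 hT.2
  have hpE := sf_mc_p_one hs.1 hs.2 hz
  have hZ := sf_mc_p_one hs.1 hs.2 (abs_nonneg C0)
  have hzz : (D.ray i ρ).size ≤ D.s ^ (-|C0|) := (hg.1.bdd i hB.hi ρ).1.trans (sf_mc_p_mono hs.1 hs.2 (le_abs_self _))
  rw [sf_mc_fr_eq]
  refine (sf_mc_ray_size _ _ _ _ _ _ _ _ _ _ _ hT hm hL hr hF hpE hal hbe hK hZ hzz).trans ?_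
  have e : 10 * D.s ^ (-z) * (D.s ^ (-|C0|)) ^ 2 = 10 * D.s ^ (-(z + 2 * |C0|)) := by
    have e1 : D.s ^ (-(z + 2 * |C0|)) = D.s ^ (-z) * (D.s ^ (-|C0|) * D.s ^ (-|C0|)) := by
      rw [sf_mc_p_mul hs.1, sf_mc_p_mul hs.1]; congr 1; ring
    rw [e1]; ring
  rw [e]
  refine (sf_mc_fin hs.1 hs.2 h30 10 _ _ (by norm_num)).trans (sf_mc_p_mono hs.1 hs.2 ?_)
  unfold sfCvM
  linarith

theorem sf_cv_fr_lab (hg : D.Good π Ls C0 t) (hB : SfCv D κ0 z i j ι Ub sg) (ht : 0 < t) (hz : 0 ≤ z) (h30 : D.s ≤ 1 / 30)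
    (b : SfMcBin D i j ι) (v : D.Rw) (hv : sfMcUb D i j Ub b v) :
    ((sfMcFr D i j (sg b.1) b.2.1).tst (D.lab v.1 v.2)).size ≤ D.s ^ (-(sfCvM C0 Ls t z)) := by
  obtain ⟨ρ', rfl, hU, hanc⟩ := hv
  have hs := hg.1.hs
  have hT : 0 ≤ b.2.1 ∧ b.2.1 ≤ 1 := by
    rw [← hanc]; exact sf_mc_anc_mem D π C0 t hg.1 i j hB.hi _
  obtain ⟨hm, hL, hr, hF, hLm, hR⟩ := sf_mc_units hg ht hB.hi hB.hj
  obtain ⟨hal, hbe, hK⟩ := hB.shear b.1 ρ' hU b.2.1 hT.1 hT.2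
  have hpE := sf_mc_p_one hs.1 hs.2 hz
  have hZ := sf_mc_p_one hs.1 hs.2 (abs_nonneg C0)
  have hzz : (D.lab j ρ').size ≤ D.s ^ (-|C0|) := (hg.1.bdd j hB.hj ρ').2.trans (sf_mc_p_mono hs.1 hs.2 (le_abs_self _))
  have hown := hg.1.own j hB.hj ρ'
  have hlen := sf_mc_len_pos D π C0 t hg.1 j hB.hj
  have hQT : 0 ≤ (D.lab j ρ').T ∧ (D.lab j ρ').T ≤ 1 := by
    have h6 : 0 ≤ (D.lab j ρ').T := hown.2.2.2.1
    have h7 : (D.lab j ρ').T + D.len j ≤ 1 := hown.2.2.2.2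
    exact ⟨h6, by linarith⟩
  rw [sf_mc_fr_eq]
  refine (sf_mc_tst_size _ _ _ _ _ _ _ _ _ _ 1 _ _ hT hQT hm hL hr hF hLm (sf_mc_p_one hs.1 hs.2 ht.le) hR (le_refl _) hpE
    hal hbe hK hZ hzz).trans ?_
  have h1 : D.s ^ (-|C0|) ≤ D.s ^ (-(z + |C0|)) := sf_mc_p_mono hs.1 hs.2 (by linarith)
  have h2 : D.s ^ (-z) ≤ D.s ^ (-(z + |C0|)) := sf_mc_p_mono hs.1 hs.2 (by linarith [abs_nonneg C0])
  have hpt : 0 < D.s ^ (-t) := Real.rpow_pos_of_pos hs.1 _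
  have hnum : (D.s ^ (-|C0|) + 2 * D.s ^ (-z)) * 1 ^ 2 * D.s ^ (-t) ≤ 3 * D.s ^ (-(z + |C0| + t)) := by
    rw [← sf_mc_p_mul hs.1, one_pow, mul_one]
    have h9 : D.s ^ (-|C0|) + 2 * D.s ^ (-z) ≤ 3 * D.s ^ (-(z + |C0|)) := by linarith
    calc _ ≤ 3 * D.s ^ (-(z + |C0|)) * D.s ^ (-t) := mul_le_mul_of_nonneg_right h9 hpt.le
      _ = _ := by ring
  have hm3 : 0 < (D.s ^ (1 + (|Ls| + t))) ^ 3 := pow_pos hm.1 3
  refine (div_le_div_of_nonneg_right hnum hm3.le).trans ?_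
  refine (sf_mc_fin hs.1 hs.2 h30 3 _ _ (by norm_num)).trans (sf_mc_p_mono hs.1 hs.2 ?_)
  unfold sfCvM
  linarith [abs_nonneg C0]

/-- **(OUT)** for covers -/
theorem sf_cv_out (hg : D.Good π Ls C0 t) (hi : i ∈ D.G) (hj : j ∈ D.G) (D' : SfDoc) (h1 : (1 : ℝ) ∈ D'.G) (Gk : Finset ℝ) (t' : ℝ)
    (b : SfMcBin D i j ι) (e : D'.Rw → D.Rw) (hsub : D'.Sub D i j (sfMcFr D i j (sg b.1) b.2.1) Gk t' e)
    (hend : ∀ u : D'.Rw, u.1 = 1 → sfMcUb D i j Ub b (e u)) (ρ : D'.Row 1) :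
    D'.s = D.len j / D.len i ∧ ∃ ρ' : D.Row j, Ub b.1 ρ' ∧
      sfR2 (D'.lab 1 ρ) sfZero D'.s = sfR2 (D.lab j ρ') (sg b.1) (D.len j) ∧ sfR1 (D'.lab 1 ρ) sfZero = sfR1 (D.lab j ρ') (sg b.1) := by
  have hs' : D'.s = D.len j / D.len i := hsub.hs
  refine ⟨hs', ?_⟩
  obtain ⟨ρ', he, hU, -⟩ := hend ⟨1, ρ⟩ rfl
  refine ⟨ρ', hU, ?_⟩
  have hwj := hg.1.hw.2.2 j hj
  have hli := sf_mc_len_pos D π C0 t hg.1 i hi
  have hφ : (sfMcFr D i j (sg b.1) b.2.1).Pos := ⟨hli, hwj.1, hwj.2⟩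
  have hown := hg.1.own j hj ρ'
  have eij : i + 1 * (j - i) = j := by ring
  have hr1 : D'.r 1 = 1 := by
    rw [hsub.hr 1 h1, eij]; exact div_self hwj.1.ne'
  have hf1 : D'.f 1 = 1 := by
    rw [(hsub.hf 1 h1).2.2 one_pos, eij]; exact div_self hwj.2.ne'
  have hlab := hsub.hlab ⟨1, ρ⟩ h1
  rw [he] at hlab
  have hlab' : D'.lab 1 ρ = (sfMcFr D i j (sg b.1) b.2.1).tst (D.lab j ρ') := by
    have e1 : ((sfMcFr D i j (sg b.1) b.2.1).tst (D.lab j ρ')).r = 1 := by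
      show (D.lab j ρ').r / D.r j = 1
      rw [hown.1]; exact div_self hwj.1.ne'
    have e2 : ((sfMcFr D i j (sg b.1) b.2.1).tst (D.lab j ρ')).f = 1 := by
      show (D.lab j ρ').f / D.f j = 1
      rw [hown.2.1]; exact div_self hwj.2.ne'
    refine hlab.trans ?_
    exact sf_mc_with _ _ _ (e1.trans hr1.symm) (e2.trans hf1.symm)
  rw [hlab', hs']
  constructor
  · have := sf_frame_R2 (sfMcFr D i j (sg b.1) b.2.1) hφ (D.lab j ρ') (D.len j)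
    exact this.trans (sf_mc_R2 _ _ _ _)
  · have := sf_frame_R1 (sfMcFr D i j (sg b.1) b.2.1) hφ (D.lab j ρ')
    exact this.trans (sf_mc_R1 _ _ _)

end

end Claimed.Agent.R256
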