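import Claimed.Agent.R255.Ent.Basic
import Claimed.Agent.R256.Soft.ACov

/-!
# Row 256 (S0496), unit SOFT, A4 FIN, file 2: ROUNDING; THE CURVATURE BINS      (architect helper286; prefix `sf_fb_`, `sfFb`)

First paragraph of the proof of Lemma cyl:profiles (02 l.940-960), Doc-level, on ONE `D` with `D.Good π Ls C0 t`, `0 ∈ D.G`.
The terminal rows are binned by the quadratic part `(β(0), K)` of the shear of their label, rounded at the unit `U = s^-(|3Ls+1|+2t+1)`.   By `Mat.mm` on `[0,1]` a root row reaches `≤ 9` bins; a terminal label lies in one bin;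
after subtraction of the rounded shear the curvature cost is `≤ 3U`.      (No base cell and no normal cell is needed: the support power `C1` of GE need not be universal for `Feas2`.)
-/

set_option autoImplicit false

namespace Claimed.Agent.R256

open Claimed.Agent.R255

/-! ### rounding -/

theorem sf_fb_floor_near {U x y : ℝ} (hU : 0 < U) (h : |x - y| ≤ U) : ⌊y / U⌋ ∈ Finset.Icc (⌊x / U⌋ - 1) (⌊x / U⌋ + 1) := by
  rw [Finset.mem_Icc]
  rw [abs_le] at h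
  constructor
  · rw [← Int.floor_sub_one]
    apply Int.floor_le_floor
    rw [div_sub_one hU.ne']
    exact div_le_div_of_nonneg_right (by linarith) hU.le
  · rw [← Int.floor_add_one]
    apply Int.floor_le_floor
    rw [div_add_one hU.ne']
    exact div_le_div_of_nonneg_right (by linarith) hU.le

theorem sf_fb_floor_rem {U y : ℝ} (hU : 0 < U) : |y - U * (⌊y / U⌋ : ℝ)| ≤ U := by
  have h1 := Int.floor_le (y / U)
  have h2 := Int.lt_floor_add_one (y / U)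
  rw [le_div_iff₀ hU] at h1
  rw [div_lt_iff₀ hU] at h2
  rw [abs_le]
  constructor <;> nlinarith

theorem sf_fb_floor_abs {U y : ℝ} (hU : 0 < U) : |U * (⌊y / U⌋ : ℝ)| ≤ |y| + U := by
  have h := sf_fb_floor_rem (y := y) hU
  have e : U * (⌊y / U⌋ : ℝ) = y + (-(y - U * (⌊y / U⌋ : ℝ))) := by ring
  rw [e]
  have := abs_add_le y (-(y - U * (⌊y / U⌋ : ℝ)))
  rw [abs_neg] at this
  linarith

/-! ### the curvature bins -/

/-- exponent of the rounding unit -/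
noncomputable def sfFbW (Ls t : ℝ) : ℝ := |3 * Ls + 1| + 2 * t + 1

/-- the curvature bin of a label -/
noncomputable def sfFbChi (U : ℝ) (Q : SfTest) : ℤ × ℤ := (⌊Q.beAt 0 / U⌋, ⌊Q.K / U⌋)

/-- the rounded quadratic shear -/
def sfFbSg (U : ℝ) (m : ℤ × ℤ) : SfTest := ⟨0, 0, 0, 0, 0, 0, 0, U * m.1, U * m.2, 0, 0⟩

theorem sf_fb_eqns_cite : True := by
  have := @sfFbW.eq_1
  have := @sfFbChi.eq_1
  have := @sfFbSg.eq_1
  trivial

/-- the cost after subtraction of the rounded shear -/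
theorem sf_fb_cost (U l : ℝ) (hU : 0 < U) (Q : SfTest) (hr : Q.r = 1) (hf : Q.f = 1) (hT : 0 ≤ Q.T ∧ Q.T ≤ 1) (hl : 0 ≤ l ∧ l ≤ 1) :
    sfR2 Q (sfFbSg U (sfFbChi U Q)) l ≤ 3 * U := by
  have h1 := sf_fb_floor_rem (y := Q.beAt 0) hU
  have h2 := sf_fb_floor_rem (y := Q.K) hU
  unfold sfR2
  rw [hr, hf]
  simp only [sfFbSg, sfFbChi, SfTest.beAt] at h1 h2 ⊢
  have e : Q.be - (U * (⌊(Q.be + (0 - Q.T) * Q.K) / U⌋ : ℝ) + (Q.T - 0) * (U * (⌊Q.K / U⌋ : ℝ)))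
      = (Q.be + (0 - Q.T) * Q.K - U * (⌊(Q.be + (0 - Q.T) * Q.K) / U⌋ : ℝ)) + Q.T * (Q.K - U * (⌊Q.K / U⌋ : ℝ)) := by ring
  rw [e]
  have t1 := abs_add_le (Q.be + (0 - Q.T) * Q.K - U * (⌊(Q.be + (0 - Q.T) * Q.K) / U⌋ : ℝ)) (Q.T * (Q.K - U * (⌊Q.K / U⌋ : ℝ)))
  have hTa : |Q.T| ≤ 1 := by rw [abs_of_nonneg hT.1]; exact hT.2
  have t2 := sf_mc_mul_le hTa h2
  have t3 : l * |Q.K - U * (⌊Q.K / U⌋ : ℝ)| ≤ 1 * U := mul_le_mul hl.2 h2 (abs_nonneg _) zero_le_one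
  have e1 : (1 : ℝ) ^ 2 / 1 = 1 := by norm_num
  rw [e1, one_mul]
  linarith

/-- the rounded shear is polynomial -/
theorem sf_fb_shear (U Z : ℝ) (hU : 0 < U) (Q : SfTest) (hQ : Q.size ≤ Z) (hT : 0 ≤ Q.T ∧ Q.T ≤ 1) (T : ℝ) (hT0 : 0 ≤ T) (hT1 : T ≤ 1) :
    |(sfFbSg U (sfFbChi U Q)).al| ≤ 3 * Z + 2 * U ∧ |(sfFbSg U (sfFbChi U Q)).beAt T| ≤ 3 * Z + 2 * U ∧
      |(sfFbSg U (sfFbChi U Q)).K| ≤ 3 * Z + 2 * U := by
  obtain ⟨-, -, -, -, -, -, hbe, hK⟩ := sf_mc_tst_coord Q Z hQ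
  have hZ : 0 ≤ Z := (abs_nonneg _).trans hK
  have h1 := sf_fb_floor_abs (y := Q.beAt 0) hU
  have h2 := sf_fb_floor_abs (y := Q.K) hU
  have hTa : |Q.T| ≤ 1 := by rw [abs_of_nonneg hT.1]; exact hT.2
  have hTb : |T| ≤ 1 := by rw [abs_of_nonneg hT0]; exact hT1
  have h3 : |Q.beAt 0| ≤ 2 * Z := by
    simp only [SfTest.beAt]
    have e : Q.be + (0 - Q.T) * Q.K = Q.be + (-(Q.T * Q.K)) := by ring
    rw [e]
    have t1 := abs_add_le Q.be (-(Q.T * Q.K))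
    rw [abs_neg] at t1
    have t2 := sf_mc_mul_le hTa hK
    linarith
  refine ⟨?_, ?_, ?_⟩
  · simp only [sfFbSg, abs_zero]; linarith
  · simp only [sfFbSg, sfFbChi, SfTest.beAt] at h1 h2 h3 ⊢
    have t1 := abs_add_le (U * (⌊(Q.be + (0 - Q.T) * Q.K) / U⌋ : ℝ)) ((T - 0) * (U * (⌊Q.K / U⌋ : ℝ)))
    have hTc : |T - 0| ≤ 1 := by rw [sub_zero]; exact hTb
    have t2 := sf_mc_mul_le hTc (h2.trans (add_le_add_left hK U))
    linarith
  · simp only [sfFbSg, sfFbChi] at h2 ⊢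
    linarith

end Claimed.Agent.R256
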