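import Claimed.Agent.R256.Soft.AFinBin

/-!
# Row 256 (S0496), unit SOFT, A4 FIN, file 4: THE LINEAR BINS FORM A COVER      (architect helper286; prefix `sf_fl_b`, `sfFl`)

02 l.945-955, Doc-level, on ONE `D` with `D.Good π Ls C0 t`, `0 ∈ D.G`, whose terminal labels have curvature cost `≤ s^-t0`.
The terminal rows are binned by the centre derivative `Pc` of their label, rounded at the unit `U = s^-(|3Ls+1|+t+t0+1)`; only the LINEAR part is subtracted, so the curvature cost is unchanged and the linear cost becomes `≤ U`.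
A root row reaches `≤ 3` bins: `Mat.mm` (second line) at the ray of the root row, and `|Pd(z) - Pc| ≤ 2|β| |X-x| + 2|K| |B-b| ≤ 10 s^-t0` on (a negligible neighbourhood of) the footprint.
-/

set_option autoImplicit false

namespace Claimed.Agent.R256

open Claimed.Agent.R255

/-- exponent of the rounding unit -/
noncomputable def sfFlW (Ls t t0 : ℝ) : ℝ := |3 * Ls + 1| + t + t0 + 1

/-- the linear bin of a label -/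
noncomputable def sfFlChi (U : ℝ) (Q : SfTest) : ℤ := ⌊Q.Pc / U⌋

/-- the rounded linear shear -/
def sfFlSg (U : ℝ) (m : ℤ) : SfTest := ⟨0, 0, 0, 0, 0, 0, U * m, 0, 0, 0, 0⟩

/-- the linear bins that occur -/
abbrev SfFlI (D : SfDoc) (U : ℝ) : Type := Set.range (fun ρ' : D.Row 1 => sfFlChi U (D.lab 1 ρ'))

/-- the rows of a linear bin -/
def sfFlUb (D : SfDoc) (U : ℝ) (b : SfFlI D U) (ρ' : D.Row 1) : Prop := sfFlChi U (D.lab 1 ρ') = b.1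

theorem sf_fl_b_eqns_cite : True := by
  have := @sfFlW.eq_1
  have := @sfFlChi.eq_1
  have := @sfFlSg.eq_1
  have := @sfFlUb.eq_1
  trivial

theorem sf_fl_b_R2 (U : ℝ) (m : ℤ) (Q : SfTest) (l : ℝ) : sfR2 Q (sfFlSg U m) l = sfR2 Q sfZero l := by
  simp only [sfR2, sfFlSg, sfZero, SfTest.beAt]

theorem sf_fl_b_R1 (U : ℝ) (hU : 0 < U) (Q : SfTest) (hr : Q.r = 1) (hf : Q.f = 1) : sfR1 Q (sfFlSg U (sfFlChi U Q)) ≤ U := by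
  have h1 := sf_fb_floor_rem (y := Q.Pc) hU
  unfold sfR1
  rw [hr, hf]
  simp only [sfFlSg, sfFlChi, SfTest.PdAt, SfTest.beAt]
  have e : U * (⌊Q.Pc / U⌋ : ℝ) + 2 * (0 + (Q.T - 0) * 0) * Q.x - 2 * 0 * Q.b = U * (⌊Q.Pc / U⌋ : ℝ) := by ring
  rw [e, div_one, one_mul]
  exact h1

theorem sf_fl_b_shear (U Z : ℝ) (hU : 0 < U) (hZ : 1 ≤ Z) (Q : SfTest) (hQ : Q.size ≤ Z) (T : ℝ) :
    |(sfFlSg U (sfFlChi U Q)).al| ≤ 5 * Z ^ 2 + U ∧ |(sfFlSg U (sfFlChi U Q)).beAt T| ≤ 5 * Z ^ 2 + U ∧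
      |(sfFlSg U (sfFlChi U Q)).K| ≤ 5 * Z ^ 2 + U := by
  obtain ⟨hx, hb, -, -, -, hal, hbe, hK⟩ := sf_mc_tst_coord Q Z hQ
  have h1 := sf_fb_floor_abs (y := Q.Pc) hU
  have hZZ : Z ≤ Z ^ 2 := by nlinarith
  have hP : |Q.Pc| ≤ 5 * Z ^ 2 := by
    unfold SfTest.Pc
    have e : Q.al + 2 * Q.be * Q.x - 2 * Q.K * Q.b = Q.al + 2 * (Q.be * Q.x) + (-(2 * (Q.K * Q.b))) := by ring
    rw [e]
    have t1 := abs_add_le (Q.al + 2 * (Q.be * Q.x)) (-(2 * (Q.K * Q.b)))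
    have t2 := abs_add_le Q.al (2 * (Q.be * Q.x))
    rw [abs_neg, abs_mul] at t1
    rw [abs_mul] at t2
    have t3 := sf_mc_mul_le hbe hx
    have t4 := sf_mc_mul_le hK hb
    have e2 : |(2 : ℝ)| = 2 := by norm_num
    rw [e2] at t1 t2
    nlinarith
  have hpos : 0 ≤ 5 * Z ^ 2 + U := by positivity
  refine ⟨?_, ?_, ?_⟩
  · simp only [sfFlSg, sfFlChi] at h1 ⊢
    linarith
  · simp only [sfFlSg, SfTest.beAt]
    have e : (0 : ℝ) + (T - 0) * 0 = 0 := by ring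
    rw [e, abs_zero]; exact hpos
  · simp only [sfFlSg, abs_zero]; exact hpos

section

variable {D : SfDoc} {π : SfPar} {Ls C0 t t0 : ℝ}

/-- the centre derivative of a reached terminal label is known at the root row up to `U` -/
theorem sf_fl_b_mm (hg : D.Good π Ls C0 t) (ht : 0 < t ∧ t ≤ 1) (ht0 : 0 ≤ t0) (h0 : (0 : ℝ) ∈ D.G) (h11 : D.s ≤ 1 / 11)
    (hz : ∀ ρ', sfR2 (D.lab 1 ρ') sfZero D.s ≤ D.s ^ (-t0)) (ρ : D.Row 0) (ρ' : D.Row 1) (hc : D.Conn 0 1 ρ ρ') :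
    |(D.lab 0 ρ).Pd (D.ray 0 ρ) - (D.lab 1 ρ').Pc| ≤ D.s ^ (-(sfFlW Ls t t0)) := by
  have hs := hg.1.hs
  have h1G := hg.1.gate.1
  have hmm := (hg.2.mm 0 h0 1 h1G zero_lt_one ρ ρ' hc).2
  rw [hg.1.hw.1, hg.1.hw.2.1] at hmm
  have hb := (hg.1.base 0 h0 1 h1G zero_lt_one ρ ρ' hc).2.2.2
  have hown := hg.1.own 1 h1G ρ'
  obtain ⟨m1, m2, -⟩ := hown.2.2.1
  rw [hown.1, hg.1.hw.1] at m1 m2
  rw [hg.1.hlen.1, mul_one] at m2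
  have hT0 : 0 ≤ (D.lab 1 ρ').T := hown.2.2.2.1
  have hT1 : (D.lab 1 ρ').T ≤ 1 := by
    have h7 : (D.lab 1 ρ').T + D.len 1 ≤ 1 := hown.2.2.2.2
    linarith [sf_mc_len_pos D π C0 t hg.1 1 h1G]
  have hR := hz ρ'
  unfold sfR2 at hR
  rw [hown.1, hown.2.1, hg.1.hw.1, hg.1.hw.2.1] at hR
  simp only [sfZero, SfTest.beAt] at hR
  have e0 : (1 : ℝ) ^ 2 / 1 = 1 := by norm_num
  have e1 : (D.lab 1 ρ').be - (0 + ((D.lab 1 ρ').T - 0) * 0) = (D.lab 1 ρ').be := by ring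
  rw [e0, one_mul, e1, sub_zero] at hR
  have hbe0 : 0 ≤ |(D.lab 1 ρ').be| := abs_nonneg _
  have hK0 : 0 ≤ D.s * |(D.lab 1 ρ').K| := mul_nonneg hs.1.le (abs_nonneg _)
  -- the negligible error
  have hε : D.s ^ (1 / t) ≤ D.s := by
    have : D.s ^ (1 / t) ≤ D.s ^ (1 : ℝ) := sf_mc_anti hs.1 hs.2 (by rw [le_div_iff₀ ht.1]; linarith [ht.2])
    rwa [Real.rpow_one] at this
  unfold SfRay.bdist at hb
  simp only [max_le_iff] at hb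
  obtain ⟨bX, bB, -⟩ := hb
  have hdX : |(D.ray 0 ρ).X - (D.lab 1 ρ').x| ≤ 2 := by
    have e : (D.ray 0 ρ).X - (D.lab 1 ρ').x = ((D.ray 0 ρ).X - (D.ray 1 ρ').X) + ((D.ray 1 ρ').X - (D.lab 1 ρ').x) := by ring
    rw [e]
    have := abs_add_le ((D.ray 0 ρ).X - (D.ray 1 ρ').X) ((D.ray 1 ρ').X - (D.lab 1 ρ').x)
    linarith [hs.2]
  have hdB : |(D.ray 0 ρ).Bt (D.lab 1 ρ').T - (D.lab 1 ρ').b| ≤ 3 * D.s := by
    have e : (D.ray 0 ρ).Bt (D.lab 1 ρ').T - (D.lab 1 ρ').b = ((D.ray 0 ρ).B - (D.ray 1 ρ').B)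
        + (D.lab 1 ρ').T * ((D.ray 0 ρ).X - (D.ray 1 ρ').X) + ((D.ray 1 ρ').Bt (D.lab 1 ρ').T - (D.lab 1 ρ').b) := by
      simp only [SfRay.Bt]; ring
    rw [e]
    have t1 := abs_add_le (((D.ray 0 ρ).B - (D.ray 1 ρ').B) + (D.lab 1 ρ').T * ((D.ray 0 ρ).X - (D.ray 1 ρ').X))
      ((D.ray 1 ρ').Bt (D.lab 1 ρ').T - (D.lab 1 ρ').b)
    have t2 := abs_add_le ((D.ray 0 ρ).B - (D.ray 1 ρ').B) ((D.lab 1 ρ').T * ((D.ray 0 ρ).X - (D.ray 1 ρ').X))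
    have hTa : |(D.lab 1 ρ').T| ≤ 1 := by rw [abs_of_nonneg hT0]; exact hT1
    have t3 := sf_mc_mul_le hTa bX
    linarith
  have h1 : |(D.lab 1 ρ').be * ((D.ray 0 ρ).X - (D.lab 1 ρ').x)| ≤ |(D.lab 1 ρ').be| * 2 := by
    rw [abs_mul]; exact mul_le_mul_of_nonneg_left hdX hbe0
  have h2 : |(D.lab 1 ρ').K * ((D.ray 0 ρ).Bt (D.lab 1 ρ').T - (D.lab 1 ρ').b)| ≤ |(D.lab 1 ρ').K| * (3 * D.s) := by
    rw [abs_mul]; exact mul_le_mul_of_nonneg_left hdB (abs_nonneg _)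
  obtain ⟨w, hw⟩ : ∃ w, w = |3 * Ls + 1| := ⟨_, rfl⟩
  have hw0 : 0 ≤ w := by rw [hw]; exact abs_nonneg _
  have hU0 : (1 : ℝ) / 1 * D.s ^ (-((3 * Ls + 1) * (1 - 0) + t)) ≤ D.s ^ (-(w + t + t0)) := by
    rw [div_one, one_mul]
    refine sf_mc_p_mono hs.1 hs.2 ?_
    rw [hw]; linarith [le_abs_self (3 * Ls + 1)]
  have hU1 : D.s ^ (-t0) ≤ D.s ^ (-(w + t + t0)) := sf_mc_p_mono hs.1 hs.2 (by linarith [ht.1])
  have hfin : 11 * D.s ^ (-(w + t + t0)) ≤ D.s ^ (-(sfFlW Ls t t0)) := by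
    have e : D.s ^ (-(sfFlW Ls t t0)) = D.s ^ (-(1 : ℝ)) * D.s ^ (-(w + t + t0)) := by
      rw [sf_mc_p_mul hs.1]; congr 1; unfold sfFlW; rw [hw]; ring
    rw [e]
    have h111 : (11 : ℝ) ≤ D.s ^ (-(1 : ℝ)) := by
      rw [Real.rpow_neg hs.1.le, Real.rpow_one, le_inv_comm₀ (by norm_num) hs.1]
      linarith
    exact mul_le_mul_of_nonneg_right h111 (Real.rpow_pos_of_pos hs.1 _).le
  refine le_trans ?_ hfin
  have e : (D.lab 0 ρ).Pd (D.ray 0 ρ) - (D.lab 1 ρ').Pc = ((D.lab 0 ρ).Pd (D.ray 0 ρ) - (D.lab 1 ρ').Pd (D.ray 0 ρ))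
      + 2 * ((D.lab 1 ρ').be * ((D.ray 0 ρ).X - (D.lab 1 ρ').x))
      + (-(2 * ((D.lab 1 ρ').K * ((D.ray 0 ρ).Bt (D.lab 1 ρ').T - (D.lab 1 ρ').b)))) := by
    simp only [SfTest.Pd, SfTest.Pc]; ring
  rw [e]
  have t1 := abs_add_le (((D.lab 0 ρ).Pd (D.ray 0 ρ) - (D.lab 1 ρ').Pd (D.ray 0 ρ))
      + 2 * ((D.lab 1 ρ').be * ((D.ray 0 ρ).X - (D.lab 1 ρ').x)))
      (-(2 * ((D.lab 1 ρ').K * ((D.ray 0 ρ).Bt (D.lab 1 ρ').T - (D.lab 1 ρ').b))))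
  have t2 := abs_add_le ((D.lab 0 ρ).Pd (D.ray 0 ρ) - (D.lab 1 ρ').Pd (D.ray 0 ρ))
      (2 * ((D.lab 1 ρ').be * ((D.ray 0 ρ).X - (D.lab 1 ρ').x)))
  rw [abs_neg, abs_mul] at t1
  rw [abs_mul] at t2
  have e2 : |(2 : ℝ)| = 2 := by norm_num
  rw [e2] at t1 t2
  nlinarith

/-- **(CV1)** the linear bins form a cover of the gate `1` over the gate `0` -/
theorem sf_fl_b_cv1 (hg : D.Good π Ls C0 t) (ht : 0 < t ∧ t ≤ 1) (ht0 : 0 ≤ t0) (h0 : (0 : ℝ) ∈ D.G) (κ0 : ℝ) (hκ : 0 < κ0)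
    (h9 : 9 ≤ D.s ^ (-κ0)) (h11 : D.s ≤ 1 / 11) (hz : ∀ ρ', sfR2 (D.lab 1 ρ') sfZero D.s ≤ D.s ^ (-t0)) :
    SfCv D κ0 (2 * |C0| + sfFlW Ls t t0 + 1) 0 1 (SfFlI D (D.s ^ (-(sfFlW Ls t t0)))) (sfFlUb D (D.s ^ (-(sfFlW Ls t t0))))
      (fun b => sfFlSg (D.s ^ (-(sfFlW Ls t t0))) b.1) := by
  have hs := hg.1.hs
  have hU : 0 < D.s ^ (-(sfFlW Ls t t0)) := Real.rpow_pos_of_pos hs.1 _
  have eκ : κ0 * (1 - 0) = κ0 := by ring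
  refine ⟨h0, hg.1.gate.1, zero_lt_one, fun b b' ρ' h h' => Subtype.ext (h.symm.trans h'), fun ρ => ?_, fun lam => ?_,
    fun b ρ' hb T _ _ => ?_, ?_⟩
  · rw [eκ]
    refine le_trans ?_ h9
    have : ({b | ∃ ρ', sfFlUb D (D.s ^ (-(sfFlW Ls t t0))) b ρ' ∧ D.Conn 0 1 ρ ρ'} : Set (SfFlI D (D.s ^ (-(sfFlW Ls t t0))))).ncard
        ≤ ((Finset.Icc (⌊(D.lab 0 ρ).Pd (D.ray 0 ρ) / D.s ^ (-(sfFlW Ls t t0))⌋ - 1)
            (⌊(D.lab 0 ρ).Pd (D.ray 0 ρ) / D.s ^ (-(sfFlW Ls t t0))⌋ + 1) : Finset ℤ) : Set ℤ).ncard := by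
      refine Set.ncard_le_ncard_of_injOn Subtype.val ?_ (fun a _ b _ h => Subtype.ext h) (Finset.finite_toSet _)
      rintro b ⟨ρ', hb, hc⟩
      rw [Finset.mem_coe, ← hb]
      exact sf_fb_floor_near hU (sf_fl_b_mm hg ht ht0 h0 h11 hz ρ ρ' hc)
    rw [Set.ncard_coe_finset, Int.card_Icc] at this
    have e1 : ∀ m : ℤ, (m + 1 + 1 - (m - 1)).toNat = 3 := fun m => by
      have : m + 1 + 1 - (m - 1) = 3 := by ring
      rw [this]; rfl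
    rw [e1] at this
    have h' : ((({b | ∃ ρ', sfFlUb D (D.s ^ (-(sfFlW Ls t t0))) b ρ' ∧ D.Conn 0 1 ρ ρ'} :
      Set (SfFlI D (D.s ^ (-(sfFlW Ls t t0))))).ncard : ℕ) : ℝ) ≤ ((3 : ℕ) : ℝ) := by exact_mod_cast this
    refine h'.trans ?_
    norm_num
  · rw [eκ]
    refine le_trans ?_ (sf_mc_p_one hs.1 hs.2 hκ.le)
    have : ({b | ∃ ρ', sfFlUb D (D.s ^ (-(sfFlW Ls t t0))) b ρ' ∧ D.lab 1 ρ' = lam} : Set (SfFlI D (D.s ^ (-(sfFlW Ls t t0))))).ncard ≤ 1 := by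
      rw [Set.ncard_le_one (Set.toFinite _)]
      rintro b ⟨ρ', hb, hl⟩ b' ⟨ρ'', hb', hl'⟩
      refine Subtype.ext ?_
      rw [← hb, ← hb', hl, hl']
    exact_mod_cast this
  · have hzz : (D.lab 1 ρ').size ≤ D.s ^ (-|C0|) := (hg.1.bdd 1 hg.1.gate.1 ρ').2.trans (sf_mc_p_mono hs.1 hs.2 (le_abs_self _))
    have hsh := sf_fl_b_shear _ _ hU (sf_mc_p_one hs.1 hs.2 (abs_nonneg C0)) (D.lab 1 ρ') hzz T
    have hb' : sfFlChi (D.s ^ (-(sfFlW Ls t t0))) (D.lab 1 ρ') = b.1 := hb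
    rw [hb'] at hsh
    have hW0 : 0 ≤ sfFlW Ls t t0 := by
      unfold sfFlW
      have := ht.1
      positivity
    have hbound : 5 * (D.s ^ (-|C0|)) ^ 2 + D.s ^ (-(sfFlW Ls t t0)) ≤ D.s ^ (-(2 * |C0| + sfFlW Ls t t0 + 1)) := by
      have e0 : (D.s ^ (-|C0|)) ^ 2 = D.s ^ (-(2 * |C0|)) := by
        rw [pow_two, sf_mc_p_mul hs.1]; congr 1; ring
      rw [e0]
      have k1 : D.s ^ (-(2 * |C0|)) ≤ D.s ^ (-(2 * |C0| + sfFlW Ls t t0)) := sf_mc_p_mono hs.1 hs.2 (by linarith)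
      have k2 : D.s ^ (-(sfFlW Ls t t0)) ≤ D.s ^ (-(2 * |C0| + sfFlW Ls t t0)) := sf_mc_p_mono hs.1 hs.2 (by linarith [abs_nonneg C0])
      have e : D.s ^ (-(2 * |C0| + sfFlW Ls t t0 + 1)) = D.s ^ (-(1 : ℝ)) * D.s ^ (-(2 * |C0| + sfFlW Ls t t0)) := by
        rw [sf_mc_p_mul hs.1]; congr 1; ring
      have h61 : (6 : ℝ) ≤ D.s ^ (-(1 : ℝ)) := by
        rw [Real.rpow_neg hs.1.le, Real.rpow_one, le_inv_comm₀ (by norm_num) hs.1]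
        linarith
      have hp : 0 < D.s ^ (-(2 * |C0| + sfFlW Ls t t0)) := Real.rpow_pos_of_pos hs.1 _
      rw [e]
      nlinarith
    exact ⟨hsh.1.trans hbound, hsh.2.1.trans hbound, hsh.2.2.trans hbound⟩
  · rw [eκ]
    have h1 : (D.P 1).pr (fun ρ' => ∃ b, sfFlUb D (D.s ^ (-(sfFlW Ls t t0))) b ρ') = 1 :=
      ent_pr_eq_one _ (fun ρ' _ => ⟨⟨_, ρ', rfl⟩, rfl⟩)
    rw [h1]
    exact Real.rpow_le_one hs.1.le hs.2.le hκ.le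

end

end Claimed.Agent.R256
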