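import Claimed.Agent.R256.Soft.AFinBin

/-!
# Row 256 (S0496), unit SOFT, A4 FIN, file 3: THE CURVATURE BINS FORM A COVER      (architect helper286; prefix `sf_fb_`)
-/

set_option autoImplicit false

namespace Claimed.Agent.R256

open Claimed.Agent.R255

/-- the curvature bins that occur -/
abbrev SfFbI (D : SfDoc) (U : ℝ) : Type := Set.range (fun ρ' : D.Row 1 => sfFbChi U (D.lab 1 ρ'))

/-- the rows of a curvature bin -/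
def sfFbUb (D : SfDoc) (U : ℝ) (b : SfFbI D U) (ρ' : D.Row 1) : Prop := sfFbChi U (D.lab 1 ρ') = b.1

theorem sf_fb_cv_eqns_cite : True := by
  have := @sfFbUb.eq_1
  trivial

section

variable {D : SfDoc} {π : SfPar} {Ls C0 t : ℝ}

/-- **(M) on `[0,1]` at the time `0`** -/
theorem sf_fb_mm (hg : D.Good π Ls C0 t) (ht : 0 < t) (h0 : (0 : ℝ) ∈ D.G) (h2 : D.s ≤ 1 / 2) (ρ : D.Row 0) (ρ' : D.Row 1)
    (hc : D.Conn 0 1 ρ ρ') :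
    |(D.lab 0 ρ).beAt 0 - (D.lab 1 ρ').beAt 0| ≤ D.s ^ (-(sfFbW Ls t)) ∧ |(D.lab 0 ρ).K - (D.lab 1 ρ').K| ≤ D.s ^ (-(sfFbW Ls t)) := by
  have hs := hg.1.hs
  have hmm := (hg.2.mm 0 h0 1 hg.1.gate.1 zero_lt_one ρ ρ' hc).1
  rw [hg.1.hw.1, hg.1.hw.2.1] at hmm
  have hL := (hg.1.hlen.2 0 h0).1
  have hL0 := sf_mc_len_pos D π C0 t hg.1 0 h0
  have hown := hg.1.own 0 h0 ρ
  have hT0 : 0 ≤ D.T 0 ρ := hown.2.2.2.1
  have hT1 : D.T 0 ρ ≤ 1 := by linarith [hown.2.2.2.2]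
  obtain ⟨w, hw⟩ : ∃ w, w = |3 * Ls + 1| := ⟨_, rfl⟩
  have hU0 : (1 : ℝ) / 1 ^ 2 * D.s ^ (-((3 * Ls + 1) * (1 - 0) + t)) ≤ D.s ^ (-(w + t)) := by
    have e : (1 : ℝ) / 1 ^ 2 = 1 := by norm_num
    rw [e, one_mul]
    refine sf_mc_p_mono hs.1 hs.2 ?_
    rw [hw]; linarith [le_abs_self (3 * Ls + 1)]
  have hA0 : 0 ≤ |(D.lab 0 ρ).be - (D.lab 1 ρ').beAt (D.T 0 ρ)| := abs_nonneg _
  have hB0 : 0 ≤ |(D.lab 0 ρ).K - (D.lab 1 ρ').K| := abs_nonneg _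
  have hA : |(D.lab 0 ρ).be - (D.lab 1 ρ').beAt (D.T 0 ρ)| ≤ D.s ^ (-(w + t)) := by
    have := mul_nonneg hL0.le hB0
    linarith
  have hB : |(D.lab 0 ρ).K - (D.lab 1 ρ').K| ≤ D.s ^ (-(w + 2 * t)) := by
    have h3 : D.s ^ (0 + t) * |(D.lab 0 ρ).K - (D.lab 1 ρ').K| ≤ D.s ^ (-(w + t)) := by
      have := mul_le_mul_of_nonneg_right hL hB0
      linarith
    have hp : 0 < D.s ^ (0 + t) := Real.rpow_pos_of_pos hs.1 _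
    have e : D.s ^ (-(w + 2 * t)) = D.s ^ (-(w + t)) / D.s ^ (0 + t) := by
      rw [div_eq_mul_inv, ← Real.rpow_neg hs.1.le, ← Real.rpow_add hs.1]; congr 1; ring
    rw [e, le_div_iff₀ hp]
    linarith
  have hA' : D.s ^ (-(w + t)) ≤ D.s ^ (-(w + 2 * t)) := sf_mc_p_mono hs.1 hs.2 (by linarith)
  have h2' : 2 * D.s ^ (-(w + 2 * t)) ≤ D.s ^ (-(sfFbW Ls t)) := by
    have e : D.s ^ (-(sfFbW Ls t)) = D.s ^ (-(1 : ℝ)) * D.s ^ (-(w + 2 * t)) := by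
      rw [sf_mc_p_mul hs.1]; congr 1; unfold sfFbW; rw [hw]; ring
    rw [e]
    have h21 : (2 : ℝ) ≤ D.s ^ (-(1 : ℝ)) := by
      rw [Real.rpow_neg hs.1.le, Real.rpow_one, le_inv_comm₀ (by norm_num) hs.1]
      linarith
    exact mul_le_mul_of_nonneg_right h21 (Real.rpow_pos_of_pos hs.1 _).le
  have hp2 : 0 < D.s ^ (-(w + 2 * t)) := Real.rpow_pos_of_pos hs.1 _
  refine ⟨?_, by linarith⟩
  have e : (D.lab 0 ρ).beAt 0 - (D.lab 1 ρ').beAt 0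
      = ((D.lab 0 ρ).be - (D.lab 1 ρ').beAt (D.T 0 ρ)) + (-(D.T 0 ρ * ((D.lab 0 ρ).K - (D.lab 1 ρ').K))) := by
    simp only [SfTest.beAt, SfDoc.T]; ring
  rw [e]
  have t1 := abs_add_le ((D.lab 0 ρ).be - (D.lab 1 ρ').beAt (D.T 0 ρ)) (-(D.T 0 ρ * ((D.lab 0 ρ).K - (D.lab 1 ρ').K)))
  rw [abs_neg] at t1
  have hTa : |D.T 0 ρ| ≤ 1 := by rw [abs_of_nonneg hT0]; exact hT1
  have t2 := sf_mc_mul_le hTa hB
  linarith

/-- **(CV2)** the curvature bins form a cover of the gate `1` over the gate `0` -/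
theorem sf_fb_cv2 (hg : D.Good π Ls C0 t) (ht : 0 < t) (h0 : (0 : ℝ) ∈ D.G) (κ0 : ℝ) (hκ : 0 < κ0) (h9 : 9 ≤ D.s ^ (-κ0)) (h5 : D.s ≤ 1 / 5) :
    SfCv D κ0 (|C0| + sfFbW Ls t + 1) 0 1 (SfFbI D (D.s ^ (-(sfFbW Ls t)))) (sfFbUb D (D.s ^ (-(sfFbW Ls t))))
      (fun b => sfFbSg (D.s ^ (-(sfFbW Ls t))) b.1) := by
  have hs := hg.1.hs
  have hU : 0 < D.s ^ (-(sfFbW Ls t)) := Real.rpow_pos_of_pos hs.1 _
  have eκ : κ0 * (1 - 0) = κ0 := by ring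
  refine ⟨h0, hg.1.gate.1, zero_lt_one, fun b b' ρ' h h' => Subtype.ext (h.symm.trans h'), fun ρ => ?_, fun lam => ?_,
    fun b ρ' hb T hT0 hT1 => ?_, ?_⟩
  · rw [eκ]
    refine le_trans ?_ h9
    have : ({b | ∃ ρ', sfFbUb D (D.s ^ (-(sfFbW Ls t))) b ρ' ∧ D.Conn 0 1 ρ ρ'} : Set (SfFbI D (D.s ^ (-(sfFbW Ls t))))).ncard
        ≤ ((Finset.Icc (⌊(D.lab 0 ρ).beAt 0 / D.s ^ (-(sfFbW Ls t))⌋ - 1) (⌊(D.lab 0 ρ).beAt 0 / D.s ^ (-(sfFbW Ls t))⌋ + 1) ×ˢ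
            Finset.Icc (⌊(D.lab 0 ρ).K / D.s ^ (-(sfFbW Ls t))⌋ - 1) (⌊(D.lab 0 ρ).K / D.s ^ (-(sfFbW Ls t))⌋ + 1) : Finset (ℤ × ℤ)) :
            Set (ℤ × ℤ)).ncard := by
      refine Set.ncard_le_ncard_of_injOn Subtype.val ?_ (fun a _ b _ h => Subtype.ext h) (Finset.finite_toSet _)
      rintro b ⟨ρ', hb, hc⟩
      obtain ⟨m1, m2⟩ := sf_fb_mm hg ht h0 (by linarith) ρ ρ' hc
      rw [Finset.mem_coe, ← hb, Finset.mem_product]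
      exact ⟨sf_fb_floor_near hU m1, sf_fb_floor_near hU m2⟩
    rw [Set.ncard_coe_finset, Finset.card_product, Int.card_Icc, Int.card_Icc] at this
    have e1 : ∀ m : ℤ, (m + 1 + 1 - (m - 1)).toNat = 3 := fun m => by
      have : m + 1 + 1 - (m - 1) = 3 := by ring
      rw [this]; rfl
    rw [e1, e1] at this
    have h' : ((({b | ∃ ρ', sfFbUb D (D.s ^ (-(sfFbW Ls t))) b ρ' ∧ D.Conn 0 1 ρ ρ'} :
      Set (SfFbI D (D.s ^ (-(sfFbW Ls t))))).ncard : ℕ) : ℝ) ≤ ((3 * 3 : ℕ) : ℝ) := by exact_mod_cast this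
    refine h'.trans ?_
    norm_num
  · rw [eκ]
    refine le_trans ?_ (sf_mc_p_one hs.1 hs.2 hκ.le)
    have : ({b | ∃ ρ', sfFbUb D (D.s ^ (-(sfFbW Ls t))) b ρ' ∧ D.lab 1 ρ' = lam} : Set (SfFbI D (D.s ^ (-(sfFbW Ls t))))).ncard ≤ 1 := by
      rw [Set.ncard_le_one (Set.toFinite _)]
      rintro b ⟨ρ', hb, hl⟩ b' ⟨ρ'', hb', hl'⟩
      refine Subtype.ext ?_
      rw [← hb, ← hb', hl, hl']
    exact_mod_cast this
  · have hown := hg.1.own 1 hg.1.gate.1 ρ'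
    have hlen := sf_mc_len_pos D π C0 t hg.1 1 hg.1.gate.1
    have hQT : 0 ≤ (D.lab 1 ρ').T ∧ (D.lab 1 ρ').T ≤ 1 := by
      have h6 : 0 ≤ (D.lab 1 ρ').T := hown.2.2.2.1
      have h7 : (D.lab 1 ρ').T + D.len 1 ≤ 1 := hown.2.2.2.2
      exact ⟨h6, by linarith⟩
    have hz : (D.lab 1 ρ').size ≤ D.s ^ (-|C0|) := (hg.1.bdd 1 hg.1.gate.1 ρ').2.trans (sf_mc_p_mono hs.1 hs.2 (le_abs_self _))
    have hsh := sf_fb_shear _ _ hU (D.lab 1 ρ') hz hQT T hT0 hT1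
    have hb' : sfFbChi (D.s ^ (-(sfFbW Ls t))) (D.lab 1 ρ') = b.1 := hb
    rw [hb'] at hsh
    have hW0 : 0 ≤ sfFbW Ls t := by unfold sfFbW; positivity
    have hbound : 3 * D.s ^ (-|C0|) + 2 * D.s ^ (-(sfFbW Ls t)) ≤ D.s ^ (-(|C0| + sfFbW Ls t + 1)) := by
      have k1 : D.s ^ (-|C0|) ≤ D.s ^ (-(|C0| + sfFbW Ls t)) := sf_mc_p_mono hs.1 hs.2 (by linarith)
      have k2 : D.s ^ (-(sfFbW Ls t)) ≤ D.s ^ (-(|C0| + sfFbW Ls t)) := sf_mc_p_mono hs.1 hs.2 (by linarith [abs_nonneg C0])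
      have e : D.s ^ (-(|C0| + sfFbW Ls t + 1)) = D.s ^ (-(1 : ℝ)) * D.s ^ (-(|C0| + sfFbW Ls t)) := by
        rw [sf_mc_p_mul hs.1]; congr 1; ring
      have h51 : (5 : ℝ) ≤ D.s ^ (-(1 : ℝ)) := by
        rw [Real.rpow_neg hs.1.le, Real.rpow_one, le_inv_comm₀ (by norm_num) hs.1]
        linarith
      have hp : 0 < D.s ^ (-(|C0| + sfFbW Ls t)) := Real.rpow_pos_of_pos hs.1 _
      rw [e]
      nlinarith
    exact ⟨hsh.1.trans hbound, hsh.2.1.trans hbound, hsh.2.2.trans hbound⟩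
  · rw [eκ]
    have h1 : (D.P 1).pr (fun ρ' => ∃ b, sfFbUb D (D.s ^ (-(sfFbW Ls t))) b ρ') = 1 :=
      ent_pr_eq_one _ (fun ρ' _ => ⟨⟨_, ρ', rfl⟩, rfl⟩)
    rw [h1]
    exact Real.rpow_le_one hs.1.le hs.2.le hκ.le

end

end Claimed.Agent.R256
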