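import Claimed.Agent.R256.Soft.Cost
import Claimed.Agent.R256.Soft.ACov

/-!
# Row 256 (S0496), unit SOFT, A4 FIN: GROUP EXTRACTION ON A COVER OF `[0,1]`      (architect helper286; prefix `sf_cv_`)

* `sf_cv_hyp`    a cover by shear bins (`SfCv`, `Soft/ACov.lean`) satisfies the hypotheses of group extraction with the single kept gate `j`;
* `sf_cv_ex_op`  an EXIST statement is transported by an operation;
* `sf_cv_doc`    EX/any EXIST statement + DOC: re-documentation on a mesh, the scale and the terminal labels are remembered;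
* `sf_cv_ge01`   the operation "extract one bin of a cover of `[0,1]`": the piece is good at the accuracy `t'` with a support constant that depends only on `(C0, t, z)`; its terminal costs are the costs after subtraction of the shear of the bin.
-/

set_option autoImplicit false

namespace Claimed.Agent.R256

open Claimed.Agent.R255

/-- **(HYP)** a cover by shear bins is a cover for group extraction -/
theorem sf_cv_hyp {D : SfDoc} {π : SfPar} {Ls C0 κ0 z t i j : ℝ} {ι : Type} [Finite ι] {Ub : ι → D.Row j → Prop} {sg : ι → SfTest}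
    (hg : D.Good π Ls C0 t) (hB : SfCv D κ0 z i j ι Ub sg) (ht : 0 < t) (hz : 0 ≤ z) (h30 : D.s ≤ 1 / 30) (a C1 : ℝ) (ha : κ0 ≤ a)
    (hC1 : sfCvM C0 Ls t z ≤ C1 * (j - i)) :
    SfCls.GeHyp D i j {j} (SfMcBin D i j ι) (sfMcSb D i j Ub) (sfMcUb D i j Ub) (fun b => sfMcFr D i j (sg b.1) b.2.1) a C1 where
  gi := hB.hi
  gj := hB.hj
  kept := ⟨Finset.mem_singleton_self j, fun k hk => by
    rw [Finset.mem_singleton] at hk
    subst hk
    exact ⟨hB.hj, hB.hij.le, le_refl _⟩⟩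
  ub_dep := sf_mc_ub_dep
  ub_disj := sf_cv_ub_disj hB
  ub_mass := sf_cv_ub_mass hg hB a ha
  sb_dep := sf_mc_sb_dep
  sb_time := sf_cv_sb_time hg hB
  sb_pred := sf_mc_sb_pred
  sb_ovl := sf_cv_sb_ovl hg hB a ha
  lb_ovl := fun k hk lam => by
    rw [Finset.mem_singleton] at hk
    refine le_trans ?_ (sf_cv_lb_ovl hg hB a ha lam)
    have : ({b | ∃ u v : D.Rw, u.1 = k ∧ D.lab u.1 u.2 = lam ∧ sfMcUb D i j Ub b v ∧ (u = v ∨ (u.1 < v.1 ∧ D.Conn u.1 v.1 u.2 v.2))} :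
        Set (SfMcBin D i j ι)).ncard ≤ ({b | ∃ v : D.Rw, D.lab v.1 v.2 = lam ∧ sfMcUb D i j Ub b v} : Set (SfMcBin D i j ι)).ncard := by
      refine Set.ncard_le_ncard ?_ (Set.toFinite _)
      rintro b ⟨u, v, hu, hl, hv, huv⟩
      rcases huv with rfl | ⟨hlt, -⟩
      · exact ⟨u, hl, hv⟩
      · rw [hu, hk, sf_mc_ub_dep b v hv] at hlt
        exact absurd hlt (lt_irrefl _)
    exact_mod_cast this
  fr := fun _ => ⟨rfl, rfl, rfl⟩
  fr_ray := fun b u hu => (sf_cv_fr_ray hg hB ht hz h30 b u hu).trans (sf_mc_p_mono hg.1.hs.1 hg.1.hs.2 hC1)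
  fr_lab := fun b u v hv hk huv => by
    rw [Finset.mem_singleton] at hk
    rcases huv with rfl | ⟨hlt, -⟩
    · exact (sf_cv_fr_lab hg hB ht hz h30 b u hv).trans (sf_mc_p_mono hg.1.hs.1 hg.1.hs.2 hC1)
    · rw [hk, sf_mc_ub_dep b v hv] at hlt
      exact absurd hlt (lt_irrefl _)

/-- an EXIST statement is transported by an operation -/
theorem sf_cv_ex_op (K : SfCls) {R : K.Cfg → K.Cfg → Prop} {A : K.Cfg → Prop} (hA : SfEx K.ob K.sc A) (hop : K.Op R A) :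
    SfEx K.ob K.sc (fun c' => ∃ c, A c ∧ R c' c) := by
  obtain ⟨S, hS⟩ := hA
  obtain ⟨S', hS'⟩ := hop S
  refine ⟨S', fun s0 h0 => ?_⟩
  obtain ⟨σ, hσ, H⟩ := hS' s0 h0
  obtain ⟨c, h1, h2, h3⟩ := hS σ hσ
  obtain ⟨c', h4, h5, h6⟩ := H c h1 h2 h3
  exact ⟨c', h4, h5, c, h3, h6⟩

/-- **(DOC)** re-documentation of an EXIST statement on a mesh; the scale and the terminal labels are remembered -/
theorem sf_cv_doc (K : SfCls) (π : SfPar) (Ls : ℝ) (hK : K.Cal π Ls) (F : Finset ℝ) (hF : ∀ i ∈ F, 0 ≤ i ∧ i ≤ 1) (t : ℝ) (ht : 0 < t) :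
    ∃ a : ℝ, 0 < a ∧ ∀ (C0 : ℝ) (A : K.Cfg → Prop), SfEx K.ob K.sc (fun c => K.Gd π Ls C0 a c ∧ A c) →
      ∃ C0' : ℝ, SfEx K.ob K.sc (fun c' => (K.doc c').G = insert 1 F ∧ K.Gd π Ls C0' t c' ∧
        ∃ c, A c ∧ (K.doc c').s = (K.doc c).s ∧ ∀ ρ', ∃ ρ, (K.doc c').lab 1 ρ' = (K.doc c).lab 1 ρ) := by
  obtain ⟨a, ha, H⟩ := hK.dc F hF t ht
  refine ⟨a, ha, fun C0 A hA => ?_⟩
  obtain ⟨S, hS⟩ := hA
  obtain ⟨C0', S', hS'⟩ := H C0 S
  refine ⟨C0', S', fun s0 h0 => ?_⟩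
  obtain ⟨σ, hσ, H'⟩ := hS' s0 h0
  obtain ⟨c, h1, h2, h3, h3'⟩ := hS σ hσ
  obtain ⟨c', h4, h5, h6, h7, h8, -, h9⟩ := H' c h1 h2 h3
  exact ⟨c', h4, h5, h7, h8, c, h3', h6, h9⟩

/-- **(GE)** the operation "extract one bin of a cover of `[0,1]`" -/
theorem sf_cv_ge01 (K : SfCls) (π : SfPar) (Ls : ℝ) (hK : K.Cal π Ls) (t' : ℝ) (ht' : 0 < t') :
    ∃ a : ℝ, 0 < a ∧ ∀ (C0 t z κ0 σ0 : ℝ), 0 < t → t ≤ a → 0 ≤ z → κ0 ≤ a → 0 < σ0 →
      ∀ (A : K.Cfg → Prop) (ι : K.Cfg → Type) (_ : ∀ c, Finite (ι c)) (Ub : ∀ c, ι c → (K.doc c).Row 1 → Prop) (sg : ∀ c, ι c → SfTest),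
      (∀ c, K.Gd π Ls C0 t c → A c → K.sc c < σ0 → SfCv (K.doc c) κ0 z 0 1 (ι c) (Ub c) (sg c)) →
      ∃ C0' : ℝ, K.Op (fun c' c => K.Gd π Ls C0' t' c' ∧ (K.doc c').s = (K.doc c).len 1 / (K.doc c).len 0 ∧ K.sc c < σ0 ∧
          ∀ ρ : (K.doc c').Row 1, ∃ (b : ι c) (ρ' : (K.doc c).Row 1), Ub c b ρ' ∧
            sfR2 ((K.doc c').lab 1 ρ) sfZero (K.doc c').s = sfR2 ((K.doc c).lab 1 ρ') (sg c b) ((K.doc c).len 1) ∧
            sfR1 ((K.doc c').lab 1 ρ) sfZero = sfR1 ((K.doc c).lab 1 ρ') (sg c b))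
        (fun c => K.Gd π Ls C0 t c ∧ A c) := by
  obtain ⟨cF, hge⟩ := hK.ge
  obtain ⟨a, ha, hGE⟩ := hge 1 t' one_pos ht'
  refine ⟨a, ha, fun C0 t z κ0 σ0 ht hta hz hκ hσ0 A ι hfin Ub sg hcv => ⟨cF (sfCvM C0 Ls t z), fun S => ?_⟩⟩
  obtain ⟨S', hS'⟩ := hGE (sfCvM C0 Ls t z) C0 1 one_pos S
  refine ⟨S', fun σ' hσ' => ?_⟩
  obtain ⟨σ, hσ, H⟩ := hS' σ' hσ'
  refine ⟨min σ (min σ0 (1 / 30)), lt_min hσ (lt_min hσ0 (by norm_num)), fun c hob hsc hA => ?_⟩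
  obtain ⟨hgd, hAc⟩ := hA
  have hsc0 : K.sc c < σ0 := lt_of_lt_of_le hsc ((min_le_right _ _).trans (min_le_left _ _))
  have h30 : (K.doc c).s ≤ 1 / 30 := (hK.sc_le c).trans (hsc.le.trans ((min_le_right _ _).trans (min_le_right _ _)))
  have hB := hcv c hgd hAc hsc0
  have := hfin c
  have hgd' : K.Gd π Ls C0 (a * (1 - 0)) c := sf_gd_mono K π Ls hK.md_mono C0 t _ ht (by linarith) c hgd
  obtain ⟨c', b, e, hob', hsc', hgd'', hsub, -, -, hend, -⟩ := H c hob (lt_of_lt_of_le hsc (min_le_left _ _)) 0 1 (by norm_num) hgd' {1}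
    (SfMcBin (K.doc c) 0 1 (ι c)) (sfMcSb (K.doc c) 0 1 (Ub c)) (sfMcUb (K.doc c) 0 1 (Ub c)) (fun b => sfMcFr (K.doc c) 0 1 (sg c b.1) b.2.1)
    (sf_cv_hyp hgd.1 hB ht hz h30 a _ hκ (by linarith))
    (fun k hk l hl hkl => by
      rw [Finset.mem_singleton] at hk hl
      rw [hk, hl] at hkl
      exact absurd hkl (lt_irrefl _))
    (fun k hk => by
      rw [Finset.mem_singleton] at hk
      rw [hk, one_mul]
      exact Or.inr le_rfl)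
    (fun g _ k hk hkg hgj => by
      rw [Finset.mem_singleton] at hk
      rw [hk] at hkg
      exact absurd (hkg.trans hgj) (lt_irrefl _))
  refine ⟨c', hob', hsc', hgd'', hsub.hs, hsc0, fun ρ => ?_⟩
  obtain ⟨-, ρ', hU, e2, e1⟩ := sf_cv_out hgd.1 hB.hi hB.hj (K.doc c') hgd''.1.1.gate.1 {1} t' b e hsub hend ρ
  exact ⟨b.1, ρ', hU, e2, e1⟩

end Claimed.Agent.R256
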