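import Claimed.Agent.R256.Soft.AFinGe
import Claimed.Agent.R256.Soft.AFinCv2
import Claimed.Agent.R256.Soft.AFinCv1

/-!
# Row 256 (S0496), unit SOFT, A4 FIN: FINITE COSTS      (architect helper286; prefix `sf_fb_`, `sf_fl_b_`)

First paragraph of the proof of Lemma cyl:profiles (02 l.890-930): a finite curvature cost, and (if the curvature cost `0` is feasible) a finite linear cost, are feasible.
EX (resp. `Feas2 0`) → DOC on the mesh `{0, 1}` → the rounded shears of the terminal labels, at the unit `s^-W` given by (M) between the gates `0` and `1`, form a cover (`sf_fb_cv2`, `sf_fl_b_cv1`) → GE (`sf_cv_ge01`):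
the terminal costs of the piece are `≤ 3 s^-W`, i.e. `≤ s'^-(2W+2)` at the scale `s' = len 1 / len 0` of the piece.      The costs `2 |3 Ls + 1| + 5`, `2 |3 Ls + 1| + 3` do not depend on the accuracy.
-/

set_option autoImplicit false

namespace Claimed.Agent.R256

open Claimed.Agent.R255

/-- small scales beat constants -/
theorem sf_cv_small (κ0 M : ℝ) (hκ : 0 < κ0) (hM : 1 ≤ M) : ∃ σ0 : ℝ, 0 < σ0 ∧ ∀ s : ℝ, 0 < s → s < σ0 → M ≤ s ^ (-κ0) := by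
  have hM0 : 0 < M := by linarith
  refine ⟨M ^ (-(1 / κ0)), Real.rpow_pos_of_pos hM0 _, fun s hs hlt => ?_⟩
  have h1 : (M ^ (-(1 / κ0))) ^ (-κ0) ≤ s ^ (-κ0) := Real.rpow_le_rpow_of_nonpos hs hlt.le (by linarith)
  have h2 : (M ^ (-(1 / κ0))) ^ (-κ0) = M := by
    rw [← Real.rpow_mul hM0.le]
    have : -(1 / κ0) * -κ0 = 1 := by field_simp
    rw [this, Real.rpow_one]
  linarith

/-- **(A4 FIN2)** a finite curvature cost is feasible -/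
theorem sf_fb_fin2 (K : SfCls) (π : SfPar) (Ls : ℝ) (hK : K.Cal π Ls) : ∃ c : ℝ, 0 ≤ c ∧ K.Feas2 π Ls c := by
  refine ⟨2 * |3 * Ls + 1| + 5, by positivity, fun t ht => ?_⟩
  obtain ⟨a, ha, hGE⟩ := sf_cv_ge01 K π Ls hK t ht
  obtain ⟨κ0, hκdef⟩ : ∃ κ0, κ0 = min a (1 / 4) := ⟨_, rfl⟩
  have hκ0 : 0 < κ0 := by rw [hκdef]; exact lt_min ha (by norm_num)
  have hκa : κ0 ≤ a := by rw [hκdef]; exact min_le_left _ _
  have hκ4 : κ0 ≤ 1 / 4 := by rw [hκdef]; exact min_le_right _ _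
  obtain ⟨ad, had, hdoc⟩ := sf_cv_doc K π Ls hK {0} (by simp) κ0 hκ0
  obtain ⟨C0, hex⟩ := hK.ex ad had
  obtain ⟨C0', hex'⟩ := hdoc C0 (fun _ => True) (sf_ex_mono (fun c h => ⟨h, trivial⟩) hex)
  obtain ⟨σ1, hσ1, hsm⟩ := sf_cv_small κ0 9 hκ0 (by norm_num)
  have hW : 0 ≤ sfFbW Ls κ0 := by unfold sfFbW; positivity
  obtain ⟨C0'', hop⟩ := hGE C0' κ0 (|C0'| + sfFbW Ls κ0 + 1) κ0 (min σ1 (1 / 5)) hκ0 hκa (by positivity) hκa (lt_min hσ1 (by norm_num))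
    (fun c => (0 : ℝ) ∈ (K.doc c).G) (fun c => SfFbI (K.doc c) ((K.doc c).s ^ (-(sfFbW Ls κ0)))) (fun c => inferInstance)
    (fun c => sfFbUb (K.doc c) ((K.doc c).s ^ (-(sfFbW Ls κ0)))) (fun c b => sfFbSg ((K.doc c).s ^ (-(sfFbW Ls κ0))) b.1)
    (fun c hgd h0 hsc => sf_fb_cv2 hgd.1 hκ0 h0 κ0 hκ0
      (hsm _ hgd.1.1.hs.1 (lt_of_le_of_lt (hK.sc_le c) (lt_of_lt_of_le hsc (min_le_left _ _))))
      ((hK.sc_le c).trans (hsc.le.trans (min_le_right _ _))))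
  refine ⟨C0'', sf_ex_mono ?_ (sf_cv_ex_op K (sf_ex_mono (fun c h => ?_) hex') hop)⟩
  swap
  · exact ⟨h.2.1, by rw [h.1]; simp⟩
  rintro c' ⟨c, ⟨hgd, h0⟩, hgd', hs', hsc, hrow⟩
  refine ⟨hgd', fun ρ => ?_⟩
  obtain ⟨b, ρ', hU, e2, -⟩ := hrow ρ
  have hs := hgd.1.1.hs
  have h1G := hgd.1.1.gate.1
  have h5 : (K.doc c).s ≤ 1 / 5 := (hK.sc_le c).trans (hsc.le.trans (min_le_right _ _))
  have hown := hgd.1.1.own 1 h1G ρ'
  have hUpos : 0 < (K.doc c).s ^ (-(sfFbW Ls κ0)) := Real.rpow_pos_of_pos hs.1 _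
  have hlen1 : (K.doc c).len 1 = (K.doc c).s := hgd.1.1.hlen.1
  have hT : 0 ≤ ((K.doc c).lab 1 ρ').T ∧ ((K.doc c).lab 1 ρ').T ≤ 1 := by
    have h6 : 0 ≤ ((K.doc c).lab 1 ρ').T := hown.2.2.2.1
    have h7 : ((K.doc c).lab 1 ρ').T + (K.doc c).len 1 ≤ 1 := hown.2.2.2.2
    exact ⟨h6, by rw [hlen1] at h7; linarith [hs.1]⟩
  have hcost := sf_fb_cost _ ((K.doc c).len 1) hUpos ((K.doc c).lab 1 ρ') (hown.1.trans hgd.1.1.hw.1) (hown.2.1.trans hgd.1.1.hw.2.1) hT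
    (by rw [hlen1]; exact ⟨hs.1.le, hs.2.le⟩)
  have hU' : sfFbChi ((K.doc c).s ^ (-(sfFbW Ls κ0))) ((K.doc c).lab 1 ρ') = b.1 := hU
  rw [hU'] at hcost
  rw [e2]
  refine hcost.trans ?_
  have h3 : (3 : ℝ) ≤ (K.doc c).s ^ (-(1 : ℝ)) := by
    rw [Real.rpow_neg_one, le_inv_comm₀ (by norm_num) hs.1]
    linarith
  have h4 : 3 * (K.doc c).s ^ (-(sfFbW Ls κ0)) ≤ (K.doc c).s ^ (-((sfFbW Ls κ0 + 1) * (1 - 0))) := by
    have e : (K.doc c).s ^ (-((sfFbW Ls κ0 + 1) * (1 - 0))) = (K.doc c).s ^ (-(1 : ℝ)) * (K.doc c).s ^ (-(sfFbW Ls κ0)) := by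
      rw [sf_mc_p_mul hs.1]; congr 1; ring
    rw [e]
    exact mul_le_mul_of_nonneg_right h3 hUpos.le
  refine h4.trans ?_
  have h6 := sf_mc_scale (κ0 := κ0) hgd.1 h0 h1G zero_lt_one (by linarith) (sfFbW Ls κ0 + 1) (2 * (sfFbW Ls κ0 + 1)) (by linarith)
    (by nlinarith)
  rw [hs']
  refine h6.trans ?_
  have hs'' := hgd'.1.1.hs
  rw [hs'] at hs''
  refine sf_mc_p_mono hs''.1 hs''.2 ?_
  unfold sfFbW
  linarith

/-- **(A4 FIN1)** if the curvature cost `0` is feasible, a finite linear cost is feasible -/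
theorem sf_fl_b_fin1 (K : SfCls) (π : SfPar) (Ls : ℝ) (hK : K.Cal π Ls) (h0 : K.Feas2 π Ls 0) : ∃ c : ℝ, 0 ≤ c ∧ K.Feas1 π Ls c := by
  refine ⟨2 * |3 * Ls + 1| + 3, by positivity, fun t ht => ?_⟩
  obtain ⟨a, ha, hGE⟩ := sf_cv_ge01 K π Ls hK t ht
  obtain ⟨κ0, hκdef⟩ : ∃ κ0, κ0 = min a (1 / 4) := ⟨_, rfl⟩
  have hκ0 : 0 < κ0 := by rw [hκdef]; exact lt_min ha (by norm_num)
  have hκa : κ0 ≤ a := by rw [hκdef]; exact min_le_left _ _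
  have hκ4 : κ0 ≤ 1 / 4 := by rw [hκdef]; exact min_le_right _ _
  obtain ⟨ad, had, hdoc⟩ := sf_cv_doc K π Ls hK {0} (by simp) κ0 hκ0
  obtain ⟨t0, ht0def⟩ : ∃ t0, t0 = min ad (min (t / 2) (1 / 4)) := ⟨_, rfl⟩
  have ht0 : 0 < t0 := by rw [ht0def]; exact lt_min had (lt_min (half_pos ht) (by norm_num))
  have ht0a : t0 ≤ ad := by rw [ht0def]; exact min_le_left _ _
  have ht0t : t0 ≤ t / 2 := by rw [ht0def]; exact (min_le_right _ _).trans (min_le_left _ _)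
  have ht04 : t0 ≤ 1 / 4 := by rw [ht0def]; exact (min_le_right _ _).trans (min_le_right _ _)
  obtain ⟨C0, hex⟩ := h0 t0 ht0
  obtain ⟨C0', hex'⟩ := hdoc C0 (fun c => ∀ ρ, sfR2 ((K.doc c).lab 1 ρ) sfZero (K.doc c).s ≤ (K.doc c).s ^ (-t0))
    (sf_ex_mono (fun c h => ⟨sf_gd_mono K π Ls hK.md_mono C0 t0 ad ht0 ht0a c h.1, fun ρ => by
      have := h.2 ρ
      rwa [zero_add] at this⟩) hex)
  obtain ⟨σ1, hσ1, hsm⟩ := sf_cv_small κ0 9 hκ0 (by norm_num)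
  have hW : 0 ≤ sfFlW Ls κ0 t0 := by unfold sfFlW; positivity
  obtain ⟨C0'', hop⟩ := hGE C0' κ0 (2 * |C0'| + sfFlW Ls κ0 t0 + 1) κ0 (min σ1 (1 / 11)) hκ0 hκa (by positivity) hκa (lt_min hσ1 (by norm_num))
    (fun c => (0 : ℝ) ∈ (K.doc c).G ∧ ∀ ρ, sfR2 ((K.doc c).lab 1 ρ) sfZero (K.doc c).s ≤ (K.doc c).s ^ (-t0))
    (fun c => SfFlI (K.doc c) ((K.doc c).s ^ (-(sfFlW Ls κ0 t0)))) (fun c => inferInstance)
    (fun c => sfFlUb (K.doc c) ((K.doc c).s ^ (-(sfFlW Ls κ0 t0)))) (fun c b => sfFlSg ((K.doc c).s ^ (-(sfFlW Ls κ0 t0))) b.1)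
    (fun c hgd hA hsc => sf_fl_b_cv1 hgd.1 ⟨hκ0, by linarith⟩ ht0.le hA.1 κ0 hκ0
      (hsm _ hgd.1.1.hs.1 (lt_of_le_of_lt (hK.sc_le c) (lt_of_lt_of_le hsc (min_le_left _ _))))
      ((hK.sc_le c).trans (hsc.le.trans (min_le_right _ _))) hA.2)
  refine ⟨C0'', sf_ex_mono ?_ (sf_cv_ex_op K (sf_ex_mono (fun c h => ?_) hex') hop)⟩
  swap
  · obtain ⟨hG, hgd, c0, hc0, hs0, hl0⟩ := h
    refine ⟨hgd, by rw [hG]; simp, fun ρ => ?_⟩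
    obtain ⟨ρ0, e0⟩ := hl0 ρ
    rw [e0, hs0]
    exact hc0 ρ0
  rintro c' ⟨c, ⟨hgd, h0G, hz⟩, hgd', hs', hsc, hrow⟩
  refine ⟨hgd', fun ρ => ?_⟩
  obtain ⟨b, ρ', hU, e2, e1⟩ := hrow ρ
  have hs := hgd.1.1.hs
  have h1G := hgd.1.1.gate.1
  have hown := hgd.1.1.own 1 h1G ρ'
  have hUpos : 0 < (K.doc c).s ^ (-(sfFlW Ls κ0 t0)) := Real.rpow_pos_of_pos hs.1 _
  have hlen1 : (K.doc c).len 1 = (K.doc c).s := hgd.1.1.hlen.1
  have hs'' := hgd'.1.1.hs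
  rw [hs'] at hs''
  rw [e2, e1, hs', sf_fl_b_R2, hlen1]
  constructor
  · refine (hz ρ').trans ?_
    have h6 := sf_mc_scale (κ0 := κ0) hgd.1 h0G h1G zero_lt_one (by linarith) t0 t ht.le (by nlinarith)
    rw [hlen1] at h6
    refine le_trans (le_of_eq ?_) h6
    congr 1; ring
  · have hcost := sf_fl_b_R1 _ hUpos ((K.doc c).lab 1 ρ') (hown.1.trans hgd.1.1.hw.1) (hown.2.1.trans hgd.1.1.hw.2.1)
    have hU' : sfFlChi ((K.doc c).s ^ (-(sfFlW Ls κ0 t0))) ((K.doc c).lab 1 ρ') = b.1 := hU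
    rw [hU'] at hcost
    refine hcost.trans ?_
    have h6 := sf_mc_scale (κ0 := κ0) hgd.1 h0G h1G zero_lt_one (by linarith) (sfFlW Ls κ0 t0) (2 * sfFlW Ls κ0 t0) (by linarith)
      (by nlinarith)
    rw [hlen1] at h6 hs''
    refine le_trans (le_of_eq ?_) (h6.trans (sf_mc_p_mono hs''.1 hs''.2 ?_))
    · congr 1; ring
    · unfold sfFlW
      linarith

end Claimed.Agent.R256
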