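import Claimed.Agent.R256.Soft.AMinHyp

/-!
# Row 256 (S0496), unit SOFT, A8 MINC, file 4: THE FRAMES OF A VIOLATION ARE POLYNOMIAL      (architect helper286; prefix `sf_mc_`)

`sfMcM C0 Ls t c2` = the exponent: in the frame `sfMcFr D i j (sg b) T` all starting rays and all marked end labels have size `≤ s^(-sfMcM)` (for `s ≤ 1/30`).
The shear `sg b` is controlled by `size` (`al`, `K`) and by the cost hypothesis at one marked row (`beAt`).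
-/

set_option autoImplicit false

namespace Claimed.Agent.R256

open Claimed.Agent.R255

theorem sf_mc_p_mul {s : ℝ} (h0 : 0 < s) (x y : ℝ) : s ^ (-x) * s ^ (-y) = s ^ (-(x + y)) := by
  rw [← Real.rpow_add h0]; congr 1; ring

theorem sf_mc_p_mono {s x y : ℝ} (h0 : 0 < s) (h1 : s < 1) (hxy : x ≤ y) : s ^ (-x) ≤ s ^ (-y) :=
  sf_mc_anti h0 h1 (neg_le_neg hxy)

theorem sf_mc_p_one {s x : ℝ} (h0 : 0 < s) (h1 : s < 1) (hx : 0 ≤ x) : 1 ≤ s ^ (-x) := by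
  have := sf_mc_p_mono h0 h1 hx
  simpa using this

theorem sf_mc_fin {s : ℝ} (h0 : 0 < s) (_h1 : s < 1) (h30 : s ≤ 1 / 30) (c x y : ℝ) (hc : c ≤ 30) :
    c * s ^ (-x) / (s ^ y) ^ 3 ≤ s ^ (-(x + 3 * y + 1)) := by
  have hy : (s ^ y) ^ 3 = s ^ (3 * y) := by
    rw [← Real.rpow_natCast, ← Real.rpow_mul h0.le]; congr 1; push_cast; ring
  have hpos : 0 < s ^ (3 * y) := Real.rpow_pos_of_pos h0 _
  rw [hy, div_eq_mul_inv, ← Real.rpow_neg h0.le, mul_assoc, sf_mc_p_mul h0]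
  have h31 : (30 : ℝ) ≤ s ^ (-(1 : ℝ)) := by
    rw [Real.rpow_neg h0.le, Real.rpow_one]
    rw [le_inv_comm₀ (by norm_num) h0]
    linarith
  have hp : 0 < s ^ (-(x + 3 * y)) := Real.rpow_pos_of_pos h0 _
  calc c * s ^ (-(x + 3 * y)) ≤ s ^ (-(1 : ℝ)) * s ^ (-(x + 3 * y)) := mul_le_mul_of_nonneg_right (hc.trans h31) hp.le
    _ = s ^ (-(x + 3 * y + 1)) := by rw [sf_mc_p_mul h0]; congr 1; ring

/-- the exponent of the shear -/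
noncomputable def sfMcE (C0 Ls t c2 : ℝ) : ℝ := |C0| + 3 * (|Ls| + t) + c2 + 1 + 1 / t

/-- the exponent of the frames -/
noncomputable def sfMcM (C0 Ls t c2 : ℝ) : ℝ := sfMcE C0 Ls t c2 + 2 * |C0| + t + 3 * (1 + (|Ls| + t)) + 1

theorem sf_mc_fr_eqns_cite : True := by
  have := @sfMcE.eq_1
  have := @sfMcM.eq_1
  trivial

section

variable {D : SfDoc} {π π' : SfPar} {Ls C0 τ κ0 t i j : ℝ} {ι : Type} {Sb : ι → D.Row i → Prop} {Ub : ι → D.Row j → Prop} {sg : ι → SfTest}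

/-- the curvature cost of a marked row is `≤ s^-(c2+1)` in both cases -/
theorem sf_mc_R2_le (hg : D.Good π Ls C0 t) (hB : SfMcBad D π' τ κ0 t i j ι Sb Ub sg) (hτ : 0 < τ) (hκ : 0 < κ0 ∧ κ0 ≤ 1) (hc2 : 0 ≤ π'.c2)
    (b : ι) (ρ' : D.Row j) (hU : Ub b ρ') : sfR2 (D.lab j ρ') (sg b) (D.len j) ≤ D.s ^ (-(π'.c2 + 1)) := by
  have hs := hg.1.hs
  have hi := hg.1.gate.2 i hB.hi
  have hj := hg.1.gate.2 j hB.hj
  have hij := hB.hij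
  have hd0 : 0 < j - i := by linarith
  have hd1 : j - i ≤ 1 := by linarith
  rcases hc2.lt_or_eq with hpos | h0
  · refine (hB.c2 hpos b ρ' hU).trans (sf_mc_p_mono hs.1 hs.2 ?_)
    nlinarith
  · refine ((hB.c1 h0.symm b ρ' hU).1).trans (sf_mc_p_mono hs.1 hs.2 ?_)
    nlinarith [hκ.1, hκ.2]

/-- the shear of a bin with a marked row is polynomial on `[0,1]` -/
theorem sf_mc_sg_bd (hg : D.Good π Ls C0 t) (hB : SfMcBad D π' τ κ0 t i j ι Sb Ub sg) (ht : 0 < t) (hτ : 0 < τ) (hκ : 0 < κ0 ∧ κ0 ≤ 1)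
    (hc2 : 0 ≤ π'.c2) (b : ι) (ρ' : D.Row j) (hU : Ub b ρ') (T : ℝ) (hT : 0 ≤ T ∧ T ≤ 1) :
    |(sg b).al| ≤ 3 * D.s ^ (-(sfMcE C0 Ls t π'.c2)) ∧ |(sg b).beAt T| ≤ 3 * D.s ^ (-(sfMcE C0 Ls t π'.c2)) ∧
      |(sg b).K| ≤ 3 * D.s ^ (-(sfMcE C0 Ls t π'.c2)) := by
  have hs := hg.1.hs
  obtain ⟨-, -, -, -, -, hal, -, hK⟩ := sf_mc_tst_coord (sg b) _ (hB.size b)
  have hw := sf_mc_width D π Ls C0 t ht hg j hB.hj
  have hown := hg.1.own j hB.hj ρ'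
  obtain ⟨-, -, -, -, -, -, hlbe, -⟩ := sf_mc_tst_coord _ _ (hg.1.bdd j hB.hj ρ').2
  have hR2 := sf_mc_R2_le hg hB hτ hκ hc2 b ρ' hU
  have hlen := sf_mc_len_pos D π C0 t hg.1 j hB.hj
  obtain ⟨w, hwd⟩ : ∃ w, w = |Ls| + t := ⟨_, rfl⟩
  rw [← hwd] at hw
  have hw0 : 0 ≤ w := by rw [hwd]; positivity
  have ht1 : 0 ≤ 1 / t := by positivity
  have hC : 0 ≤ |C0| := abs_nonneg _
  obtain ⟨E, hE⟩ : ∃ E, E = sfMcE C0 Ls t π'.c2 := ⟨_, rfl⟩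
  have hEd : E = |C0| + 3 * w + π'.c2 + 1 + 1 / t := by rw [hE, hwd]; rfl
  rw [← hE]
  have hpE : 0 < D.s ^ (-E) := Real.rpow_pos_of_pos hs.1 _
  have h1 : D.s ^ (-(1 / t)) ≤ D.s ^ (-E) := sf_mc_p_mono hs.1 hs.2 (by rw [hEd]; linarith)
  have h2 : D.s ^ (-C0) ≤ D.s ^ (-E) := sf_mc_p_mono hs.1 hs.2 (by rw [hEd]; linarith [le_abs_self C0])
  have h3 : D.s ^ (-(π'.c2 + 1 + 3 * w)) ≤ D.s ^ (-E) := sf_mc_p_mono hs.1 hs.2 (by rw [hEd]; linarith)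
  refine ⟨by linarith, ?_, by linarith⟩
  -- the value at the time of the marked row
  have hf0 : 0 < D.f j := lt_of_lt_of_le (Real.rpow_pos_of_pos hs.1 _) hw.2.2.1
  have hr0 : 0 < D.r j := lt_of_lt_of_le (Real.rpow_pos_of_pos hs.1 _) hw.1
  have hq : D.s ^ (3 * w) ≤ D.r j ^ 2 / D.f j := by
    rw [le_div_iff₀ hf0]
    have e1 : D.s ^ (3 * w) * D.s ^ (-w) = (D.s ^ w) ^ 2 := by
      rw [← Real.rpow_add hs.1, ← Real.rpow_natCast, ← Real.rpow_mul hs.1.le]; congr 1; push_cast; ring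
    calc D.s ^ (3 * w) * D.f j ≤ D.s ^ (3 * w) * D.s ^ (-w) :=
          mul_le_mul_of_nonneg_left hw.2.2.2 (Real.rpow_pos_of_pos hs.1 _).le
      _ = (D.s ^ w) ^ 2 := e1
      _ ≤ D.r j ^ 2 := pow_le_pow_left₀ (Real.rpow_pos_of_pos hs.1 _).le hw.1 2
  have hx : |(D.lab j ρ').be - (sg b).beAt (D.lab j ρ').T| ≤ D.s ^ (-(π'.c2 + 1 + 3 * w)) := by
    unfold sfR2 at hR2
    rw [hown.1, hown.2.1] at hR2
    have hy : 0 ≤ D.len j * |(D.lab j ρ').K - (sg b).K| := mul_nonneg hlen.le (abs_nonneg _)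
    have hx0 : 0 ≤ |(D.lab j ρ').be - (sg b).beAt (D.lab j ρ').T| := abs_nonneg _
    have h4 : D.s ^ (3 * w) * |(D.lab j ρ').be - (sg b).beAt (D.lab j ρ').T| ≤ D.s ^ (-(π'.c2 + 1)) := by
      refine le_trans ?_ hR2
      calc D.s ^ (3 * w) * |(D.lab j ρ').be - (sg b).beAt (D.lab j ρ').T|
          ≤ D.r j ^ 2 / D.f j * |(D.lab j ρ').be - (sg b).beAt (D.lab j ρ').T| := mul_le_mul_of_nonneg_right hq hx0
        _ ≤ _ := mul_le_mul_of_nonneg_left (by linarith) (by positivity)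
    have h5 : 0 < D.s ^ (3 * w) := Real.rpow_pos_of_pos hs.1 _
    have e2 : D.s ^ (-(π'.c2 + 1 + 3 * w)) = D.s ^ (-(π'.c2 + 1)) / D.s ^ (3 * w) := by
      rw [div_eq_mul_inv, ← Real.rpow_neg hs.1.le, sf_mc_p_mul hs.1]
    rw [e2, le_div_iff₀ h5]
    linarith
  have hTT : |T - (D.lab j ρ').T| ≤ 1 := by
    have h6 : 0 ≤ (D.lab j ρ').T := hown.2.2.2.1
    have h7 : (D.lab j ρ').T + D.len j ≤ 1 := hown.2.2.2.2
    rw [abs_le]; constructor <;> linarith [hT.1, hT.2]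
  have h8 := sf_mc_mul_le hTT hK
  have e3 : (sg b).beAt T = (D.lab j ρ').be + (-((D.lab j ρ').be - (sg b).beAt (D.lab j ρ').T)) + (T - (D.lab j ρ').T) * (sg b).K := by
    simp only [SfTest.beAt]; ring
  rw [e3]
  have t1 := abs_add_le ((D.lab j ρ').be + (-((D.lab j ρ').be - (sg b).beAt (D.lab j ρ').T))) ((T - (D.lab j ρ').T) * (sg b).K)
  have t2 := abs_add_le (D.lab j ρ').be (-((D.lab j ρ').be - (sg b).beAt (D.lab j ρ').T))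
  rw [abs_neg] at t2
  linarith

/-- the ancestor time lies in `[0,1]` -/
theorem sf_mc_anc_mem (D : SfDoc) (π : SfPar) (C0 t : ℝ) (h : D.Core π C0 t) (i j : ℝ) (hi : i ∈ D.G) (T' : ℝ) :
    0 ≤ sfMcAncT D i j T' ∧ sfMcAncT D i j T' ≤ 1 := by
  classical
  unfold sfMcAncT
  split_ifs with hex
  · have ho := h.own i hi hex.choose
    have hl := sf_mc_len_pos D π C0 t h i hi
    exact ⟨ho.2.2.2.1, by linarith [ho.2.2.2.2]⟩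
  · exact ⟨le_refl _, zero_le_one⟩

/-- the common numerical facts -/
theorem sf_mc_units (hg : D.Good π Ls C0 t) (ht : 0 < t) (hi : i ∈ D.G) (hj : j ∈ D.G) :
    (0 < D.s ^ (1 + (|Ls| + t)) ∧ D.s ^ (1 + (|Ls| + t)) ≤ 1) ∧ D.s ^ (1 + (|Ls| + t)) ≤ D.len i ∧ D.s ^ (1 + (|Ls| + t)) ≤ D.r j ∧
      D.s ^ (1 + (|Ls| + t)) ≤ D.f j ∧ D.len i ≤ D.s ^ (-t) ∧ D.r j ≤ 1 := by
  have hs := hg.1.hs
  have hw := sf_mc_width D π Ls C0 t ht hg j hj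
  have hi01 := hg.1.gate.2 i hi
  have hL : 0 ≤ |Ls| := abs_nonneg _
  have hlen := hg.1.hlen.2 i hi
  have h1 : D.s ^ (1 + (|Ls| + t)) ≤ D.s ^ (|Ls| + t) := sf_mc_anti hs.1 hs.2 (by linarith)
  refine ⟨⟨Real.rpow_pos_of_pos hs.1 _, Real.rpow_le_one hs.1.le hs.2.le (by linarith)⟩, ?_, h1.trans hw.1, h1.trans hw.2.2.1, ?_, hw.2.1⟩
  · exact (sf_mc_anti hs.1 hs.2 (by linarith)).trans hlen.1
  · exact hlen.2.trans (sf_mc_anti hs.1 hs.2 (by linarith))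

/-- **(fr_ray)** -/
theorem sf_mc_fr_ray (hg : D.Good π Ls C0 t) (hB : SfMcBad D π' τ κ0 t i j ι Sb Ub sg) (ht : 0 < t) (hτ : 0 < τ) (hκ : 0 < κ0 ∧ κ0 ≤ 1)
    (hc2 : 0 ≤ π'.c2) (h30 : D.s ≤ 1 / 30) (b : SfMcBin D i j ι) (u : D.Rw) (hu : sfMcSb D i j Ub b u) :
    ((sfMcFr D i j (sg b.1) b.2.1).ray (D.ray u.1 u.2)).size ≤ D.s ^ (-(sfMcM C0 Ls t π'.c2)) := by
  obtain ⟨ρ, ρ', rfl, hU, hanc, hc⟩ := hu
  have hs := hg.1.hs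
  have hT : 0 ≤ b.2.1 ∧ b.2.1 ≤ 1 := by
    rw [← hanc]; exact sf_mc_anc_mem D π C0 t hg.1 i j hB.hi _
  obtain ⟨hm, hL, hr, hF, -, -⟩ := sf_mc_units hg ht hB.hi hB.hj
  obtain ⟨hal, hbe, hK⟩ := sf_mc_sg_bd hg hB ht hτ hκ hc2 b.1 ρ' hU b.2.1 hT
  have hE0 : 0 ≤ sfMcE C0 Ls t π'.c2 := by unfold sfMcE; positivity
  have hpE := sf_mc_p_one hs.1 hs.2 hE0
  have hZ := sf_mc_p_one hs.1 hs.2 (abs_nonneg C0)
  have hz : (D.ray i ρ).size ≤ D.s ^ (-|C0|) := (hg.1.bdd i hB.hi ρ).1.trans (sf_mc_p_mono hs.1 hs.2 (le_abs_self _))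
  rw [sf_mc_fr_eq]
  refine (sf_mc_ray_size _ _ _ _ _ _ _ _ _ _ _ hT hm hL hr hF (by linarith) hal hbe hK hZ hz).trans ?_
  have e : 10 * (3 * D.s ^ (-(sfMcE C0 Ls t π'.c2))) * (D.s ^ (-|C0|)) ^ 2 = 30 * D.s ^ (-(sfMcE C0 Ls t π'.c2 + 2 * |C0|)) := by
    have e1 : D.s ^ (-(sfMcE C0 Ls t π'.c2 + 2 * |C0|)) = D.s ^ (-(sfMcE C0 Ls t π'.c2)) * (D.s ^ (-|C0|) * D.s ^ (-|C0|)) := by
      rw [sf_mc_p_mul hs.1, sf_mc_p_mul hs.1]; congr 1; ring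
    rw [e1]; ring
  rw [e]
  refine (sf_mc_fin hs.1 hs.2 h30 30 _ _ (le_refl _)).trans (sf_mc_p_mono hs.1 hs.2 ?_)
  unfold sfMcM
  linarith

/-- **(fr_lab)** -/
theorem sf_mc_fr_lab (hg : D.Good π Ls C0 t) (hB : SfMcBad D π' τ κ0 t i j ι Sb Ub sg) (ht : 0 < t) (hτ : 0 < τ) (hκ : 0 < κ0 ∧ κ0 ≤ 1)
    (hc2 : 0 ≤ π'.c2) (h30 : D.s ≤ 1 / 30) (b : SfMcBin D i j ι) (v : D.Rw) (hv : sfMcUb D i j Ub b v) :
    ((sfMcFr D i j (sg b.1) b.2.1).tst (D.lab v.1 v.2)).size ≤ D.s ^ (-(sfMcM C0 Ls t π'.c2)) := by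
  obtain ⟨ρ', rfl, hU, hanc⟩ := hv
  have hs := hg.1.hs
  have hT : 0 ≤ b.2.1 ∧ b.2.1 ≤ 1 := by
    rw [← hanc]; exact sf_mc_anc_mem D π C0 t hg.1 i j hB.hi _
  obtain ⟨hm, hL, hr, hF, hLm, hR⟩ := sf_mc_units hg ht hB.hi hB.hj
  obtain ⟨hal, hbe, hK⟩ := sf_mc_sg_bd hg hB ht hτ hκ hc2 b.1 ρ' hU b.2.1 hT
  have hE0 : 0 ≤ sfMcE C0 Ls t π'.c2 := by unfold sfMcE; positivity
  have hpE := sf_mc_p_one hs.1 hs.2 hE0
  have hZ := sf_mc_p_one hs.1 hs.2 (abs_nonneg C0)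
  have hz : (D.lab j ρ').size ≤ D.s ^ (-|C0|) := (hg.1.bdd j hB.hj ρ').2.trans (sf_mc_p_mono hs.1 hs.2 (le_abs_self _))
  have hown := hg.1.own j hB.hj ρ'
  have hlen := sf_mc_len_pos D π C0 t hg.1 j hB.hj
  have hQT : 0 ≤ (D.lab j ρ').T ∧ (D.lab j ρ').T ≤ 1 := by
    have h6 : 0 ≤ (D.lab j ρ').T := hown.2.2.2.1
    have h7 : (D.lab j ρ').T + D.len j ≤ 1 := hown.2.2.2.2
    exact ⟨h6, by linarith⟩
  rw [sf_mc_fr_eq]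
  refine (sf_mc_tst_size _ _ _ _ _ _ _ _ _ _ 1 _ _ hT hQT hm hL hr hF hLm (sf_mc_p_one hs.1 hs.2 ht.le) hR (le_refl _) (by linarith)
    hal hbe hK hZ hz).trans ?_
  have hZE : D.s ^ (-|C0|) ≤ D.s ^ (-(sfMcE C0 Ls t π'.c2)) := sf_mc_p_mono hs.1 hs.2 (by
    unfold sfMcE
    have : 0 ≤ 1 / t := by positivity
    have : 0 ≤ |Ls| := abs_nonneg _
    linarith)
  have hpt : 0 < D.s ^ (-t) := Real.rpow_pos_of_pos hs.1 _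
  have hnum : (D.s ^ (-|C0|) + 2 * (3 * D.s ^ (-(sfMcE C0 Ls t π'.c2)))) * 1 ^ 2 * D.s ^ (-t) ≤ 7 * D.s ^ (-(sfMcE C0 Ls t π'.c2 + t)) := by
    rw [← sf_mc_p_mul hs.1, one_pow, mul_one]
    have h9 : D.s ^ (-|C0|) + 2 * (3 * D.s ^ (-(sfMcE C0 Ls t π'.c2))) ≤ 7 * D.s ^ (-(sfMcE C0 Ls t π'.c2)) := by linarith
    calc _ ≤ 7 * D.s ^ (-(sfMcE C0 Ls t π'.c2)) * D.s ^ (-t) := mul_le_mul_of_nonneg_right h9 hpt.le
      _ = _ := by ring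
  have hm3 : 0 < (D.s ^ (1 + (|Ls| + t))) ^ 3 := pow_pos hm.1 3
  refine (div_le_div_of_nonneg_right hnum hm3.le).trans ?_
  refine (sf_mc_fin hs.1 hs.2 h30 7 _ _ (by norm_num)).trans (sf_mc_p_mono hs.1 hs.2 ?_)
  unfold sfMcM
  linarith [abs_nonneg C0]

end

end Claimed.Agent.R256
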