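import Claimed.Agent.R256.Soft.AMinSize

/-!
# Row 256 (S0496), unit SOFT, A8 MINC, file 3: A VIOLATION OF `MinC` IS A COVER FOR GROUP EXTRACTION      (architect helper286; prefix `sf_mc_`)

Doc-level, on ONE `D : SfDoc` with `D.Good π Ls C0 t`.
* `SfMcBad D π' τ κ0 t i j ι Sb Ub sg`   the data of a violation of `D.MinC π' τ κ0 t`;   `sf_mc_of_not_bad`
* `SfMcBin`, `sfMcUb`, `sfMcSb`          bins refined by the starting interval; marked end rows; EXACT predecessor sets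
* `sf_mc_ub_*`, `sf_mc_sb_*`, `sf_mc_lb_ovl`, `sf_mc_fr_ray`, `sf_mc_fr_lab`      the fields of `SfCls.GeHyp D i j {j} ..` for the frames `sfMcFr D i j (sg b.1) b.2`
-/

set_option autoImplicit false

namespace Claimed.Agent.R256

open Claimed.Agent.R255

/-- the data of a violation of `MinC` -/
structure SfMcBad (D : SfDoc) (π' : SfPar) (τ κ0 t i j : ℝ) (ι : Type) (Sb : ι → D.Row i → Prop) (Ub : ι → D.Row j → Prop)
    (sg : ι → SfTest) : Prop where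
  hi : i ∈ D.G
  hj : j ∈ D.G
  hij : i < j
  ht : t ≤ κ0 * (j - i)
  disj : ∀ b b' ρ', Ub b ρ' → Ub b' ρ' → b = b'
  pred : ∀ b, D.Pred i j (Ub b) (Sb b)
  sovl : ∀ ρ, (({b | Sb b ρ} : Set ι).ncard : ℝ) ≤ D.s ^ (-(κ0 * (j - i)))
  lovl : ∀ lam, (({b | ∃ ρ', Ub b ρ' ∧ D.lab j ρ' = lam} : Set ι).ncard : ℝ) ≤ D.s ^ (-(κ0 * (j - i)))
  size : ∀ b, (sg b).size ≤ D.s ^ (-(1 / t))
  c2 : 0 < π'.c2 → ∀ b ρ', Ub b ρ' → sfR2 (D.lab j ρ') (sg b) (D.len j) ≤ D.s ^ (-((π'.c2 - τ) * (j - i)))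
  c1 : π'.c2 = 0 → ∀ b ρ', Ub b ρ' → sfR2 (D.lab j ρ') (sg b) (D.len j) ≤ D.s ^ (-(κ0 * (j - i))) ∧
      sfR1 (D.lab j ρ') (sg b) ≤ D.s ^ (-((π'.c1 - τ) * (j - i)))
  big : D.s ^ (κ0 * (j - i)) < (D.P j).pr (fun ρ' => ∃ b, Ub b ρ')

theorem sf_mc_of_not_bad (D : SfDoc) (π' : SfPar) (τ κ0 t : ℝ)
    (h : ∀ (i j : ℝ) (ι : Type) [Finite ι] (Sb : ι → D.Row i → Prop) (Ub : ι → D.Row j → Prop) (sg : ι → SfTest),
      ¬ SfMcBad D π' τ κ0 t i j ι Sb Ub sg) : D.MinC π' τ κ0 t := by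
  intro i hi j hj hij ht ι _ Sb Ub sg h1 h2 h3 h4 h5 h6 h7
  by_contra hc
  exact h i j ι Sb Ub sg ⟨hi, hj, hij, ht, h1, h2, h3, h4, h5, h6, h7, not_le.1 hc⟩

/-- bins refined by the starting interval -/
abbrev SfMcBin (D : SfDoc) (i j : ℝ) (ι : Type) : Type := ι × Set.range (fun ρ' : D.Row j => sfMcAncT D i j (D.T j ρ'))

/-- marked end rows of a refined bin -/
def sfMcUb (D : SfDoc) (i j : ℝ) {ι : Type} (Ub : ι → D.Row j → Prop) (b : SfMcBin D i j ι) (v : D.Rw) : Prop :=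
  ∃ ρ' : D.Row j, v = ⟨j, ρ'⟩ ∧ Ub b.1 ρ' ∧ sfMcAncT D i j (D.T j ρ') = b.2.1

/-- starting rows of a refined bin: the exact predecessor set -/
def sfMcSb (D : SfDoc) (i j : ℝ) {ι : Type} (Ub : ι → D.Row j → Prop) (b : SfMcBin D i j ι) (u : D.Rw) : Prop :=
  ∃ (ρ : D.Row i) (ρ' : D.Row j), u = ⟨i, ρ⟩ ∧ Ub b.1 ρ' ∧ sfMcAncT D i j (D.T j ρ') = b.2.1 ∧ D.Conn i j ρ ρ'

theorem sf_mc_hyp_eqns_cite : True := by
  have := @sfMcUb.eq_1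
  have := @sfMcSb.eq_1
  trivial

section

variable {D : SfDoc} {π π' : SfPar} {Ls C0 τ κ0 t i j : ℝ} {ι : Type} {Sb : ι → D.Row i → Prop} {Ub : ι → D.Row j → Prop} {sg : ι → SfTest}

theorem sf_mc_ub_dep (b : SfMcBin D i j ι) (u : D.Rw) (h : sfMcUb D i j Ub b u) : u.1 = j := by
  obtain ⟨ρ', rfl, -⟩ := h
  rfl

theorem sf_mc_sb_dep (b : SfMcBin D i j ι) (u : D.Rw) (h : sfMcSb D i j Ub b u) : u.1 = i := by
  obtain ⟨ρ, ρ', rfl, -⟩ := h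
  rfl

theorem sf_mc_ub_disj (hB : SfMcBad D π' τ κ0 t i j ι Sb Ub sg) (b b' : SfMcBin D i j ι) (u : D.Rw)
    (h : sfMcUb D i j Ub b u) (h' : sfMcUb D i j Ub b' u) : b = b' := by
  obtain ⟨ρ', rfl, h1, h2⟩ := h
  obtain ⟨ρ'', e, h1', h2'⟩ := h'
  have e' : ρ' = ρ'' := eq_of_heq (Sigma.mk.inj e).2
  subst e'
  exact Prod.ext (hB.disj _ _ _ h1 h1') (Subtype.ext (h2.symm.trans h2'))

theorem sf_mc_ub_iff (ρ' : D.Row j) : (∃ b : SfMcBin D i j ι, sfMcUb D i j Ub b ⟨j, ρ'⟩) ↔ ∃ b, Ub b ρ' := by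
  constructor
  · rintro ⟨b, ρ'', e, h1, -⟩
    have e' : ρ' = ρ'' := eq_of_heq (Sigma.mk.inj e).2
    subst e'
    exact ⟨b.1, h1⟩
  · rintro ⟨b, h⟩
    exact ⟨(b, ⟨_, ρ', rfl⟩), ρ', rfl, h, rfl⟩

theorem sf_mc_ub_mass (hg : D.Good π Ls C0 t) (hB : SfMcBad D π' τ κ0 t i j ι Sb Ub sg) (a : ℝ) (ha : κ0 ≤ a) :
    D.s ^ (a * (j - i)) ≤ (D.P j).pr (fun ρ' => ∃ b : SfMcBin D i j ι, sfMcUb D i j Ub b ⟨j, ρ'⟩) := by
  have e : (fun ρ' => ∃ b : SfMcBin D i j ι, sfMcUb D i j Ub b ⟨j, ρ'⟩) = fun ρ' => ∃ b, Ub b ρ' :=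
    funext fun ρ' => propext (sf_mc_ub_iff ρ')
  rw [e]
  refine le_trans ?_ hB.big.le
  exact sf_mc_anti hg.1.hs.1 hg.1.hs.2 (mul_le_mul_of_nonneg_right ha (by linarith [hB.hij]))

theorem sf_mc_sb_time (hg : D.Good π Ls C0 t) (hB : SfMcBad D π' τ κ0 t i j ι Sb Ub sg) (b : SfMcBin D i j ι) (u : D.Rw)
    (h : sfMcSb D i j Ub b u) : (D.lab u.1 u.2).T = (sfMcFr D i j (sg b.1) b.2.1).T0 := by
  obtain ⟨ρ, ρ', rfl, -, h2, h3⟩ := h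
  have := sf_mc_anc_conn D π C0 t hg.1 i j hB.hi hB.hj hB.hij ρ ρ' h3
  exact (this.symm.trans h2)

theorem sf_mc_sb_pred (b : SfMcBin D i j ι) (u v : D.Rw) (hv : sfMcUb D i j Ub b v) (hu : u.1 = i)
    (hc : D.Conn u.1 v.1 u.2 v.2) : sfMcSb D i j Ub b u := by
  obtain ⟨ρ', rfl, h1, h2⟩ := hv
  obtain ⟨k, ρ⟩ := u
  simp only at hu
  subst hu
  exact ⟨ρ, ρ', rfl, h1, h2, hc⟩

theorem sf_mc_sb_ovl [Finite ι] (hg : D.Good π Ls C0 t) (hB : SfMcBad D π' τ κ0 t i j ι Sb Ub sg) (a : ℝ) (ha : κ0 ≤ a) (u : D.Rw) :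
    (({b | sfMcSb D i j Ub b u} : Set (SfMcBin D i j ι)).ncard : ℝ) ≤ D.s ^ (-(a * (j - i))) := by
  have hs := hg.1.hs
  have hmono : D.s ^ (-(κ0 * (j - i))) ≤ D.s ^ (-(a * (j - i))) :=
    sf_mc_anti hs.1 hs.2 (neg_le_neg (mul_le_mul_of_nonneg_right ha (by linarith [hB.hij])))
  by_cases hu : ∃ ρ : D.Row i, u = ⟨i, ρ⟩
  · obtain ⟨ρ, rfl⟩ := hu
    refine le_trans ?_ ((hB.sovl ρ).trans hmono)
    have : ({b | sfMcSb D i j Ub b ⟨i, ρ⟩} : Set (SfMcBin D i j ι)).ncard ≤ ({b | Sb b ρ} : Set ι).ncard := by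
      refine Set.ncard_le_ncard_of_injOn Prod.fst ?_ ?_ (Set.toFinite _)
      · rintro b ⟨ρ1, ρ', e, h1, -, h3⟩
        have e' : ρ = ρ1 := eq_of_heq (Sigma.mk.inj e).2
        subst e'
        exact hB.pred b.1 ρ' h1 ρ h3
      · rintro b ⟨ρ1, ρ', e, -, h2, h3⟩ b' ⟨ρ2, ρ'', e2, -, h2', h3'⟩ hbb
        have e' : ρ = ρ1 := eq_of_heq (Sigma.mk.inj e).2
        have e'' : ρ = ρ2 := eq_of_heq (Sigma.mk.inj e2).2
        subst e'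
        subst e''
        have t1 := sf_mc_anc_conn D π C0 t hg.1 i j hB.hi hB.hj hB.hij ρ ρ' h3
        have t2 := sf_mc_anc_conn D π C0 t hg.1 i j hB.hi hB.hj hB.hij ρ ρ'' h3'
        exact Prod.ext hbb (Subtype.ext (h2.symm.trans (t1.trans (t2.symm.trans h2'))))
    exact_mod_cast this
  · have : ({b | sfMcSb D i j Ub b u} : Set (SfMcBin D i j ι)) = ∅ := by
      ext b
      simp only [Set.mem_ofPred_eq, Set.mem_empty_iff_false, iff_false]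
      rintro ⟨ρ, ρ', e, -⟩
      exact hu ⟨ρ, e⟩
    rw [this, Set.ncard_empty]
    exact_mod_cast (Real.rpow_pos_of_pos hs.1 _).le

/-- the bins that reach a label of the gate `j` -/
theorem sf_mc_lb_ovl [Finite ι] (hg : D.Good π Ls C0 t) (hB : SfMcBad D π' τ κ0 t i j ι Sb Ub sg) (a : ℝ) (ha : κ0 ≤ a) (lam : SfTest) :
    (({b | ∃ v : D.Rw, D.lab v.1 v.2 = lam ∧ sfMcUb D i j Ub b v} : Set (SfMcBin D i j ι)).ncard : ℝ) ≤ D.s ^ (-(a * (j - i))) := by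
  have hs := hg.1.hs
  have hmono : D.s ^ (-(κ0 * (j - i))) ≤ D.s ^ (-(a * (j - i))) :=
    sf_mc_anti hs.1 hs.2 (neg_le_neg (mul_le_mul_of_nonneg_right ha (by linarith [hB.hij])))
  refine le_trans ?_ ((hB.lovl lam).trans hmono)
  have : ({b | ∃ v : D.Rw, D.lab v.1 v.2 = lam ∧ sfMcUb D i j Ub b v} : Set (SfMcBin D i j ι)).ncard
      ≤ ({b | ∃ ρ', Ub b ρ' ∧ D.lab j ρ' = lam} : Set ι).ncard := by
    refine Set.ncard_le_ncard_of_injOn Prod.fst ?_ ?_ (Set.toFinite _)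
    · rintro b ⟨v, hl, ρ', rfl, h1, -⟩
      exact ⟨ρ', h1, hl⟩
    · rintro b ⟨v, hl, ρ', rfl, -, h2⟩ b' ⟨v', hl', ρ'', rfl, -, h2'⟩ hbb
      have hT : D.T j ρ' = D.T j ρ'' := by
        unfold SfDoc.T
        simp only at hl hl'
        rw [hl, hl']
      refine Prod.ext hbb (Subtype.ext ?_)
      rw [← h2, ← h2', hT]
  exact_mod_cast this

end

end Claimed.Agent.R256
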