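import Claimed.Agent.R256.Soft.AMinFr

/-!
# Row 256 (S0496), unit SOFT, A8 MINC, file 5: THE EXTRACTED PIECE HAS IMPROVED COSTS      (architect helper286; prefix `sf_mc_`)

Doc-level.   `D'` = a sub-configuration of `D` on `[i,j]` in the frame of the bin `b`, kept gates `{j}`, all of whose terminal rows are marked rows of `b`.
`sf_mc_out`: every terminal label of `D'` is `φ.tst` of a marked label, its costs are the costs after subtraction of `sg b`.      `sf_mc_scale`: comparison of the scales `s^(j-i)` and `D'.s = len j / len i`.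
-/

set_option autoImplicit false

namespace Claimed.Agent.R256

open Claimed.Agent.R255

section

variable {D : SfDoc} {π π' : SfPar} {Ls C0 τ κ0 t i j : ℝ} {ι : Type} {Sb : ι → D.Row i → Prop} {Ub : ι → D.Row j → Prop} {sg : ι → SfTest}

theorem sf_mc_with (Q : SfTest) (a b : ℝ) (ha : Q.r = a) (hb : Q.f = b) : ({ Q with r := a, f := b } : SfTest) = Q := by
  subst ha
  subst hb
  rfl

/-- **(OUT)** -/
theorem sf_mc_out (hg : D.Good π Ls C0 t) (hB : SfMcBad D π' τ κ0 t i j ι Sb Ub sg) (D' : SfDoc) (h1 : (1 : ℝ) ∈ D'.G) (Gk : Finset ℝ) (t' : ℝ)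
    (b : SfMcBin D i j ι) (e : D'.Rw → D.Rw) (hsub : D'.Sub D i j (sfMcFr D i j (sg b.1) b.2.1) Gk t' e)
    (hend : ∀ u : D'.Rw, u.1 = 1 → sfMcUb D i j Ub b (e u)) (ρ : D'.Row 1) :
    D'.s = D.len j / D.len i ∧ ∃ ρ' : D.Row j, Ub b.1 ρ' ∧
      sfR2 (D'.lab 1 ρ) sfZero D'.s = sfR2 (D.lab j ρ') (sg b.1) (D.len j) ∧ sfR1 (D'.lab 1 ρ) sfZero = sfR1 (D.lab j ρ') (sg b.1) := by
  have hs' : D'.s = D.len j / D.len i := hsub.hs
  refine ⟨hs', ?_⟩
  obtain ⟨ρ', he, hU, -⟩ := hend ⟨1, ρ⟩ rfl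
  refine ⟨ρ', hU, ?_⟩
  have hwj := hg.1.hw.2.2 j hB.hj
  have hli := sf_mc_len_pos D π C0 t hg.1 i hB.hi
  have hφ : (sfMcFr D i j (sg b.1) b.2.1).Pos := ⟨hli, hwj.1, hwj.2⟩
  have hown := hg.1.own j hB.hj ρ'
  have eij : i + 1 * (j - i) = j := by ring
  have hr1 : D'.r 1 = 1 := by
    rw [hsub.hr 1 h1, eij]; exact div_self hwj.1.ne'
  have hf1 : D'.f 1 = 1 := by
    rw [(hsub.hf 1 h1).2.2 one_pos, eij]; exact div_self hwj.2.ne'
  have hlab := hsub.hlab ⟨1, ρ⟩ h1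
  rw [he] at hlab
  have hlab' : D'.lab 1 ρ = (sfMcFr D i j (sg b.1) b.2.1).tst (D.lab j ρ') := by
    have e1 : ((sfMcFr D i j (sg b.1) b.2.1).tst (D.lab j ρ')).r = 1 := by
      show (D.lab j ρ').r / D.r j = 1
      rw [hown.1]; exact div_self hwj.1.ne'
    have e2 : ((sfMcFr D i j (sg b.1) b.2.1).tst (D.lab j ρ')).f = 1 := by
      show (D.lab j ρ').f / D.f j = 1
      rw [hown.2.1]; exact div_self hwj.2.ne'
    refine hlab.trans ?_
    exact sf_mc_with _ _ _ (e1.trans hr1.symm) (e2.trans hf1.symm)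
  rw [hlab', hs']
  constructor
  · have := sf_frame_R2 (sfMcFr D i j (sg b.1) b.2.1) hφ (D.lab j ρ') (D.len j)
    exact this.trans (sf_mc_R2 _ _ _ _)
  · have := sf_frame_R1 (sfMcFr D i j (sg b.1) b.2.1) hφ (D.lab j ρ')
    exact this.trans (sf_mc_R1 _ _ _)

/-- **(SCALE)** -/
theorem sf_mc_scale (hg : D.Good π Ls C0 t) (hi : i ∈ D.G) (hj : j ∈ D.G) (hij : i < j) (ht : t ≤ κ0 * (j - i)) (x y : ℝ) (hy : 0 ≤ y)
    (hxy : x ≤ y * (1 - 2 * κ0)) : D.s ^ (-(x * (j - i))) ≤ (D.len j / D.len i) ^ (-y) := by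
  have hs := hg.1.hs
  have hli := hg.1.hlen.2 i hi
  have hlj := hg.1.hlen.2 j hj
  have hli0 := sf_mc_len_pos D π C0 t hg.1 i hi
  have hlj0 := sf_mc_len_pos D π C0 t hg.1 j hj
  have hq0 : 0 < D.len j / D.len i := div_pos hlj0 hli0
  have hq : D.len j / D.len i ≤ D.s ^ ((j - i) - 2 * t) := by
    rw [div_le_iff₀ hli0]
    calc D.len j ≤ D.s ^ (j - t) := hlj.2
      _ = D.s ^ ((j - i) - 2 * t) * D.s ^ (i + t) := by rw [← Real.rpow_add hs.1]; congr 1; ring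
      _ ≤ D.s ^ ((j - i) - 2 * t) * D.len i := mul_le_mul_of_nonneg_left hli.1 (Real.rpow_pos_of_pos hs.1 _).le
  have h1 : (D.s ^ ((j - i) - 2 * t)) ^ (-y) ≤ (D.len j / D.len i) ^ (-y) :=
    Real.rpow_le_rpow_of_nonpos hq0 hq (by linarith)
  refine le_trans ?_ h1
  rw [← Real.rpow_mul hs.1.le]
  refine sf_mc_anti hs.1 hs.2 ?_
  have hd : 0 < j - i := by linarith
  have h2 : x * (j - i) ≤ y * (1 - 2 * κ0) * (j - i) := mul_le_mul_of_nonneg_right hxy hd.le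
  have h3 : y * t ≤ y * (κ0 * (j - i)) := mul_le_mul_of_nonneg_left ht hy
  nlinarith

end

end Claimed.Agent.R256
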