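import Claimed.Agent.R256.Soft.Cost
import Claimed.Agent.R256.Soft.AMinOut

/-!
# Row 256 (S0496), unit SOFT, A8 MINC, file 6: COST RIGIDITY      (architect helper286; prefix `sf_mc_`)

`sf_mc_minc` = P6 (02 l.1195-1262 in the form of report 873): cost rigidity is RIGID on the class, `κ0` is package free.
A violation of `MinC` on `[i,j]` is a cover for group extraction (`sf_mc_hyp`, kept gates `{j}`); the extracted piece is a good configuration at the scale `len j / len i` whose terminal costs are the costs after subtraction of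
the shears of the bins (`sf_mc_out`), i.e. improved by a fixed power (`sf_mc_scale`): against `sf_min2`, resp. `sf_min1`.
Order of the constants: `τ` → accuracy `a2` of the minimality → accuracy `a` of GE (`h' = 1`, `t' = a2`) → `κ0` → `C0, t` → `C1, h` → `S ↦ S'` → scale of the minimality at `S'` → scale of GE.
-/

set_option autoImplicit false

namespace Claimed.Agent.R256

open Claimed.Agent.R255

/-- **(HYP)** a violation of `MinC` is a cover for group extraction -/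
theorem sf_mc_hyp {D : SfDoc} {π π' : SfPar} {Ls C0 τ κ0 t i j : ℝ} {ι : Type} [Finite ι] {Sb : ι → D.Row i → Prop} {Ub : ι → D.Row j → Prop}
    {sg : ι → SfTest} (hg : D.Good π Ls C0 t) (hB : SfMcBad D π' τ κ0 t i j ι Sb Ub sg) (ht : 0 < t) (hτ : 0 < τ) (hκ : 0 < κ0 ∧ κ0 ≤ 1)
    (hc2 : 0 ≤ π'.c2) (h30 : D.s ≤ 1 / 30) (a C1 : ℝ) (ha : κ0 ≤ a) (hC1 : sfMcM C0 Ls t π'.c2 ≤ C1 * (j - i)) :
    SfCls.GeHyp D i j {j} (SfMcBin D i j ι) (sfMcSb D i j Ub) (sfMcUb D i j Ub) (fun b => sfMcFr D i j (sg b.1) b.2.1) a C1 where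
  gi := hB.hi
  gj := hB.hj
  kept := ⟨Finset.mem_singleton_self j, fun k hk => by
    rw [Finset.mem_singleton] at hk
    subst hk
    exact ⟨hB.hj, hB.hij.le, le_refl _⟩⟩
  ub_dep := sf_mc_ub_dep
  ub_disj := sf_mc_ub_disj hB
  ub_mass := sf_mc_ub_mass hg hB a ha
  sb_dep := sf_mc_sb_dep
  sb_time := sf_mc_sb_time hg hB
  sb_pred := sf_mc_sb_pred
  sb_ovl := sf_mc_sb_ovl hg hB a ha
  lb_ovl := fun k hk lam => by
    rw [Finset.mem_singleton] at hk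
    refine le_trans ?_ (sf_mc_lb_ovl hg hB a ha lam)
    have : ({b | ∃ u v : D.Rw, u.1 = k ∧ D.lab u.1 u.2 = lam ∧ sfMcUb D i j Ub b v ∧ (u = v ∨ (u.1 < v.1 ∧ D.Conn u.1 v.1 u.2 v.2))} :
        Set (SfMcBin D i j ι)).ncard ≤ ({b | ∃ v : D.Rw, D.lab v.1 v.2 = lam ∧ sfMcUb D i j Ub b v} : Set (SfMcBin D i j ι)).ncard := by
      refine Set.ncard_le_ncard ?_ (Set.toFinite _)
      rintro b ⟨u, v, hu, hl, hv, huv⟩
      rcases huv with rfl | ⟨hlt, -⟩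
      · exact ⟨u, hl, hv⟩
      · rw [hu, hk, sf_mc_ub_dep b v hv] at hlt
        exact absurd hlt (lt_irrefl _)
    exact_mod_cast this
  fr := fun _ => ⟨rfl, rfl, rfl⟩
  fr_ray := fun b u hu => (sf_mc_fr_ray hg hB ht hτ hκ hc2 h30 b u hu).trans (sf_mc_p_mono hg.1.hs.1 hg.1.hs.2 hC1)
  fr_lab := fun b u v hv hk huv => by
    rw [Finset.mem_singleton] at hk
    rcases huv with rfl | ⟨hlt, -⟩
    · exact (sf_mc_fr_lab hg hB ht hτ hκ hc2 h30 b u hv).trans (sf_mc_p_mono hg.1.hs.1 hg.1.hs.2 hC1)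
    · rw [hk, sf_mc_ub_dep b v hv] at hlt
      exact absurd hlt (lt_irrefl _)

/-- **(GEN)** the pattern part: `Imp` = "the terminal costs are improved" -/
theorem sf_mc_gen (K : SfCls) (π : SfPar) (Ls : ℝ) (hK : K.Cal π Ls) (π' : SfPar) (hc2 : 0 ≤ π'.c2) (τ : ℝ) (hτ : 0 < τ) (a2 κ1 : ℝ) (ha2 : 0 < a2)
    (hκ1 : 0 < κ1 ∧ κ1 ≤ 1) (Imp : SfDoc → Prop)
    (hmin : ∀ C0 : ℝ, SfAll K.ob K.sc (fun cf => ¬ (K.Gd π Ls C0 a2 cf ∧ Imp (K.doc cf))))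
    (himp : ∀ (κ0 C0 t : ℝ) (D D' : SfDoc) (i j : ℝ) (ι : Type) (Sb : ι → D.Row i → Prop) (Ub : ι → D.Row j → Prop) (sg : ι → SfTest),
      0 < κ0 → κ0 ≤ κ1 → D.Good π Ls C0 t → SfMcBad D π' τ κ0 t i j ι Sb Ub sg → D'.s = D.len j / D.len i →
      (∀ ρ : D'.Row 1, ∃ (b : ι) (ρ' : D.Row j), Ub b ρ' ∧ sfR2 (D'.lab 1 ρ) sfZero D'.s = sfR2 (D.lab j ρ') (sg b) (D.len j) ∧
        sfR1 (D'.lab 1 ρ) sfZero = sfR1 (D.lab j ρ') (sg b)) → Imp D') :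
    ∃ κ0 : ℝ, 0 < κ0 ∧ ∀ C0 t : ℝ, 0 < t → SfAll K.ob K.sc (fun c => K.Gd π Ls C0 t c → (K.doc c).MinC π' τ κ0 t) := by
  obtain ⟨cF, hge⟩ := hK.ge
  obtain ⟨a, ha, hGE⟩ := hge 1 a2 one_pos ha2
  have hκ0 : 0 < min a κ1 := lt_min ha hκ1.1
  refine ⟨min a κ1, hκ0, fun C0 t ht S => ?_⟩
  obtain ⟨S', hS'⟩ := hGE (sfMcM C0 Ls t π'.c2 * (min a κ1) / t) C0 (t / min a κ1) (div_pos ht hκ0) S
  obtain ⟨s1, hs1, hmin'⟩ := hmin (cF (sfMcM C0 Ls t π'.c2 * (min a κ1) / t)) S'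
  obtain ⟨σ, hσ, H⟩ := hS' s1 hs1
  refine ⟨min σ (1 / 30), lt_min hσ (by norm_num), fun c hob hsc hgd => sf_mc_of_not_bad _ _ _ _ _ (fun i j ι _ Sb Ub sg hB => ?_)⟩
  have h30 : (K.doc c).s ≤ 1 / 30 := (hK.sc_le c).trans (hsc.le.trans (min_le_right _ _))
  have hd : 0 < j - i := by linarith [hB.hij]
  have hji : t / min a κ1 ≤ j - i := by
    rw [div_le_iff₀ hκ0]; linarith [hB.ht]
  have hgd' : K.Gd π Ls C0 (a * (j - i)) c :=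
    sf_gd_mono K π Ls hK.md_mono C0 t _ ht (hB.ht.trans (mul_le_mul_of_nonneg_right (min_le_left _ _) hd.le)) c hgd
  have hM0 : 0 ≤ sfMcM C0 Ls t π'.c2 := by
    unfold sfMcM sfMcE; positivity
  have hC1 : sfMcM C0 Ls t π'.c2 ≤ sfMcM C0 Ls t π'.c2 * (min a κ1) / t * (j - i) := by
    have h1 : 1 ≤ min a κ1 / t * (j - i) := by
      rw [div_mul_eq_mul_div, le_div_iff₀ ht]; linarith [hB.ht]
    calc sfMcM C0 Ls t π'.c2 = sfMcM C0 Ls t π'.c2 * 1 := (mul_one _).symm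
      _ ≤ sfMcM C0 Ls t π'.c2 * (min a κ1 / t * (j - i)) := mul_le_mul_of_nonneg_left h1 hM0
      _ = _ := by ring
  obtain ⟨c', b, e, hob', hsc', hgd'', hsub, -, -, hend, -⟩ := H c hob (lt_of_lt_of_le hsc (min_le_left _ _)) i j hji hgd' {j}
    (SfMcBin (K.doc c) i j ι) (sfMcSb (K.doc c) i j Ub) (sfMcUb (K.doc c) i j Ub) (fun b => sfMcFr (K.doc c) i j (sg b.1) b.2.1)
    (sf_mc_hyp hgd.1 hB ht hτ ⟨hκ0, (min_le_right _ _).trans hκ1.2⟩ hc2 h30 a _ (min_le_left _ _) hC1)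
    (fun k hk l hl hkl => by
      rw [Finset.mem_singleton] at hk hl
      rw [hk, hl] at hkl
      exact absurd hkl (lt_irrefl _))
    (fun k hk => by
      rw [Finset.mem_singleton] at hk
      rw [hk, one_mul]
      exact Or.inr le_rfl)
    (fun g _ k hk hkg hgj => by
      rw [Finset.mem_singleton] at hk
      rw [hk] at hkg
      exact absurd (hkg.trans hgj) (lt_irrefl _))
  refine hmin' c' hob' hsc' ⟨hgd'', ?_⟩
  refine himp (min a κ1) C0 t (K.doc c) (K.doc c') i j ι Sb Ub sg hκ0 (min_le_right _ _) hgd.1 hB hsub.hs (fun ρ => ?_)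
  obtain ⟨-, ρ', hU, e2, e1⟩ := sf_mc_out hgd.1 hB (K.doc c') hgd''.1.1.gate.1 {j} a2 b e hsub hend ρ
  exact ⟨b.1, ρ', hU, e2, e1⟩

/-- numerology of the improvement -/
theorem sf_mc_num (c τ1 κ0 : ℝ) (hτ1 : 0 < τ1) (hc : τ1 ≤ c) (hκ : 0 < κ0) (hκ1 : κ0 ≤ τ1 / (8 * (c + 1))) :
    0 ≤ c - τ1 / 2 ∧ c - τ1 ≤ (c - τ1 / 2) * (1 - 2 * κ0) := by
  have hc1 : 0 < 8 * (c + 1) := by linarith
  rw [le_div_iff₀ hc1] at hκ1
  refine ⟨by linarith, ?_⟩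
  nlinarith [mul_pos hκ hτ1]

/-- **(A8 MINC)** P6: cost rigidity is RIGID; `κ0` is package free -/
theorem sf_mc_minc (K : SfCls) (π : SfPar) (Ls : ℝ) (hK : K.Cal π Ls) (π' : SfPar) (h2 : π'.c2 = K.c2 π Ls) (h1 : π'.c2 = 0 → π'.c1 = K.c1 π Ls)
    (hpos : 0 < K.c2 π Ls ∨ (K.c2 π Ls = 0 ∧ 0 < K.c1 π Ls)) (τ : ℝ) (hτ : 0 < τ) :
    ∃ κ0 : ℝ, 0 < κ0 ∧ ∀ C0 t : ℝ, 0 < t → SfAll K.ob K.sc (fun c => K.Gd π Ls C0 t c → (K.doc c).MinC π' τ κ0 t) := by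
  rcases hpos with hc | ⟨hc0, hc⟩
  · -- positive curvature cost
    obtain ⟨c2, hc2⟩ : ∃ c2, c2 = K.c2 π Ls := ⟨_, rfl⟩
    rw [← hc2] at hc h2
    have hτ1 : 0 < min τ c2 := lt_min hτ hc
    obtain ⟨a2, ha2, hmin⟩ := sf_min2 K π Ls (min τ c2 / 2) (half_pos hτ1) (by rw [← hc2]; linarith [min_le_right τ c2])
    rw [← hc2] at hmin
    have hκ1 : 0 < min τ c2 / (8 * (c2 + 1)) ∧ min τ c2 / (8 * (c2 + 1)) ≤ 1 := by
      have h8 : 0 < 8 * (c2 + 1) := by linarith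
      refine ⟨div_pos hτ1 h8, ?_⟩
      rw [div_le_one h8]; linarith [min_le_right τ c2]
    refine sf_mc_gen K π Ls hK π' (by rw [h2]; exact hc.le) τ hτ a2 _ ha2 hκ1
      (fun D' => ∀ ρ, sfR2 (D'.lab 1 ρ) sfZero D'.s ≤ D'.s ^ (-(c2 - min τ c2 / 2))) hmin ?_
    intro κ0 C0 t D D' i j ι Sb Ub sg hκ0 hκle hg hB hs' hrow ρ
    obtain ⟨b, ρ', hU, e2, -⟩ := hrow ρ
    obtain ⟨n1, n2⟩ := sf_mc_num c2 (min τ c2) κ0 hτ1 (min_le_right _ _) hκ0 hκle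
    rw [e2, hs']
    have hd : 0 < j - i := by linarith [hB.hij]
    refine (hB.c2 (by rw [h2]; exact hc) b ρ' hU).trans (le_trans ?_ (sf_mc_scale hg hB.hi hB.hj hB.hij hB.ht _ _ n1 n2))
    refine sf_mc_p_mono hg.1.hs.1 hg.1.hs.2 (mul_le_mul_of_nonneg_right ?_ hd.le)
    rw [h2]; linarith [min_le_left τ c2]
  · -- zero curvature cost, positive linear cost
    have h20 : π'.c2 = 0 := h2.trans hc0
    have h1' := h1 h20
    obtain ⟨c1, hc1⟩ : ∃ c1, c1 = K.c1 π Ls := ⟨_, rfl⟩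
    rw [← hc1] at hc h1'
    have hτ1 : 0 < min τ c1 := lt_min hτ hc
    obtain ⟨a1, ha1, hmin⟩ := sf_min1 K π Ls (min τ c1 / 2) (half_pos hτ1) (by rw [← hc1]; linarith [min_le_right τ c1])
    rw [← hc1] at hmin
    have h8 : 0 < 8 * (c1 + 1) := by linarith
    have hκ1 : 0 < min (min (1 / 4) (a1 / 2)) (min τ c1 / (8 * (c1 + 1))) ∧ min (min (1 / 4) (a1 / 2)) (min τ c1 / (8 * (c1 + 1))) ≤ 1 := by
      refine ⟨lt_min (lt_min (by norm_num) (half_pos ha1)) (div_pos hτ1 h8), ?_⟩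
      exact (min_le_left _ _).trans ((min_le_left _ _).trans (by norm_num))
    refine sf_mc_gen K π Ls hK π' (by rw [h20]) τ hτ a1 _ ha1 hκ1
      (fun D' => ∀ ρ, sfR2 (D'.lab 1 ρ) sfZero D'.s ≤ D'.s ^ (-a1) ∧ sfR1 (D'.lab 1 ρ) sfZero ≤ D'.s ^ (-(c1 - min τ c1 / 2))) hmin ?_
    intro κ0 C0 t D D' i j ι Sb Ub sg hκ0 hκle hg hB hs' hrow ρ
    obtain ⟨b, ρ', hU, e2, e1⟩ := hrow ρ
    have k1 : κ0 ≤ 1 / 4 := hκle.trans ((min_le_left _ _).trans (min_le_left _ _))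
    have k2 : κ0 ≤ a1 / 2 := hκle.trans ((min_le_left _ _).trans (min_le_right _ _))
    obtain ⟨n1, n2⟩ := sf_mc_num c1 (min τ c1) κ0 hτ1 (min_le_right _ _) hκ0 (hκle.trans (min_le_right _ _))
    have hd : 0 < j - i := by linarith [hB.hij]
    have hc := hB.c1 h20 b ρ' hU
    rw [e2, e1, hs']
    constructor
    · refine hc.1.trans (sf_mc_scale hg hB.hi hB.hj hB.hij hB.ht κ0 a1 ha1.le ?_)
      nlinarith
    · refine hc.2.trans (le_trans ?_ (sf_mc_scale hg hB.hi hB.hj hB.hij hB.ht _ _ n1 n2))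
      refine sf_mc_p_mono hg.1.hs.1 hg.1.hs.2 (mul_le_mul_of_nonneg_right ?_ hd.le)
      rw [h1']; linarith [min_le_left τ c1]

/-- `MinC` is monotone -/
theorem sf_mc_mono (D : SfDoc) (π' : SfPar) (τ τ' κ0 κ0' t : ℝ) (hs : 0 < D.s ∧ D.s < 1) (hτ : τ ≤ τ') (hκ : κ0' ≤ κ0)
    (h : D.MinC π' τ κ0 t) : D.MinC π' τ' κ0' t := by
  intro i hi j hj hij ht ι _ Sb Ub sg h1 h2 h3 h4 h5 h6 h7
  have hd : 0 < j - i := by linarith
  have hk : κ0' * (j - i) ≤ κ0 * (j - i) := mul_le_mul_of_nonneg_right hκ hd.le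
  have hc : ∀ c : ℝ, (c - τ') * (j - i) ≤ (c - τ) * (j - i) := fun c => mul_le_mul_of_nonneg_right (by linarith) hd.le
  refine (h i hi j hj hij (ht.trans hk) ι Sb Ub sg h1 h2 (fun ρ => (h3 ρ).trans (sf_mc_p_mono hs.1 hs.2 hk))
    (fun lam => (h4 lam).trans (sf_mc_p_mono hs.1 hs.2 hk)) h5
    (fun h0 b ρ' hU => (h6 h0 b ρ' hU).trans (sf_mc_p_mono hs.1 hs.2 (hc _)))
    (fun h0 b ρ' hU => ⟨(h7 h0 b ρ' hU).1.trans (sf_mc_p_mono hs.1 hs.2 hk), (h7 h0 b ρ' hU).2.trans (sf_mc_p_mono hs.1 hs.2 (hc _))⟩)).trans ?_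
  exact sf_mc_anti hs.1 hs.2 hk

/-- **(A8b)** ONE rigidity function for all `τ` -/
theorem sf_mc_minc_all (K : SfCls) (π : SfPar) (Ls : ℝ) (hK : K.Cal π Ls) (π' : SfPar) (h2 : π'.c2 = K.c2 π Ls)
    (h1 : π'.c2 = 0 → π'.c1 = K.c1 π Ls) (hpos : 0 < K.c2 π Ls ∨ (K.c2 π Ls = 0 ∧ 0 < K.c1 π Ls)) :
    ∃ κ0 : ℝ → ℝ, (∀ τ : ℝ, 0 < τ → 0 < κ0 τ) ∧ ∀ C0 t : ℝ, 0 < t →
      SfAll K.ob K.sc (fun c => K.Gd π Ls C0 t c → ∀ τ : ℝ, 0 < τ → (K.doc c).MinC π' τ (κ0 τ) t) := by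
  classical
  have hhalf : ((2 : ℝ)⁻¹) < 1 := by norm_num
  have hhalf0 : (0 : ℝ) < (2 : ℝ)⁻¹ := by norm_num
  choose κf hκf hM using fun k : ℕ => sf_mc_minc K π Ls hK π' h2 h1 hpos ((2 : ℝ)⁻¹ ^ k) (pow_pos hhalf0 k)
  have hex : ∀ τ : ℝ, ∃ k : ℕ, 0 < τ → (2 : ℝ)⁻¹ ^ k < τ := by
    intro τ
    by_cases hτ : 0 < τ
    · obtain ⟨k, hk⟩ := exists_pow_lt_of_lt_one hτ hhalf
      exact ⟨k, fun _ => hk⟩
    · exact ⟨0, fun h => absurd h hτ⟩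
  choose kk hkk using hex
  refine ⟨fun τ => min (κf (kk τ)) ((2 : ℝ)⁻¹ ^ kk τ), fun τ _ => lt_min (hκf _) (pow_pos hhalf0 _), fun C0 t ht => ?_⟩
  obtain ⟨N, hN⟩ := exists_pow_lt_of_lt_one ht hhalf
  have hall := sf_all_finset (ob := K.ob) (sc := K.sc) (Finset.range N)
    (A := fun k c => K.Gd π Ls C0 t c → (K.doc c).MinC π' ((2 : ℝ)⁻¹ ^ k) (κf k) t) (fun k _ => hM k C0 t ht)
  refine sf_all_mono (fun c hc hgd τ hτ => ?_) hall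
  have hs := hgd.1.1.hs
  by_cases hk : kk τ < N
  · exact sf_mc_mono _ _ _ _ _ _ _ hs (hkk τ hτ).le (min_le_left _ _) (hc _ (Finset.mem_range.2 hk) hgd)
  · intro i hi j hj hij ht'
    exfalso
    have h3 : (2 : ℝ)⁻¹ ^ kk τ ≤ (2 : ℝ)⁻¹ ^ N := pow_le_pow_of_le_one hhalf0.le hhalf.le (not_lt.1 hk)
    have h4 : min (κf (kk τ)) ((2 : ℝ)⁻¹ ^ kk τ) < t := lt_of_le_of_lt ((min_le_right _ _).trans h3) hN
    have h5 : 0 < min (κf (kk τ)) ((2 : ℝ)⁻¹ ^ kk τ) := lt_min (hκf _) (pow_pos hhalf0 _)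
    have hi0 := (hgd.1.1.gate.2 i hi).1
    have hj1 := (hgd.1.1.gate.2 j hj).2
    nlinarith

end Claimed.Agent.R256
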