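import Claimed.Agent.R256.Soft.AMinKit

/-!
# Row 256 (S0496), unit SOFT, A8 MINC, file 2: CRUDE SIZE BOUNDS IN A FRAME      (architect helper286; prefix `sf_mc_`)

Pure real algebra.   `sfMcFr0 T L r0 F0 al be K` = the frame with root time `T`, units `L, r0, F0`, centre `0`, shear `al X + be X² + K (..)` based at `T`.
`sf_mc_ray_size`, `sf_mc_tst_size`: coordinates of a ray / parameters of a test in such a frame are bounded by `10 B Z² / m³`, resp. `(Z + 2 B) R² Lm / m³`.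
-/

set_option autoImplicit false

namespace Claimed.Agent.R256

/-- a centred frame -/
def sfMcFr0 (T L r0 F0 al be K : ℝ) : SfFrame := ⟨T, L, 0, 0, 0, r0, F0, ⟨T, 0, 0, 0, 0, 0, al, be, K, 0, 0⟩⟩

theorem sf_mc_size_eqns_cite : True := by
  have := @sfMcFr0.eq_1
  trivial

theorem sf_mc_fr_eq (D : SfDoc) (i j : ℝ) (sg : SfTest) (T : ℝ) :
    sfMcFr D i j sg T = sfMcFr0 T (D.len i) (D.r j) (D.f j) sg.al (sg.beAt T) sg.K := rfl

theorem sf_mc_div_le {a b A m : ℝ} (ha : |a| ≤ A) (hm : 0 < m) (hb : m ≤ b) : |a / b| ≤ A / m := by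
  have hb0 : 0 < b := lt_of_lt_of_le hm hb
  rw [abs_div, abs_of_pos hb0]
  have hA : 0 ≤ A := (abs_nonneg a).trans ha
  calc |a| / b ≤ A / b := div_le_div_of_nonneg_right ha hb0.le
    _ ≤ A / m := div_le_div_of_nonneg_left hA hm hb

theorem sf_mc_ray_coord (z : SfRay) (Z : ℝ) (hz : z.size ≤ Z) : |z.X| ≤ Z ∧ |z.B| ≤ Z ∧ |z.Y| ≤ Z ∧ |z.N| ≤ Z ∧ |z.D| ≤ Z := by
  unfold SfRay.size at hz
  simp only [max_le_iff] at hz
  exact ⟨hz.1, hz.2.1, hz.2.2.1, hz.2.2.2.1, hz.2.2.2.2⟩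

theorem sf_mc_tst_coord (Q : SfTest) (Z : ℝ) (hz : Q.size ≤ Z) :
    |Q.x| ≤ Z ∧ |Q.b| ≤ Z ∧ |Q.y| ≤ Z ∧ |Q.c| ≤ Z ∧ |Q.d| ≤ Z ∧ |Q.al| ≤ Z ∧ |Q.be| ≤ Z ∧ |Q.K| ≤ Z := by
  unfold SfTest.size at hz
  simp only [max_le_iff] at hz
  exact ⟨hz.1, hz.2.1, hz.2.2.1, hz.2.2.2.1, hz.2.2.2.2.1, hz.2.2.2.2.2.1, hz.2.2.2.2.2.2.1, hz.2.2.2.2.2.2.2⟩

theorem sf_mc_mul_le {a b A B : ℝ} (ha : |a| ≤ A) (hb : |b| ≤ B) : |a * b| ≤ A * B := by
  rw [abs_mul]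
  exact mul_le_mul ha hb (abs_nonneg _) ((abs_nonneg _).trans ha)

/-- **(SIZE-1)** -/
theorem sf_mc_ray_size (T L r0 F0 al be K m B Z : ℝ) (z : SfRay) (hT : 0 ≤ T ∧ T ≤ 1) (hm : 0 < m ∧ m ≤ 1) (hL : m ≤ L) (hr : m ≤ r0)
    (hF : m ≤ F0) (hB : 1 ≤ B) (hal : |al| ≤ B) (hbe : |be| ≤ B) (hK : |K| ≤ B) (hZ : 1 ≤ Z) (hz : z.size ≤ Z) :
    ((sfMcFr0 T L r0 F0 al be K).ray z).size ≤ 10 * B * Z ^ 2 / m ^ 3 := by
  obtain ⟨hX, hBb, hY, hN, hD⟩ := sf_mc_ray_coord z Z hz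
  obtain ⟨hm0, hm1⟩ := hm
  have hTa : |T| ≤ 1 := by rw [abs_of_nonneg hT.1]; exact hT.2
  have hZZ : Z ≤ Z ^ 2 := by nlinarith
  obtain ⟨W, hW⟩ : ∃ W, W = B * Z ^ 2 := ⟨_, rfl⟩
  have hZ2W : Z ^ 2 ≤ W := by rw [hW]; nlinarith [sq_nonneg Z]
  have hBZW : B * Z ≤ W := by rw [hW]; exact mul_le_mul_of_nonneg_left hZZ (by linarith)
  have hW0 : 0 ≤ W := by rw [hW]; positivity
  have hX2 : |z.X ^ 2| ≤ Z ^ 2 := by
    rw [pow_two, pow_two]; exact sf_mc_mul_le hX hX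
  have hBt : |z.Bt T| ≤ 2 * Z := by
    unfold SfRay.Bt
    have := sf_mc_mul_le hTa hX
    calc |z.B + T * z.X| ≤ |z.B| + |T * z.X| := abs_add_le _ _
      _ ≤ 2 * Z := by linarith
  have hYt : |z.Yt T| ≤ 2 * Z ^ 2 := by
    unfold SfRay.Yt
    have := sf_mc_mul_le hTa hX2
    calc |z.Y + T * z.X ^ 2| ≤ |z.Y| + |T * z.X ^ 2| := abs_add_le _ _
      _ ≤ 2 * Z ^ 2 := by linarith
  have hDt : |z.Dt T| ≤ 2 * Z := by
    unfold SfRay.Dt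
    have := sf_mc_mul_le hTa hN
    calc |z.D + T * z.N| ≤ |z.D| + |T * z.N| := abs_add_le _ _
      _ ≤ 2 * Z := by linarith
  have hXB : |z.X * z.Bt T| ≤ 2 * Z ^ 2 := by
    have := sf_mc_mul_le hX hBt
    calc |z.X * z.Bt T| ≤ Z * (2 * Z) := this
      _ = 2 * Z ^ 2 := by ring
  have hBB : |z.Bt T ^ 2| ≤ 4 * Z ^ 2 := by
    have := sf_mc_mul_le hBt hBt
    rw [pow_two]
    calc |z.Bt T * z.Bt T| ≤ 2 * Z * (2 * Z) := this
      _ = 4 * Z ^ 2 := by ring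
  have hm3 : 0 < m ^ 3 := by positivity
  have hmm : m * m ≤ m := by nlinarith
  have hm32 : m ^ 3 ≤ m * m := by
    have : m ^ 3 = m * (m * m) := by ring
    rw [this]; nlinarith [mul_pos hm0 hm0]
  have hm31 : m ^ 3 ≤ m := hm32.trans hmm
  have hLr : m ^ 3 ≤ L * r0 := hm32.trans (mul_le_mul hL hr hm0.le (hm0.le.trans hL))
  have hLr2 : m ^ 3 ≤ L * r0 ^ 2 := by
    have h1 : m * m ≤ r0 * r0 := mul_le_mul hr hr hm0.le (hm0.le.trans hr)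
    have h2 : m * (m * m) ≤ L * (r0 * r0) := mul_le_mul hL h1 (mul_pos hm0 hm0).le (hm0.le.trans hL)
    calc m ^ 3 = m * (m * m) := by ring
      _ ≤ L * (r0 * r0) := h2
      _ = L * r0 ^ 2 := by ring
  have hLF : m ^ 3 ≤ L * F0 := hm32.trans (mul_le_mul hL hF hm0.le (hm0.le.trans hL))
  have e10 : 10 * B * Z ^ 2 = 10 * W := by rw [hW]; ring
  rw [e10]
  have hfin : ∀ a b : ℝ, |a| ≤ 10 * W → m ^ 3 ≤ b → |a / b| ≤ 10 * W / m ^ 3 :=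
    fun a b ha hb => sf_mc_div_le ha hm3 hb
  unfold SfRay.size
  simp only [sfMcFr0, SfFrame.ray, SfTest.shA, SfTest.shS, SfTest.beAt]
  refine max_le ?_ (max_le ?_ (max_le ?_ (max_le ?_ ?_)))
  · refine hfin _ _ ?_ (hm31.trans hr)
    rw [sub_zero]; linarith
  · refine hfin _ _ ?_ hLr
    rw [sub_zero]; linarith
  · refine hfin _ _ ?_ hLr2
    have : z.Yt T - 0 - 2 * 0 * (z.Bt T - 0) = z.Yt T := by ring
    rw [this]; linarith
  · refine hfin _ _ ?_ (hm31.trans hF)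
    have h1 := sf_mc_mul_le hal hX
    have h2 := sf_mc_mul_le hbe hX2
    have h3 : |z.Yt T - 2 * z.X * z.Bt T| ≤ 6 * Z ^ 2 := by
      have : z.Yt T - 2 * z.X * z.Bt T = z.Yt T + (-2) * (z.X * z.Bt T) := by ring
      rw [this]
      calc |z.Yt T + (-2) * (z.X * z.Bt T)| ≤ |z.Yt T| + |(-2) * (z.X * z.Bt T)| := abs_add_le _ _
        _ = |z.Yt T| + 2 * |z.X * z.Bt T| := by rw [abs_mul]; norm_num
        _ ≤ 6 * Z ^ 2 := by linarith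
    have h4 := sf_mc_mul_le hK h3
    have h4' : B * (6 * Z ^ 2) = 6 * W := by rw [hW]; ring
    have h2' : B * Z ^ 2 = W := hW.symm
    rw [h4'] at h4
    rw [h2'] at h2
    have e : z.N - (0 + al * z.X + be * z.X ^ 2 + K * (z.Yt T - 2 * z.X * z.Bt T))
        = z.N + (-(al * z.X)) + (-(be * z.X ^ 2)) + (-(K * (z.Yt T - 2 * z.X * z.Bt T))) := by ring
    rw [e]
    have t1 := abs_add_le (z.N + (-(al * z.X)) + (-(be * z.X ^ 2))) (-(K * (z.Yt T - 2 * z.X * z.Bt T)))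
    have t2 := abs_add_le (z.N + (-(al * z.X))) (-(be * z.X ^ 2))
    have t3 := abs_add_le z.N (-(al * z.X))
    rw [abs_neg] at t1 t2 t3
    linarith
  · refine hfin _ _ ?_ hLF
    have h1 := sf_mc_mul_le hal hBt
    have h2 := sf_mc_mul_le hbe hYt
    have h3 := sf_mc_mul_le hK hBB
    have h1' : B * (2 * Z) = 2 * (B * Z) := by ring
    have h2' : B * (2 * Z ^ 2) = 2 * W := by rw [hW]; ring
    have h3' : B * (4 * Z ^ 2) = 4 * W := by rw [hW]; ring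
    rw [h1'] at h1
    rw [h2'] at h2
    rw [h3'] at h3
    have e : z.Dt T - (0 + (T - T) * 0 + al * z.Bt T + (be + (T - T) * K) * z.Yt T - K * z.Bt T ^ 2)
        = z.Dt T + (-(al * z.Bt T)) + (-(be * z.Yt T)) + K * z.Bt T ^ 2 := by ring
    rw [e]
    have t1 := abs_add_le (z.Dt T + (-(al * z.Bt T)) + (-(be * z.Yt T))) (K * z.Bt T ^ 2)
    have t2 := abs_add_le (z.Dt T + (-(al * z.Bt T))) (-(be * z.Yt T))
    have t3 := abs_add_le (z.Dt T) (-(al * z.Bt T))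
    rw [abs_neg] at t2 t3
    linarith

/-- **(SIZE-2)** -/
theorem sf_mc_tst_size (T L r0 F0 al be K m B Z R Lm : ℝ) (Q : SfTest) (hT : 0 ≤ T ∧ T ≤ 1) (hQT : 0 ≤ Q.T ∧ Q.T ≤ 1) (hm : 0 < m ∧ m ≤ 1)
    (hL : m ≤ L) (hr : m ≤ r0) (hF : m ≤ F0) (hLm : L ≤ Lm) (hLm1 : 1 ≤ Lm) (hR : r0 ≤ R) (hR1 : 1 ≤ R)
    (hB : 1 ≤ B) (hal : |al| ≤ B) (hbe : |be| ≤ B) (hK : |K| ≤ B) (hZ : 1 ≤ Z) (hz : Q.size ≤ Z) :
    ((sfMcFr0 T L r0 F0 al be K).tst Q).size ≤ (Z + 2 * B) * R ^ 2 * Lm / m ^ 3 := by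
  obtain ⟨hx, hb, hy, hc, hd, hqa, hqb, hqk⟩ := sf_mc_tst_coord Q Z hz
  obtain ⟨hm0, hm1⟩ := hm
  have hm3 : 0 < m ^ 3 := by positivity
  have hmm : m * m ≤ m := by nlinarith
  have hm32 : m ^ 3 ≤ m * m := by
    have : m ^ 3 = m * (m * m) := by ring
    rw [this]; nlinarith [mul_pos hm0 hm0]
  have hm31 : m ^ 3 ≤ m := hm32.trans hmm
  have hLr : m ^ 3 ≤ L * r0 := hm32.trans (mul_le_mul hL hr hm0.le (hm0.le.trans hL))
  have hLr2 : m ^ 3 ≤ L * r0 ^ 2 := by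
    have h1 : m * m ≤ r0 * r0 := mul_le_mul hr hr hm0.le (hm0.le.trans hr)
    have h2 : m * (m * m) ≤ L * (r0 * r0) := mul_le_mul hL h1 (mul_pos hm0 hm0).le (hm0.le.trans hL)
    calc m ^ 3 = m * (m * m) := by ring
      _ ≤ L * (r0 * r0) := h2
      _ = L * r0 ^ 2 := by ring
  have hLF : m ^ 3 ≤ L * F0 := hm32.trans (mul_le_mul hL hF hm0.le (hm0.le.trans hL))
  have hr0 : 0 < r0 := lt_of_lt_of_le hm0 hr
  have hL0 : 0 < L := lt_of_lt_of_le hm0 hL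
  obtain ⟨V, hV⟩ : ∃ V, V = Z + 2 * B := ⟨_, rfl⟩
  have hV1 : 1 ≤ V := by rw [hV]; linarith
  have hR2 : 1 ≤ R ^ 2 := one_le_pow₀ hR1
  have hr2 : r0 ^ 2 ≤ R ^ 2 := pow_le_pow_left₀ hr0.le hR 2
  obtain ⟨W, hW⟩ : ∃ W, W = V * R ^ 2 * Lm := ⟨_, rfl⟩
  have hVR : V ≤ V * R ^ 2 := le_mul_of_one_le_right (by linarith) hR2
  have hVRL : V * R ^ 2 ≤ W := by rw [hW]; exact le_mul_of_one_le_right (by positivity) hLm1
  have hVW : V ≤ W := hVR.trans hVRL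
  have hZW : Z ≤ W := by
    have : Z ≤ V := by rw [hV]; linarith
    linarith
  rw [← hV, ← hW]
  have hfin : ∀ a b : ℝ, |a| ≤ W → m ^ 3 ≤ b → |a / b| ≤ W / m ^ 3 :=
    fun a b ha hb => sf_mc_div_le ha hm3 hb
  have hdal : |Q.al - al| ≤ V := by
    have := abs_sub Q.al al
    rw [hV]; linarith
  have hdK : |Q.K - K| ≤ V := by
    have := abs_sub Q.K K
    rw [hV]; linarith
  have hTT : |Q.T - T| ≤ 1 := by
    rw [abs_le]; constructor <;> linarith [hT.1, hT.2, hQT.1, hQT.2]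
  have hdbe : |Q.be - (be + (Q.T - T) * K)| ≤ V := by
    have h1 := sf_mc_mul_le hTT hK
    have e : Q.be - (be + (Q.T - T) * K) = Q.be + (-be) + (-((Q.T - T) * K)) := by ring
    rw [e]
    have t1 := abs_add_le (Q.be + (-be)) (-((Q.T - T) * K))
    have t2 := abs_add_le Q.be (-be)
    rw [abs_neg] at t1 t2
    rw [hV]; linarith
  unfold SfTest.size
  simp only [sfMcFr0, SfFrame.tst, SfFrame.bc, SfFrame.yc, SfTest.beAt]
  refine max_le ?_ (max_le ?_ (max_le ?_ (max_le ?_ (max_le ?_ (max_le ?_ (max_le ?_ ?_))))))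
  · refine hfin _ _ ?_ (hm31.trans hr)
    rw [sub_zero]; linarith
  · refine hfin _ _ ?_ hLr
    have : Q.b - (0 + (Q.T - T) * 0) = Q.b := by ring
    rw [this]; linarith
  · refine hfin _ _ ?_ hLr2
    have : Q.y - (0 + (Q.T - T) * 0 ^ 2) - 2 * 0 * (Q.b - (0 + (Q.T - T) * 0)) = Q.y := by ring
    rw [this]; linarith
  · refine hfin _ _ ?_ (hm31.trans hF)
    have : Q.c - 0 + (Q.al - al) * 0 + (Q.be - (be + (Q.T - T) * K)) * 0 ^ 2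
        + (Q.K - K) * (0 + (Q.T - T) * 0 ^ 2 - 2 * 0 * (0 + (Q.T - T) * 0)) = Q.c := by ring
    rw [this]; linarith
  · refine hfin _ _ ?_ hLF
    have : Q.d - (0 + (Q.T - T) * 0) + (Q.al - al) * (0 + (Q.T - T) * 0) + (Q.be - (be + (Q.T - T) * K)) * (0 + (Q.T - T) * 0 ^ 2)
        - (Q.K - K) * (0 + (Q.T - T) * 0) ^ 2 = Q.d := by ring
    rw [this]; linarith
  · refine hfin _ _ ?_ (hm31.trans hF)
    have : r0 * (Q.al - al + 2 * (Q.be - (be + (Q.T - T) * K)) * 0 - 2 * (Q.K - K) * (0 + (Q.T - T) * 0)) = (Q.al - al) * r0 := by ring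
    rw [this]
    have hRR : R ≤ R ^ 2 := by rw [pow_two]; exact le_mul_of_one_le_left (by linarith) hR1
    have h1 : |r0| ≤ R ^ 2 := by rw [abs_of_pos hr0]; exact hR.trans hRR
    exact (sf_mc_mul_le hdal h1).trans hVRL
  · refine hfin _ _ ?_ (hm31.trans hF)
    have h1 : |r0 ^ 2| ≤ R ^ 2 := by rw [abs_of_pos (by positivity)]; exact hr2
    exact (sf_mc_mul_le hdbe h1).trans hVRL
  · refine hfin _ _ ?_ (hm31.trans hF)
    have h1 : |r0 ^ 2| ≤ R ^ 2 := by rw [abs_of_pos (by positivity)]; exact hr2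
    have h2 : |L| ≤ Lm := by rw [abs_of_pos hL0]; exact hLm
    have e : (Q.K - K) * L * r0 ^ 2 = (Q.K - K) * r0 ^ 2 * L := by ring
    rw [e, hW]
    exact sf_mc_mul_le (sf_mc_mul_le hdK h1) h2

end Claimed.Agent.R256
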