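import Claimed.Agent.R256.Soft.Mono

/-!
# Row 256 (S0496), unit SOFT, A4 COST (closure part)      (chief helper19)      leaf L-256-SOFT-COST
The minimal costs are attained and minimality is RIGID with a package-free accuracy.   Pure pattern calculus (`Soft/Pat.lean`: `sf_not_all_iff`, `sf_ex_mono`) + `sf_good_mono`.
`sf_feas2_c2`: for `t` take `c < c2 + t/2` feasible, use it at `t/2`.      `sf_min2`: otherwise for every `a` some `C0` has `SfEx (Good C0 a ∧ R2 ≤ s^-(c2-τ))`, i.e. `Feas2 (c2 - τ)`, against `csInf_le`.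
-/

set_option autoImplicit false

namespace Claimed.Agent.R256

open Claimed.Agent.R255

variable (K : SfCls) (π : SfPar) (Ls : ℝ)

/-- `s^x` is antitone for the scale of a good configuration -/
theorem sf_cost_anti (D : SfDoc) (π : SfPar) (Ls C0 t : ℝ) (h : D.Good π Ls C0 t) {x y : ℝ} (hxy : x ≤ y) : D.s ^ y ≤ D.s ^ x :=
  Real.rpow_le_rpow_of_exponent_ge h.1.hs.1 h.1.hs.2.le hxy

/-- `Gd` is monotone in the accuracy -/
theorem sf_gd_mono (hm : ∀ c a a', 0 < a → a ≤ a' → K.md c a → K.md c a') (C0 t t' : ℝ) (ht : 0 < t) (htt : t ≤ t') (c : K.Cfg)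
    (h : K.Gd π Ls C0 t c) : K.Gd π Ls C0 t' c :=
  ⟨sf_good_mono _ π Ls C0 t t' ht htt h.1, hm c t t' ht htt h.2⟩

/-- **(A4)** the minimum is attained -/
theorem sf_feas2_c2 (hm : ∀ c a a', 0 < a → a ≤ a' → K.md c a → K.md c a') (h : ∃ c : ℝ, 0 ≤ c ∧ K.Feas2 π Ls c) : 0 ≤ K.c2 π Ls ∧ K.Feas2 π Ls (K.c2 π Ls) := by
  have hne : ({c | 0 ≤ c ∧ K.Feas2 π Ls c} : Set ℝ).Nonempty := h
  refine ⟨le_csInf hne fun c hc => hc.1, fun t ht => ?_⟩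
  obtain ⟨c, hc, hlt⟩ := Real.lt_sInf_add_pos hne (half_pos ht)
  obtain ⟨C0, hex⟩ := hc.2 (t / 2) (half_pos ht)
  refine ⟨C0, sf_ex_mono (fun cf hcf => ⟨sf_gd_mono K π Ls hm C0 _ t (half_pos ht) (by linarith) cf hcf.1, fun ρ => ?_⟩) hex⟩
  refine (hcf.2 ρ).trans (sf_cost_anti _ π Ls C0 _ hcf.1.1 ?_)
  have hlt' : c < K.c2 π Ls + t / 2 := hlt
  linarith

/-- **(A4)** RIGID minimality of `c_2`: a fixed improvement is impossible; the accuracy is package free -/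
theorem sf_min2 (τ : ℝ) (hτ : 0 < τ) (hτ2 : τ ≤ K.c2 π Ls) : ∃ a : ℝ, 0 < a ∧ ∀ C0 : ℝ,
    SfAll K.ob K.sc (fun cf => ¬ (K.Gd π Ls C0 a cf ∧
      ∀ ρ, sfR2 ((K.doc cf).lab 1 ρ) sfZero (K.doc cf).s ≤ (K.doc cf).s ^ (-(K.c2 π Ls - τ)))) := by
  by_contra hcon
  have hF : K.Feas2 π Ls (K.c2 π Ls - τ) := by
    intro t ht
    by_contra hno
    apply hcon
    refine ⟨t, ht, fun C0 => ?_⟩
    by_contra hall
    apply hno
    refine ⟨C0, sf_ex_mono (fun cf hcf => ?_) (sf_not_all_iff.1 hall)⟩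
    have hcf' := not_not.1 hcf
    refine ⟨hcf'.1, fun ρ => (hcf'.2 ρ).trans (sf_cost_anti _ π Ls C0 _ hcf'.1.1 ?_)⟩
    linarith
  have hle : K.c2 π Ls ≤ K.c2 π Ls - τ :=
    csInf_le ⟨0, fun c hc => hc.1⟩ (show K.c2 π Ls - τ ∈ {c | 0 ≤ c ∧ K.Feas2 π Ls c} from ⟨by linarith, hF⟩)
  linarith

theorem sf_feas1_c1 (hm : ∀ c a a', 0 < a → a ≤ a' → K.md c a → K.md c a') (h : ∃ c : ℝ, 0 ≤ c ∧ K.Feas1 π Ls c) : 0 ≤ K.c1 π Ls ∧ K.Feas1 π Ls (K.c1 π Ls) := by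
  have hne : ({c | 0 ≤ c ∧ K.Feas1 π Ls c} : Set ℝ).Nonempty := h
  refine ⟨le_csInf hne fun c hc => hc.1, fun t ht => ?_⟩
  obtain ⟨c, hc, hlt⟩ := Real.lt_sInf_add_pos hne (half_pos ht)
  obtain ⟨C0, hex⟩ := hc.2 (t / 2) (half_pos ht)
  refine ⟨C0, sf_ex_mono (fun cf hcf => ⟨sf_gd_mono K π Ls hm C0 _ t (half_pos ht) (by linarith) cf hcf.1, fun ρ => ⟨?_, ?_⟩⟩) hex⟩
  · refine (hcf.2 ρ).1.trans (sf_cost_anti _ π Ls C0 _ hcf.1.1 ?_)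
    linarith
  · refine (hcf.2 ρ).2.trans (sf_cost_anti _ π Ls C0 _ hcf.1.1 ?_)
    have hlt' : c < K.c1 π Ls + t / 2 := hlt
    linarith

/-- **(A4)** RIGID minimality of `c_1` (lexicographic) -/
theorem sf_min1 (τ : ℝ) (hτ : 0 < τ) (hτ2 : τ ≤ K.c1 π Ls) : ∃ a : ℝ, 0 < a ∧ ∀ C0 : ℝ,
    SfAll K.ob K.sc (fun cf => ¬ (K.Gd π Ls C0 a cf ∧
      ∀ ρ, sfR2 ((K.doc cf).lab 1 ρ) sfZero (K.doc cf).s ≤ (K.doc cf).s ^ (-a) ∧
        sfR1 ((K.doc cf).lab 1 ρ) sfZero ≤ (K.doc cf).s ^ (-(K.c1 π Ls - τ)))) := by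
  by_contra hcon
  have hF : K.Feas1 π Ls (K.c1 π Ls - τ) := by
    intro t ht
    by_contra hno
    apply hcon
    refine ⟨t, ht, fun C0 => ?_⟩
    by_contra hall
    apply hno
    refine ⟨C0, sf_ex_mono (fun cf hcf => ?_) (sf_not_all_iff.1 hall)⟩
    have hcf' := not_not.1 hcf
    refine ⟨hcf'.1, fun ρ => ⟨(hcf'.2 ρ).1, (hcf'.2 ρ).2.trans (sf_cost_anti _ π Ls C0 _ hcf'.1.1 ?_)⟩⟩
    linarith
  have hle : K.c1 π Ls ≤ K.c1 π Ls - τ :=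
    csInf_le ⟨0, fun c hc => hc.1⟩ (show K.c1 π Ls - τ ∈ {c | 0 ≤ c ∧ K.Feas1 π Ls c} from ⟨by linarith, hF⟩)
  linarith

end Claimed.Agent.R256
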