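import Claimed.Agent.R256.Soft.AAbDefs
import Claimed.Agent.R256.Soft.Cost

/-!
# Row 256 (S0496), unit SOFT, A5 AB, file 3: RES KIT AND THE CLEANING COMBINATOR      (architect helper55; prefix `sf_ab_`)      no sorry

* `SfDoc.Eqv D' D e`      `D'` has the scale, gates, lengths, widths of `D`; `e` maps rows to rows of the same gate with the same label and preserves `Conn`.
* `sf_ab_sub_eqv`         a sub-configuration on `[0,1]` in the trivial frame with the same gates (= the output of RES) is `Eqv`.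
* `sf_ab_eqv_rowB/K/P`, `sf_ab_eqv_cost`      the row bounds and the terminal costs are invariant.
* `SfCls.Rst c' c`        `c'` comes from `c` by restrictions: `Eqv` shadows, the same `hp`, the same `ek`.      Reflexive, transitive.
* `sf_ab_op_*`            calculus of operations `K.Op R A` (identity, monotonicity, composition, intersection with RIGID statements on both sides, action on EXIST statements).
* `sf_ab_res`             RES with two classes as an operation.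
* `sf_ab_clean`           THE COMBINATOR (an operation): a row predicate `Φ` which is invariant and which, RIGIDLY, does not fail on all rows of a gate, can be imposed on all rows of all gates.
-/

set_option autoImplicit false

namespace Claimed.Agent.R256

open Claimed.Agent.R255

theorem sf_ab_frame1_tst (Q : SfTest) : sfFrame1.tst Q = Q := by
  obtain ⟨T, x, b, y, c, d, al, be, K, r, f⟩ := Q
  simp [sfFrame1, SfFrame.tst, SfFrame.bc, SfFrame.yc, sfZero, SfTest.beAt]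

namespace SfDoc

/-- `D'` has the scale, the gates, the lengths and the widths of `D`; `e` maps rows to rows of the same gate with the same label -/
structure Eqv (D' D : SfDoc) (e : D'.Rw → D.Rw) : Prop where
  hs : D'.s = D.s
  hG : D'.G = D.G
  dep : ∀ u, (e u).1 = u.1
  hlen : ∀ k ∈ D.G, D'.len k = D.len k
  hr : ∀ k ∈ D.G, D'.r k = D.r k
  hf : ∀ k ∈ D.G, D'.f k = D.f k
  hlab : ∀ u : D'.Rw, u.1 ∈ D.G → D'.lab u.1 u.2 = D.lab (e u).1 (e u).2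
  conn : ∀ u v : D'.Rw, D'.Conn u.1 v.1 u.2 v.2 → D.Conn (e u).1 (e v).1 (e u).2 (e v).2

end SfDoc

/-- the output of RES is `Eqv` -/
theorem sf_ab_sub_eqv (D' D : SfDoc) (π : SfPar) (C0 a : ℝ) (hc : D.Core π C0 a) (Gk : Finset ℝ) (e : D'.Rw → D.Rw)
    (hsub : D'.Sub D 0 1 sfFrame1 Gk 0 e) (hG : D'.G = D.G) : D'.Eqv D e := by
  have hk : ∀ k : ℝ, 0 + k * (1 - 0) = k := fun k => by ring
  have hs : D'.s = D.s := by
    have := hsub.hs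
    rw [hc.hlen.1] at this
    simpa [sfFrame1] using this
  have hdep : ∀ u, (e u).1 = u.1 := fun u => by rw [hsub.dep u, hk]
  have hr : ∀ k ∈ D.G, D'.r k = D.r k := by
    intro k hkG
    have := hsub.hr k (hG ▸ hkG)
    rw [hk, hc.hw.1, div_one] at this
    exact this
  have hf : ∀ k ∈ D.G, D'.f k = D.f k := by
    intro k hkG
    obtain ⟨h1, h2, -⟩ := hsub.hf k (hG ▸ hkG)
    rw [hk, hc.hw.2.1, div_one] at h1 h2
    rw [neg_zero, Real.rpow_zero, one_mul] at h2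
    exact le_antisymm h2 h1
  refine ⟨hs, hG, hdep, ?_, hr, hf, ?_, hsub.conn⟩
  · intro k hkG
    have := hsub.hlen k (hG ▸ hkG)
    rw [hk] at this
    simpa [sfFrame1] using this
  · intro u hu
    have h1 := hsub.hlab u (hG ▸ hu)
    rw [sf_ab_frame1_tst] at h1
    have hu' : (e u).1 ∈ D.G := by rw [hdep u]; exact hu
    have hown := hc.own (e u).1 hu' (e u).2
    rw [h1]
    have e1 : (D.lab (e u).1 (e u).2).r = D'.r u.1 := by rw [hown.1, hdep u, hr u.1 hu]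
    have e2 : (D.lab (e u).1 (e u).2).f = D'.f u.1 := by rw [hown.2.1, hdep u, hf u.1 hu]
    rw [← e1, ← e2]

section Inv

variable {D' D : SfDoc} {e : D'.Rw → D.Rw}

theorem sf_ab_eqv_w2 (h : D'.Eqv D e) (k : ℝ) (hk : k ∈ D.G) : D'.w2 k = D.w2 k := by
  unfold SfDoc.w2
  rw [h.hr k hk, h.hf k hk]

theorem sf_ab_eqv_w1 (h : D'.Eqv D e) (k : ℝ) (hk : k ∈ D.G) : D'.w1 k = D.w1 k := by
  unfold SfDoc.w1
  rw [h.hr k hk, h.hf k hk]

theorem sf_ab_eqv_cv (h : D'.Eqv D e) (u : D'.Rw) (hu : u.1 ∈ D.G) : D'.cv u = D.cv (e u) := by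
  have hl : D'.len u.1 = D.len (e u).1 := by rw [h.dep u]; exact h.hlen u.1 hu
  unfold SfDoc.cv
  rw [h.hlab u hu, hl]

theorem sf_ab_eqv_rowB (h : D'.Eqv D e) (c t : ℝ) (u : D'.Rw) (hu : u.1 ∈ D.G) : D'.RowB c t u ↔ D.RowB c t (e u) := by
  have hd := h.dep u
  unfold SfDoc.RowB
  rw [sf_ab_eqv_cv h u hu, h.hs, h.hG]
  constructor
  · intro H V h1 h2
    exact H V h1 (fun k hk hle => by rw [sf_ab_eqv_w2 h k hk]; exact h2 k hk (hd.le.trans hle))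
  · intro H V h1 h2
    exact H V h1 (fun k hk hle => by rw [← sf_ab_eqv_w2 h k hk]; exact h2 k hk (hd.ge.trans hle))

theorem sf_ab_eqv_rowK (h : D'.Eqv D e) (c t : ℝ) (u : D'.Rw) (hu : u.1 ∈ D.G) : D'.RowK c t u ↔ D.RowK c t (e u) := by
  have hd := h.dep u
  unfold SfDoc.RowK
  rw [h.hlab u hu, h.hs, h.hG]
  constructor
  · intro H V h1 h2 h3
    exact H V h1 (fun k hk => by rw [sf_ab_eqv_w2 h k hk]; exact h2 k hk)
      (fun k hk hle => by rw [sf_ab_eqv_w2 h k hk, h.hlen k hk]; exact h3 k hk (hle.trans hd.ge))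
  · intro H V h1 h2 h3
    exact H V h1 (fun k hk => by rw [← sf_ab_eqv_w2 h k hk]; exact h2 k hk)
      (fun k hk hle => by rw [← sf_ab_eqv_w2 h k hk, ← h.hlen k hk]; exact h3 k hk (hle.trans hd.le))

theorem sf_ab_eqv_rowP (h : D'.Eqv D e) (c t : ℝ) (u : D'.Rw) (hu : u.1 ∈ D.G) : D'.RowP c t u ↔ D.RowP c t (e u) := by
  have hd := h.dep u
  unfold SfDoc.RowP
  rw [h.hlab u hu, h.hs, h.hG]
  constructor
  · intro H V h1 h2
    exact H V h1 (fun k hk hle => by rw [sf_ab_eqv_w1 h k hk]; exact h2 k hk (hd.le.trans hle))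
  · intro H V h1 h2
    exact H V h1 (fun k hk hle => by rw [← sf_ab_eqv_w1 h k hk]; exact h2 k hk (hd.ge.trans hle))

/-- a property of the labels of one gate, in `Rw` form -/
theorem sf_ab_gate_rw (D : SfDoc) (i : ℝ) (Φ : SfTest → Prop) : (∀ ρ : D.Row i, Φ (D.lab i ρ)) ↔ ∀ u : D.Rw, u.1 = i → Φ (D.lab u.1 u.2) := by
  constructor
  · rintro H ⟨k, ρ⟩ rfl
    exact H ρ
  · intro H ρ
    exact H ⟨i, ρ⟩ rfl

/-- a property of all labels of a gate is inherited -/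
theorem sf_ab_eqv_gate (h : D'.Eqv D e) (i : ℝ) (hi : i ∈ D.G) (Φ : SfTest → Prop) (H : ∀ ρ : D.Row i, Φ (D.lab i ρ)) : ∀ ρ : D'.Row i, Φ (D'.lab i ρ) := by
  rw [sf_ab_gate_rw] at H ⊢
  intro u hu
  rw [h.hlab u (hu ▸ hi)]
  exact H (e u) ((h.dep u).trans hu)

theorem sf_ab_eqv_cost (h : D'.Eqv D e) (h1 : (1 : ℝ) ∈ D.G) (π : SfPar) (t : ℝ) (H : D.Cost π t) : D'.Cost π t := by
  unfold SfDoc.Cost at H ⊢
  rw [h.hs]
  exact sf_ab_eqv_gate h 1 h1 (fun Q => sfR2 Q sfZero D.s ≤ D.s ^ (-(π.c2 + t)) ∧ (π.c2 = 0 → sfR1 Q sfZero ≤ D.s ^ (-(π.c1 + t)))) H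

end Inv

theorem sf_ab_cost_mono (D : SfDoc) (hs : 0 < D.s ∧ D.s < 1) (π : SfPar) (t t' : ℝ) (htt : t ≤ t') (H : D.Cost π t) : D.Cost π t' := by
  intro ρ
  refine ⟨(H ρ).1.trans (sf_mono_aux_le hs (by linarith)), fun h0 => ((H ρ).2 h0).trans (sf_mono_aux_le hs (by linarith))⟩

/-! ### small scales -/

theorem sf_ab_small (a N : ℝ) (ha : 0 < a) : ∃ s1 : ℝ, 0 < s1 ∧ ∀ s : ℝ, 0 < s → s < s1 → N ≤ s ^ (-a) := by
  have hN : 0 < max N 1 := lt_of_lt_of_le one_pos (le_max_right _ _)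
  refine ⟨(max N 1) ^ (-(1 / a)), Real.rpow_pos_of_pos hN _, fun s hs hlt => ?_⟩
  have h1 : ((max N 1) ^ (-(1 / a))) ^ (-a) ≤ s ^ (-a) := Real.rpow_le_rpow_of_nonpos hs hlt.le (by linarith)
  rw [← Real.rpow_mul hN.le] at h1
  have h2 : -(1 / a) * -a = 1 := by field_simp
  rw [h2, Real.rpow_one] at h1
  exact (le_max_left _ _).trans h1

theorem sf_ab_all_small (K : SfCls) (hsc : ∀ c, (K.doc c).s ≤ K.sc c) (a N : ℝ) (ha : 0 < a) :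
    SfAll K.ob K.sc (fun c => 0 < (K.doc c).s → N ≤ (K.doc c).s ^ (-a)) := by
  obtain ⟨s1, h1, H⟩ := sf_ab_small a N ha
  exact fun _ => ⟨s1, h1, fun c _ hlt hpos => H _ hpos (lt_of_le_of_lt (hsc c) hlt)⟩

/-! ### restrictions -/

theorem sf_ab_eqv_refl (D : SfDoc) : D.Eqv D id :=
  ⟨rfl, rfl, fun _ => rfl, fun _ _ => rfl, fun _ _ => rfl, fun _ _ => rfl, fun _ _ => rfl, fun _ _ h => h⟩

theorem sf_ab_eqv_trans {D'' D' D : SfDoc} {e' : D''.Rw → D'.Rw} {e : D'.Rw → D.Rw} (h' : D''.Eqv D' e') (h : D'.Eqv D e) : D''.Eqv D (e ∘ e') := by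
  refine ⟨h'.hs.trans h.hs, h'.hG.trans h.hG, fun u => (h.dep (e' u)).trans (h'.dep u), ?_, ?_, ?_, ?_, fun u v hc => h.conn _ _ (h'.conn u v hc)⟩
  · exact fun k hk => (h'.hlen k (h.hG ▸ hk)).trans (h.hlen k hk)
  · exact fun k hk => (h'.hr k (h.hG ▸ hk)).trans (h.hr k hk)
  · exact fun k hk => (h'.hf k (h.hG ▸ hk)).trans (h.hf k hk)
  · intro u hu
    exact (h'.hlab u (h.hG ▸ hu)).trans (h.hlab (e' u) (by rw [h'.dep u]; exact hu))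

/-- `c'` comes from `c` by restrictions (RES): the same scale, gates, lengths, widths, labels along a map of rows, Planck parameter, `e/κ` -/
def SfCls.Rst (K : SfCls) (c' c : K.Cfg) : Prop :=
  ∃ e : (K.doc c').Rw → (K.doc c).Rw, (K.doc c').Eqv (K.doc c) e ∧ K.hp c' = K.hp c ∧ (K.doc c').ek = (K.doc c).ek

theorem sf_ab_rst_eqns_cite : True := by
  have := @SfCls.Rst.eq_1
  trivial

theorem sf_ab_rst_refl (K : SfCls) (c : K.Cfg) : K.Rst c c := ⟨id, sf_ab_eqv_refl _, rfl, rfl⟩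

theorem sf_ab_rst_trans (K : SfCls) {c'' c' c : K.Cfg} (h' : K.Rst c'' c') (h : K.Rst c' c) : K.Rst c'' c := by
  obtain ⟨e', g1, g2, g3⟩ := h'
  obtain ⟨e, k1, k2, k3⟩ := h
  exact ⟨e ∘ e', sf_ab_eqv_trans g1 k1, g2.trans k2, g3.trans k3⟩

/-! ### calculus of operations -/

section Op

variable (K : SfCls)

theorem sf_ab_op_id (A : K.Cfg → Prop) : K.Op (fun c' c => c' = c) A :=
  fun S => ⟨S, fun σ' hσ' => ⟨σ', hσ', fun c h1 h2 _ => ⟨c, h1, h2, rfl⟩⟩⟩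

theorem sf_ab_op_mono {R R' : K.Cfg → K.Cfg → Prop} {A A' : K.Cfg → Prop} (hA : ∀ c, A' c → A c) (hR : ∀ c' c, A' c → R c' c → R' c' c)
    (h : K.Op R A) : K.Op R' A' := by
  intro S
  obtain ⟨S', hS'⟩ := h S
  refine ⟨S', fun σ' hσ' => ?_⟩
  obtain ⟨σ, hσ, H⟩ := hS' σ' hσ'
  refine ⟨σ, hσ, fun c h1 h2 h3 => ?_⟩
  obtain ⟨c', g1, g2, g3⟩ := H c h1 h2 (hA c h3)
  exact ⟨c', g1, g2, hR c' c h3 g3⟩

theorem sf_ab_op_comp {R1 R2 : K.Cfg → K.Cfg → Prop} {A1 A2 : K.Cfg → Prop} (h1 : K.Op R1 A1) (h2 : K.Op R2 A2)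
    (hA : ∀ c' c, A1 c → R1 c' c → A2 c') : K.Op (fun c'' c => ∃ c', R2 c'' c' ∧ R1 c' c) A1 := by
  intro S
  obtain ⟨S1, hS1⟩ := h1 S
  obtain ⟨S2, hS2⟩ := h2 S1
  refine ⟨S2, fun σ'' hσ'' => ?_⟩
  obtain ⟨σ', hσ', H2⟩ := hS2 σ'' hσ''
  obtain ⟨σ, hσ, H1⟩ := hS1 σ' hσ'
  refine ⟨σ, hσ, fun c g1 g2 g3 => ?_⟩
  obtain ⟨c', k1, k2, k3⟩ := H1 c g1 g2 g3
  obtain ⟨c'', l1, l2, l3⟩ := H2 c' k1 k2 (hA c' c g3 k3)
  exact ⟨c'', l1, l2, c', l3, k3⟩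

/-- the output of an operation satisfies every RIGID statement -/
theorem sf_ab_op_out_all {R : K.Cfg → K.Cfg → Prop} {A B : K.Cfg → Prop} (h : K.Op R A) (hB : SfAll K.ob K.sc B) :
    K.Op (fun c' c => R c' c ∧ B c') A := by
  intro S
  obtain ⟨S', hS'⟩ := h S
  obtain ⟨s0, h0, hB'⟩ := hB S'
  refine ⟨S', fun σ' hσ' => ?_⟩
  obtain ⟨σ, hσ, H⟩ := hS' (min σ' s0) (lt_min hσ' h0)
  refine ⟨σ, hσ, fun c h1 h2 h3 => ?_⟩
  obtain ⟨c', g1, g2, g3⟩ := H c h1 h2 h3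
  exact ⟨c', g1, lt_of_lt_of_le g2 (min_le_left _ _), g3, hB' c' g1 (lt_of_lt_of_le g2 (min_le_right _ _))⟩

/-- the input of an operation satisfies every RIGID statement -/
theorem sf_ab_op_in_all {R : K.Cfg → K.Cfg → Prop} {A B : K.Cfg → Prop} (h : K.Op R (fun c => A c ∧ B c)) (hB : SfAll K.ob K.sc B) : K.Op R A := by
  intro S
  obtain ⟨S', hS'⟩ := h S
  obtain ⟨s0, h0, hB'⟩ := hB S
  refine ⟨S', fun σ' hσ' => ?_⟩
  obtain ⟨σ, hσ, H⟩ := hS' σ' hσ'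
  refine ⟨min σ s0, lt_min hσ h0, fun c h1 h2 h3 => ?_⟩
  exact H c h1 (lt_of_lt_of_le h2 (min_le_left _ _)) ⟨h3, hB' c h1 (lt_of_lt_of_le h2 (min_le_right _ _))⟩

/-- an EXIST statement is transported by an operation -/
theorem sf_ab_ex_op {R : K.Cfg → K.Cfg → Prop} {A : K.Cfg → Prop} (hA : SfEx K.ob K.sc A) (hop : K.Op R A) :
    SfEx K.ob K.sc (fun c' => ∃ c, A c ∧ R c' c) := by
  obtain ⟨S, hS⟩ := hA
  obtain ⟨S', hS'⟩ := hop S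
  refine ⟨S', fun s0 h0 => ?_⟩
  obtain ⟨σ, hσ, H⟩ := hS' s0 h0
  obtain ⟨c, h1, h2, h3⟩ := hS σ hσ
  obtain ⟨c', h4, h5, h6⟩ := H c h1 h2 h3
  exact ⟨c', h4, h5, c, h3, h6⟩

end Op

/-! ### RES as an operation -/

/-- **RES with two classes** -/
theorem sf_ab_res (K : SfCls) (π : SfPar) (Ls : ℝ) (hrs : K.CalRs π Ls) (h t : ℝ) (hh : 0 < h) (ht : 0 < t) :
    ∃ a : ℝ, 0 < a ∧ ∀ (C0 i : ℝ) (cl : ∀ c : K.Cfg, (K.doc c).Row i → Bool),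
      K.Op (fun c' c => ∃ (b : Bool) (e : (K.doc c').Rw → (K.doc c).Rw), K.Gd π Ls C0 t c' ∧
          (K.doc c').Eqv (K.doc c) e ∧ K.hp c' = K.hp c ∧ (K.doc c').ek = (K.doc c).ek ∧
          ∀ (u : (K.doc c').Rw) (ρ : (K.doc c).Row i), e u = ⟨i, ρ⟩ → cl c ρ = b)
        (fun c => K.Gd π Ls C0 a c ∧ (K.doc c).Gap h ∧ i ∈ (K.doc c).G ∧ (2 : ℝ) ≤ (K.doc c).s ^ (-a)) := by
  obtain ⟨a, ha, H⟩ := hrs h t hh ht
  refine ⟨a, ha, fun C0 i cl S => ?_⟩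
  obtain ⟨S', hS'⟩ := H C0 S
  refine ⟨S', fun s0 h0 => ?_⟩
  obtain ⟨σ, hσ, H2⟩ := hS' s0 h0
  refine ⟨σ, hσ, fun c hob hsc hA => ?_⟩
  obtain ⟨hg, hgap, hi, h2⟩ := hA
  obtain ⟨c', b, e, g1, g2, g3, g4, g5, g6, g7, g8, -, -⟩ := H2 c hob hsc hg hgap i hi Bool (cl c) (by simpa using h2)
  exact ⟨c', g1, g2, b, e, g3, sf_ab_sub_eqv _ _ π C0 a hg.1.1 _ e g7 g5, g4, g6, g8⟩

/-! ### the cleaning combinator -/

/-- **CLEAN, one gate.** -/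
theorem sf_ab_clean_step (K : SfCls) (π : SfPar) (Ls : ℝ) (hK : K.Cal π Ls) (G0 : Finset ℝ) (h : ℝ) (hh : 0 < h) (hgap : ∀ D : SfDoc, D.G = G0 → D.Gap h)
    (Φ : ∀ D : SfDoc, D.Rw → Prop) (Ψ : K.Cfg → Prop)
    (hΦ : ∀ (D' D : SfDoc) (e : D'.Rw → D.Rw), D'.Eqv D e → ∀ u : D'.Rw, u.1 ∈ D.G → (Φ D' u ↔ Φ D (e u)))
    (hΨ : ∀ c' c : K.Cfg, K.Rst c' c → Ψ c → Ψ c')
    (a1 : ℝ) (ha1 : 0 < a1)
    (hkey : ∀ C0 : ℝ, SfAll K.ob K.sc (fun c => (K.doc c).G = G0 → K.Gd π Ls C0 a1 c → Ψ c → ∀ i ∈ G0, ∃ ρ, Φ (K.doc c) ⟨i, ρ⟩))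
    (i : ℝ) (hi : i ∈ G0) (t : ℝ) (ht : 0 < t) :
    ∃ a : ℝ, 0 < a ∧ ∀ (C0 : ℝ) (Z : Finset ℝ),
      K.Op (fun c' c => K.Rst c' c ∧ K.Gd π Ls C0 t c' ∧ ∀ u : (K.doc c').Rw, u.1 ∈ G0 → u.1 ∈ insert i Z → Φ (K.doc c') u)
        (fun c => (K.doc c).G = G0 ∧ K.Gd π Ls C0 a c ∧ Ψ c ∧ ∀ u : (K.doc c).Rw, u.1 ∈ G0 → u.1 ∈ Z → Φ (K.doc c) u) := by
  classical
  have ht1 : 0 < min t a1 := lt_min ht ha1
  obtain ⟨a, ha, H⟩ := sf_ab_res K π Ls hK.rs h (min t a1) hh ht1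
  refine ⟨a, ha, fun C0 Z => ?_⟩
  have hop := sf_ab_op_out_all K (H C0 i (fun c ρ => decide (Φ (K.doc c) ⟨i, ρ⟩))) (hkey C0)
  refine sf_ab_op_in_all K (B := fun c => 0 < (K.doc c).s → (2 : ℝ) ≤ (K.doc c).s ^ (-a)) ?_ (sf_ab_all_small K hK.sc_le a 2 ha)
  refine sf_ab_op_mono K (fun c hc => ?_) (fun c' c hc hR => ?_) hop
  · obtain ⟨⟨g1, g2, -, -⟩, g5⟩ := hc
    exact ⟨g2, hgap _ g1, g1 ▸ hi, g5 g2.1.1.hs.1⟩
  obtain ⟨⟨g1, g2, g3, g4⟩, -⟩ := hc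
  obtain ⟨⟨b, e, g5, g6, k1, k2, g7⟩, g8⟩ := hR
  have hrst : K.Rst c' c := ⟨e, g6, k1, k2⟩
  have hG' : (K.doc c').G = G0 := g6.hG.trans g1
  have hΨ' : Ψ c' := hΨ _ _ hrst g3
  have hgd1 : K.Gd π Ls C0 a1 c' := sf_gd_mono K π Ls hK.md_mono C0 _ _ ht1 (min_le_right _ _) c' g5
  refine ⟨hrst, sf_gd_mono K π Ls hK.md_mono C0 _ _ ht1 (min_le_left _ _) c' g5, ?_⟩
  -- the class is the good one
  have hrow : ∀ u : (K.doc c').Rw, u.1 = i → (Φ (K.doc c') u ↔ b = true) := by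
    intro u hu
    have hu' : u.1 ∈ (K.doc c).G := by rw [g1, hu]; exact hi
    rw [hΦ _ _ e g6 u hu']
    have hd : (e u).1 = i := (g6.dep u).trans hu
    rcases heu : e u with ⟨k, ρ⟩
    rw [heu] at hd
    have hd' : k = i := hd
    subst hd'
    have := g7 u ρ heu
    rw [← this]
    simp
  obtain ⟨ρ0, hρ0⟩ := g8 hG' hgd1 hΨ' i hi
  have hb : b = true := (hrow ⟨i, ρ0⟩ rfl).1 hρ0
  intro u hu hz
  rcases Finset.mem_insert.1 hz with hz | hz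
  · exact (hrow u hz).2 hb
  · have hu' : u.1 ∈ (K.doc c).G := by rw [g1]; exact hu
    rw [hΦ _ _ e g6 u hu']
    exact g4 (e u) (by rw [g6.dep u]; exact hu) (by rw [g6.dep u]; exact hz)

/-- **CLEAN.**   `Φ` = an invariant row predicate, `Ψ` = a property of configurations inherited by restrictions; if RIGIDLY (at the accuracy `a1`) every gate of a configuration with `Ψ` has a row with `Φ`, then `Φ` can be imposed on all rows by an operation. -/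
theorem sf_ab_clean (K : SfCls) (π : SfPar) (Ls : ℝ) (hK : K.Cal π Ls) (G0 : Finset ℝ) (h : ℝ) (hh : 0 < h) (hgap : ∀ D : SfDoc, D.G = G0 → D.Gap h)
    (Φ : ∀ D : SfDoc, D.Rw → Prop) (Ψ : K.Cfg → Prop)
    (hΦ : ∀ (D' D : SfDoc) (e : D'.Rw → D.Rw), D'.Eqv D e → ∀ u : D'.Rw, u.1 ∈ D.G → (Φ D' u ↔ Φ D (e u)))
    (hΨ : ∀ c' c : K.Cfg, K.Rst c' c → Ψ c → Ψ c')
    (a1 : ℝ) (ha1 : 0 < a1)
    (hkey : ∀ C0 : ℝ, SfAll K.ob K.sc (fun c => (K.doc c).G = G0 → K.Gd π Ls C0 a1 c → Ψ c → ∀ i ∈ G0, ∃ ρ, Φ (K.doc c) ⟨i, ρ⟩))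
    (t : ℝ) (ht : 0 < t) :
    ∃ a : ℝ, 0 < a ∧ ∀ C0 : ℝ,
      K.Op (fun c' c => K.Rst c' c ∧ K.Gd π Ls C0 t c' ∧ ∀ u : (K.doc c').Rw, u.1 ∈ G0 → Φ (K.doc c') u)
        (fun c => (K.doc c).G = G0 ∧ K.Gd π Ls C0 a c ∧ Ψ c) := by
  classical
  have main : ∀ Z : Finset ℝ, Z ⊆ G0 → ∀ t : ℝ, 0 < t → ∃ a : ℝ, 0 < a ∧ ∀ C0 : ℝ,
      K.Op (fun c' c => K.Rst c' c ∧ K.Gd π Ls C0 t c' ∧ ∀ u : (K.doc c').Rw, u.1 ∈ G0 → u.1 ∈ Z → Φ (K.doc c') u)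
        (fun c => (K.doc c).G = G0 ∧ K.Gd π Ls C0 a c ∧ Ψ c) := by
    intro Z
    induction Z using Finset.induction_on with
    | empty =>
      intro _ t ht
      refine ⟨t, ht, fun C0 => sf_ab_op_mono K (fun c hc => hc) (fun c' c hc hR => ?_) (sf_ab_op_id K _)⟩
      subst hR
      exact ⟨sf_ab_rst_refl K _, hc.2.1, fun u _ hu => absurd hu (Finset.notMem_empty _)⟩
    | insert i Z _ ih =>
      intro hZ t ht
      obtain ⟨a, ha, H⟩ := sf_ab_clean_step K π Ls hK G0 h hh hgap Φ Ψ hΦ hΨ a1 ha1 hkey i (hZ (Finset.mem_insert_self _ _)) t ht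
      obtain ⟨a', ha', H'⟩ := ih (fun x hx => hZ (Finset.mem_insert_of_mem hx)) a ha
      refine ⟨a', ha', fun C0 => ?_⟩
      refine sf_ab_op_mono K (fun c hc => hc) (fun c'' c _ hR => ?_) (sf_ab_op_comp K (H' C0) (H C0 Z) (fun c' c hc hR => ?_))
      · obtain ⟨c', ⟨g1, g2, g3⟩, k1, -, -⟩ := hR
        exact ⟨sf_ab_rst_trans K g1 k1, g2, g3⟩
      · obtain ⟨k1, k2, k3⟩ := hR
        obtain ⟨e, he, -, -⟩ := id k1
        exact ⟨he.hG.trans hc.1, k2, hΨ _ _ k1 hc.2.2, k3⟩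
  obtain ⟨a, ha, H⟩ := main G0 (Finset.Subset.refl _) t ht
  exact ⟨a, ha, fun C0 => sf_ab_op_mono K (fun c hc => hc) (fun c' c _ hR => ⟨hR.1, hR.2.1, fun u hu => hR.2.2 u hu hu⟩) (H C0)⟩

end Claimed.Agent.R256
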