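import Claimed.Agent.R256.Soft.AShContract
import Claimed.Agent.R256.Soft.AResKit

/-!
# Row 256 (S0496), unit SOFT, A5 AB + A6 SH, file 5: ASSEMBLY = THE OUTER CONFIGURATION      (architect helper55; prefixes `sf_ab_`, `sf_sh_`)      no sorry in this file

EXIT (entry of A7 AF, helper10):   `sf_sh_out`:
  `∀ t > 0, ∃ μ > 0, ∀ M` (finite mesh in `[0,1]`, `0 ∈ M`, `μ`-fine) `∀ a > 0, ∃ C0, SfEx (G = insert 1 M ∧ K.Gd π Ls C0 a c ∧ (K.doc c).Out π' t)`.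
The mesh is GIVEN by the consumer; the accuracy `a` is chosen AFTER the mesh and is independent of `t`.
Inputs as hypotheses (no import of `Soft/Contract.lean`): feasibility of the minimal costs (`sf_feas2_c2`, `sf_feas1_c1` after `sf_fin2`, `sf_fin1`) and cost rigidity (`sf_minc`).
PIPELINE:  `Feas` → DOC on the mesh (`sf_ab_doc`) → CLEAN `RowB` → CLEAN `RowK` (`c2 > 0`) / `RowP` (`c2 = 0`) (`sf_sh_pipe`) → intersect with the RIGID statements (`Fm` at small scales, `MinC`, PL) → DOC LEVEL leaves.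
SECOND EXIT (asked by helper229): everything after DOC is an OPERATION, `sf_sh_op`:
  `∀ t > 0, ∃ μ > 0, ∀ G0` (`0, 1 ∈ G0`, `μ`-fine) `∀ a > 0, ∃ a0 > 0, ∀ C0, K.Op (c' c ↦ K.Rst c' c ∧ K.Gd π Ls C0 a c' ∧ (K.doc c').Out π' t) (c ↦ G = G0 ∧ K.Gd π Ls C0 a0 c ∧ (K.doc c).Cost π' a0)`:
it can be run on ANY good configuration with terminal costs `≤ s^(-(c2 + a0))` (e.g. an extracted piece); `K.Rst c' c` keeps the scale, the gates, the lengths, the widths, `hp`, `ek`.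
-/

set_option autoImplicit false

namespace Claimed.Agent.R256

open Claimed.Agent.R255

section

variable (K : SfCls) (π : SfPar) (Ls : ℝ)

/-- **DOC in the EXIST pattern**: re-documentation on the mesh `M`; a property of the scale and the terminal labels is inherited -/
theorem sf_ab_doc (hdc : K.CalDc π Ls) (M : Finset ℝ) (hM : ∀ i ∈ M, 0 ≤ i ∧ i ≤ 1) (t : ℝ) (ht : 0 < t) :
    ∃ a : ℝ, 0 < a ∧ ∀ (Φ : ℝ → SfTest → Prop) (C0 : ℝ),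
      SfEx K.ob K.sc (fun c => K.Gd π Ls C0 a c ∧ ∀ ρ, Φ (K.doc c).s ((K.doc c).lab 1 ρ)) →
      ∃ C0' : ℝ, SfEx K.ob K.sc (fun c => (K.doc c).G = insert 1 M ∧ K.Gd π Ls C0' t c ∧ ∀ ρ, Φ (K.doc c).s ((K.doc c).lab 1 ρ)) := by
  obtain ⟨a, ha, H⟩ := hdc M hM t ht
  refine ⟨a, ha, fun Φ C0 hex => ?_⟩
  obtain ⟨S, hS⟩ := hex
  obtain ⟨C0', S', hS'⟩ := H C0 S
  refine ⟨C0', S', fun s0 h0 => ?_⟩
  obtain ⟨σ, hσ, H2⟩ := hS' s0 h0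
  obtain ⟨c, hob, hsc, hg, hΦ⟩ := hS σ hσ
  obtain ⟨c', g1, g2, g3, g4, g5, -, g7⟩ := H2 c hob hsc hg
  refine ⟨c', g1, g2, g4, g5, fun ρ' => ?_⟩
  obtain ⟨ρ, hρ⟩ := g7 ρ'
  rw [hρ, g3]
  exact hΦ ρ

/-- the standing hypotheses `Fm` hold RIGIDLY -/
theorem sf_ab_fm_all (hK : K.Cal π Ls) (G0 : Finset ℝ) (h0G : (0 : ℝ) ∈ G0) (μ h a : ℝ) (ha : 0 < a) (hh : 0 < h)
    (hfine : ∀ i ∈ G0, i < 1 → ∃ j ∈ G0, i < j ∧ j ≤ i + μ) (hgap : ∀ D : SfDoc, D.G = G0 → D.Gap h) (hd : 8 * a ≤ π.d * h) (C0 : ℝ) :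
    SfAll K.ob K.sc (fun c => (K.doc c).G = G0 → K.Gd π Ls C0 a c → (K.doc c).Fm π Ls C0 a μ h) := by
  refine sf_all_mono (fun c hc hG hg => ?_) (sf_all_and (sf_ab_all_small K hK.sc_le a (G0.card : ℝ) ha) (sf_ab_all_small K hK.sc_le a 16 ha))
  have hs := hg.1.1.hs
  refine ⟨hg.1, ha, hG ▸ h0G, ?_, hgap _ hG, hh, hd, ?_, ?_⟩
  · intro i hi hi1
    rw [hG] at hi ⊢
    exact hfine i hi hi1
  · rw [hG]
    exact hc.1 hs.1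
  · have h16 := hc.2 hs.1
    rw [Real.rpow_neg hs.1.le] at h16
    have hp : 0 < (K.doc c).s ^ a := Real.rpow_pos_of_pos hs.1 _
    rw [le_div_iff₀ (by norm_num : (0 : ℝ) < 16)]
    have := (le_inv_comm₀ (by norm_num : (0 : ℝ) < 16) hp).1 h16
    linarith

/-- **PIPELINE** (an operation): CLEAN `Φ1` → CLEAN `Φ2` -/
theorem sf_sh_pipe (hK : K.Cal π Ls) (π' : SfPar) (G0 : Finset ℝ) (h1G : (1 : ℝ) ∈ G0) (h : ℝ) (hh : 0 < h) (hgap : ∀ D : SfDoc, D.G = G0 → D.Gap h)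
    (Φ1 Φ2 : ∀ D : SfDoc, D.Rw → Prop)
    (hΦ1 : ∀ (D' D : SfDoc) (e : D'.Rw → D.Rw), D'.Eqv D e → ∀ u : D'.Rw, u.1 ∈ D.G → (Φ1 D' u ↔ Φ1 D (e u)))
    (hΦ2 : ∀ (D' D : SfDoc) (e : D'.Rw → D.Rw), D'.Eqv D e → ∀ u : D'.Rw, u.1 ∈ D.G → (Φ2 D' u ↔ Φ2 D (e u)))
    (a : ℝ) (ha : 0 < a)
    (hkey1 : ∀ C0 : ℝ, SfAll K.ob K.sc (fun c => (K.doc c).G = G0 → K.Gd π Ls C0 a c → (K.doc c).Cost π' a → ∀ i ∈ G0, ∃ ρ, Φ1 (K.doc c) ⟨i, ρ⟩))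
    (hkey2 : ∀ C0 : ℝ, SfAll K.ob K.sc (fun c => (K.doc c).G = G0 → K.Gd π Ls C0 a c → (K.doc c).Cost π' a →
      (∀ u : (K.doc c).Rw, u.1 ∈ G0 → Φ1 (K.doc c) u) → ∀ i ∈ G0, ∃ ρ, Φ2 (K.doc c) ⟨i, ρ⟩)) :
    ∃ a0 : ℝ, 0 < a0 ∧ ∀ C0 : ℝ,
      K.Op (fun c' c => K.Rst c' c ∧ (K.doc c').G = G0 ∧ K.Gd π Ls C0 a c' ∧ (K.doc c').Cost π' a ∧
          (∀ u : (K.doc c').Rw, u.1 ∈ G0 → Φ1 (K.doc c') u) ∧ ∀ u : (K.doc c').Rw, u.1 ∈ G0 → Φ2 (K.doc c') u)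
        (fun c => (K.doc c).G = G0 ∧ K.Gd π Ls C0 a0 c ∧ (K.doc c).Cost π' a) := by
  have inh1 : ∀ c' c : K.Cfg, K.Rst c' c → ((K.doc c).G = G0 ∧ (K.doc c).Cost π' a) → ((K.doc c').G = G0 ∧ (K.doc c').Cost π' a) := by
    rintro c' c ⟨e, he, -, -⟩ hΨ
    exact ⟨he.hG.trans hΨ.1, sf_ab_eqv_cost he (hΨ.1 ▸ h1G) π' a hΨ.2⟩
  have inh2 : ∀ c' c : K.Cfg, K.Rst c' c → (K.doc c).G = G0 → (∀ u : (K.doc c).Rw, u.1 ∈ G0 → Φ1 (K.doc c) u) → ∀ u : (K.doc c').Rw, u.1 ∈ G0 → Φ1 (K.doc c') u := by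
    rintro c' c ⟨e, he, -, -⟩ hG hΨ u hu
    exact (hΦ1 _ _ e he u (hG ▸ hu)).2 (hΨ (e u) (by rw [he.dep u]; exact hu))
  -- second cleaning
  obtain ⟨a2, ha2, C2⟩ := sf_ab_clean K π Ls hK G0 h hh hgap Φ2
    (fun c => ((K.doc c).G = G0 ∧ (K.doc c).Cost π' a) ∧ ∀ u : (K.doc c).Rw, u.1 ∈ G0 → Φ1 (K.doc c) u) hΦ2
    (fun c' c hr hΨ => ⟨inh1 c' c hr hΨ.1, inh2 c' c hr hΨ.1.1 hΨ.2⟩)
    a ha (fun C0 => sf_all_mono (fun c hc hG hg hΨ => hc hG hg hΨ.1.2 hΨ.2) (hkey2 C0)) a ha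
  -- first cleaning
  obtain ⟨a3, ha3, C1⟩ := sf_ab_clean K π Ls hK G0 h hh hgap Φ1
    (fun c => (K.doc c).G = G0 ∧ (K.doc c).Cost π' a) hΦ1 inh1
    a ha (fun C0 => sf_all_mono (fun c hc hG hg hΨ => hc hG hg hΨ.2) (hkey1 C0)) a2 ha2
  refine ⟨a3, ha3, fun C0 => ?_⟩
  refine sf_ab_op_mono K (fun c hc => ⟨hc.1, hc.2.1, hc.1, hc.2.2⟩) (fun c'' c hc hR => ?_)
    (sf_ab_op_comp K (C1 C0) (C2 C0) (fun c' c hc hR => ?_))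
  · obtain ⟨c', ⟨g1, g2, g3⟩, k1, -, k3⟩ := hR
    have h1 := inh1 c' c k1 ⟨hc.1, hc.2.2⟩
    have h2 := inh1 c'' c' g1 h1
    exact ⟨sf_ab_rst_trans K g1 k1, h2.1, g2, h2.2, inh2 c'' c' g1 h1.1 k3, g3⟩
  · obtain ⟨k1, k2, k3⟩ := hR
    have h1 := inh1 c' c k1 hc.2.2
    exact ⟨h1.1, k2, h1, k3⟩

/-- PL in the form of `Out.pl` -/
theorem sf_sh_pl (hK : K.Cal π Ls) (t : ℝ) (ht : 0 < t) : ∃ a : ℝ, 0 < a ∧ ∀ C0 : ℝ, SfAll K.ob K.sc (fun c => K.Gd π Ls C0 a c → π.hyb = true →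
    ∀ i ∈ (K.doc c).G, 1 / 4 ≤ i → (K.doc c).s ^ ((1 - i) / 2 + t) ≤ (K.doc c).f i ∧ (K.doc c).f i ≤ (K.doc c).s ^ ((1 - i) / 2 - t)) := by
  by_cases hy : π.hyb = true
  · obtain ⟨a, ha, H⟩ := hK.pl hy (1 / 4) t (by norm_num) ht
    exact ⟨a, ha, fun C0 => sf_all_mono (fun c hc hg _ => (hc hg).2.2) (H C0)⟩
  · exact ⟨1, one_pos, fun C0 => sf_all_of_forall (fun c _ h => absurd h hy)⟩

end

/-- an operation with an impossible input -/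
theorem sf_ab_op_false (K : SfCls) {R : K.Cfg → K.Cfg → Prop} {A : K.Cfg → Prop} (hA : ∀ c, ¬ A c) : K.Op R A :=
  fun S => ⟨S, fun _ _ => ⟨1, one_pos, fun c _ _ h => absurd h (hA c)⟩⟩

/-- the gap of a mesh      (the ONLY place where the definition of `SfDoc.Gap` is unfolded) -/
theorem sf_sh_gap (G0 : Finset ℝ) (hG0 : ∀ i ∈ G0, 0 ≤ i) : ∃ h : ℝ, 0 < h ∧ ∀ D : SfDoc, D.G = G0 → D.Gap h := by
  obtain ⟨h, hh, hgapM⟩ := sf_gap_exists (insert 0 G0)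
  refine ⟨h, hh, fun D hD => ⟨fun i hi j hj hij => ?_, fun i hi => ?_⟩⟩
  · rw [hD] at hi hj
    exact hgapM i (Finset.mem_insert_of_mem hi) j (Finset.mem_insert_of_mem hj) hij
  · rw [hD] at hi
    rcases (hG0 i hi).eq_or_lt with h0 | h0
    · exact Or.inl h0.symm
    · have := hgapM 0 (Finset.mem_insert_self _ _) i (Finset.mem_insert_of_mem hi) h0
      exact Or.inr (by linarith)

/-- the terminal costs in the form of the DOC LEVEL leaves -/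
theorem sf_sh_cost_cv (D : SfDoc) (π π' : SfPar) (C0 a : ℝ) (h : D.Core π C0 a) (hC : D.Cost π' a) :
    (∀ ρ : D.Row 1, D.cv ⟨1, ρ⟩ ≤ D.s ^ (-(π'.c2 + a))) ∧ (π'.c2 = 0 → ∀ ρ : D.Row 1, |(D.lab 1 ρ).Pc| ≤ D.s ^ (-(π'.c1 + a))) := by
  refine ⟨fun ρ => ?_, fun h0 ρ => ?_⟩
  · rw [← (sf_ab_cost D π C0 a h ρ).1]
    exact (hC ρ).1
  · rw [← (sf_ab_cost D π C0 a h ρ).2]
    exact (hC ρ).2 h0

/-- **S2**: the two cases `c < 1`, `c > 1` in one statement -/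
theorem sf_sh_s2 (Ls c t : ℝ) (hc : 0 < c) (ht : 0 < t) : ∃ τ : ℝ, 0 < τ ∧ ∀ κ0 : ℝ, 0 < κ0 → ∃ e0 : ℝ, 0 < e0 ∧
    ∀ (D : SfDoc) (π π' : SfPar) (C0 a μ h t1 tK : ℝ), D.Fm π Ls C0 a μ h → a ≤ e0 → μ ≤ e0 → 0 ≤ t1 → t1 ≤ e0 → tK ≤ e0 → π'.c2 = c →
      (∀ ρ : D.Row 1, D.cv ⟨1, ρ⟩ ≤ D.s ^ (-(c + a))) → (∀ k ∈ D.G, D.w2 k ≤ D.s ^ (c * (k - 1) - t1)) → (∀ u : D.Rw, u.1 ∈ D.G → D.RowK c tK u) →
      D.MinC π' τ κ0 a → c ≠ 1 → ∀ i ∈ D.G, D.s ^ (c * (i - 1) + t) ≤ D.w2 i := by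
  rcases lt_trichotomy c 1 with h1 | h1 | h1
  · obtain ⟨τ, hτ, H⟩ := sf_sh_s2lt Ls c t hc h1 ht
    refine ⟨τ, hτ, fun κ0 hκ => ?_⟩
    obtain ⟨e0, he0, H⟩ := H κ0 hκ
    exact ⟨e0, he0, fun D π π' C0 a μ h t1 tK g1 g2 g3 g4 g5 g6 g7 g8 g9 g10 g11 _ => H D π π' C0 a μ h t1 tK g1 g2 g3 g4 g5 g6 g7 g8 g9 g10 g11⟩
  · exact ⟨1, one_pos, fun κ0 _ => ⟨1, one_pos, fun D π π' C0 a μ h t1 tK _ _ _ _ _ _ _ _ _ _ _ hne => absurd h1 hne⟩⟩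
  · obtain ⟨τ, hτ, H⟩ := sf_sh_s2gt Ls c t h1 ht
    refine ⟨τ, hτ, fun κ0 hκ => ?_⟩
    obtain ⟨e0, he0, H⟩ := H κ0 hκ
    exact ⟨e0, he0, fun D π π' C0 a μ h t1 tK g1 g2 g3 g4 g5 _ g7 g8 g9 _ g11 _ => H D π π' C0 a μ h t1 g1 g2 g3 g4 g5 g7 g8 g9 g11⟩

section

variable (K : SfCls) (π : SfPar) (Ls : ℝ)

/-- **CLEAN + SH as an operation, positive curvature cost** -/
theorem sf_sh_op_pos (hπ : π.Pd) (hK : K.Cal π Ls) (π' : SfPar) (hy : π'.hyb = π.hyb) (hc : 0 < π'.c2)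
    (hMC : ∀ τ : ℝ, 0 < τ → ∃ κ0 : ℝ, 0 < κ0 ∧ ∀ C0 t : ℝ, 0 < t → SfAll K.ob K.sc (fun c => K.Gd π Ls C0 t c → (K.doc c).MinC π' τ κ0 t))
    (t : ℝ) (ht : 0 < t) :
    ∃ μ : ℝ, 0 < μ ∧ ∀ G0 : Finset ℝ, (0 : ℝ) ∈ G0 → (1 : ℝ) ∈ G0 → (∀ i ∈ G0, i < 1 → ∃ j ∈ G0, i < j ∧ j ≤ i + μ) →
      ∀ a : ℝ, 0 < a → ∃ a0 : ℝ, 0 < a0 ∧ ∀ C0 : ℝ,
        K.Op (fun c' c => K.Rst c' c ∧ K.Gd π Ls C0 a c' ∧ (K.doc c').Out π' t)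
          (fun c => (K.doc c).G = G0 ∧ K.Gd π Ls C0 a0 c ∧ (K.doc c).Cost π' a0) := by
  obtain ⟨τ2, hτ2, H2⟩ := sf_sh_s2 Ls π'.c2 t hc ht
  obtain ⟨κ2, hκ2, M2⟩ := hMC τ2 hτ2
  obtain ⟨e2, he2, H2⟩ := H2 κ2 hκ2
  have ht1 : 0 < min (t / 2) e2 := lt_min (half_pos ht) he2
  obtain ⟨τ1, hτ1, H1⟩ := sf_sh_s1 Ls π'.c2 (min (t / 2) e2) hc ht1
  obtain ⟨κ1, hκ1, M1⟩ := hMC τ1 hτ1
  obtain ⟨e1, he1, H1⟩ := H1 κ1 hκ1
  obtain ⟨eK, heK, HK⟩ := sf_ab_K_ne Ls (min (t / 2) e2) ht1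
  have htB : 0 < min t (min e1 eK) := lt_min ht (lt_min he1 heK)
  obtain ⟨eB, heB, HB⟩ := sf_ab_B_ne Ls (min t (min e1 eK)) htB
  obtain ⟨eA, heA, HA⟩ := sf_ab_chA Ls t ht
  obtain ⟨aP, haP, HP⟩ := sf_sh_pl K π Ls hK t ht
  have hμ : 0 < min e2 (min e1 (min eK (min eB eA))) := lt_min he2 (lt_min he1 (lt_min heK (lt_min heB heA)))
  refine ⟨min e2 (min e1 (min eK (min eB eA))), hμ, fun G0 h0G h1G hfine a ha => ?_⟩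
  generalize hμdef : min e2 (min e1 (min eK (min eB eA))) = μ at hμ hfine
  have hμ2 : μ ≤ e2 := hμdef ▸ min_le_left _ _
  have hμ1 : μ ≤ e1 := hμdef ▸ (min_le_right _ _).trans (min_le_left _ _)
  have hμK : μ ≤ eK := hμdef ▸ (min_le_right _ _).trans ((min_le_right _ _).trans (min_le_left _ _))
  have hμB : μ ≤ eB := hμdef ▸ (min_le_right _ _).trans ((min_le_right _ _).trans ((min_le_right _ _).trans (min_le_left _ _)))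
  have hμA : μ ≤ eA := hμdef ▸ (min_le_right _ _).trans ((min_le_right _ _).trans ((min_le_right _ _).trans (min_le_right _ _)))
  by_cases hG0 : ∀ i ∈ G0, 0 ≤ i
  swap
  · exact ⟨1, one_pos, fun C0 => sf_ab_op_false K (fun c hc => hG0 (fun i hi => (hc.2.1.1.1.gate.2 i (hc.1 ▸ hi)).1))⟩
  obtain ⟨h, hh, hgap⟩ := sf_sh_gap G0 hG0
  have hd0 : 0 < π.d := hπ.2.2.2.2.1
  have has : 0 < min a (min t (min μ (min aP (π.d * h / 8)))) := lt_min ha (lt_min ht (lt_min hμ (lt_min haP (by positivity))))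
  generalize hasdef : min a (min t (min μ (min aP (π.d * h / 8)))) = as at has
  have hasa : as ≤ a := hasdef ▸ min_le_left _ _
  have hast : as ≤ t := hasdef ▸ (min_le_right _ _).trans (min_le_left _ _)
  have hasμ : as ≤ μ := hasdef ▸ (min_le_right _ _).trans ((min_le_right _ _).trans (min_le_left _ _))
  have hasP : as ≤ aP := hasdef ▸ (min_le_right _ _).trans ((min_le_right _ _).trans ((min_le_right _ _).trans (min_le_left _ _)))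
  have hasd : 8 * as ≤ π.d * h := by
    have : as ≤ π.d * h / 8 := hasdef ▸ (min_le_right _ _).trans ((min_le_right _ _).trans ((min_le_right _ _).trans (min_le_right _ _)))
    linarith
  have hFm := sf_ab_fm_all K π Ls hK G0 h0G μ h as has hh hfine hgap hasd
  obtain ⟨a0, ha0, hop⟩ := sf_sh_pipe K π Ls hK π' G0 h1G h hh hgap (fun D u => D.RowB π'.c2 (min t (min e1 eK)) u) (fun D u => D.RowK π'.c2 (min (t / 2) e2) u)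
    (fun D' D e he u hu => sf_ab_eqv_rowB he _ _ u hu) (fun D' D e he u hu => sf_ab_eqv_rowK he _ _ u hu) as has
    (fun C0 => sf_all_mono (fun c hc' hG hg hC i hi =>
      HB _ π C0 as μ h π'.c2 (hc' hG hg) (hasμ.trans hμB) hμB hc.le (sf_sh_cost_cv _ π π' C0 as hg.1.1 hC).1 i (hG ▸ hi)) (hFm C0))
    (fun C0 => sf_all_mono (fun c hc' hG hg hC hB i hi =>
      HK _ π C0 as μ h π'.c2 _ (hc' hG hg) (hasμ.trans hμK) hμK ((min_le_right _ _).trans (min_le_right _ _)) (fun ρ => hB ⟨0, ρ⟩ h0G) i (hG ▸ hi)) (hFm C0))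
  have hm0 : 0 < min a0 as := lt_min ha0 has
  refine ⟨min a0 as, hm0, fun C0 => ?_⟩
  refine sf_ab_op_mono K (fun c hc' => ⟨hc'.1, sf_gd_mono K π Ls hK.md_mono C0 _ _ hm0 (min_le_left _ _) c hc'.2.1,
      sf_ab_cost_mono _ hc'.2.1.1.1.hs π' _ _ (min_le_right _ _) hc'.2.2⟩) (fun c c0 _ hc' => ?_)
    (sf_ab_op_out_all K (sf_ab_op_out_all K (sf_ab_op_out_all K (sf_ab_op_out_all K (hop C0) (hFm C0)) (M1 C0 as has)) (M2 C0 as has)) (HP C0))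
  obtain ⟨⟨⟨⟨⟨hrst, hG, hg, hC, hB, hRK⟩, hfm⟩, hm1⟩, hm2⟩, hpl⟩ := hc'
  have hfm := hfm hG hg
  have hs := hg.1.1.hs
  have hB' : ∀ u : (K.doc c).Rw, u.1 ∈ (K.doc c).G → (K.doc c).RowB π'.c2 (min t (min e1 eK)) u := fun u hu => hB u (hG ▸ hu)
  have hRK' : ∀ u : (K.doc c).Rw, u.1 ∈ (K.doc c).G → (K.doc c).RowK π'.c2 (min (t / 2) e2) u := fun u hu => hRK u (hG ▸ hu)
  have hS1 := H1 _ π π' C0 as μ h _ hfm (hasμ.trans hμ1) hμ1 ((min_le_right _ _).trans (min_le_left _ _)) rfl hB' (hm1 hg)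
  have hcv := (sf_sh_cost_cv _ π π' C0 as hg.1.1 hC).1
  refine ⟨hrst, sf_gd_mono K π Ls hK.md_mono C0 _ _ has hasa c hg, ?_⟩
  refine ⟨hG ▸ h0G, sf_ab_cost_mono _ hs π' _ _ hast hC, HA _ π C0 as μ h hfm (hasμ.trans hμA) hμA, ?_, ?_, ?_, ?_, ?_, ?_, ?_⟩
  · exact fun u hu => (sf_ab_row_mono _ hs _ _ _ (min_le_left _ _) u).1 (hB' u hu)
  · intro _ u hu V hV hV2
    have h1 := sf_sh_kp _ hs hg.1.1.gate.2 π'.c2 _ _ hc.le ht1.le hS1 u (hRK' u hu) V hV hV2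
    have hV0 : 0 ≤ V := (Real.rpow_pos_of_pos hs.1 _).le.trans hV
    refine h1.trans (mul_le_mul_of_nonneg_left (sf_mono_aux_le hs ?_) hV0)
    have := min_le_left (t / 2) e2
    linarith
  · exact fun h0 => absurd h0 hc.ne'
  · intro _ i hi
    refine (hS1 i hi).trans (sf_mono_aux_le hs ?_)
    have := min_le_left (t / 2) e2
    linarith
  · intro _ hne
    exact H2 _ π π' C0 as μ h _ _ hfm (hasμ.trans hμ2) hμ2 ht1.le (min_le_right _ _) (min_le_right _ _) rfl hcv hS1 hRK' (hm2 hg) hne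
  · exact fun h0 => absurd h0 hc.ne'
  · intro hy'
    exact hpl (sf_gd_mono K π Ls hK.md_mono C0 _ _ has hasP c hg) (hy ▸ hy')

/-- **CLEAN + SH as an operation, zero curvature cost, positive linear cost** -/
theorem sf_sh_op_lin (hπ : π.Pd) (hK : K.Cal π Ls) (π' : SfPar) (hy : π'.hyb = π.hyb) (hc2 : π'.c2 = 0) (hc : 0 < π'.c1)
    (hMC : ∀ τ : ℝ, 0 < τ → ∃ κ0 : ℝ, 0 < κ0 ∧ ∀ C0 t : ℝ, 0 < t → SfAll K.ob K.sc (fun c => K.Gd π Ls C0 t c → (K.doc c).MinC π' τ κ0 t))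
    (t : ℝ) (ht : 0 < t) :
    ∃ μ : ℝ, 0 < μ ∧ ∀ G0 : Finset ℝ, (0 : ℝ) ∈ G0 → (1 : ℝ) ∈ G0 → (∀ i ∈ G0, i < 1 → ∃ j ∈ G0, i < j ∧ j ≤ i + μ) →
      ∀ a : ℝ, 0 < a → ∃ a0 : ℝ, 0 < a0 ∧ ∀ C0 : ℝ,
        K.Op (fun c' c => K.Rst c' c ∧ K.Gd π Ls C0 a c' ∧ (K.doc c').Out π' t)
          (fun c => (K.doc c).G = G0 ∧ K.Gd π Ls C0 a0 c ∧ (K.doc c).Cost π' a0) := by
  obtain ⟨τ2, hτ2, H2⟩ := sf_sh_s3hi Ls π'.c1 t hc ht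
  obtain ⟨κ2, hκ2, M2⟩ := hMC τ2 hτ2
  obtain ⟨e2, he2, H2⟩ := H2 κ2 hκ2
  have ht1 : 0 < min t e2 := lt_min ht he2
  obtain ⟨τ1, hτ1, H1⟩ := sf_sh_s3lo Ls π'.c1 (min t e2) hc ht1
  obtain ⟨κ1, hκ1, M1⟩ := hMC τ1 hτ1
  obtain ⟨e1, he1, H1⟩ := H1 κ1 hκ1
  have htP : 0 < min t e1 := lt_min ht he1
  obtain ⟨eK, heK, HK⟩ := sf_ab_P_ne Ls (min t e1) htP
  have htB : 0 < min t (min e2 (min e1 eK)) := lt_min ht (lt_min he2 (lt_min he1 heK))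
  obtain ⟨eB, heB, HB⟩ := sf_ab_B_ne Ls (min t (min e2 (min e1 eK))) htB
  obtain ⟨eA, heA, HA⟩ := sf_ab_chA Ls t ht
  obtain ⟨aP, haP, HP⟩ := sf_sh_pl K π Ls hK t ht
  have hμ : 0 < min e2 (min e1 (min eK (min eB eA))) := lt_min he2 (lt_min he1 (lt_min heK (lt_min heB heA)))
  refine ⟨min e2 (min e1 (min eK (min eB eA))), hμ, fun G0 h0G h1G hfine a ha => ?_⟩
  generalize hμdef : min e2 (min e1 (min eK (min eB eA))) = μ at hμ hfine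
  have hμ2 : μ ≤ e2 := hμdef ▸ min_le_left _ _
  have hμ1 : μ ≤ e1 := hμdef ▸ (min_le_right _ _).trans (min_le_left _ _)
  have hμK : μ ≤ eK := hμdef ▸ (min_le_right _ _).trans ((min_le_right _ _).trans (min_le_left _ _))
  have hμB : μ ≤ eB := hμdef ▸ (min_le_right _ _).trans ((min_le_right _ _).trans ((min_le_right _ _).trans (min_le_left _ _)))
  have hμA : μ ≤ eA := hμdef ▸ (min_le_right _ _).trans ((min_le_right _ _).trans ((min_le_right _ _).trans (min_le_right _ _)))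
  generalize htBdef : min t (min e2 (min e1 eK)) = tB at htB HB
  have htBt : tB ≤ t := htBdef ▸ min_le_left _ _
  have htB2 : tB ≤ e2 := htBdef ▸ (min_le_right _ _).trans (min_le_left _ _)
  have htB1 : tB ≤ e1 := htBdef ▸ (min_le_right _ _).trans ((min_le_right _ _).trans (min_le_left _ _))
  have htBK : tB ≤ eK := htBdef ▸ (min_le_right _ _).trans ((min_le_right _ _).trans (min_le_right _ _))
  by_cases hG0 : ∀ i ∈ G0, 0 ≤ i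
  swap
  · exact ⟨1, one_pos, fun C0 => sf_ab_op_false K (fun c hc => hG0 (fun i hi => (hc.2.1.1.1.gate.2 i (hc.1 ▸ hi)).1))⟩
  obtain ⟨h, hh, hgap⟩ := sf_sh_gap G0 hG0
  have hd0 : 0 < π.d := hπ.2.2.2.2.1
  have has : 0 < min a (min t (min μ (min aP (π.d * h / 8)))) := lt_min ha (lt_min ht (lt_min hμ (lt_min haP (by positivity))))
  generalize hasdef : min a (min t (min μ (min aP (π.d * h / 8)))) = as at has
  have hasa : as ≤ a := hasdef ▸ min_le_left _ _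
  have hast : as ≤ t := hasdef ▸ (min_le_right _ _).trans (min_le_left _ _)
  have hasμ : as ≤ μ := hasdef ▸ (min_le_right _ _).trans ((min_le_right _ _).trans (min_le_left _ _))
  have hasP : as ≤ aP := hasdef ▸ (min_le_right _ _).trans ((min_le_right _ _).trans ((min_le_right _ _).trans (min_le_left _ _)))
  have hasd : 8 * as ≤ π.d * h := by
    have : as ≤ π.d * h / 8 := hasdef ▸ (min_le_right _ _).trans ((min_le_right _ _).trans ((min_le_right _ _).trans (min_le_right _ _)))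
    linarith
  have hFm := sf_ab_fm_all K π Ls hK G0 h0G μ h as has hh hfine hgap hasd
  have hcv0 : ∀ (D : SfDoc) (C0 : ℝ), D.Core π C0 as → D.Cost π' as → ∀ ρ : D.Row 1, D.cv ⟨1, ρ⟩ ≤ D.s ^ (-(0 + as)) := by
    intro D C0 hco hC
    have := (sf_sh_cost_cv D π π' C0 as hco hC).1
    rwa [hc2] at this
  obtain ⟨a0, ha0, hop⟩ := sf_sh_pipe K π Ls hK π' G0 h1G h hh hgap (fun D u => D.RowB 0 tB u) (fun D u => D.RowP π'.c1 (min t e1) u)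
    (fun D' D e he u hu => sf_ab_eqv_rowB he _ _ u hu) (fun D' D e he u hu => sf_ab_eqv_rowP he _ _ u hu) as has
    (fun C0 => sf_all_mono (fun c hc' hG hg hC i hi =>
      HB _ π C0 as μ h 0 (hc' hG hg) (hasμ.trans hμB) hμB le_rfl (hcv0 _ C0 hg.1.1 hC) i (hG ▸ hi)) (hFm C0))
    (fun C0 => sf_all_mono (fun c hc' hG hg hC hB i hi =>
      HK _ π C0 as μ h π'.c1 tB (hc' hG hg) (hasμ.trans hμK) hμK htBK hc.le ((sf_sh_cost_cv _ π π' C0 as hg.1.1 hC).2 hc2)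
        (fun u hu => hB u (hG ▸ hu)) i (hG ▸ hi)) (hFm C0))
  have hm0 : 0 < min a0 as := lt_min ha0 has
  refine ⟨min a0 as, hm0, fun C0 => ?_⟩
  refine sf_ab_op_mono K (fun c hc' => ⟨hc'.1, sf_gd_mono K π Ls hK.md_mono C0 _ _ hm0 (min_le_left _ _) c hc'.2.1,
      sf_ab_cost_mono _ hc'.2.1.1.1.hs π' _ _ (min_le_right _ _) hc'.2.2⟩) (fun c c0 _ hc' => ?_)
    (sf_ab_op_out_all K (sf_ab_op_out_all K (sf_ab_op_out_all K (sf_ab_op_out_all K (hop C0) (hFm C0)) (M1 C0 as has)) (M2 C0 as has)) (HP C0))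
  obtain ⟨⟨⟨⟨⟨hrst, hG, hg, hC, hB, hRP⟩, hfm⟩, hm1⟩, hm2⟩, hpl⟩ := hc'
  have hfm := hfm hG hg
  have hs := hg.1.1.hs
  have hB' : ∀ u : (K.doc c).Rw, u.1 ∈ (K.doc c).G → (K.doc c).RowB 0 tB u := fun u hu => hB u (hG ▸ hu)
  have hRP' : ∀ u : (K.doc c).Rw, u.1 ∈ (K.doc c).G → (K.doc c).RowP π'.c1 (min t e1) u := fun u hu => hRP u (hG ▸ hu)
  have hS1 := H1 _ π π' C0 as μ h tB _ hfm (hasμ.trans hμ1) hμ1 htB1 (min_le_right _ _) hc2 rfl hB' hRP' (hm1 hg)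
  have hcv := hcv0 _ C0 hg.1.1 hC
  have hPc := (sf_sh_cost_cv _ π π' C0 as hg.1.1 hC).2 hc2
  have hS2 := H2 _ π π' C0 as μ h _ tB hfm (hasμ.trans hμ2) hμ2 ht1.le (min_le_right _ _) htB2 hc2 rfl
    (fun ρ => ⟨by have := hcv ρ; rwa [zero_add] at this, hPc ρ⟩) hS1 hB' (hm2 hg)
  refine ⟨hrst, sf_gd_mono K π Ls hK.md_mono C0 _ _ has hasa c hg, ?_⟩
  refine ⟨hG ▸ h0G, sf_ab_cost_mono _ hs π' _ _ hast hC, HA _ π C0 as μ h hfm (hasμ.trans hμA) hμA, ?_, ?_, ?_, ?_, ?_, ?_, ?_⟩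
  · intro u hu
    rw [hc2]
    exact (sf_ab_row_mono _ hs _ _ _ htBt u).1 (hB' u hu)
  · exact fun h0 => absurd hc2 h0.ne'
  · exact fun _ u hu => (sf_ab_row_mono _ hs _ _ _ (min_le_left _ _) u).2.2 (hRP' u hu)
  · exact fun h0 => absurd hc2 h0.ne'
  · exact fun h0 => absurd hc2 h0.ne'
  · intro _ i hi
    refine ⟨hS2 i hi, (hS1 i hi).trans (sf_mono_aux_le hs ?_)⟩
    have := min_le_left t e2
    linarith
  · intro hy'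
    exact hpl (sf_gd_mono K π Ls hK.md_mono C0 _ _ has hasP c hg) (hy ▸ hy')

/-- **SECOND EXIT: CLEAN + SH as an operation.**   It turns any good configuration on a `μ`-fine mesh `G0 ∋ 0, 1` with terminal costs `≤ s^(-(c2 + a0))` (and `≤ s^(-(c1 + a0))` if `c2 = 0`) into an outer configuration
with the same scale, gates, lengths, widths (`K.Rst`).   Only `c2`, `c1`, `hyb` of `π'` matter; `hMC` = `sf_minc`. -/
theorem sf_sh_op (hπ : π.Pd) (hK : K.Cal π Ls) (π' : SfPar) (hy : π'.hyb = π.hyb) (hpos : 0 < π'.c2 ∨ (π'.c2 = 0 ∧ 0 < π'.c1))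
    (hMC : ∀ τ : ℝ, 0 < τ → ∃ κ0 : ℝ, 0 < κ0 ∧ ∀ C0 t : ℝ, 0 < t → SfAll K.ob K.sc (fun c => K.Gd π Ls C0 t c → (K.doc c).MinC π' τ κ0 t))
    (t : ℝ) (ht : 0 < t) :
    ∃ μ : ℝ, 0 < μ ∧ ∀ G0 : Finset ℝ, (0 : ℝ) ∈ G0 → (1 : ℝ) ∈ G0 → (∀ i ∈ G0, i < 1 → ∃ j ∈ G0, i < j ∧ j ≤ i + μ) →
      ∀ a : ℝ, 0 < a → ∃ a0 : ℝ, 0 < a0 ∧ ∀ C0 : ℝ,
        K.Op (fun c' c => K.Rst c' c ∧ K.Gd π Ls C0 a c' ∧ (K.doc c').Out π' t)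
          (fun c => (K.doc c).G = G0 ∧ K.Gd π Ls C0 a0 c ∧ (K.doc c).Cost π' a0) := by
  rcases hpos with hc | ⟨hc2, hc1⟩
  · exact sf_sh_op_pos K π Ls hπ hK π' hy hc hMC t ht
  · exact sf_sh_op_lin K π Ls hπ hK π' hy hc2 hc1 hMC t ht

/-- **EXIT of A5 AB + A6 SH = ENTRY of A7 AF: the outer configuration.**   `hF2`, `hF1` = `sf_feas2_c2`, `sf_feas1_c1`;  `hMC` = `sf_minc`. -/
theorem sf_sh_out (hπ : π.Pd) (hK : K.Cal π Ls) (hpos : 0 < K.c2 π Ls ∨ (K.c2 π Ls = 0 ∧ 0 < K.c1 π Ls))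
    (hF2 : K.Feas2 π Ls (K.c2 π Ls)) (hF1 : K.c2 π Ls = 0 → K.Feas1 π Ls (K.c1 π Ls))
    (hMC : ∀ τ : ℝ, 0 < τ → ∃ κ0 : ℝ, 0 < κ0 ∧ ∀ C0 t : ℝ, 0 < t →
      SfAll K.ob K.sc (fun c => K.Gd π Ls C0 t c → (K.doc c).MinC { π with c2 := K.c2 π Ls, c1 := K.c1 π Ls } τ κ0 t))
    (t : ℝ) (ht : 0 < t) :
    ∃ μ : ℝ, 0 < μ ∧ ∀ M : Finset ℝ, (∀ i ∈ M, 0 ≤ i ∧ i ≤ 1) → (0 : ℝ) ∈ M → (∀ i ∈ insert 1 M, i < 1 → ∃ j ∈ insert 1 M, i < j ∧ j ≤ i + μ) →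
      ∀ a : ℝ, 0 < a → ∃ C0 : ℝ, SfEx K.ob K.sc (fun c => (K.doc c).G = insert 1 M ∧ K.Gd π Ls C0 a c ∧
        (K.doc c).Out { π with c2 := K.c2 π Ls, c1 := K.c1 π Ls } t) := by
  obtain ⟨μ, hμ, H⟩ := sf_sh_op K π Ls hπ hK { π with c2 := K.c2 π Ls, c1 := K.c1 π Ls } rfl hpos hMC t ht
  refine ⟨μ, hμ, fun M hM h0M hfine a ha => ?_⟩
  obtain ⟨a0, ha0, hop⟩ := H (insert 1 M) (Finset.mem_insert_of_mem h0M) (Finset.mem_insert_self _ _) hfine a ha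
  have hF : ∀ t : ℝ, 0 < t → ∃ C0 : ℝ, SfEx K.ob K.sc (fun c => K.Gd π Ls C0 t c ∧ (K.doc c).Cost { π with c2 := K.c2 π Ls, c1 := K.c1 π Ls } t) := by
    intro t ht
    rcases hpos with hc | ⟨hc2, -⟩
    · obtain ⟨C0, hex⟩ := hF2 t ht
      exact ⟨C0, sf_ex_mono (fun c hc' => ⟨hc'.1, fun ρ => ⟨hc'.2 ρ, fun h0 => absurd h0 hc.ne'⟩⟩) hex⟩
    · obtain ⟨C0, hex⟩ := hF1 hc2 t ht
      refine ⟨C0, sf_ex_mono (fun c hc' => ⟨hc'.1, fun ρ => ⟨?_, fun _ => (hc'.2 ρ).2⟩⟩) hex⟩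
      show _ ≤ (K.doc c).s ^ (-(K.c2 π Ls + t))
      rw [hc2, zero_add]
      exact (hc'.2 ρ).1
  obtain ⟨a4, ha4, DC⟩ := sf_ab_doc K π Ls hK.dc M hM a0 ha0
  have hm : 0 < min a4 a0 := lt_min ha4 ha0
  obtain ⟨C00, hex0⟩ := hF (min a4 a0) hm
  obtain ⟨C0, hex1⟩ := DC (fun s Q => sfR2 Q sfZero s ≤ s ^ (-(K.c2 π Ls + a0)) ∧ (K.c2 π Ls = 0 → sfR1 Q sfZero ≤ s ^ (-(K.c1 π Ls + a0)))) C00
    (sf_ex_mono (fun c hc => ⟨sf_gd_mono K π Ls hK.md_mono C00 _ _ hm (min_le_left _ _) c hc.1,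
      sf_ab_cost_mono (K.doc c) hc.1.1.1.hs { π with c2 := K.c2 π Ls, c1 := K.c1 π Ls } _ _ (min_le_right _ _) hc.2⟩) hex0)
  refine ⟨C0, sf_ex_mono (fun c' hc' => ?_) (sf_ab_ex_op K hex1 (hop C0))⟩
  obtain ⟨c, hc, ⟨e, he, -, -⟩, g2, g3⟩ := hc'
  exact ⟨he.hG.trans hc.1, g2, g3⟩

end

end Claimed.Agent.R256
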