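import Claimed.Agent.R256.Soft.AAbContract

/-!
# Row 256 (S0496), unit SOFT, A6 SH: CONTRACT of the shape constraints, DOC LEVEL      (architect helper55; prefix `sf_sh_`)

Prop. cyl:shape-constraints (02-cylinder.tex l.999-1094) on ONE `D : SfDoc` with `D.Fm π Ls C0 a μ h`, the row bounds of `Soft/AAbDefs.lean` and COST RIGIDITY `D.MinC π' τ κ0 a` (`Soft/Voc.lean`) as a hypothesis.   PAPER FREE.
Form: `∃ τ > 0, ∀ κ0 > 0, ∃ e0 > 0, ∀ D .. (all tolerances ≤ e0) ..`: THE PROVER CHOOSES `τ` (from `Ls`, the cost, the target `t`) and `e0` (also from `κ0`).   Never change a statement; a defect goes to helper55.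
NOTATION in the plans: `b2(k)`, `b1(k)` = the exponents of `w2 k`, `w1 k` (`w2 k = s^(b2 k)`); work with the inequalities between powers, no logarithm is needed:
`w2 k ≤ s^x` means `b2(k) ≥ x`.   Lipschitz: `sf_ab_lip`.   `err` = the sum of all small tolerances.
HOW `MinC` IS USED.   `MinC π' τ κ0 a` at the gates `i < j` with `a ≤ κ0 (j - i)`: bins `b : ι` (finite type), `Ub b` disjoint sets of rows of `j`, `Sb b ⊇` all predecessors, every row of `i` in `≤ s^(-κ0 (j-i))` sets `Sb b`, every label of `j` in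
`≤ s^(-κ0 (j-i))` bins, `(sg b).size ≤ s^(-1/a)`, costs after subtraction of `sg b` improved by `τ`  ⟹  `P_j(⋃ Ub) ≤ s^(κ0 (j-i)) < 1`.
PREFIX ARGUMENT: `i = 0`, `ι = Unit`, `Sb = Ub = True`, `sg = sfZero`: costs by `sf_ab_cost_j`; `P_j(True) = 1`: contradiction.
TAIL ARGUMENT: `j = 1`, `ι = Set.range bin` for a function `bin` of the terminal rows which depends only on the LABEL; `Ub b ρ'' := bin ρ'' = b` (and `ρ''` has a predecessor, if needed); `Sb b ρ := ∃ ρ'', Ub b ρ'' ∧ Conn i 1 ρ ρ''`.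
LEAVES: S1, S2LT, S2GT, S3LO, S3HI, KP.
-/

set_option autoImplicit false

namespace Claimed.Agent.R256

open Claimed.Agent.R255

/-- **FUT** (leaf L-256-SOFT-SH-FUT, ~150 l.): from future maxima to all gates.   `g = w2` or `w1`.   If `g j ≤ s^(c (j-1) - e)` at every gate `j ≥ i1` which is a future maximum of `g`, and `g` is Lipschitz, then `g j ≤ s^(c (j-1) - e - L (i1 + μ) - b)` at all gates.
PROOF.   `j ≥ i1`: a maximiser `j*` of `g` on `{k ∈ G | j ≤ k}` (finite, nonempty) is a future maximum, `g j ≤ g j* ≤ s^(c (j*-1) - e) ≤ s^(c (j-1) - e)`.   `j < i1`: `sf_ab_next` gives a gate `k1 ∈ [i1, i1 + μ]`; `g j ≤ g k1 s^(-(L (k1 - j) + b))`. -/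
theorem sf_sh_fut (D : SfDoc) (π : SfPar) (C0 a μ : ℝ) (hc : D.Core π C0 a) (h0 : (0 : ℝ) ∈ D.G) (hf : D.FineM μ) (g : ℝ → ℝ) (c e L b i1 : ℝ) (hc0 : 0 ≤ c) (hL : 0 ≤ L) (hb : 0 ≤ b)
    (hi1 : 0 < i1 ∧ i1 ≤ 1) (hlip : ∀ i ∈ D.G, ∀ j ∈ D.G, i < j → g i ≤ g j * D.s ^ (-(L * (j - i) + b))) (hpos : ∀ i ∈ D.G, 0 < g i)
    (hfut : ∀ j ∈ D.G, i1 ≤ j → (∀ k ∈ D.G, j ≤ k → g k ≤ g j) → g j ≤ D.s ^ (c * (j - 1) - e)) :
    ∀ j ∈ D.G, g j ≤ D.s ^ (c * (j - 1) - e - L * (i1 + μ) - b) := by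
  have hs := hc.hs
  have hμ : 0 < μ := by
    obtain ⟨k, _, hk1, hk2⟩ := hf 0 h0 one_pos
    linarith
  -- the finer bound at the gates `≥ i1`
  have hfine : ∀ j ∈ D.G, i1 ≤ j → g j ≤ D.s ^ (c * (j - 1) - e) := by
    intro j hj hij
    have hne : (D.G.filter (fun k => j ≤ k)).Nonempty := ⟨j, Finset.mem_filter.2 ⟨hj, le_rfl⟩⟩
    obtain ⟨m, hm, hmax⟩ := Finset.exists_max_image (D.G.filter (fun k => j ≤ k)) g hne
    have hm' := Finset.mem_filter.1 hm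
    have h1 : g m ≤ D.s ^ (c * (m - 1) - e) :=
      hfut m hm'.1 (hij.trans hm'.2) (fun k hk hmk => hmax k (Finset.mem_filter.2 ⟨hk, hm'.2.trans hmk⟩))
    have h2 : g j ≤ g m := hmax j (Finset.mem_filter.2 ⟨hj, le_rfl⟩)
    have h3 : D.s ^ (c * (m - 1) - e) ≤ D.s ^ (c * (j - 1) - e) := by
      apply sf_mc_anti hs.1 hs.2
      have := mul_le_mul_of_nonneg_left hm'.2 hc0
      nlinarith
    exact h2.trans (h1.trans h3)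
  intro j hj
  have hj0 := (hc.gate.2 j hj).1
  rcases le_or_gt i1 j with hij | hij
  · refine (hfine j hj hij).trans (sf_mc_anti hs.1 hs.2 ?_)
    have : 0 ≤ L * (i1 + μ) := mul_nonneg hL (by linarith [hi1.1])
    linarith
  · obtain ⟨k1, hk1, hk1a, hk1b⟩ := sf_ab_next D π C0 a μ hc h0 hf i1 hi1.1.le hi1.2
    have hjk : j < k1 := lt_of_lt_of_le hij hk1a
    have h1 := hlip j hj k1 hk1 hjk
    have h2 := hfine k1 hk1 hk1a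
    have hp : 0 < D.s ^ (-(L * (k1 - j) + b)) := Real.rpow_pos_of_pos hs.1 _
    have h3 : g k1 * D.s ^ (-(L * (k1 - j) + b)) ≤ D.s ^ (c * (k1 - 1) - e) * D.s ^ (-(L * (k1 - j) + b)) :=
      mul_le_mul_of_nonneg_right h2 hp.le
    rw [← Real.rpow_add hs.1] at h3
    refine h1.trans (h3.trans (sf_mc_anti hs.1 hs.2 ?_))
    have h4 : c * j ≤ c * k1 := mul_le_mul_of_nonneg_left hjk.le hc0
    have h5 : L * (k1 - j) ≤ L * (i1 + μ) := mul_le_mul_of_nonneg_left (by linarith) hL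
    nlinarith

/-- **S1** (leaf L-256-SOFT-SH-S1, ~300 l.): `b2(j) ≥ c (j - 1) - t`.
PLAN.   `τ = min (t/4) (c/2)`.   Given `κ0`: choose `i1 ∈ (0,1]` with `3 |Ls| i1 ≤ t/8`, then `e0` with `e0 ≤ κ0 i1`, `e0 ≤ (c/2) i1`, `(3|Ls| + 8) e0 ≤ t/8`.   `sf_sh_fut` with `g = w2`, `e = τ + tB`, `L = 3|Ls|`, `b = 3a` (`sf_ab_lip`).
At a future maximum `j ≥ i1`: suppose `w2 j > s^(c (j-1) - τ - tB)`.   `RowB` with `V = max (s^(-c)) (w2 j)`: `cv ≤ V s^(-tB)`, so the cost `cv / w2 j` is `≤ s^(-tB) ≤ s^(-(c-τ) j)` (as `tB ≤ (c-τ) i1`) or `≤ s^(-c-tB) / w2 j < s^(-c j + τ) ≤ s^(-(c-τ) j)`.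
PREFIX ARGUMENT on `[0, j]` (`a ≤ κ0 j`). -/
theorem sf_sh_s1 (Ls c t : ℝ) (hc : 0 < c) (ht : 0 < t) : ∃ τ : ℝ, 0 < τ ∧ ∀ κ0 : ℝ, 0 < κ0 → ∃ e0 : ℝ, 0 < e0 ∧
    ∀ (D : SfDoc) (π π' : SfPar) (C0 a μ h tB : ℝ), D.Fm π Ls C0 a μ h → a ≤ e0 → μ ≤ e0 → tB ≤ e0 → π'.c2 = c →
      (∀ u : D.Rw, u.1 ∈ D.G → D.RowB c tB u) → D.MinC π' τ κ0 a → ∀ j ∈ D.G, D.w2 j ≤ D.s ^ (c * (j - 1) - t) := by
  have hτ0 : 0 < min (t / 4) (c / 2) := lt_min (by linarith) (by linarith)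
  refine ⟨min (t / 4) (c / 2), hτ0, fun κ0 hκ => ?_⟩
  set τ : ℝ := min (t / 4) (c / 2) with hτ
  have hτ1 : τ ≤ t / 4 := min_le_left _ _
  have hτ2 : τ ≤ c / 2 := min_le_right _ _
  have hL0 : 0 ≤ |Ls| := abs_nonneg _
  -- the depth `i1`
  set i1 : ℝ := min 1 (t / (24 * (|Ls| + 1))) with hi1
  have hi10 : 0 < i1 := lt_min one_pos (by positivity)
  have hi11 : i1 ≤ 1 := min_le_left _ _
  have hi12 : 3 * |Ls| * i1 ≤ t / 8 := by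
    have h1 : i1 ≤ t / (24 * (|Ls| + 1)) := min_le_right _ _
    rw [le_div_iff₀ (by positivity)] at h1
    nlinarith
  -- the threshold
  set e0 : ℝ := min (κ0 * i1) (min (c / 2 * i1) (t / (8 * (3 * |Ls| + 8)))) with he0
  have he00 : 0 < e0 := lt_min (by positivity) (lt_min (by positivity) (by positivity))
  have he01 : e0 ≤ κ0 * i1 := min_le_left _ _
  have he02 : e0 ≤ c / 2 * i1 := (min_le_right _ _).trans (min_le_left _ _)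
  have he03 : (3 * |Ls| + 8) * e0 ≤ t / 8 := by
    have h1 : e0 ≤ t / (8 * (3 * |Ls| + 8)) := (min_le_right _ _).trans (min_le_right _ _)
    rw [le_div_iff₀ (by positivity)] at h1
    nlinarith
  refine ⟨e0, he00, fun D π π' C0 a μ h tB hF ha hμ htB hc2 hB hM => ?_⟩
  have hcore : D.Core π C0 a := hF.good.1
  obtain ⟨hs0, hs1⟩ := hcore.hs
  have hB' : ∀ u : D.Rw, u.1 ∈ D.G → D.RowB c e0 u := fun u hu => (sf_ab_row_mono D hcore.hs c tB e0 htB u).1 (hB u hu)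
  have hfut := sf_sh_fut D π C0 a μ hcore hF.g0 hF.fine D.w2 c (τ + e0) (3 * |Ls|) (3 * a) i1 hc.le (by positivity) (by linarith [hF.a0]) ⟨hi10, hi11⟩
    (fun i hi j hj hij => by
      have := (sf_ab_lip D π Ls C0 a hF.good i j hi hj hij).2.1
      have e : 3 * |Ls| * (j - i) + 3 * a = 3 * (|Ls| * (j - i) + a) := by ring
      rw [e]; exact this)
    (fun i hi => (sf_ab_w_pos D π C0 a hcore i hi).1) ?_
  · intro j hj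
    refine (hfut j hj).trans (sf_mc_anti hs0 hs1 ?_)
    have hμ' : 3 * |Ls| * μ ≤ 3 * |Ls| * e0 := mul_le_mul_of_nonneg_left hμ (by positivity)
    nlinarith
  · intro j hj hij hmax
    by_contra hcon
    rw [not_le] at hcon
    have hj0 : 0 < j := lt_of_lt_of_le hi10 hij
    have hj1 : j ≤ 1 := (hcore.gate.2 j hj).2
    have hw : 0 < D.w2 j := (sf_ab_w_pos D π C0 a hcore j hj).1
    have hone : (1 : ℝ) ≤ D.s ^ (-(κ0 * (j - 0))) :=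
      Real.one_le_rpow_of_pos_of_le_one_of_nonpos hs0 hs1.le (by rw [sub_zero]; nlinarith)
    have hpr := hM 0 hF.g0 j hj hj0 (by rw [sub_zero]; nlinarith) Unit (fun _ _ => True) (fun _ _ => True) (fun _ => sfZero)
      (fun _ _ _ _ _ => rfl) (fun _ _ _ _ _ => trivial)
      (fun ρ => le_trans (by
        have : (({b | True} : Set Unit).ncard) ≤ 1 := Set.ncard_le_one_of_subsingleton _
        exact_mod_cast this) hone)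
      (fun lam => le_trans (by
        have : (({b | ∃ ρ', True ∧ D.lab j ρ' = lam} : Set Unit).ncard) ≤ 1 := Set.ncard_le_one_of_subsingleton _
        exact_mod_cast this) hone)
      (fun _ => by
        have : sfZero.size = 0 := by simp [sfZero, SfTest.size]
        rw [this]
        exact (Real.rpow_pos_of_pos hs0 _).le)
      (fun _ _ ρ' _ => by
        rw [(sf_ab_cost_j D π C0 a hcore j hj ρ').1, hc2, sub_zero, div_le_iff₀ hw]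
        have h1 := hB' ⟨j, ρ'⟩ hj (max (D.s ^ (-c)) (D.w2 j)) (le_max_left _ _) (fun k hk hjk => (hmax k hk hjk).trans (le_max_right _ _))
        refine h1.trans ?_
        have hp : 0 < D.s ^ (-e0) := Real.rpow_pos_of_pos hs0 _
        rcases le_total (D.s ^ (-c)) (D.w2 j) with h2 | h2
        · rw [max_eq_right h2, mul_comm]
          refine mul_le_mul_of_nonneg_right (sf_mc_anti hs0 hs1 ?_) hw.le
          nlinarith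
        · rw [max_eq_left h2, ← Real.rpow_add hs0]
          have h3 : D.s ^ (-((c - τ) * j)) * D.s ^ (c * (j - 1) - (τ + e0)) ≤ D.s ^ (-((c - τ) * j)) * D.w2 j :=
            mul_le_mul_of_nonneg_left hcon.le (Real.rpow_pos_of_pos hs0 _).le
          refine le_trans ?_ h3
          rw [← Real.rpow_add hs0]
          refine sf_mc_anti hs0 hs1 ?_
          nlinarith)
      (fun h0 => by rw [hc2] at h0; exact absurd h0 hc.ne')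
    have h1 : (D.P j).pr (fun ρ' => ∃ _ : Unit, True) = 1 := ent_pr_eq_one _ fun _ _ => ⟨(), trivial⟩
    rw [h1] at hpr
    have h2 : D.s ^ (κ0 * (j - 0)) < 1 := Real.rpow_lt_one hs0.le hs1 (by rw [sub_zero]; positivity)
    linarith

/-- **KP** (leaf L-256-SOFT-SH-KP, ~60 l.): after `S1` the second domination in `RowK` is automatic: use `RowK` with `V s^(-t1)` (`w2 k ≤ s^(c (k-1) - t1) ≤ s^(-c) s^(-t1) ≤ V s^(-t1)`). -/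
theorem sf_sh_kp (D : SfDoc) (hs : 0 < D.s ∧ D.s < 1) (hG : ∀ i ∈ D.G, 0 ≤ i ∧ i ≤ 1) (c t1 tK : ℝ) (hc : 0 ≤ c) (ht1 : 0 ≤ t1) (h1 : ∀ k ∈ D.G, D.w2 k ≤ D.s ^ (c * (k - 1) - t1))
    (u : D.Rw) (hK : D.RowK c tK u) (V : ℝ) (hV : D.s ^ (-c) ≤ V) (hV2 : ∀ k ∈ D.G, k ≤ u.1 → D.w2 k / D.len k ≤ V) :
    |(D.lab u.1 u.2).K| ≤ V * D.s ^ (-(t1 + tK)) := by
  have hsc : 0 < D.s ^ (-c) := Real.rpow_pos_of_pos hs.1 _
  have hVp : 0 < V := lt_of_lt_of_le hsc hV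
  have h1le : 1 ≤ D.s ^ (-t1) := by
    have := sf_mc_anti hs.1 hs.2 (show -t1 ≤ 0 by linarith)
    rwa [Real.rpow_zero] at this
  have hVV : V ≤ V * D.s ^ (-t1) := le_mul_of_one_le_right hVp.le h1le
  have h := hK (V * D.s ^ (-t1)) (hV.trans hVV) ?_ (fun k hk hku => (hV2 k hk hku).trans hVV)
  · rw [mul_assoc, ← Real.rpow_add hs.1] at h
    have he : -t1 + -tK = -(t1 + tK) := by ring
    rwa [he] at h
  · intro k hk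
    have hk0 := (hG k hk).1
    have h2 : D.s ^ (c * (k - 1) - t1) ≤ D.s ^ (-c + -t1) := by
      apply sf_mc_anti hs.1 hs.2
      have := mul_nonneg hc hk0
      nlinarith
    rw [Real.rpow_add hs.1] at h2
    exact (h1 k hk).trans (h2.trans (mul_le_mul_of_nonneg_right hV (by linarith)))

/-! ### kit of the tail arguments `sf_sh_s2lt`, `sf_sh_s2gt` (prefix `sf_sh_t_`) -/

theorem sf_sh_t_abs16 {s a : ℝ} (hs : 0 < s) (h : s ^ a ≤ 1 / 16) : 16 ≤ s ^ (-a) := by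
  have hp := Real.rpow_pos_of_pos hs a
  rw [Real.rpow_neg hs.le, le_inv_comm₀ (by norm_num) hp]
  linarith

theorem sf_sh_t_mul {s : ℝ} (hs : 0 < s) (x y : ℝ) : s ^ x * s ^ y = s ^ (x + y) := (Real.rpow_add hs x y).symm

/-- a product of two bounds by powers of the scale -/
theorem sf_sh_t_mul_le {s u v x y z : ℝ} (hs : 0 < s ∧ s < 1) (hu0 : 0 ≤ u) (hu : u ≤ s ^ x) (hv : v ≤ s ^ y) (hz : z ≤ x + y) :
    u * v ≤ s ^ z := by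
  have hx : 0 < s ^ x := Real.rpow_pos_of_pos hs.1 _
  calc u * v ≤ u * s ^ y := mul_le_mul_of_nonneg_left hv hu0
    _ ≤ s ^ x * s ^ y := mul_le_mul_of_nonneg_right hu (Real.rpow_pos_of_pos hs.1 _).le
    _ = s ^ (x + y) := sf_sh_t_mul hs.1 x y
    _ ≤ s ^ z := sf_mc_anti hs.1 hs.2 hz

/-- the width exponent near a gate where it is too large -/
theorem sf_sh_t_near (D : SfDoc) (π : SfPar) (Ls C0 a c t δ : ℝ) (hg : D.Good π Ls C0 a) (ha : 0 ≤ a) (hc : 0 ≤ c) (ht : 0 ≤ t)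
    (hδ : (3 * |Ls| + c) * δ ≤ t / 2) (i : ℝ) (hi : i ∈ D.G) (hw : D.w2 i ≤ D.s ^ (c * (i - 1) + t)) (k : ℝ) (hk : k ∈ D.G) (hki : |k - i| ≤ δ) :
    D.w2 k ≤ D.s ^ (c * (k - 1) + t / 2 - 3 * a) := by
  have hs := hg.1.hs
  have hL : 0 ≤ |Ls| := abs_nonneg _
  have hki' := abs_le.1 hki
  rcases lt_trichotomy k i with hlt | heq | hgt
  · have h1 := (sf_ab_lip D π Ls C0 a hg k i hk hi hlt).2.1
    refine h1.trans ?_
    refine sf_sh_t_mul_le hs (sf_ab_w_pos D π C0 a hg.1 i hi).1.le hw le_rfl ?_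
    have h2 : (3 * |Ls| + c) * (i - k) ≤ (3 * |Ls| + c) * δ := mul_le_mul_of_nonneg_left (by linarith) (by positivity)
    have h3 : 0 ≤ c * (i - k) := mul_nonneg hc (by linarith)
    nlinarith
  · subst heq
    exact hw.trans (sf_mc_anti hs.1 hs.2 (by linarith))
  · have h1 := (sf_ab_lip D π Ls C0 a hg i k hi hk hgt).2.2.1
    refine h1.trans ?_
    refine sf_sh_t_mul_le hs (sf_ab_w_pos D π C0 a hg.1 i hi).1.le hw le_rfl ?_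
    have h2 : (3 * |Ls| + c) * (k - i) ≤ (3 * |Ls| + c) * δ := mul_le_mul_of_nonneg_left (by linarith) (by positivity)
    nlinarith

/-- the floors of the points of an interval -/
theorem sf_sh_t_floor (S : Set ℤ) (A R : ℝ) (h : ∀ m ∈ S, ∃ x : ℝ, |x - A| ≤ R ∧ ⌊x⌋ = m) :
    S.Finite ∧ (S.ncard : ℝ) ≤ max (2 * R + 2) 0 := by
  have hsub : S ⊆ ↑(Finset.Icc ⌊A - R⌋ ⌊A + R⌋) := by
    intro m hm
    obtain ⟨x, hx, rfl⟩ := h m hm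
    have hx' := abs_le.1 hx
    rw [Finset.coe_Icc]
    exact ⟨Int.floor_le_floor (by linarith), Int.floor_le_floor (by linarith)⟩
  refine ⟨(Finset.finite_toSet _).subset hsub, ?_⟩
  have h1 : S.ncard ≤ (Finset.Icc ⌊A - R⌋ ⌊A + R⌋).card := by
    rw [← Set.ncard_coe_finset]
    exact Set.ncard_le_ncard hsub (Finset.finite_toSet _)
  rw [Int.card_Icc] at h1
  have h2 : ((S.ncard : ℕ) : ℝ) ≤ (((⌊A + R⌋ + 1 - ⌊A - R⌋).toNat : ℕ) : ℝ) := by exact_mod_cast h1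
  refine h2.trans ?_
  have h3 : (((⌊A + R⌋ + 1 - ⌊A - R⌋).toNat : ℕ) : ℝ) = ((max (⌊A + R⌋ + 1 - ⌊A - R⌋) 0 : ℤ) : ℝ) := by
    have : (((⌊A + R⌋ + 1 - ⌊A - R⌋).toNat : ℕ) : ℤ) = max (⌊A + R⌋ + 1 - ⌊A - R⌋) 0 := Int.toNat_eq_max _
    exact_mod_cast this
  rw [h3]
  push_cast
  refine max_le_max ?_ le_rfl
  have h4 := Int.floor_le (A + R)
  have h5 := Int.lt_floor_add_one (A - R)
  linarith

/-- **the tail argument**: bins of the terminal rows -/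
theorem sf_sh_t_tail (D : SfDoc) (π' : SfPar) (τ κ0 a : ℝ) (hs : 0 < D.s ∧ D.s < 1) (hM : D.MinC π' τ κ0 a) (i : ℝ) (hi : i ∈ D.G)
    (h1 : (1 : ℝ) ∈ D.G) (hi1 : i < 1) (ha : a ≤ κ0 * (1 - i)) (hκ : 0 ≤ κ0) (hc2 : 0 < π'.c2) {β : Type} (bin : D.Row 1 → β)
    (good : D.Row 1 → Prop) (sg : β → SfTest) (hlab : ∀ ρ' ρ'', D.lab 1 ρ' = D.lab 1 ρ'' → bin ρ' = bin ρ'')
    (hov : ∀ ρ : D.Row i, (({b | ∃ ρ'', good ρ'' ∧ bin ρ'' = b ∧ D.Conn i 1 ρ ρ''} : Set β).ncard : ℝ) ≤ D.s ^ (-(κ0 * (1 - i))))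
    (hsz : ∀ ρ'', good ρ'' → (sg (bin ρ'')).size ≤ D.s ^ (-(1 / a)))
    (hcost : ∀ ρ'', good ρ'' → sfR2 (D.lab 1 ρ'') (sg (bin ρ'')) (D.len 1) ≤ D.s ^ (-((π'.c2 - τ) * (1 - i)))) :
    (D.P 1).pr good ≤ D.s ^ (κ0 * (1 - i)) := by
  classical
  have hfin : Finite {b : β // ∃ ρ'', good ρ'' ∧ bin ρ'' = b} := by
    have : ({b : β | ∃ ρ'', good ρ'' ∧ bin ρ'' = b}).Finite :=
      (Set.finite_range bin).subset (by rintro b ⟨ρ, -, rfl⟩; exact ⟨ρ, rfl⟩)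
    exact this.to_subtype
  have key := hM i hi 1 h1 hi1 ha {b : β // ∃ ρ'', good ρ'' ∧ bin ρ'' = b}
    (fun b ρ => ∃ ρ'', (good ρ'' ∧ bin ρ'' = b.1) ∧ D.Conn i 1 ρ ρ'') (fun b ρ'' => good ρ'' ∧ bin ρ'' = b.1) (fun b => sg b.1)
    ?_ ?_ ?_ ?_ ?_ ?_ ?_
  · refine le_trans (le_of_eq ?_) key
    exact ent_pr_congr _ fun ρ _ => ⟨fun h => ⟨⟨bin ρ, ρ, h, rfl⟩, h, rfl⟩, fun ⟨b, h, _⟩ => h⟩
  · intro b b' ρ' h h'
    exact Subtype.ext (h.2.symm.trans h'.2)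
  · intro b ρ' hU ρ hc
    exact ⟨ρ', hU, hc⟩
  · intro ρ
    refine le_trans ?_ (hov ρ)
    rw [← Set.ncard_image_of_injective _ Subtype.val_injective]
    have hsub : Subtype.val '' {b : {b : β // ∃ ρ'', good ρ'' ∧ bin ρ'' = b} | ∃ ρ'', (good ρ'' ∧ bin ρ'' = b.1) ∧ D.Conn i 1 ρ ρ''}
        ⊆ {b | ∃ ρ'', good ρ'' ∧ bin ρ'' = b ∧ D.Conn i 1 ρ ρ''} := by
      rintro _ ⟨b, ⟨ρ'', ⟨hg, hb⟩, hc⟩, rfl⟩
      exact ⟨ρ'', hg, hb, hc⟩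
    have hf : ({b | ∃ ρ'', good ρ'' ∧ bin ρ'' = b ∧ D.Conn i 1 ρ ρ''} : Set β).Finite :=
      (Set.finite_range bin).subset (by rintro b ⟨ρ, -, rfl, -⟩; exact ⟨ρ, rfl⟩)
    exact_mod_cast Set.ncard_le_ncard hsub hf
  · intro lam
    have hss : ({b : {b : β // ∃ ρ'', good ρ'' ∧ bin ρ'' = b} | ∃ ρ', (good ρ' ∧ bin ρ' = b.1) ∧ D.lab 1 ρ' = lam}).Subsingleton := by
      rintro b ⟨ρ, ⟨-, hb⟩, hl⟩ b' ⟨ρ', ⟨-, hb'⟩, hl'⟩
      exact Subtype.ext (hb.symm.trans ((hlab ρ ρ' (hl.trans hl'.symm)).trans hb'))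
    have h2 : (({b : {b : β // ∃ ρ'', good ρ'' ∧ bin ρ'' = b} | ∃ ρ', (good ρ' ∧ bin ρ' = b.1) ∧ D.lab 1 ρ' = lam}).ncard : ℝ) ≤ 1 := by
      exact_mod_cast (Set.ncard_le_one (Set.toFinite _)).2 (fun b hb b' hb' => hss hb hb')
    refine h2.trans (Real.one_le_rpow_of_pos_of_le_one_of_nonpos hs.1 hs.2.le ?_)
    have : 0 ≤ κ0 * (1 - i) := mul_nonneg hκ (by linarith)
    linarith
  · intro b
    obtain ⟨ρ'', hg, hb⟩ := b.2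
    rw [← hb]
    exact hsz ρ'' hg
  · intro _ b ρ' hU
    rw [← hU.2]
    exact hcost ρ' hU.1
  · intro h0
    exact absurd h0 hc2.ne'

theorem sf_sh_t_div {s u l x y : ℝ} (hs : 0 < s ∧ s < 1) (hu : u ≤ s ^ x) (hl : s ^ y ≤ l) : u / l ≤ s ^ (x - y) := by
  rw [Real.rpow_sub hs.1]
  exact div_le_div₀ (Real.rpow_pos_of_pos hs.1 _).le hu (Real.rpow_pos_of_pos hs.1 _) hl

theorem sf_sh_t_lt_one (D : SfDoc) (π : SfPar) (Ls C0 a c t δ : ℝ) (hg : D.Good π Ls C0 a) (ha : 0 ≤ a) (hc : 0 ≤ c) (ht : 0 ≤ t)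
    (hδ : (3 * |Ls| + c) * δ ≤ t / 2) (h3a : 3 * a < t / 2) (i : ℝ) (hi : i ∈ D.G) (hw : D.w2 i ≤ D.s ^ (c * (i - 1) + t)) : i + δ < 1 := by
  by_contra hcon
  push Not at hcon
  have hs := hg.1.hs
  have hi01 := hg.1.gate.2 i hi
  have h1 := sf_sh_t_near D π Ls C0 a c t δ hg ha hc ht hδ i hi hw 1 hg.1.gate.1 (by rw [abs_le]; constructor <;> linarith)
  rw [(sf_ab_w_one D π C0 a hg.1).1] at h1
  have h0 : c * (1 - 1) = 0 := by ring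
  have h2 : D.s ^ (c * (1 - 1) + t / 2 - 3 * a) < 1 := Real.rpow_lt_one hs.1.le hs.2 (by linarith)
  linarith

theorem sf_sh_t_c16 {s a : ℝ} (hs : 0 < s) (h : s ^ a ≤ 1 / 16) (x : ℝ) : 16 * s ^ x ≤ s ^ (x - a) := by
  have h1 := sf_sh_t_abs16 hs h
  have : s ^ (x - a) = s ^ (-a) * s ^ x := by
    rw [sf_sh_t_mul hs]
    ring_nf
  rw [this]
  exact mul_le_mul_of_nonneg_right h1 (Real.rpow_pos_of_pos hs _).le

theorem sf_sh_t_bin {x w : ℝ} (hw : 0 < w) : |x - (⌊x / w⌋ : ℝ) * w| ≤ w := by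
  have h1 := Int.floor_le (x / w)
  have h2 := Int.lt_floor_add_one (x / w)
  rw [le_div_iff₀ hw] at h1
  rw [div_lt_iff₀ hw] at h2
  rw [abs_le]
  constructor <;> nlinarith

theorem sf_sh_t_floor' {α : Type} (P : α → Prop) (f : α → ℝ) (w A R : ℝ) (hw : 0 < w) (hR : 0 ≤ R) (h : ∀ x, P x → |f x - A| ≤ R * w) :
    ({m : ℤ | ∃ x, P x ∧ ⌊f x / w⌋ = m}).Finite ∧ (({m : ℤ | ∃ x, P x ∧ ⌊f x / w⌋ = m}).ncard : ℝ) ≤ 2 * R + 2 := by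
  have h1 := sf_sh_t_floor {m : ℤ | ∃ x, P x ∧ ⌊f x / w⌋ = m} (A / w) R (by
    rintro m ⟨x, hx, rfl⟩
    refine ⟨f x / w, ?_, rfl⟩
    rw [← sub_div, abs_div, abs_of_pos hw, div_le_iff₀ hw]
    exact h x hx)
  refine ⟨h1.1, h1.2.trans (le_of_eq (max_eq_left (by linarith)))⟩

/-! ### helpers of `sf_sh_s2lt` (prefix `sf_sh_lt_`) -/

theorem sf_sh_lt_gate (D : SfDoc) (π : SfPar) (Ls C0 a μ h c t δ θ : ℝ) (hF : D.Fm π Ls C0 a μ h) (haθ : a ≤ θ) (hμθ : μ ≤ θ)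
    (hθδ : θ ≤ δ / 3) (hθt : 12 * θ ≤ t) (hc : 0 ≤ c) (hδ : (3 * |Ls| + c) * δ ≤ t / 2) (i : ℝ) (hi : i ∈ D.G)
    (hw : D.w2 i ≤ D.s ^ (c * (i - 1) + t)) :
    ∃ i' ∈ D.G, δ / 3 ≤ i' ∧ i' + δ / 3 < 1 ∧ ∀ k ∈ D.G, |k - i'| ≤ δ / 3 → D.w2 k ≤ D.s ^ (c * (k - 1) + t / 4) := by
  have hg := hF.good
  have hs := hg.1.hs
  have ha := hF.a0
  have ht : 0 ≤ t := by linarith
  have hi01 := hg.1.gate.2 i hi
  have hlt := sf_sh_t_lt_one D π Ls C0 a c t δ hg ha.le hc ht hδ (by linarith) i hi hw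
  obtain ⟨i', hi', h1, h2⟩ := sf_ab_next D π C0 a μ hg.1 hF.g0 hF.fine (i + δ / 3) (by linarith) (by linarith)
  refine ⟨i', hi', by linarith, by linarith, fun k hk hki => ?_⟩
  have hki' := abs_le.1 hki
  have h3 := sf_sh_t_near D π Ls C0 a c t δ hg ha.le hc ht hδ i hi hw k hk (by rw [abs_le]; constructor <;> linarith [hki'.1, hki'.2])
  exact h3.trans (sf_mc_anti hs.1 hs.2 (by linarith))

theorem sf_sh_lt_K (D : SfDoc) (π : SfPar) (C0 a c t t1 δ ε θ : ℝ) (hcore : D.Core π C0 a) (ha0 : 0 ≤ a) (haθ : a ≤ θ) (ht10 : 0 ≤ t1)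
    (ht1θ : t1 ≤ θ) (hc : 0 < c) (hc1 : c < 1) (hε1 : ε ≤ (1 - c) * δ / 3) (hε3 : ε ≤ t / 4)
    (hS1 : ∀ k ∈ D.G, D.w2 k ≤ D.s ^ (c * (k - 1) - t1)) (hK : ∀ u : D.Rw, u.1 ∈ D.G → D.RowK c θ u)
    (i' : ℝ) (hi' : i' ∈ D.G) (hi'δ : δ / 3 ≤ i')
    (hnear : ∀ k ∈ D.G, |k - i'| ≤ δ / 3 → D.w2 k ≤ D.s ^ (c * (k - 1) + t / 4)) (ρ : D.Row i') :
    D.len i' * |(D.lab i' ρ).K| ≤ D.s ^ (c * (i' - 1) + ε - 5 * θ) := by
  have hs := hcore.hs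
  have hkp := sf_sh_kp D hs hcore.gate.2 c t1 θ hc.le ht10 hS1 ⟨i', ρ⟩ (hK ⟨i', ρ⟩ hi') (D.s ^ (c * (i' - 1) - i' + ε - t1 - a)) ?_ ?_
  · have hl := (hcore.hlen.2 i' hi').2
    have hl0 := sf_mc_len_pos D π C0 a hcore i' hi'
    have h2 : |(D.lab i' ρ).K| ≤ D.s ^ (c * (i' - 1) - i' + ε - t1 - a + -(t1 + θ)) := by
      rw [← sf_sh_t_mul hs.1]
      exact hkp
    exact sf_sh_t_mul_le hs hl0.le hl h2 (by linarith)
  · refine sf_mc_anti hs.1 hs.2 ?_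
    have : (1 - c) * (δ / 3) ≤ (1 - c) * i' := mul_le_mul_of_nonneg_left hi'δ (by linarith)
    nlinarith
  · intro k hk hki
    have hki' : k ≤ i' := hki
    have hlk := (hcore.hlen.2 k hk).1
    by_cases hcase : k ≤ i' - δ / 3
    · refine (sf_sh_t_div hs (hS1 k hk) hlk).trans (sf_mc_anti hs.1 hs.2 ?_)
      have : (1 - c) * (δ / 3) ≤ (1 - c) * (i' - k) := mul_le_mul_of_nonneg_left (by linarith) (by linarith)
      nlinarith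
    · push Not at hcase
      refine (sf_sh_t_div hs (hnear k hk (by rw [abs_le]; constructor <;> linarith)) hlk).trans (sf_mc_anti hs.1 hs.2 ?_)
      have : 0 ≤ (1 - c) * (i' - k) := mul_nonneg (by linarith) (by linarith)
      nlinarith

theorem sf_sh_lt_be (D : SfDoc) (π : SfPar) (C0 a c t t1 δ ε θ : ℝ) (hcore : D.Core π C0 a) (ht10 : 0 ≤ t1) (ht1θ : t1 ≤ θ) (hc : 0 < c)
    (hε2 : ε ≤ c * δ / 3) (hε3 : ε ≤ t / 4) (hS1 : ∀ k ∈ D.G, D.w2 k ≤ D.s ^ (c * (k - 1) - t1))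
    (hA : ∀ i ∈ D.G, ∀ j ∈ D.G, i < j → ∀ ρ ρ', D.Conn i j ρ ρ' → ∀ V : ℝ, (∀ k ∈ D.G, i ≤ k → k ≤ j → D.w2 k ≤ V) →
      |(D.lab i ρ).beAt (D.T j ρ') - (D.lab j ρ').be| ≤ V * D.s ^ (-θ))
    (i' : ℝ) (hi' : i' ∈ D.G) (hi'1 : i' < 1)
    (hnear : ∀ k ∈ D.G, |k - i'| ≤ δ / 3 → D.w2 k ≤ D.s ^ (c * (k - 1) + t / 4))
    (hKb : ∀ ρ : D.Row i', D.len i' * |(D.lab i' ρ).K| ≤ D.s ^ (c * (i' - 1) + ε - 5 * θ))
    (ρ : D.Row i') (ρ'' : D.Row 1) (hcn : D.Conn i' 1 ρ ρ'') :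
    |(D.lab i' ρ).be - (D.lab 1 ρ'').be| ≤ 2 * D.s ^ (c * (i' - 1) + ε - 5 * θ) := by
  have hs := hcore.hs
  have g1 := hcore.gate.1
  have h1 := hA i' hi' 1 g1 hi'1 ρ ρ'' hcn (D.s ^ (c * (i' - 1) + ε - t1)) (fun k hk hik hk1 => by
    by_cases hcase : k ≤ i' + δ / 3
    · refine (hnear k hk (by rw [abs_le]; constructor <;> linarith)).trans (sf_mc_anti hs.1 hs.2 ?_)
      have : 0 ≤ c * (k - i') := mul_nonneg hc.le (by linarith)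
      nlinarith
    · push Not at hcase
      refine (hS1 k hk).trans (sf_mc_anti hs.1 hs.2 ?_)
      have : c * (δ / 3) ≤ c * (k - i') := mul_le_mul_of_nonneg_left (by linarith) hc.le
      nlinarith)
  rw [sf_sh_t_mul hs.1] at h1
  have h2 : D.s ^ (c * (i' - 1) + ε - t1 + -θ) ≤ D.s ^ (c * (i' - 1) + ε - 5 * θ) := sf_mc_anti hs.1 hs.2 (by linarith)
  have htm := sf_ab_time D π C0 a hcore i' 1 hi' g1 hi'1 ρ ρ'' hcn
  have h3 : |(D.T 1 ρ'' - D.T i' ρ) * (D.lab i' ρ).K| ≤ D.len i' * |(D.lab i' ρ).K| := by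
    rw [abs_mul, abs_of_nonneg htm.1]
    exact mul_le_mul_of_nonneg_right htm.2 (abs_nonneg _)
  have e : (D.lab i' ρ).be - (D.lab 1 ρ'').be
      = ((D.lab i' ρ).beAt (D.T 1 ρ'') - (D.lab 1 ρ'').be) - (D.T 1 ρ'' - D.T i' ρ) * (D.lab i' ρ).K := by
    unfold SfTest.beAt SfDoc.T
    ring
  rw [e]
  refine (abs_sub _ _).trans ?_
  have := hKb ρ
  linarith

theorem sf_sh_lt_K1 (D : SfDoc) (π : SfPar) (C0 a c t1 θ : ℝ) (hcore : D.Core π C0 a) (ha0 : 0 ≤ a) (haθ : a ≤ θ) (ht10 : 0 ≤ t1)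
    (ht1θ : t1 ≤ θ) (hc : 0 < c) (hc1 : c < 1) (hS1 : ∀ k ∈ D.G, D.w2 k ≤ D.s ^ (c * (k - 1) - t1))
    (hK : ∀ u : D.Rw, u.1 ∈ D.G → D.RowK c θ u) (ρ'' : D.Row 1) : D.s * |(D.lab 1 ρ'').K| ≤ D.s ^ (-(4 * θ)) := by
  have hs := hcore.hs
  have g1 := hcore.gate.1
  have hkp := sf_sh_kp D hs hcore.gate.2 c t1 θ hc.le ht10 hS1 ⟨1, ρ''⟩ (hK ⟨1, ρ''⟩ g1) (D.s ^ (-1 - t1 - a)) ?_ ?_
  · have h2 : |(D.lab 1 ρ'').K| ≤ D.s ^ (-1 - t1 - a + -(t1 + θ)) := by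
      rw [← sf_sh_t_mul hs.1]
      exact hkp
    exact sf_sh_t_mul_le hs hs.1.le (le_of_eq (Real.rpow_one _).symm) h2 (by linarith)
  · exact sf_mc_anti hs.1 hs.2 (by linarith)
  · intro k hk _
    have hk01 := hcore.gate.2 k hk
    refine (sf_sh_t_div hs (hS1 k hk) (hcore.hlen.2 k hk).1).trans (sf_mc_anti hs.1 hs.2 ?_)
    have : 0 ≤ (1 - c) * (1 - k) := mul_nonneg (by linarith) (by linarith)
    nlinarith

/-- the test of a bin of `sf_sh_s2lt` -/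
theorem sf_sh_lt_size (x : ℝ) : (⟨0, 0, 0, 0, 0, 0, 0, x, 0, 0, 0⟩ : SfTest).size = |x| := by
  unfold SfTest.size
  simp

theorem sf_sh_lt_ov (D : SfDoc) (a c κ0 δ ε θ : ℝ) (hs : 0 < D.s ∧ D.s < 1) (haθ : a ≤ θ) (h16 : D.s ^ a ≤ 1 / 16) (hκ : 0 < κ0)
    (hθ0 : 0 ≤ θ) (hθ1 : 40 * θ ≤ κ0 * δ) (i' : ℝ) (hi'1 : i' + δ / 3 < 1)
    (hbe : ∀ (ρ : D.Row i') (ρ'' : D.Row 1), D.Conn i' 1 ρ ρ'' →
      |(D.lab i' ρ).be - (D.lab 1 ρ'').be| ≤ 2 * D.s ^ (c * (i' - 1) + ε - 5 * θ)) (ρ : D.Row i') :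
    (({b | ∃ ρ'', True ∧ ⌊(D.lab 1 ρ'').be / D.s ^ (c * (i' - 1) + ε)⌋ = b ∧ D.Conn i' 1 ρ ρ''} : Set ℤ).ncard : ℝ)
      ≤ D.s ^ (-(κ0 * (1 - i'))) := by
  have hw : 0 < D.s ^ (c * (i' - 1) + ε) := Real.rpow_pos_of_pos hs.1 _
  have hR : 0 < D.s ^ (-(5 * θ)) := Real.rpow_pos_of_pos hs.1 _
  have h1 := (sf_sh_t_floor' (fun ρ'' : D.Row 1 => D.Conn i' 1 ρ ρ'') (fun ρ'' => (D.lab 1 ρ'').be) (D.s ^ (c * (i' - 1) + ε))
    (D.lab i' ρ).be (2 * D.s ^ (-(5 * θ))) hw (by positivity) (fun ρ'' hcn => by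
      rw [abs_sub_comm, mul_assoc, sf_sh_t_mul hs.1]
      refine (hbe ρ ρ'' hcn).trans (le_of_eq ?_)
      ring_nf)).2
  have e : ({b | ∃ ρ'', True ∧ ⌊(D.lab 1 ρ'').be / D.s ^ (c * (i' - 1) + ε)⌋ = b ∧ D.Conn i' 1 ρ ρ''} : Set ℤ)
      = {m : ℤ | ∃ x, D.Conn i' 1 ρ x ∧ ⌊(D.lab 1 x).be / D.s ^ (c * (i' - 1) + ε)⌋ = m} := by
    ext m
    constructor
    · rintro ⟨x, -, h2, h3⟩
      exact ⟨x, h3, h2⟩
    · rintro ⟨x, h3, h2⟩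
      exact ⟨x, trivial, h2, h3⟩
  rw [e]
  refine h1.trans ?_
  have h1le : 1 ≤ D.s ^ (-(5 * θ)) := Real.one_le_rpow_of_pos_of_le_one_of_nonpos hs.1 hs.2.le (by linarith)
  have h2 := sf_sh_t_c16 hs.1 h16 (-(5 * θ))
  have h3 : D.s ^ (-(5 * θ) - a) ≤ D.s ^ (-(κ0 * (1 - i'))) := by
    refine sf_mc_anti hs.1 hs.2 ?_
    have : κ0 * (δ / 3) ≤ κ0 * (1 - i') := mul_le_mul_of_nonneg_left (by linarith) hκ.le
    nlinarith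
  linarith

theorem sf_sh_lt_sz (D : SfDoc) (a c ε θ : ℝ) (hs : 0 < D.s ∧ D.s < 1) (ha0 : 0 < a) (haθ : a ≤ θ) (h16 : D.s ^ a ≤ 1 / 16)
    (hc : 0 < c) (hε0 : 0 ≤ ε) (hθ4 : θ * (c + 4) ≤ 1) (hl : 0 ≤ D.len 1)
    (hcv : ∀ ρ : D.Row 1, D.cv ⟨1, ρ⟩ ≤ D.s ^ (-(c + a))) (i' : ℝ) (hi'0 : 0 ≤ i') (ρ'' : D.Row 1) :
    (⟨0, 0, 0, 0, 0, 0, 0, (⌊(D.lab 1 ρ'').be / D.s ^ (c * (i' - 1) + ε)⌋ : ℝ) * D.s ^ (c * (i' - 1) + ε), 0, 0, 0⟩ : SfTest).size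
      ≤ D.s ^ (-(1 / a)) := by
  rw [sf_sh_lt_size]
  have hw : 0 < D.s ^ (c * (i' - 1) + ε) := Real.rpow_pos_of_pos hs.1 _
  have h1 := sf_sh_t_bin (x := (D.lab 1 ρ'').be) hw
  have h2 : |(D.lab 1 ρ'').be| ≤ D.s ^ (-(c + a)) := by
    refine le_trans ?_ (hcv ρ'')
    unfold SfDoc.cv
    have : 0 ≤ D.len 1 * |(D.lab 1 ρ'').K| := mul_nonneg hl (abs_nonneg _)
    simpa using this
  have h3 : D.s ^ (c * (i' - 1) + ε) ≤ D.s ^ (-(c + a)) := by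
    refine sf_mc_anti hs.1 hs.2 ?_
    have : 0 ≤ c * i' := mul_nonneg hc.le hi'0
    nlinarith
  have h4 : |(⌊(D.lab 1 ρ'').be / D.s ^ (c * (i' - 1) + ε)⌋ : ℝ) * D.s ^ (c * (i' - 1) + ε)| ≤ 2 * D.s ^ (-(c + a)) := by
    have h5 := abs_sub_abs_le_abs_sub ((⌊(D.lab 1 ρ'').be / D.s ^ (c * (i' - 1) + ε)⌋ : ℝ) * D.s ^ (c * (i' - 1) + ε)) (D.lab 1 ρ'').be
    rw [abs_sub_comm] at h5
    linarith
  have h6 := sf_sh_t_c16 hs.1 h16 (-(c + a))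
  have hp : 0 < D.s ^ (-(c + a)) := Real.rpow_pos_of_pos hs.1 _
  have h7 : D.s ^ (-(c + a) - a) ≤ D.s ^ (-(1 / a)) := by
    refine sf_mc_anti hs.1 hs.2 ?_
    have h8 : c + a + a ≤ 1 / a := by
      rw [le_div_iff₀ ha0]
      have h9 : θ ≤ 1 := by nlinarith
      nlinarith
    linarith
  linarith

theorem sf_sh_lt_cost (D : SfDoc) (π : SfPar) (C0 a c τ δ ε θ : ℝ) (hcore : D.Core π C0 a) (ha0 : 0 < a) (haθ : a ≤ θ) (h16 : D.s ^ a ≤ 1 / 16)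
    (hc : 0 < c) (hτ : τ = ε / 2) (hε0 : 0 < ε) (hε2 : ε ≤ c * δ / 3) (hθ2 : 40 * θ ≤ c * δ) (hθ3 : 40 * θ ≤ ε)
    (i' : ℝ) (hi'0 : δ / 3 ≤ i') (hi'1 : i' + δ / 3 < 1) (hδ : 0 < δ)
    (hK1 : ∀ ρ'' : D.Row 1, D.s * |(D.lab 1 ρ'').K| ≤ D.s ^ (-(4 * θ))) (ρ'' : D.Row 1) :
    sfR2 (D.lab 1 ρ'') (⟨0, 0, 0, 0, 0, 0, 0, (⌊(D.lab 1 ρ'').be / D.s ^ (c * (i' - 1) + ε)⌋ : ℝ) * D.s ^ (c * (i' - 1) + ε), 0, 0, 0⟩ : SfTest)
      (D.len 1) ≤ D.s ^ (-((c - τ) * (1 - i'))) := by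
  have hs := hcore.hs
  have hown := hcore.own 1 hcore.gate.1 ρ''
  have hw : 0 < D.s ^ (c * (i' - 1) + ε) := Real.rpow_pos_of_pos hs.1 _
  unfold sfR2 SfTest.beAt
  rw [hown.1, hown.2.1, hcore.hw.1, hcore.hw.2.1, hcore.hlen.1]
  simp only [mul_zero, add_zero, sub_zero, one_pow, div_one, one_mul]
  have h1 := sf_sh_t_bin (x := (D.lab 1 ρ'').be) hw
  have h2 := hK1 ρ''
  have h3 := sf_sh_t_c16 hs.1 h16 (c * (i' - 1) + ε)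
  have h4 := sf_sh_t_c16 hs.1 h16 (-(4 * θ))
  have hp : 0 < D.s ^ (-(4 * θ)) := Real.rpow_pos_of_pos hs.1 _
  have h5 : D.s ^ (c * (i' - 1) + ε - a) ≤ D.s ^ (-((c - τ) * (1 - i'))) := by
    refine sf_mc_anti hs.1 hs.2 ?_
    subst hτ
    have : ε / 2 * (1 - i') ≤ ε / 2 * 1 := mul_le_mul_of_nonneg_left (by linarith) (by linarith)
    nlinarith
  have h6 : D.s ^ (-(4 * θ) - a) ≤ D.s ^ (-((c - τ) * (1 - i'))) := by
    refine sf_mc_anti hs.1 hs.2 ?_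
    subst hτ
    have hδ2 : δ < 3 / 2 := by linarith
    have h7 : 3 * c / 4 ≤ c - ε / 2 := by nlinarith
    have h8 : 3 * c / 4 * (δ / 3) ≤ (c - ε / 2) * (1 - i') :=
      mul_le_mul h7 (by linarith) (by positivity) (by nlinarith)
    nlinarith
  linarith

theorem sf_sh_lt_core (D : SfDoc) (π π' : SfPar) (C0 a c τ κ0 δ ε θ : ℝ) (hcore : D.Core π C0 a) (ha0 : 0 < a) (haθ : a ≤ θ)
    (h16 : D.s ^ a ≤ 1 / 16) (hc : 0 < c) (hκ : 0 < κ0) (hπ : π'.c2 = c) (hτ : τ = ε / 2) (hε0 : 0 < ε) (hε2 : ε ≤ c * δ / 3)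
    (hθ1 : 40 * θ ≤ κ0 * δ) (hθ2 : 40 * θ ≤ c * δ) (hθ3 : 40 * θ ≤ ε) (hθ4 : θ * (c + 4) ≤ 1)
    (hcv : ∀ ρ : D.Row 1, D.cv ⟨1, ρ⟩ ≤ D.s ^ (-(c + a))) (hM : D.MinC π' τ κ0 a)
    (i' : ℝ) (hi' : i' ∈ D.G) (hi'0 : δ / 3 ≤ i') (hi'1 : i' + δ / 3 < 1) (hδ : 0 < δ)
    (hbe : ∀ (ρ : D.Row i') (ρ'' : D.Row 1), D.Conn i' 1 ρ ρ'' →
      |(D.lab i' ρ).be - (D.lab 1 ρ'').be| ≤ 2 * D.s ^ (c * (i' - 1) + ε - 5 * θ))
    (hK1 : ∀ ρ'' : D.Row 1, D.s * |(D.lab 1 ρ'').K| ≤ D.s ^ (-(4 * θ))) : False := by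
  have hs := hcore.hs
  have hκi : κ0 * (δ / 3) ≤ κ0 * (1 - i') := mul_le_mul_of_nonneg_left (by linarith) hκ.le
  have key := sf_sh_t_tail D π' τ κ0 a hs hM i' hi' hcore.gate.1 (by linarith) (by nlinarith) hκ.le (by rw [hπ]; exact hc)
    (fun ρ'' : D.Row 1 => ⌊(D.lab 1 ρ'').be / D.s ^ (c * (i' - 1) + ε)⌋) (fun _ => True)
    (fun m : ℤ => (⟨0, 0, 0, 0, 0, 0, 0, (m : ℝ) * D.s ^ (c * (i' - 1) + ε), 0, 0, 0⟩ : SfTest))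
    (fun ρ' ρ'' h => by simp only [h])
    (fun ρ => sf_sh_lt_ov D a c κ0 δ ε θ hs haθ h16 hκ (by linarith) hθ1 i' hi'1 hbe ρ)
    (fun ρ'' _ => sf_sh_lt_sz D a c ε θ hs ha0 haθ h16 hc hε0.le hθ4 (sf_mc_len_pos D π C0 a hcore 1 hcore.gate.1).le hcv i' (by linarith) ρ'')
    (fun ρ'' _ => by
      rw [hπ]
      exact sf_sh_lt_cost D π C0 a c τ δ ε θ hcore ha0 haθ h16 hc hτ hε0 hε2 hθ2 hθ3 i' hi'0 hi'1 hδ hK1 ρ'')
  rw [ent_pr_true] at key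
  have : D.s ^ (κ0 * (1 - i')) < 1 := Real.rpow_lt_one hs.1.le hs.2 (by nlinarith)
  linarith

/-- **S2LT** (leaf L-256-SOFT-SH-S2LT, ~500 l.; may be cut: (i) choice of `i'` and exponents, (ii) bins and overlaps): `0 < c < 1` ⟹ `b2(i) ≤ c (i - 1) + t`.
PLAN.   `L3 = 3|Ls| + c + 1`, `δ = t / (2 L3)`, `ε = min ((1-c) δ/3) (min (c δ/3) (t/12))`, `τ = ε/2`; `e0` so small that `20 err ≤ min (κ0 δ) (min (c δ) ε)`, `μ ≤ δ/3`, `e0 (c + 4) ≤ 1`.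
Suppose `w2 i < s^(c (i-1) + t)`.   (1) for gates `k`, `|k - i| ≤ δ`: `b2(k) ≥ c (k-1) + t/2 - 3a` (`sf_ab_lip`); hence `i + δ < 1` (`w2 1 = 1`).   (2) `sf_ab_next`: a gate `i' ∈ [i + δ/3, i + 2δ/3]`; so `i' ≥ δ/3`, `1 - i' ≥ δ/3`, and `b2(k) ≥ c (k-1) + t/4` for `|k - i'| ≤ δ/3`.
(3) every row `ρ` of the gate `i'`: `len i' |K_ρ| ≤ s^(c (i'-1) + ε - err)`: `sf_sh_kp` with `V = s^(c (i'-1) - i' + ε - t1 - a)`: `-c ≥ c (i'-1) - i' + ε` since `i' (1-c) ≥ ε`; for `k ≤ i' - δ/3`: `b2(k) - k ≥ (c-1) k - c - t1 ≥ c (i'-1) - i' + (1-c) δ/3 - t1`;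
    for `i' - δ/3 ≤ k ≤ i'`: `b2(k) - k ≥ c (k-1) + t/4 - k ≥ c (i'-1) - i' + t/4 - c δ/3`.
(4) `Conn i' 1 ρ ρ''`: `|β_ρ(T'') - be''| ≤ s^(c (i'-1) + ε - err)` (`sf_ab_A_be`, `V = s^(c (i'-1) + ε - t1)`: for `k ≥ i' + δ/3` `b2(k) ≥ c (k-1) - t1 ≥ c (i'-1) + c δ/3 - t1`), so `|be_ρ - be''| ≤ 2 s^(c (i'-1) + ε - err)` by (3).
(5) TAIL ARGUMENT on `[i', 1]`: `w = s^(c (i'-1) + ε)`, `bin ρ'' = ⌊be'' / w⌋`, `sg b = ` the test with `be = b w`, all other entries `0`.   Cost: `|be'' - b w| + s |K''| ≤ w + s^(-err)` (`sf_sh_kp` at the gate `1` with `V = s^(-1 - t1 - a)`), both `≤ s^(-(c-τ)(1-i')) / 2`.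
    Overlap: the bins reached from `ρ` are `≤ 4 s^(-err) + 2`.   Size: `|b w| ≤ |be''| + w ≤ 2 s^(-c-a)`. -/
theorem sf_sh_s2lt (Ls c t : ℝ) (hc : 0 < c) (hc1 : c < 1) (ht : 0 < t) : ∃ τ : ℝ, 0 < τ ∧ ∀ κ0 : ℝ, 0 < κ0 → ∃ e0 : ℝ, 0 < e0 ∧
    ∀ (D : SfDoc) (π π' : SfPar) (C0 a μ h t1 tK : ℝ), D.Fm π Ls C0 a μ h → a ≤ e0 → μ ≤ e0 → 0 ≤ t1 → t1 ≤ e0 → tK ≤ e0 → π'.c2 = c →
      (∀ ρ : D.Row 1, D.cv ⟨1, ρ⟩ ≤ D.s ^ (-(c + a))) → (∀ k ∈ D.G, D.w2 k ≤ D.s ^ (c * (k - 1) - t1)) → (∀ u : D.Rw, u.1 ∈ D.G → D.RowK c tK u) →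
      D.MinC π' τ κ0 a → ∀ i ∈ D.G, D.s ^ (c * (i - 1) + t) ≤ D.w2 i := by
  have hL : 0 ≤ |Ls| := abs_nonneg _
  obtain ⟨δ, hδdef⟩ : ∃ δ, δ = t / (2 * (3 * |Ls| + c + 1)) := ⟨_, rfl⟩
  have hδ : 0 < δ := by
    rw [hδdef]
    positivity
  have hδ1 : (3 * |Ls| + c) * δ ≤ t / 2 := by
    have e : (3 * |Ls| + c + 1) * δ = t / 2 := by
      rw [hδdef]
      field_simp
    nlinarith
  obtain ⟨ε, hεdef⟩ : ∃ ε, ε = min ((1 - c) * δ / 3) (min (c * δ / 3) (t / 12)) := ⟨_, rfl⟩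
  have hε0 : 0 < ε := by
    rw [hεdef]
    refine lt_min ?_ (lt_min ?_ ?_)
    · have : 0 < 1 - c := by linarith
      positivity
    · positivity
    · positivity
  have hε1 : ε ≤ (1 - c) * δ / 3 := hεdef ▸ min_le_left _ _
  have hε2 : ε ≤ c * δ / 3 := hεdef ▸ (min_le_right _ _).trans (min_le_left _ _)
  have hε3 : ε ≤ t / 12 := hεdef ▸ (min_le_right _ _).trans (min_le_right _ _)
  refine ⟨ε / 2, by positivity, fun κ0 hκ => ?_⟩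
  obtain ⟨θ, hθdef⟩ : ∃ θ, θ = min (min (κ0 * δ) (min (c * δ) ε) / 40) (1 / (c + 4)) := ⟨_, rfl⟩
  have hθ0 : 0 < θ := by
    rw [hθdef]
    refine lt_min (div_pos (lt_min ?_ (lt_min ?_ hε0)) (by norm_num)) ?_ <;> positivity
  have hθa : 40 * θ ≤ min (κ0 * δ) (min (c * δ) ε) := by
    have : θ ≤ min (κ0 * δ) (min (c * δ) ε) / 40 := hθdef ▸ min_le_left _ _
    linarith
  have hθ1 : 40 * θ ≤ κ0 * δ := hθa.trans (min_le_left _ _)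
  have hθ2 : 40 * θ ≤ c * δ := hθa.trans ((min_le_right _ _).trans (min_le_left _ _))
  have hθ3 : 40 * θ ≤ ε := hθa.trans ((min_le_right _ _).trans (min_le_right _ _))
  have hθ4 : θ * (c + 4) ≤ 1 := by
    have : θ ≤ 1 / (c + 4) := hθdef ▸ min_le_right _ _
    rwa [le_div_iff₀ (by linarith)] at this
  obtain ⟨eA, heA, hA⟩ := sf_ab_A_be Ls θ hθ0
  refine ⟨min θ eA, lt_min hθ0 heA, ?_⟩
  intro D π π' C0 a μ h t1 tK hF ha hμ ht10 ht1 htK hπ hcv hS1 hK hM i hi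
  by_contra hcon
  push Not at hcon
  have hcore := hF.good.1
  have hs := hcore.hs
  have ha0 := hF.a0
  have haθ : a ≤ θ := ha.trans (min_le_left _ _)
  have hμθ : μ ≤ θ := hμ.trans (min_le_left _ _)
  have ht1θ : t1 ≤ θ := ht1.trans (min_le_left _ _)
  have htKθ : tK ≤ θ := htK.trans (min_le_left _ _)
  have hcδ : c * δ ≤ δ := by nlinarith
  obtain ⟨i', hi', h1, h2, hnear⟩ := sf_sh_lt_gate D π Ls C0 a μ h c t δ θ hF haθ hμθ (by linarith) (by linarith) hc.le hδ1 i hi hcon.le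
  have hK' : ∀ u : D.Rw, u.1 ∈ D.G → D.RowK c θ u := fun u hu => (sf_ab_row_mono D hs c tK θ htKθ u).2.1 (hK u hu)
  have hKb := sf_sh_lt_K D π C0 a c t t1 δ ε θ hcore ha0.le haθ ht10 ht1θ hc hc1 hε1 (by linarith) hS1 hK' i' hi' h1 hnear
  have hbe := sf_sh_lt_be D π C0 a c t t1 δ ε θ hcore ht10 ht1θ hc hε2 (by linarith) hS1
    (hA D π C0 a μ h hF (ha.trans (min_le_right _ _)) (hμ.trans (min_le_right _ _))) i' hi' (by linarith) hnear hKb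
  have hK1 := sf_sh_lt_K1 D π C0 a c t1 θ hcore ha0.le haθ ht10 ht1θ hc hc1 hS1 hK'
  exact sf_sh_lt_core D π π' C0 a c (ε / 2) κ0 δ ε θ hcore ha0 haθ hF.small hc hκ hπ rfl hε0 hε2 hθ1 hθ2 hθ3 hθ4 hcv hM i' hi' h1 h2 hδ hbe hK1

/-! ### helpers of `sf_sh_s2gt` (prefix `sf_sh_gt_`) -/

/-- the test of a bin of `sf_sh_s2gt` -/
def sfShGtSg (wb wK : ℝ) (b : ℝ × ℤ × ℤ) : SfTest := ⟨b.1, 0, 0, 0, 0, 0, 0, (b.2.1 : ℝ) * wb, (b.2.2 : ℝ) * wK, 0, 0⟩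

/-- the bin of a terminal row in `sf_sh_s2gt` -/
noncomputable def sfShGtBin (D : SfDoc) (i wb wK : ℝ) (ρ'' : D.Row 1) : ℝ × ℤ × ℤ :=
  (sfMcAncT D i 1 (D.T 1 ρ''), ⌊(D.lab 1 ρ'').beAt (sfMcAncT D i 1 (D.T 1 ρ'')) / wb⌋, ⌊(D.lab 1 ρ'').K / wK⌋)

/-- the widths on `[i, 1]` -/
theorem sf_sh_gt_V (D : SfDoc) (π : SfPar) (Ls C0 a c t t1 δ ε : ℝ) (hg : D.Good π Ls C0 a) (ha : 0 ≤ a) (hc1 : 1 < c) (ht : 0 ≤ t)
    (ht10 : 0 ≤ t1) (hδ : (3 * |Ls| + c) * δ ≤ t / 2) (h3a : 12 * a ≤ t) (hε1 : ε ≤ (c - 1) * δ) (hε2 : ε ≤ t / 4) (hδ0 : 0 ≤ δ)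
    (hS1 : ∀ k ∈ D.G, D.w2 k ≤ D.s ^ (c * (k - 1) - t1)) (i : ℝ) (hi : i ∈ D.G) (hw : D.w2 i ≤ D.s ^ (c * (i - 1) + t))
    (k : ℝ) (hk : k ∈ D.G) (hik : i ≤ k) :
    D.w2 k ≤ D.s ^ (c * (i - 1) + ε - t1) ∧ D.w2 k / D.len k ≤ D.s ^ (c * (i - 1) - i + ε - t1 - a) := by
  have hs := hg.1.hs
  have hlk := (hg.1.hlen.2 k hk).1
  by_cases hcase : k ≤ i + δ
  · have h1 := sf_sh_t_near D π Ls C0 a c t δ hg ha (by linarith) ht hδ i hi hw k hk (by rw [abs_le]; constructor <;> linarith)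
    have h2 : 0 ≤ c * (k - i) := mul_nonneg (by linarith) (by linarith)
    have h3 : 0 ≤ (c - 1) * (k - i) := mul_nonneg (by linarith) (by linarith)
    refine ⟨h1.trans (sf_mc_anti hs.1 hs.2 (by nlinarith)), (sf_sh_t_div hs h1 hlk).trans (sf_mc_anti hs.1 hs.2 (by nlinarith))⟩
  · push Not at hcase
    have h1 := hS1 k hk
    have h2 : c * δ ≤ c * (k - i) := mul_le_mul_of_nonneg_left (by linarith) (by linarith)
    have h3 : (c - 1) * δ ≤ (c - 1) * (k - i) := mul_le_mul_of_nonneg_left (by linarith) (by linarith)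
    refine ⟨h1.trans (sf_mc_anti hs.1 hs.2 (by nlinarith)), (sf_sh_t_div hs h1 hlk).trans (sf_mc_anti hs.1 hs.2 (by nlinarith))⟩

/-- comparison of a row of the gate `i` with a connected terminal row -/
theorem sf_sh_gt_cmp (D : SfDoc) (π : SfPar) (C0 a c t1 ε θ : ℝ) (hcore : D.Core π C0 a) (ha0 : 0 ≤ a) (haθ : a ≤ θ) (ht1θ : t1 ≤ θ)
    (hA : ∀ i ∈ D.G, ∀ j ∈ D.G, i < j → ∀ ρ ρ', D.Conn i j ρ ρ' → ∀ V : ℝ, (∀ k ∈ D.G, i ≤ k → k ≤ j → D.w2 k ≤ V) →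
      |(D.lab i ρ).beAt (D.T j ρ') - (D.lab j ρ').be| ≤ V * D.s ^ (-θ))
    (hAK : ∀ i ∈ D.G, ∀ j ∈ D.G, i < j → ∀ ρ ρ', D.Conn i j ρ ρ' → ∀ V : ℝ, (∀ k ∈ D.G, i ≤ k → k ≤ j → D.w2 k / D.len k ≤ V) →
      |(D.lab i ρ).K - (D.lab j ρ').K| ≤ V * D.s ^ (-θ))
    (i : ℝ) (hi : i ∈ D.G) (hi1 : i < 1)
    (hV : ∀ k ∈ D.G, i ≤ k → D.w2 k ≤ D.s ^ (c * (i - 1) + ε - t1) ∧ D.w2 k / D.len k ≤ D.s ^ (c * (i - 1) - i + ε - t1 - a))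
    (ρ : D.Row i) (ρ'' : D.Row 1) (hcn : D.Conn i 1 ρ ρ'') :
    |(D.lab 1 ρ'').K - (D.lab i ρ).K| ≤ D.s ^ (-(3 * θ)) * D.s ^ (c * (i - 1) - i + ε) ∧
      |(D.lab 1 ρ'').beAt (D.T i ρ) - (D.lab i ρ).be| ≤ 2 * D.s ^ (-(4 * θ)) * D.s ^ (c * (i - 1) + ε) := by
  have hs := hcore.hs
  have g1 := hcore.gate.1
  have h1 := hA i hi 1 g1 hi1 ρ ρ'' hcn _ (fun k hk hik _ => (hV k hk hik).1)
  have h2 := hAK i hi 1 g1 hi1 ρ ρ'' hcn _ (fun k hk hik _ => (hV k hk hik).2)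
  rw [sf_sh_t_mul hs.1] at h1 h2
  have htm := sf_ab_time D π C0 a hcore i 1 hi g1 hi1 ρ ρ'' hcn
  have hl := (hcore.hlen.2 i hi).2
  have hl0 := sf_mc_len_pos D π C0 a hcore i hi
  have h3 : |(D.lab i ρ).K - (D.lab 1 ρ'').K| ≤ D.s ^ (c * (i - 1) - i + ε - 3 * θ) :=
    h2.trans (sf_mc_anti hs.1 hs.2 (by linarith))
  have h4 : |(D.T 1 ρ'' - D.T i ρ) * ((D.lab i ρ).K - (D.lab 1 ρ'').K)| ≤ D.s ^ (c * (i - 1) + ε - 4 * θ) := by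
    rw [abs_mul, abs_of_nonneg htm.1]
    refine (mul_le_mul_of_nonneg_right htm.2 (abs_nonneg _)).trans ?_
    exact sf_sh_t_mul_le hs hl0.le hl h3 (by linarith)
  have h5 : |(D.lab i ρ).beAt (D.T 1 ρ'') - (D.lab 1 ρ'').be| ≤ D.s ^ (c * (i - 1) + ε - 4 * θ) :=
    h1.trans (sf_mc_anti hs.1 hs.2 (by linarith))
  constructor
  · rw [abs_sub_comm, sf_sh_t_mul hs.1]
    refine h3.trans (le_of_eq ?_)
    ring_nf
  · rw [mul_assoc, sf_sh_t_mul hs.1]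
    have e : (D.lab 1 ρ'').beAt (D.T i ρ) - (D.lab i ρ).be
        = (D.T 1 ρ'' - D.T i ρ) * ((D.lab i ρ).K - (D.lab 1 ρ'').K) - ((D.lab i ρ).beAt (D.T 1 ρ'') - (D.lab 1 ρ'').be) := by
      unfold SfTest.beAt SfDoc.T
      ring
    rw [e]
    refine (abs_sub _ _).trans ?_
    have e2 : -(4 * θ) + (c * (i - 1) + ε) = c * (i - 1) + ε - 4 * θ := by ring
    rw [e2]
    linarith

/-- the overlap of the bins of `sf_sh_s2gt` -/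
theorem sf_sh_gt_ov (D : SfDoc) (π : SfPar) (C0 a c κ0 δ ε θ : ℝ) (hcore : D.Core π C0 a) (haθ : a ≤ θ) (h16 : D.s ^ a ≤ 1 / 16) (hκ : 0 < κ0)
    (hθ0 : 0 ≤ θ) (hθ1 : 40 * θ ≤ κ0 * δ) (i : ℝ) (hi : i ∈ D.G) (hi1 : i + δ < 1) (hδ : 0 ≤ δ)
    (hcmp : ∀ (ρ : D.Row i) (ρ'' : D.Row 1), D.Conn i 1 ρ ρ'' →
      |(D.lab 1 ρ'').K - (D.lab i ρ).K| ≤ D.s ^ (-(3 * θ)) * D.s ^ (c * (i - 1) - i + ε) ∧
      |(D.lab 1 ρ'').beAt (D.T i ρ) - (D.lab i ρ).be| ≤ 2 * D.s ^ (-(4 * θ)) * D.s ^ (c * (i - 1) + ε)) (ρ : D.Row i) :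
    (({b | ∃ ρ'', (∃ ρ0, D.Conn i 1 ρ0 ρ'') ∧ sfShGtBin D i (D.s ^ (c * (i - 1) + ε)) (D.s ^ (c * (i - 1) - i + ε)) ρ'' = b ∧
      D.Conn i 1 ρ ρ''} : Set (ℝ × ℤ × ℤ)).ncard : ℝ) ≤ D.s ^ (-(κ0 * (1 - i))) := by
  have hs := hcore.hs
  have hwb : 0 < D.s ^ (c * (i - 1) + ε) := Real.rpow_pos_of_pos hs.1 _
  have hwK : 0 < D.s ^ (c * (i - 1) - i + ε) := Real.rpow_pos_of_pos hs.1 _
  have hR4 : 0 < D.s ^ (-(4 * θ)) := Real.rpow_pos_of_pos hs.1 _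
  have hR3 : 0 < D.s ^ (-(3 * θ)) := Real.rpow_pos_of_pos hs.1 _
  have h1 := sf_sh_t_floor' (fun ρ'' : D.Row 1 => D.Conn i 1 ρ ρ'') (fun ρ'' => (D.lab 1 ρ'').beAt (D.T i ρ)) (D.s ^ (c * (i - 1) + ε))
    (D.lab i ρ).be (2 * D.s ^ (-(4 * θ))) hwb (by positivity) (fun ρ'' hcn => (hcmp ρ ρ'' hcn).2)
  have h2 := sf_sh_t_floor' (fun ρ'' : D.Row 1 => D.Conn i 1 ρ ρ'') (fun ρ'' => (D.lab 1 ρ'').K) (D.s ^ (c * (i - 1) - i + ε))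
    (D.lab i ρ).K (D.s ^ (-(3 * θ))) hwK hR3.le (fun ρ'' hcn => (hcmp ρ ρ'' hcn).1)
  obtain ⟨S1, hS1⟩ : ∃ S : Set ℤ, S = {m : ℤ | ∃ x, D.Conn i 1 ρ x ∧ ⌊(D.lab 1 x).beAt (D.T i ρ) / D.s ^ (c * (i - 1) + ε)⌋ = m} := ⟨_, rfl⟩
  obtain ⟨S2, hS2⟩ : ∃ S : Set ℤ, S = {m : ℤ | ∃ x, D.Conn i 1 ρ x ∧ ⌊(D.lab 1 x).K / D.s ^ (c * (i - 1) - i + ε)⌋ = m} := ⟨_, rfl⟩
  rw [← hS1] at h1
  rw [← hS2] at h2
  have hsub : ({b | ∃ ρ'', (∃ ρ0, D.Conn i 1 ρ0 ρ'') ∧ sfShGtBin D i (D.s ^ (c * (i - 1) + ε)) (D.s ^ (c * (i - 1) - i + ε)) ρ'' = b ∧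
      D.Conn i 1 ρ ρ''} : Set (ℝ × ℤ × ℤ)) ⊆ ({D.T i ρ} : Set ℝ) ×ˢ (S1 ×ˢ S2) := by
    rintro b ⟨ρ'', -, rfl, hcn⟩
    have hT := sf_mc_anc_conn D π C0 a hcore i 1 hi hcore.gate.1 (by linarith) ρ ρ'' hcn
    unfold sfShGtBin
    rw [hT]
    refine ⟨rfl, ?_, ?_⟩
    · rw [hS1]
      exact ⟨ρ'', hcn, rfl⟩
    · rw [hS2]
      exact ⟨ρ'', hcn, rfl⟩
  have hfin : (({D.T i ρ} : Set ℝ) ×ˢ (S1 ×ˢ S2)).Finite := (Set.finite_singleton _).prod (h1.1.prod h2.1)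
  have h3 : (({b | ∃ ρ'', (∃ ρ0, D.Conn i 1 ρ0 ρ'') ∧ sfShGtBin D i (D.s ^ (c * (i - 1) + ε)) (D.s ^ (c * (i - 1) - i + ε)) ρ'' = b ∧
      D.Conn i 1 ρ ρ''} : Set (ℝ × ℤ × ℤ)).ncard : ℝ) ≤ (S1.ncard : ℝ) * (S2.ncard : ℝ) := by
    have := Set.ncard_le_ncard hsub hfin
    rw [Set.ncard_prod, Set.ncard_prod, Set.ncard_singleton, one_mul] at this
    exact_mod_cast this
  refine h3.trans ?_
  have h4le : 1 ≤ D.s ^ (-(4 * θ)) := Real.one_le_rpow_of_pos_of_le_one_of_nonpos hs.1 hs.2.le (by linarith)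
  have h3le : 1 ≤ D.s ^ (-(3 * θ)) := Real.one_le_rpow_of_pos_of_le_one_of_nonpos hs.1 hs.2.le (by linarith)
  have h5 := sf_sh_t_c16 hs.1 h16 (-(4 * θ))
  have h6 := sf_sh_t_c16 hs.1 h16 (-(3 * θ))
  refine sf_sh_t_mul_le (x := -(4 * θ) - a) (y := -(3 * θ) - a) hs (Nat.cast_nonneg _) (by linarith [h1.2]) (by linarith [h2.2]) ?_
  have : κ0 * δ ≤ κ0 * (1 - i) := mul_le_mul_of_nonneg_left (by linarith) hκ.le
  nlinarith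

theorem sf_sh_gt_size (T x y : ℝ) : (⟨T, 0, 0, 0, 0, 0, 0, x, y, 0, 0⟩ : SfTest).size = max |x| |y| := by
  unfold SfTest.size
  simp

/-- the size of the tests of `sf_sh_s2gt` -/
theorem sf_sh_gt_sz (D : SfDoc) (π : SfPar) (C0 a c ε θ : ℝ) (hcore : D.Core π C0 a) (ha0 : 0 < a) (haθ : a ≤ θ) (h16 : D.s ^ a ≤ 1 / 16)
    (hc1 : 1 < c) (hε0 : 0 ≤ ε) (hθ4 : θ * (c + 4) ≤ 1)
    (hcv : ∀ ρ : D.Row 1, D.cv ⟨1, ρ⟩ ≤ D.s ^ (-(c + a))) (i : ℝ) (hi : i ∈ D.G) (hi1 : i < 1) (ρ'' : D.Row 1) (hgood : ∃ ρ, D.Conn i 1 ρ ρ'') :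
    (sfShGtSg (D.s ^ (c * (i - 1) + ε)) (D.s ^ (c * (i - 1) - i + ε))
      (sfShGtBin D i (D.s ^ (c * (i - 1) + ε)) (D.s ^ (c * (i - 1) - i + ε)) ρ'')).size ≤ D.s ^ (-(1 / a)) := by
  have hs := hcore.hs
  have g1 := hcore.gate.1
  have hi0 := (hcore.gate.2 i hi).1
  obtain ⟨ρ, hcn⟩ := hgood
  have hT := sf_mc_anc_conn D π C0 a hcore i 1 hi g1 hi1 ρ ρ'' hcn
  have htm := sf_ab_time D π C0 a hcore i 1 hi g1 hi1 ρ ρ'' hcn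
  have hwb : 0 < D.s ^ (c * (i - 1) + ε) := Real.rpow_pos_of_pos hs.1 _
  have hwK : 0 < D.s ^ (c * (i - 1) - i + ε) := Real.rpow_pos_of_pos hs.1 _
  unfold sfShGtSg sfShGtBin
  rw [sf_sh_gt_size, hT]
  obtain ⟨B, hB⟩ : ∃ B, B = D.s ^ (-(c + 2 * a + 1)) := ⟨_, rfl⟩
  have hB0 : 0 < B := hB ▸ Real.rpow_pos_of_pos hs.1 _
  have hcv' := hcv ρ''
  unfold SfDoc.cv at hcv'
  simp only [hcore.hlen.1] at hcv'
  have hK0 : 0 ≤ D.s * |(D.lab 1 ρ'').K| := mul_nonneg hs.1.le (abs_nonneg _)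
  have hbe : |(D.lab 1 ρ'').be| ≤ B := by
    refine le_trans (by linarith) ((hcv').trans ?_)
    rw [hB]
    exact sf_mc_anti hs.1 hs.2 (by linarith)
  have hK : |(D.lab 1 ρ'').K| ≤ D.s ^ (-(c + a) - 1) := by
    rw [Real.rpow_sub hs.1, Real.rpow_one, le_div_iff₀ hs.1]
    linarith [abs_nonneg (D.lab 1 ρ'').be]
  have hKB : |(D.lab 1 ρ'').K| ≤ B := by
    refine hK.trans ?_
    rw [hB]
    exact sf_mc_anti hs.1 hs.2 (by linarith)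
  have hlK : D.len i * |(D.lab 1 ρ'').K| ≤ B := by
    rw [hB]
    exact sf_sh_t_mul_le hs (sf_mc_len_pos D π C0 a hcore i hi).le (hcore.hlen.2 i hi).2 hK (by linarith)
  have hwbB : D.s ^ (c * (i - 1) + ε) ≤ B := by
    rw [hB]
    refine sf_mc_anti hs.1 hs.2 ?_
    have : 0 ≤ c * i := mul_nonneg (by linarith) hi0
    nlinarith
  have hwKB : D.s ^ (c * (i - 1) - i + ε) ≤ B := by
    rw [hB]
    refine sf_mc_anti hs.1 hs.2 ?_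
    have : 0 ≤ (c - 1) * i := mul_nonneg (by linarith) hi0
    nlinarith
  have hX : |(D.lab 1 ρ'').beAt (D.T i ρ)| ≤ 2 * B := by
    unfold SfTest.beAt
    refine (abs_add_le _ _).trans ?_
    have : |(D.T i ρ - (D.lab 1 ρ'').T) * (D.lab 1 ρ'').K| ≤ D.len i * |(D.lab 1 ρ'').K| := by
      rw [abs_mul, abs_sub_comm]
      refine mul_le_mul_of_nonneg_right ?_ (abs_nonneg _)
      exact (le_of_eq (abs_of_nonneg htm.1)).trans htm.2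
    linarith
  have h1 := sf_sh_t_bin (x := (D.lab 1 ρ'').beAt (D.T i ρ)) hwb
  have h2 := sf_sh_t_bin (x := (D.lab 1 ρ'').K) hwK
  have h3 := abs_sub_abs_le_abs_sub ((⌊(D.lab 1 ρ'').beAt (D.T i ρ) / D.s ^ (c * (i - 1) + ε)⌋ : ℝ) * D.s ^ (c * (i - 1) + ε))
    ((D.lab 1 ρ'').beAt (D.T i ρ))
  have h4 := abs_sub_abs_le_abs_sub ((⌊(D.lab 1 ρ'').K / D.s ^ (c * (i - 1) - i + ε)⌋ : ℝ) * D.s ^ (c * (i - 1) - i + ε)) (D.lab 1 ρ'').K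
  rw [abs_sub_comm] at h3 h4
  have h6 := sf_sh_t_c16 hs.1 h16 (-(c + 2 * a + 1))
  rw [← hB] at h6
  have h7 : D.s ^ (-(c + 2 * a + 1) - a) ≤ D.s ^ (-(1 / a)) := by
    refine sf_mc_anti hs.1 hs.2 ?_
    have h8 : c + 2 * a + 1 + a ≤ 1 / a := by
      rw [le_div_iff₀ ha0]
      have h9 : θ ≤ 1 := by nlinarith
      nlinarith
    linarith
  refine max_le ?_ ?_ <;> linarith

theorem sf_sh_gt_cost0 {be K T Ti wb wK l s : ℝ} (hwb : 0 < wb) (hwK : 0 < wK) (h0 : 0 ≤ T - Ti) (h1 : T - Ti ≤ l) (hs : 0 ≤ s) :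
    |be - ((⌊(be + (Ti - T) * K) / wb⌋ : ℝ) * wb + (T - Ti) * ((⌊K / wK⌋ : ℝ) * wK))| + s * |K - (⌊K / wK⌋ : ℝ) * wK|
      ≤ wb + l * wK + s * wK := by
  have h2 := sf_sh_t_bin (x := be + (Ti - T) * K) hwb
  have h3 := sf_sh_t_bin (x := K) hwK
  have e : be - ((⌊(be + (Ti - T) * K) / wb⌋ : ℝ) * wb + (T - Ti) * ((⌊K / wK⌋ : ℝ) * wK))
      = (be + (Ti - T) * K - (⌊(be + (Ti - T) * K) / wb⌋ : ℝ) * wb) + (T - Ti) * (K - (⌊K / wK⌋ : ℝ) * wK) := by ring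
  rw [e]
  have h4 : |(T - Ti) * (K - (⌊K / wK⌋ : ℝ) * wK)| ≤ l * wK := by
    rw [abs_mul, abs_of_nonneg h0]
    exact mul_le_mul h1 h3 (abs_nonneg _) (h0.trans h1)
  have h5 : s * |K - (⌊K / wK⌋ : ℝ) * wK| ≤ s * wK := mul_le_mul_of_nonneg_left h3 hs
  have h6 := abs_add_le (be + (Ti - T) * K - (⌊(be + (Ti - T) * K) / wb⌋ : ℝ) * wb) ((T - Ti) * (K - (⌊K / wK⌋ : ℝ) * wK))
  linarith

/-- the cost of the bins of `sf_sh_s2gt` -/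
theorem sf_sh_gt_cost (D : SfDoc) (π : SfPar) (C0 a c τ ε θ : ℝ) (hcore : D.Core π C0 a) (ha0 : 0 < a) (haθ : a ≤ θ) (h16 : D.s ^ a ≤ 1 / 16)
    (hτ : τ = ε / 2) (hε0 : 0 < ε) (hθ3 : 40 * θ ≤ ε) (i : ℝ) (hi : i ∈ D.G) (hi1 : i < 1) (ρ'' : D.Row 1) (hgood : ∃ ρ, D.Conn i 1 ρ ρ'') :
    sfR2 (D.lab 1 ρ'') (sfShGtSg (D.s ^ (c * (i - 1) + ε)) (D.s ^ (c * (i - 1) - i + ε))
      (sfShGtBin D i (D.s ^ (c * (i - 1) + ε)) (D.s ^ (c * (i - 1) - i + ε)) ρ'')) (D.len 1) ≤ D.s ^ (-((c - τ) * (1 - i))) := by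
  have hs := hcore.hs
  have g1 := hcore.gate.1
  have hi0 := (hcore.gate.2 i hi).1
  obtain ⟨ρ, hcn⟩ := hgood
  have hT := sf_mc_anc_conn D π C0 a hcore i 1 hi g1 hi1 ρ ρ'' hcn
  have htm := sf_ab_time D π C0 a hcore i 1 hi g1 hi1 ρ ρ'' hcn
  have hown := hcore.own 1 g1 ρ''
  have hwb : 0 < D.s ^ (c * (i - 1) + ε) := Real.rpow_pos_of_pos hs.1 _
  have hwK : 0 < D.s ^ (c * (i - 1) - i + ε) := Real.rpow_pos_of_pos hs.1 _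
  unfold sfR2 sfShGtSg sfShGtBin
  rw [hT, hown.1, hown.2.1, hcore.hw.1, hcore.hw.2.1, hcore.hlen.1]
  unfold SfTest.beAt
  simp only [one_pow, div_one, one_mul]
  refine (sf_sh_gt_cost0 hwb hwK htm.1 htm.2 hs.1.le).trans ?_
  have h1 : D.len i * D.s ^ (c * (i - 1) - i + ε) ≤ D.s ^ (c * (i - 1) + ε - a) :=
    sf_sh_t_mul_le hs (sf_mc_len_pos D π C0 a hcore i hi).le (hcore.hlen.2 i hi).2 le_rfl (by linarith)
  have h2 : D.s * D.s ^ (c * (i - 1) - i + ε) ≤ D.s ^ (c * (i - 1) + ε - a) :=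
    sf_sh_t_mul_le hs hs.1.le (le_of_eq (Real.rpow_one _).symm) le_rfl (by linarith)
  have h3 : D.s ^ (c * (i - 1) + ε) ≤ D.s ^ (c * (i - 1) + ε - a) := sf_mc_anti hs.1 hs.2 (by linarith)
  have h4 := sf_sh_t_c16 hs.1 h16 (c * (i - 1) + ε - a)
  have hp : 0 < D.s ^ (c * (i - 1) + ε - a) := Real.rpow_pos_of_pos hs.1 _
  have h5 : D.s ^ (c * (i - 1) + ε - a - a) ≤ D.s ^ (-((c - τ) * (1 - i))) := by
    refine sf_mc_anti hs.1 hs.2 ?_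
    subst hτ
    have : ε / 2 * (1 - i) ≤ ε / 2 * 1 := mul_le_mul_of_nonneg_left (by linarith) (by linarith)
    nlinarith
  linarith

/-- almost every terminal row has a predecessor -/
theorem sf_sh_gt_mass (D : SfDoc) (π : SfPar) (C0 a : ℝ) (hcore : D.Core π C0 a) (ha0 : 0 < a) (ha1 : a ≤ 1) (h16 : D.s ^ a ≤ 1 / 16)
    (i : ℝ) (hi : i ∈ D.G) (hi1 : i < 1) : 15 / 16 ≤ (D.P 1).pr (fun ρ'' => ∃ ρ, D.Conn i 1 ρ ρ'') := by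
  have hs := hcore.hs
  have h1 := hcore.sp i hi 1 hcore.gate.1 hi1 (fun ρ'' => ¬ ∃ ρ, D.Conn i 1 ρ ρ'') (fun _ => False) (fun ρ' hU ρ hc => hU ⟨ρ, hc⟩)
  rw [ent_pr_false, Real.zero_rpow (by norm_num), mul_zero, zero_add, ent_pr_not] at h1
  have h2 : D.s ^ (1 / a) ≤ D.s ^ a := by
    refine sf_mc_anti hs.1 hs.2 ?_
    rw [le_div_iff₀ ha0]
    nlinarith
  linarith

theorem sf_sh_gt_core (D : SfDoc) (π π' : SfPar) (C0 a c τ κ0 δ ε θ : ℝ) (hcore : D.Core π C0 a) (ha0 : 0 < a) (haθ : a ≤ θ)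
    (h16 : D.s ^ a ≤ 1 / 16) (hc1 : 1 < c) (hκ : 0 < κ0) (hπ : π'.c2 = c) (hτ : τ = ε / 2) (hε0 : 0 < ε)
    (hθ1 : 40 * θ ≤ κ0 * δ) (hθ3 : 40 * θ ≤ ε) (hθ4 : θ * (c + 4) ≤ 1)
    (hcv : ∀ ρ : D.Row 1, D.cv ⟨1, ρ⟩ ≤ D.s ^ (-(c + a))) (hM : D.MinC π' τ κ0 a)
    (i : ℝ) (hi : i ∈ D.G) (hi1 : i + δ < 1) (hδ : 0 < δ)
    (hcmp : ∀ (ρ : D.Row i) (ρ'' : D.Row 1), D.Conn i 1 ρ ρ'' →
      |(D.lab 1 ρ'').K - (D.lab i ρ).K| ≤ D.s ^ (-(3 * θ)) * D.s ^ (c * (i - 1) - i + ε) ∧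
      |(D.lab 1 ρ'').beAt (D.T i ρ) - (D.lab i ρ).be| ≤ 2 * D.s ^ (-(4 * θ)) * D.s ^ (c * (i - 1) + ε)) : False := by
  have hs := hcore.hs
  have hκi : κ0 * δ ≤ κ0 * (1 - i) := mul_le_mul_of_nonneg_left (by linarith) hκ.le
  have haκ : a ≤ κ0 * (1 - i) := by nlinarith
  have key := sf_sh_t_tail D π' τ κ0 a hs hM i hi hcore.gate.1 (by linarith) haκ hκ.le (by rw [hπ]; linarith)
    (sfShGtBin D i (D.s ^ (c * (i - 1) + ε)) (D.s ^ (c * (i - 1) - i + ε))) (fun ρ'' => ∃ ρ, D.Conn i 1 ρ ρ'')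
    (sfShGtSg (D.s ^ (c * (i - 1) + ε)) (D.s ^ (c * (i - 1) - i + ε)))
    (fun ρ' ρ'' h => by
      unfold sfShGtBin SfDoc.T
      rw [h])
    (fun ρ => sf_sh_gt_ov D π C0 a c κ0 δ ε θ hcore haθ h16 hκ (by linarith) hθ1 i hi hi1 hδ.le hcmp ρ)
    (fun ρ'' hg => sf_sh_gt_sz D π C0 a c ε θ hcore ha0 haθ h16 hc1 hε0.le hθ4 hcv i hi (by linarith) ρ'' hg)
    (fun ρ'' hg => by
      rw [hπ]
      exact sf_sh_gt_cost D π C0 a c τ ε θ hcore ha0 haθ h16 hτ hε0 hθ3 i hi (by linarith) ρ'' hg)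
  have hθ1' : θ ≤ 1 := by nlinarith
  have hm := sf_sh_gt_mass D π C0 a hcore ha0 (by linarith) h16 i hi (by linarith)
  have : D.s ^ (κ0 * (1 - i)) ≤ D.s ^ a := sf_mc_anti hs.1 hs.2 haκ
  linarith

/-- **S2GT** (leaf L-256-SOFT-SH-S2GT, ~500 l.; may be cut as S2LT): `c > 1` ⟹ `b2(i) ≤ c (i - 1) + t`.
PLAN.   `L3`, `δ` as in S2LT, `ε = min ((c-1) δ) (t/4)`, `τ = ε/2`.   Suppose `w2 i < s^(c (i-1) + t)`.   (1) `b2(k) ≥ c (k-1) + t/2 - 3a` for gates `i ≤ k ≤ i + δ`; `i + δ < 1`.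
(2) on `[i,1]`: `b2(k) ≥ c (i-1) + ε - t1` and `b2(k) - k ≥ c (i-1) - i + ε - t1` (for `k ≥ i + δ`: `(c-1) k - c - t1 ≥ c (i-1) - i + (c-1) δ - t1`).   So for `Conn i 1 ρ ρ''` (`sf_ab_A_be`, `sf_ab_A_K`), with `wβ = s^(c (i-1) + ε)`, `wK = s^(c (i-1) - i + ε)`:
    `|β_ρ(T'') - be''| ≤ wβ s^(-err)`, `|K_ρ - K''| ≤ wK s^(-err)`, `len i * wK ≤ wβ s^(-a)`, hence `|be_ρ - β''(T_ρ)| ≤ 2 wβ s^(-err)`.
(3) TAIL ARGUMENT on `[i,1]`: `Ti ρ'' = sfMcAncT D i 1 (T 1 ρ'')`, `bin ρ'' = (Ti, ⌊β''(Ti) / wβ⌋, ⌊K'' / wK⌋)`, `sg b` = the test with `T = Ti`, `be = m wβ`, `K = m' wK`, other entries `0`;   `Ub b ρ'' := bin ρ'' = b ∧ ∃ ρ, Conn i 1 ρ ρ''`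
    (then `Ti = T i ρ`, `0 ≤ T'' - Ti ≤ len i`: `sf_mc_anc_conn`, `sf_ab_time`).   Cost: `|be'' - sg.beAt T''| + s |K'' - m' wK| ≤ wβ + len i wK + s wK ≤ 3 wβ s^(-a) ≤ s^(-(c-τ)(1-i))`.
    Overlap from `ρ`: `Ti = T i ρ` fixed, `≤ (4 s^(-err) + 2)` values of each integer.   A label determines its bin.   Mass: rows without predecessor have mass `≤ s^(1/a)` (`Core.sp` with `S = False`), so `P_1(⋃ Ub) ≥ 1 - s^(1/a) > s^(κ0 (1-i))`.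
    Size: `|β''(Ti)| ≤ |be''| + |K''| ≤ 2 s^(-c-a-1)`. -/
theorem sf_sh_s2gt (Ls c t : ℝ) (hc1 : 1 < c) (ht : 0 < t) : ∃ τ : ℝ, 0 < τ ∧ ∀ κ0 : ℝ, 0 < κ0 → ∃ e0 : ℝ, 0 < e0 ∧
    ∀ (D : SfDoc) (π π' : SfPar) (C0 a μ h t1 : ℝ), D.Fm π Ls C0 a μ h → a ≤ e0 → μ ≤ e0 → 0 ≤ t1 → t1 ≤ e0 → π'.c2 = c →
      (∀ ρ : D.Row 1, D.cv ⟨1, ρ⟩ ≤ D.s ^ (-(c + a))) → (∀ k ∈ D.G, D.w2 k ≤ D.s ^ (c * (k - 1) - t1)) →
      D.MinC π' τ κ0 a → ∀ i ∈ D.G, D.s ^ (c * (i - 1) + t) ≤ D.w2 i := by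
  have hL : 0 ≤ |Ls| := abs_nonneg _
  obtain ⟨δ, hδdef⟩ : ∃ δ, δ = t / (2 * (3 * |Ls| + c + 1)) := ⟨_, rfl⟩
  have hδ : 0 < δ := by
    rw [hδdef]
    positivity
  have hδ1 : (3 * |Ls| + c) * δ ≤ t / 2 := by
    have e : (3 * |Ls| + c + 1) * δ = t / 2 := by
      rw [hδdef]
      field_simp
    nlinarith
  obtain ⟨ε, hεdef⟩ : ∃ ε, ε = min ((c - 1) * δ) (t / 4) := ⟨_, rfl⟩
  have hε0 : 0 < ε := by
    rw [hεdef]
    refine lt_min ?_ ?_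
    · have : 0 < c - 1 := by linarith
      positivity
    · positivity
  have hε1 : ε ≤ (c - 1) * δ := hεdef ▸ min_le_left _ _
  have hε2 : ε ≤ t / 4 := hεdef ▸ min_le_right _ _
  refine ⟨ε / 2, by positivity, fun κ0 hκ => ?_⟩
  obtain ⟨θ, hθdef⟩ : ∃ θ, θ = min (min (κ0 * δ) ε / 40) (1 / (c + 4)) := ⟨_, rfl⟩
  have hθ0 : 0 < θ := by
    rw [hθdef]
    refine lt_min (div_pos (lt_min ?_ hε0) (by norm_num)) ?_ <;> positivity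
  have hθa : 40 * θ ≤ min (κ0 * δ) ε := by
    have : θ ≤ min (κ0 * δ) ε / 40 := hθdef ▸ min_le_left _ _
    linarith
  have hθ1 : 40 * θ ≤ κ0 * δ := hθa.trans (min_le_left _ _)
  have hθ3 : 40 * θ ≤ ε := hθa.trans (min_le_right _ _)
  have hθ4 : θ * (c + 4) ≤ 1 := by
    have : θ ≤ 1 / (c + 4) := hθdef ▸ min_le_right _ _
    rwa [le_div_iff₀ (by linarith)] at this
  obtain ⟨eA, heA, hA⟩ := sf_ab_A_be Ls θ hθ0
  obtain ⟨eK, heK, hAK⟩ := sf_ab_A_K Ls θ hθ0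
  refine ⟨min θ (min eA eK), lt_min hθ0 (lt_min heA heK), ?_⟩
  intro D π π' C0 a μ h t1 hF ha hμ ht10 ht1 hπ hcv hS1 hM i hi
  by_contra hcon
  push Not at hcon
  have hcore := hF.good.1
  have hs := hcore.hs
  have ha0 := hF.a0
  have haθ : a ≤ θ := ha.trans (min_le_left _ _)
  have ht1θ : t1 ≤ θ := ht1.trans (min_le_left _ _)
  have haA : a ≤ eA := ha.trans ((min_le_right _ _).trans (min_le_left _ _))
  have haK : a ≤ eK := ha.trans ((min_le_right _ _).trans (min_le_right _ _))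
  have hμA : μ ≤ eA := hμ.trans ((min_le_right _ _).trans (min_le_left _ _))
  have hμK : μ ≤ eK := hμ.trans ((min_le_right _ _).trans (min_le_right _ _))
  have hlt := sf_sh_t_lt_one D π Ls C0 a c t δ hF.good ha0.le (by linarith) ht.le hδ1 (by linarith) i hi hcon.le
  have hV := sf_sh_gt_V D π Ls C0 a c t t1 δ ε hF.good ha0.le hc1 ht.le ht10 hδ1 (by linarith) hε1 hε2 hδ.le hS1 i hi hcon.le
  have hcmp := sf_sh_gt_cmp D π C0 a c t1 ε θ hcore ha0.le haθ ht1θ (hA D π C0 a μ h hF haA hμA) (hAK D π C0 a μ h hF haK hμK)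
    i hi (by linarith) hV
  exact sf_sh_gt_core D π π' C0 a c (ε / 2) κ0 δ ε θ hcore ha0 haθ hF.small hc1 hκ hπ rfl hε0 hθ1 hθ3 hθ4 hcv hM i hi hlt hδ hcmp

/-- `1 ≤ s^(-x)` -/
theorem sf_sh_s3_one_le {s x : ℝ} (h0 : 0 < s) (h1 : s < 1) (hx : 0 ≤ x) : 1 ≤ s ^ (-x) :=
  Real.one_le_rpow_of_pos_of_le_one_of_nonpos h0 h1.le (by linarith)

/-- PREFIX ARGUMENT, branch `c2 = 0` of `MinC` -/
theorem sf_sh_s3lo_pre (D : SfDoc) (π π' : SfPar) (C0 a τ κ0 : ℝ) (hc : D.Core π C0 a) (h0 : (0 : ℝ) ∈ D.G) (hκ : 0 < κ0) (hc2 : π'.c2 = 0)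
    (hM : D.MinC π' τ κ0 a) (j : ℝ) (hj : j ∈ D.G) (hj0 : 0 < j) (haj : a ≤ κ0 * j)
    (hcost : ∀ ρ' : D.Row j, D.cv ⟨j, ρ'⟩ / D.w2 j ≤ D.s ^ (-(κ0 * j)) ∧ |(D.lab j ρ').Pc| / D.w1 j ≤ D.s ^ (-((π'.c1 - τ) * j))) : False := by
  have hs := hc.hs
  have hone : (1 : ℝ) ≤ D.s ^ (-(κ0 * (j - 0))) := sf_sh_s3_one_le hs.1 hs.2 (by rw [sub_zero]; positivity)
  have key : (D.P j).pr (fun _ => ∃ _ : Unit, True) ≤ D.s ^ (κ0 * (j - 0)) := by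
    refine hM 0 h0 j hj hj0 (by rw [sub_zero]; exact haj) Unit (fun _ _ => True) (fun _ _ => True) (fun _ => sfZero)
      (fun b b' _ _ _ => Subsingleton.elim b b') (fun _ _ _ _ _ => trivial) ?_ ?_ ?_ ?_ ?_
    · intro ρ
      refine le_trans ?_ hone
      exact_mod_cast Set.ncard_le_one_of_subsingleton _
    · intro lam
      refine le_trans ?_ hone
      exact_mod_cast Set.ncard_le_one_of_subsingleton _
    · intro b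
      have : sfZero.size = 0 := by simp [sfZero, SfTest.size]
      rw [this]
      exact (Real.rpow_pos_of_pos hs.1 _).le
    · intro h
      rw [hc2] at h
      exact absurd h (lt_irrefl _)
    · intro _ b ρ' _
      obtain ⟨e1, e2⟩ := sf_ab_cost_j D π C0 a hc j hj ρ'
      rw [e1, e2, sub_zero]
      exact hcost ρ'
  have h1 : (D.P j).pr (fun _ => ∃ _ : Unit, True) = 1 := ent_pr_eq_one _ fun _ _ => ⟨(), trivial⟩
  rw [h1, sub_zero] at key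
  exact absurd key (not_le.2 (Real.rpow_lt_one hs.1.le hs.2 (by positivity)))

/-- **S3LO** (leaf L-256-SOFT-SH-S3LO, ~350 l.): `c2 = 0 < c1` ⟹ `b1(j) ≥ c1 (j - 1) - t`.
PLAN.   As S1 with `g = w1` (`sf_sh_fut`).   At a future maximum `j ≥ i1` of `w1`: also `w2 k ≤ w2 j` for `k ≥ j` (`w2 k = w1 k / r_k`, `r_j ≤ r_k`), in particular `w2 j ≥ w2 1 = 1`; `RowB 0` with `V = w2 j`: curvature cost `cv / w2 j ≤ s^(-tB) ≤ s^(-κ0 j)`;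
`RowP` with `V = max (s^(-c1)) (w1 j)`: linear cost `|Pc| / w1 j ≤ s^(-(c1-τ) j)` if `w1 j > s^(c1 (j-1) - τ - tP)`.   PREFIX ARGUMENT (branch `c2 = 0` of `MinC`). -/
theorem sf_sh_s3lo (Ls c1 t : ℝ) (hc : 0 < c1) (ht : 0 < t) : ∃ τ : ℝ, 0 < τ ∧ ∀ κ0 : ℝ, 0 < κ0 → ∃ e0 : ℝ, 0 < e0 ∧
    ∀ (D : SfDoc) (π π' : SfPar) (C0 a μ h tB tP : ℝ), D.Fm π Ls C0 a μ h → a ≤ e0 → μ ≤ e0 → tB ≤ e0 → tP ≤ e0 → π'.c2 = 0 → π'.c1 = c1 →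
      (∀ u : D.Rw, u.1 ∈ D.G → D.RowB 0 tB u) → (∀ u : D.Rw, u.1 ∈ D.G → D.RowP c1 tP u) → D.MinC π' τ κ0 a →
      ∀ j ∈ D.G, D.w1 j ≤ D.s ^ (c1 * (j - 1) - t) := by
  have hL : 0 ≤ |Ls| := abs_nonneg _
  obtain ⟨τ, hτ⟩ : ∃ τ : ℝ, τ = min (t / 4) (c1 / 2) := ⟨_, rfl⟩
  have hτ0 : 0 < τ := by rw [hτ]; exact lt_min (by linarith) (by linarith)
  have hτ1 : τ ≤ t / 4 := by rw [hτ]; exact min_le_left _ _
  have hτ2 : τ ≤ c1 / 2 := by rw [hτ]; exact min_le_right _ _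
  refine ⟨τ, hτ0, fun κ0 hκ => ?_⟩
  -- the first gate of the argument
  obtain ⟨i1, hi1⟩ : ∃ i1 : ℝ, i1 = min 1 (t / (8 * (3 * |Ls| + 1))) := ⟨_, rfl⟩
  have hi10 : 0 < i1 := by rw [hi1]; exact lt_min one_pos (by positivity)
  have hi11 : i1 ≤ 1 := by rw [hi1]; exact min_le_left _ _
  have hi12 : 3 * |Ls| * i1 ≤ t / 8 := by
    have h1 : i1 ≤ t / (8 * (3 * |Ls| + 1)) := by rw [hi1]; exact min_le_right _ _
    rw [le_div_iff₀ (by positivity)] at h1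
    nlinarith
  obtain ⟨e0, he0⟩ : ∃ e0 : ℝ, e0 = min (κ0 * i1) (min (c1 / 2 * i1) (t / (8 * (3 * |Ls| + 8)))) := ⟨_, rfl⟩
  have he00 : 0 < e0 := by rw [he0]; exact lt_min (by positivity) (lt_min (by positivity) (by positivity))
  have he01 : e0 ≤ κ0 * i1 := by rw [he0]; exact min_le_left _ _
  have he02 : e0 ≤ c1 / 2 * i1 := by rw [he0]; exact (min_le_right _ _).trans (min_le_left _ _)
  have he03 : (3 * |Ls| + 8) * e0 ≤ t / 8 := by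
    have h1 : e0 ≤ t / (8 * (3 * |Ls| + 8)) := by rw [he0]; exact (min_le_right _ _).trans (min_le_right _ _)
    rw [le_div_iff₀ (by positivity)] at h1
    nlinarith
  refine ⟨e0, he00, fun D π π' C0 a μ h tB tP hF ha hμ htB htP hc2 hc1 hB hP hM => ?_⟩
  have hcore := hF.good.1
  have hs := hcore.hs
  have ha0 := hF.a0
  have hB' : ∀ u : D.Rw, u.1 ∈ D.G → D.RowB 0 e0 u := fun u hu => (sf_ab_row_mono D hs 0 tB e0 htB u).1 (hB u hu)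
  have hP' : ∀ u : D.Rw, u.1 ∈ D.G → D.RowP c1 e0 u := fun u hu => (sf_ab_row_mono D hs c1 tP e0 htP u).2.2 (hP u hu)
  have hμ0 : 0 < μ := by
    obtain ⟨j, _, h1, h2⟩ := hF.fine 0 hF.g0 one_pos
    linarith
  have hfut := sf_sh_fut D π C0 a μ hcore hF.g0 hF.fine D.w1 c1 (τ + e0) (3 * |Ls|) (3 * a) i1 hc.le (by positivity) (by positivity) ⟨hi10, hi11⟩
    ?_ (fun i hi => (sf_ab_w_pos D π C0 a hcore i hi).2) ?_
  · intro j hj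
    refine (hfut j hj).trans (sf_mc_anti hs.1 hs.2 ?_)
    have h1 : 3 * |Ls| * μ ≤ 3 * |Ls| * e0 := mul_le_mul_of_nonneg_left hμ (by positivity)
    nlinarith
  · intro i hi j hj hij
    have h1 := (sf_ab_lip D π Ls C0 a hF.good i j hi hj hij).2.2.2.1
    have e : 3 * (|Ls| * (j - i) + a) = 3 * |Ls| * (j - i) + 3 * a := by ring
    rwa [e] at h1
  · intro j hj hij hmax
    by_contra hcon
    have hcon' : D.s ^ (c1 * (j - 1) - (τ + e0)) < D.w1 j := not_le.1 hcon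
    have hj0 : 0 < j := lt_of_lt_of_le hi10 hij
    have hj1 : j ≤ 1 := (hcore.gate.2 j hj).2
    obtain ⟨hw2j, hw1j⟩ := sf_ab_w_pos D π C0 a hcore j hj
    have hrj := (hcore.hw.2.2 j hj).1
    have hκj : κ0 * i1 ≤ κ0 * j := mul_le_mul_of_nonneg_left hij hκ.le
    -- `w2` is also maximal at `j`
    have hmax2 : ∀ k ∈ D.G, j ≤ k → D.w2 k ≤ D.w2 j := by
      intro k hk hjk
      rcases hjk.lt_or_eq with hlt | heq
      · have hr := (sf_ab_lip D π Ls C0 a hF.good j k hj hk hlt).1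
        have hrk := (hcore.hw.2.2 k hk).1
        have e1 : ∀ x, D.w2 x = D.w1 x / D.r x := by
          intro x
          unfold SfDoc.w2 SfDoc.w1
          rw [div_div, pow_two]
        rw [e1, e1]
        exact div_le_div₀ hw1j.le (hmax k hk hjk) hrj hr
      · rw [← heq]
    have hw2one : 1 ≤ D.w2 j := by
      have := hmax2 1 hcore.gate.1 hj1
      rwa [(sf_ab_w_one D π C0 a hcore).1] at this
    refine sf_sh_s3lo_pre D π π' C0 a τ κ0 hcore hF.g0 hκ hc2 hM j hj hj0 (by linarith) fun ρ' => ⟨?_, ?_⟩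
    · have h1 := hB' ⟨j, ρ'⟩ hj (D.w2 j) (by rw [neg_zero, Real.rpow_zero]; exact hw2one) hmax2
      rw [div_le_iff₀ hw2j, mul_comm]
      exact h1.trans (mul_le_mul_of_nonneg_left (sf_mc_anti hs.1 hs.2 (by linarith)) hw2j.le)
    · have h1 := hP' ⟨j, ρ'⟩ hj (max (D.s ^ (-c1)) (D.w1 j)) (le_max_left _ _) (fun k hk hjk => (hmax k hk hjk).trans (le_max_right _ _))
      rw [hc1, div_le_iff₀ hw1j]
      refine h1.trans ?_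
      have hpe : 0 < D.s ^ (-e0) := Real.rpow_pos_of_pos hs.1 _
      rcases le_total (D.s ^ (-c1)) (D.w1 j) with hcase | hcase
      · rw [max_eq_right hcase, mul_comm]
        refine mul_le_mul_of_nonneg_right (sf_mc_anti hs.1 hs.2 ?_) hw1j.le
        have : (c1 / 2) * i1 ≤ (c1 - τ) * j := by
          have h2 : c1 / 2 ≤ c1 - τ := by linarith
          exact mul_le_mul h2 hij hi10.le (by linarith)
        linarith
      · rw [max_eq_left hcase, ← Real.rpow_add hs.1]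
        calc D.s ^ (-c1 + -e0) ≤ D.s ^ (-((c1 - τ) * j)) * D.s ^ (c1 * (j - 1) - (τ + e0)) := by
              rw [← Real.rpow_add hs.1]
              refine sf_mc_anti hs.1 hs.2 ?_
              nlinarith
          _ ≤ D.s ^ (-((c1 - τ) * j)) * D.w1 j := mul_le_mul_of_nonneg_left hcon'.le (Real.rpow_pos_of_pos hs.1 _).le

/-- the number of integer parts of the points of an interval -/
theorem sf_sh_s3_count (ι : Type) (v : ι → ℤ) (hv : Function.Injective v) (S : Set ι) (y0 R : ℝ) (hR : 0 ≤ R)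
    (hS : ∀ b ∈ S, ∃ y : ℝ, ⌊y⌋ = v b ∧ |y - y0| ≤ R) : (S.ncard : ℝ) ≤ 2 * R + 2 := by
  have h1 : v '' S ⊆ ↑(Finset.Icc ⌊y0 - R⌋ ⌊y0 + R⌋) := by
    rintro _ ⟨b, hb, rfl⟩
    obtain ⟨y, e, hy⟩ := hS b hb
    rw [abs_le] at hy
    rw [Finset.coe_Icc, ← e]
    exact ⟨Int.floor_mono (by linarith), Int.floor_mono (by linarith)⟩
  have h2 : S.ncard ≤ (Finset.Icc ⌊y0 - R⌋ ⌊y0 + R⌋).card := by
    rw [← Set.ncard_image_of_injective S hv, ← Set.ncard_coe_finset]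
    exact Set.ncard_le_ncard h1 (Finset.finite_toSet _)
  have h3 : ⌊y0 - R⌋ ≤ ⌊y0 + R⌋ := Int.floor_mono (by linarith)
  have h4 : (((Finset.Icc ⌊y0 - R⌋ ⌊y0 + R⌋).card : ℕ) : ℝ) = (⌊y0 + R⌋ : ℝ) + 1 - (⌊y0 - R⌋ : ℝ) := by
    rw [Int.card_Icc]
    have : (((⌊y0 + R⌋ + 1 - ⌊y0 - R⌋).toNat : ℤ) : ℝ) = ((⌊y0 + R⌋ + 1 - ⌊y0 - R⌋ : ℤ) : ℝ) := by
      rw [Int.toNat_of_nonneg (by omega)]
    push_cast at this
    exact_mod_cast this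
  have h5 := Int.floor_le (y0 + R)
  have h6 := Int.lt_floor_add_one (y0 - R)
  calc (S.ncard : ℝ) ≤ ((Finset.Icc ⌊y0 - R⌋ ⌊y0 + R⌋).card : ℝ) := by exact_mod_cast h2
    _ = (⌊y0 + R⌋ : ℝ) + 1 - (⌊y0 - R⌋ : ℝ) := h4
    _ ≤ 2 * R + 2 := by linarith

theorem sf_sh_s3_size (al : ℝ) : (⟨0, 0, 0, 0, 0, 0, al, 0, 0, 0, 0⟩ : SfTest).size = |al| := by
  simp [SfTest.size]

/-- terminal costs after subtraction of a constant derivative -/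
theorem sf_sh_s3hi_cost (D : SfDoc) (π : SfPar) (C0 a : ℝ) (hc : D.Core π C0 a) (ρ : D.Row 1) (al : ℝ) :
    sfR2 (D.lab 1 ρ) ⟨0, 0, 0, 0, 0, 0, al, 0, 0, 0, 0⟩ (D.len 1) = D.cv ⟨1, ρ⟩ ∧
      sfR1 (D.lab 1 ρ) ⟨0, 0, 0, 0, 0, 0, al, 0, 0, 0, 0⟩ = |(D.lab 1 ρ).Pc - al| := by
  obtain ⟨o1, o2, -⟩ := hc.own 1 hc.gate.1 ρ
  unfold sfR2 sfR1 SfTest.beAt SfTest.PdAt SfTest.beAt SfDoc.cv
  rw [o1, o2, hc.hw.1, hc.hw.2.1]
  constructor <;> simp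

/-- **S3HI** (leaf L-256-SOFT-SH-S3HI, ~400 l.): `c2 = 0 < c1` ⟹ `b1(i) ≤ c1 (i - 1) + t`.
PLAN.   `L3 = 3|Ls| + c1 + 1`, `δ = t / (2 L3)`, `ε = min (c1 δ) (t/4)`, `τ = ε/2`.   Suppose `w1 i < s^(c1 (i-1) + t)`.   (1) `b1(k) ≥ c1 (k-1) + t/2 - 3a` for gates `i ≤ k ≤ i + δ`; `i + δ < 1`.   (2) `V = s^(c1 (i-1) + ε - t1)` dominates `w1 k` for all gates `k ≥ i` (so `V ≥ w1 1 = 1`);
`sf_ab_Pc_cmp`: `|Pc_ρ - Pc''| ≤ V s^(-err)` for `Conn i 1 ρ ρ''`.   (3) TAIL ARGUMENT on `[i,1]`: `w = s^(c1 (i-1) + ε)`, `bin ρ'' = ⌊Pc'' / w⌋`, `sg b` = the test with `al = b w`, other entries `0` (`sg.PdAt x b T = al`, `sg.beAt = 0`).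
Costs: curvature `= cv ρ'' ≤ s^(-a) ≤ s^(-κ0 (1-i))`, linear `|Pc'' - b w| ≤ w ≤ s^(-(c1-τ)(1-i))`.   Overlap from `ρ`: `≤ 2 s^(-err) + 2`.   Size: `|b w| ≤ |Pc''| + w ≤ 2 s^(-c1-a)`. -/
theorem sf_sh_s3hi (Ls c1 t : ℝ) (hc : 0 < c1) (ht : 0 < t) : ∃ τ : ℝ, 0 < τ ∧ ∀ κ0 : ℝ, 0 < κ0 → ∃ e0 : ℝ, 0 < e0 ∧
    ∀ (D : SfDoc) (π π' : SfPar) (C0 a μ h t1 tB : ℝ), D.Fm π Ls C0 a μ h → a ≤ e0 → μ ≤ e0 → 0 ≤ t1 → t1 ≤ e0 → tB ≤ e0 → π'.c2 = 0 → π'.c1 = c1 →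
      (∀ ρ : D.Row 1, D.cv ⟨1, ρ⟩ ≤ D.s ^ (-a) ∧ |(D.lab 1 ρ).Pc| ≤ D.s ^ (-(c1 + a))) → (∀ k ∈ D.G, D.w1 k ≤ D.s ^ (c1 * (k - 1) - t1)) →
      (∀ u : D.Rw, u.1 ∈ D.G → D.RowB 0 tB u) → D.MinC π' τ κ0 a → ∀ i ∈ D.G, D.s ^ (c1 * (i - 1) + t) ≤ D.w1 i := by
  have hL : 0 ≤ |Ls| := abs_nonneg _
  obtain ⟨L3, hL3⟩ : ∃ L3 : ℝ, L3 = 3 * |Ls| + c1 + 1 := ⟨_, rfl⟩
  have hL30 : 0 < L3 := by rw [hL3]; positivity
  obtain ⟨δ, hδ⟩ : ∃ δ : ℝ, δ = t / (2 * L3) := ⟨_, rfl⟩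
  have hδ0 : 0 < δ := by rw [hδ]; positivity
  have hδ1 : (3 * |Ls| + c1) * δ ≤ t / 2 := by
    have e : L3 * δ = t / 2 := by rw [hδ]; field_simp
    have : (3 * |Ls| + c1) * δ ≤ L3 * δ := mul_le_mul_of_nonneg_right (by rw [hL3]; linarith) hδ0.le
    linarith
  obtain ⟨ε, hε⟩ : ∃ ε : ℝ, ε = min (c1 * δ) (t / 4) := ⟨_, rfl⟩
  have hε0 : 0 < ε := by rw [hε]; exact lt_min (by positivity) (by linarith)
  have hε1 : ε ≤ c1 * δ := by rw [hε]; exact min_le_left _ _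
  have hε2 : ε ≤ t / 4 := by rw [hε]; exact min_le_right _ _
  refine ⟨ε / 2, by linarith, fun κ0 hκ => ?_⟩
  obtain ⟨tC, htC⟩ : ∃ tC : ℝ, tC = κ0 * δ / 3 := ⟨_, rfl⟩
  have htC0 : 0 < tC := by rw [htC]; positivity
  obtain ⟨e1, he1, H1⟩ := sf_ab_Pc_cmp Ls tC htC0
  obtain ⟨e0, he0⟩ : ∃ e0 : ℝ, e0 = min e1 (min (κ0 * δ / 3) (min (t / 12) (min 1 (1 / (c1 + 2))))) := ⟨_, rfl⟩
  have he00 : 0 < e0 := by
    rw [he0]
    exact lt_min he1 (lt_min (by positivity) (lt_min (by linarith) (lt_min one_pos (by positivity))))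
  have he01 : e0 ≤ e1 := by rw [he0]; exact min_le_left _ _
  have he02 : e0 ≤ κ0 * δ / 3 := by rw [he0]; exact (min_le_right _ _).trans (min_le_left _ _)
  have he03 : e0 ≤ t / 12 := by rw [he0]; exact (min_le_right _ _).trans ((min_le_right _ _).trans (min_le_left _ _))
  have he04 : e0 ≤ 1 := by
    rw [he0]; exact (min_le_right _ _).trans ((min_le_right _ _).trans ((min_le_right _ _).trans (min_le_left _ _)))
  have he05 : e0 ≤ 1 / (c1 + 2) := by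
    rw [he0]; exact (min_le_right _ _).trans ((min_le_right _ _).trans ((min_le_right _ _).trans (min_le_right _ _)))
  refine ⟨e0, he00, fun D π π' C0 a μ h t1 tB hF ha hμ ht10 ht1 htB hc2 hc1 hterm hup hB hM i hi => ?_⟩
  have hcore := hF.good.1
  have hs := hcore.hs
  have ha0 := hF.a0
  have hi01 := hcore.gate.2 i hi
  obtain ⟨-, hw11⟩ := sf_ab_w_one D π C0 a hcore
  by_contra hcon
  have hcon' : D.w1 i < D.s ^ (c1 * (i - 1) + t) := not_le.1 hcon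
  -- (1)
  have st1 : ∀ k ∈ D.G, i ≤ k → k ≤ i + δ → D.w1 k ≤ D.s ^ (c1 * (k - 1) + t / 2 - 3 * a) := by
    intro k hk hik hkδ
    rcases hik.lt_or_eq with hlt | heq
    · have h1 := (sf_ab_lip D π Ls C0 a hF.good i k hi hk hlt).2.2.2.2
      refine h1.trans ?_
      calc D.w1 i * D.s ^ (-(3 * (|Ls| * (k - i) + a))) ≤ D.s ^ (c1 * (i - 1) + t) * D.s ^ (-(3 * (|Ls| * (k - i) + a))) :=
            mul_le_mul_of_nonneg_right hcon'.le (Real.rpow_pos_of_pos hs.1 _).le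
        _ = D.s ^ (c1 * (i - 1) + t + -(3 * (|Ls| * (k - i) + a))) := (Real.rpow_add hs.1 _ _).symm
        _ ≤ _ := by
            refine sf_mc_anti hs.1 hs.2 ?_
            have h2 : (3 * |Ls| + c1) * (k - i) ≤ (3 * |Ls| + c1) * δ := mul_le_mul_of_nonneg_left (by linarith) (by positivity)
            linarith
    · rw [← heq]
      exact hcon'.le.trans (sf_mc_anti hs.1 hs.2 (by linarith))
  have hiδ : i + δ < 1 := by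
    by_contra hc'
    have h1 := st1 1 hcore.gate.1 hi01.2 (not_lt.1 hc')
    rw [hw11] at h1
    exact absurd h1 (not_le.2 (Real.rpow_lt_one hs.1.le hs.2 (by linarith)))
  have hi1 : i < 1 := by linarith
  -- (2)
  obtain ⟨w, hw⟩ : ∃ w : ℝ, w = D.s ^ (c1 * (i - 1) + ε) := ⟨_, rfl⟩
  have hw0 : 0 < w := by rw [hw]; exact Real.rpow_pos_of_pos hs.1 _
  have hV : ∀ k ∈ D.G, i ≤ k → D.w1 k ≤ w * D.s ^ (-t1) := by
    intro k hk hik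
    rw [hw, ← Real.rpow_add hs.1]
    rcases le_total k (i + δ) with hkδ | hkδ
    · refine (st1 k hk hik hkδ).trans (sf_mc_anti hs.1 hs.2 ?_)
      have : 0 ≤ c1 * (k - i) := mul_nonneg hc.le (by linarith)
      linarith
    · refine (hup k hk).trans (sf_mc_anti hs.1 hs.2 ?_)
      have : c1 * δ ≤ c1 * (k - i) := mul_le_mul_of_nonneg_left (by linarith) hc.le
      linarith
  have hV1 : 1 ≤ w * D.s ^ (-t1) := by
    have := hV 1 hcore.gate.1 hi01.2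
    rwa [hw11] at this
  have hcmp : ∀ ρ ρ'', D.Conn i 1 ρ ρ'' → |(D.lab i ρ).Pc - (D.lab 1 ρ'').Pc| ≤ w * D.s ^ (-t1) * D.s ^ (-tC) := fun ρ ρ'' hcn =>
    H1 D π C0 a μ h tB hF (ha.trans he01) (hμ.trans he01) (htB.trans he01) hB i hi 1 hcore.gate.1 hi1 ρ ρ'' hcn _ hV1 hV
  -- (3)
  have hκi : κ0 * δ ≤ κ0 * (1 - i) := mul_le_mul_of_nonneg_left (by linarith) hκ.le
  have hone : (1 : ℝ) ≤ D.s ^ (-(κ0 * (1 - i))) := sf_sh_s3_one_le hs.1 hs.2 (mul_nonneg hκ.le (by linarith))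
  have h16 : (16 : ℝ) ≤ D.s ^ (-a) := by
    rw [Real.rpow_neg hs.1.le]
    have h1 := hF.small
    have h2 : 0 < D.s ^ a := Real.rpow_pos_of_pos hs.1 _
    rw [le_inv_comm₀ (by norm_num) h2]
    linarith
  obtain ⟨bin, hbin⟩ : ∃ bin : D.Row 1 → ℤ, bin = fun ρ'' => ⌊(D.lab 1 ρ'').Pc / w⌋ := ⟨_, rfl⟩
  have hfl : ∀ ρ'' : D.Row 1, |(D.lab 1 ρ'').Pc - (bin ρ'' : ℝ) * w| ≤ w := by
    intro ρ''
    have h1 := Int.floor_le ((D.lab 1 ρ'').Pc / w)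
    have h2 := Int.lt_floor_add_one ((D.lab 1 ρ'').Pc / w)
    rw [le_div_iff₀ hw0] at h1
    rw [div_lt_iff₀ hw0] at h2
    rw [hbin]
    show |(D.lab 1 ρ'').Pc - (⌊(D.lab 1 ρ'').Pc / w⌋ : ℝ) * w| ≤ w
    rw [abs_le]
    constructor <;> linarith
  have key : (D.P 1).pr (fun ρ' => ∃ b : Set.range bin, bin ρ' = b.1) ≤ D.s ^ (κ0 * (1 - i)) := by
    refine hM i hi 1 hcore.gate.1 hi1 (by linarith) (Set.range bin) (fun b ρ => ∃ ρ'', bin ρ'' = b.1 ∧ D.Conn i 1 ρ ρ'') (fun b ρ' => bin ρ' = b.1)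
      (fun b => ⟨0, 0, 0, 0, 0, 0, (b.1 : ℝ) * w, 0, 0, 0, 0⟩) (fun b b' ρ' h1 h2 => Subtype.ext (h1.symm.trans h2))
      (fun b ρ' h1 ρ h2 => ⟨ρ', h1, h2⟩) ?_ ?_ ?_ ?_ ?_
    · intro ρ
      obtain ⟨R, hR⟩ : ∃ R : ℝ, R = D.s ^ (-t1) * D.s ^ (-tC) := ⟨_, rfl⟩
      have hR1 : 1 ≤ R := by
        rw [hR, ← Real.rpow_add hs.1, ← neg_add]
        exact sf_sh_s3_one_le hs.1 hs.2 (by linarith)
      have h1 := sf_sh_s3_count (Set.range bin) (fun b => b.1) Subtype.val_injective {b | ∃ ρ'', bin ρ'' = b.1 ∧ D.Conn i 1 ρ ρ''}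
        ((D.lab i ρ).Pc / w) R (by linarith) ?_
      · refine h1.trans ?_
        calc 2 * R + 2 ≤ 16 * R := by linarith
          _ ≤ D.s ^ (-a) * R := mul_le_mul_of_nonneg_right h16 (by linarith)
          _ = D.s ^ (-a + (-t1 + -tC)) := by rw [hR, ← Real.rpow_add hs.1, ← Real.rpow_add hs.1]
          _ ≤ _ := sf_mc_anti hs.1 hs.2 (by linarith)
      · rintro b ⟨ρ'', e, hcn⟩
        refine ⟨(D.lab 1 ρ'').Pc / w, by rw [← e, hbin], ?_⟩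
        rw [← sub_div, abs_div, abs_of_pos hw0, div_le_iff₀ hw0, abs_sub_comm, hR]
        refine (hcmp ρ ρ'' hcn).trans (le_of_eq ?_)
        ring
    · intro lam
      refine le_trans ?_ hone
      have : ({b | ∃ ρ', bin ρ' = b.1 ∧ D.lab 1 ρ' = lam} : Set (Set.range bin)).ncard ≤ 1 := by
        refine (Set.ncard_le_one_iff (Set.toFinite _)).2 ?_
        rintro b b' ⟨ρ1, e1, l1⟩ ⟨ρ2, e2, l2⟩
        refine Subtype.ext ?_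
        rw [← e1, ← e2, hbin]
        simp only [l1, l2]
      exact_mod_cast this
    · rintro ⟨_, ρ'', rfl⟩
      rw [sf_sh_s3_size]
      have h1 := hfl ρ''
      have h2 := (hterm ρ'').2
      have h3 : |(bin ρ'' : ℝ) * w| ≤ |(D.lab 1 ρ'').Pc| + w := by
        have e : (bin ρ'' : ℝ) * w = (D.lab 1 ρ'').Pc - ((D.lab 1 ρ'').Pc - (bin ρ'' : ℝ) * w) := by ring
        rw [e]
        exact (abs_sub _ _).trans (by linarith)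
      have h4 : w ≤ D.s ^ (-(c1 + a)) := by
        rw [hw]
        refine sf_mc_anti hs.1 hs.2 ?_
        have := mul_nonneg hc.le hi01.1
        linarith
      have hp : 0 < D.s ^ (-(c1 + a)) := Real.rpow_pos_of_pos hs.1 _
      calc |(bin ρ'' : ℝ) * w| ≤ 16 * D.s ^ (-(c1 + a)) := by linarith
        _ ≤ D.s ^ (-a) * D.s ^ (-(c1 + a)) := mul_le_mul_of_nonneg_right h16 hp.le
        _ = D.s ^ (-a + -(c1 + a)) := (Real.rpow_add hs.1 _ _).symm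
        _ ≤ _ := by
            refine sf_mc_anti hs.1 hs.2 ?_
            have h5 : a * (c1 + 2) ≤ 1 := by
              have := ha.trans he05
              rwa [le_div_iff₀ (by positivity)] at this
            have h6 : c1 + 2 * a ≤ 1 / a := by
              rw [le_div_iff₀ ha0]
              have h7 : a * a ≤ a * 1 := mul_le_mul_of_nonneg_left (ha.trans he04) ha0.le
              linarith
            linarith
    · intro h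
      rw [hc2] at h
      exact absurd h (lt_irrefl _)
    · rintro - b ρ' e
      obtain ⟨e1, e2⟩ := sf_sh_s3hi_cost D π C0 a hcore ρ' ((b.1 : ℝ) * w)
      rw [e1, e2, hc1]
      refine ⟨(hterm ρ').1.trans (sf_mc_anti hs.1 hs.2 (by linarith)), ?_⟩
      have e' : bin ρ' = b.1 := e
      rw [← e']
      refine (hfl ρ').trans ?_
      rw [hw]
      refine sf_mc_anti hs.1 hs.2 ?_
      have h7 : ε / 2 * (1 - i) ≤ ε / 2 * 1 := mul_le_mul_of_nonneg_left (by linarith) (by linarith)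
      linarith
  have h1 : (D.P 1).pr (fun ρ' => ∃ b : Set.range bin, bin ρ' = b.1) = 1 := ent_pr_eq_one _ fun ρ' _ => ⟨⟨bin ρ', ρ', rfl⟩, rfl⟩
  rw [h1] at key
  exact absurd key (not_le.2 (Real.rpow_lt_one hs.1.le hs.2 (mul_pos hκ (by linarith))))

end Claimed.Agent.R256
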