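import Claimed.Agent.R256.Soft.Spg
import Claimed.Agent.R256.Soft.Voc

/-!
# Row 256 (S0496), unit SOFT, A12 SPG, file ALL: ONE RIGIDITY FUNCTION FOR ALL `τ`      (helper196; block chief helper206; prefix `sf_sg_`)

`sf_sg_all`: from the statement of `sf_spg` (one `κ0` for each cost improvement `τ`; accuracy of the configuration `t / 32`) to ONE function `κ0 : τ ↦ κ0 τ > 0` such that ONE configuration has `Spg π' τ (κ0 τ) t` for ALL `τ`
(`Spg` is monotone, `sf_spg_mono`, and void when `κ0 τ < t`, `sf_spg_vac`; at the tolerance `t` only finitely many dyadic `τ` matter).      Clone of `sf_mc_minc_all` (helper286).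
`sf_sg_min`: the common rigidity function of `MinC` and `Spg` (for `sf_dich`).
-/

set_option autoImplicit false

namespace Claimed.Agent.R256

open Claimed.Agent.R255

/-- **(A12b)** ONE rigidity function for all `τ` -/
theorem sf_sg_all (K : SfCls) (π : SfPar) (Ls : ℝ) (π' : SfPar)
    (hsp : ∀ τ : ℝ, 0 < τ → ∃ κ0 : ℝ, 0 < κ0 ∧ ∀ C0 t : ℝ, 0 < t →
      SfAll K.ob K.sc (fun c => K.Gd π Ls C0 (t / 32) c → (K.doc c).Spg π' τ κ0 t)) :
    ∃ κ0 : ℝ → ℝ, (∀ τ : ℝ, 0 < τ → 0 < κ0 τ) ∧ ∀ C0 t : ℝ, 0 < t →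
      SfAll K.ob K.sc (fun c => K.Gd π Ls C0 (t / 32) c → ∀ τ : ℝ, 0 < τ → (K.doc c).Spg π' τ (κ0 τ) t) := by
  classical
  have hhalf : ((2 : ℝ)⁻¹) < 1 := by norm_num
  have hhalf0 : (0 : ℝ) < (2 : ℝ)⁻¹ := by norm_num
  choose κf hκf hM using fun k : ℕ => hsp ((2 : ℝ)⁻¹ ^ k) (pow_pos hhalf0 k)
  have hex : ∀ τ : ℝ, ∃ k : ℕ, 0 < τ → (2 : ℝ)⁻¹ ^ k < τ := by
    intro τ
    by_cases hτ : 0 < τ
    · obtain ⟨k, hk⟩ := exists_pow_lt_of_lt_one hτ hhalf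
      exact ⟨k, fun _ => hk⟩
    · exact ⟨0, fun h => absurd h hτ⟩
  choose kk hkk using hex
  refine ⟨fun τ => min (κf (kk τ)) ((2 : ℝ)⁻¹ ^ kk τ), fun τ _ => lt_min (hκf _) (pow_pos hhalf0 _), fun C0 t ht => ?_⟩
  obtain ⟨N, hN⟩ := exists_pow_lt_of_lt_one ht hhalf
  have hall := sf_all_finset (ob := K.ob) (sc := K.sc) (Finset.range N)
    (A := fun k c => K.Gd π Ls C0 (t / 32) c → (K.doc c).Spg π' ((2 : ℝ)⁻¹ ^ k) (κf k) t) (fun k _ => hM k C0 t ht)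
  refine sf_all_mono (fun c hc hgd τ hτ => ?_) hall
  have hs := hgd.1.1.hs
  by_cases hk : kk τ < N
  · exact sf_spg_mono _ _ _ _ _ _ _ _ hs ht le_rfl (hkk τ hτ).le (min_le_left _ _) (hc _ (Finset.mem_range.2 hk) hgd)
  · refine sf_spg_vac _ _ _ _ _ hgd.1.1.gate.2 (le_min (hκf _).le (pow_pos hhalf0 _).le) ?_
    have h3 : (2 : ℝ)⁻¹ ^ kk τ ≤ (2 : ℝ)⁻¹ ^ N := pow_le_pow_of_le_one hhalf0.le hhalf.le (not_lt.1 hk)
    exact lt_of_le_of_lt ((min_le_right _ _).trans h3) hN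

end Claimed.Agent.R256
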