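import Claimed.Agent.R256.Soft.CalGp
import Claimed.Agent.R256.Soft.Spg
import Claimed.Agent.R256.Soft.AMinOut

/-!
# Row 256 (S0496), unit SOFT, A9 SPG, file 2: A VIOLATION OF `Spg` IS A PARTITION FOR GROUP EXTRACTION      (helper149; clone of `Soft/AMin{Hyp,Fr,Out}.lean` of helper286; prefix `sf_sg_`; definitions `GpHyp`, `CalGp`: `Soft/CalGp.lean`)

Doc-level, on ONE `D : SfDoc` with `D.Good π Ls C0 t`.
* `SfSgBad D π' τ κ0 t i j ι Sb sg U S`   the data of a violation of `D.Spg π' τ κ0 t`;   `sf_sg_of_not_bad`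
* `SfSgBin`, `sfSgSb`, `sfSgU`, `sfSgSx`   groups refined by the starting time and CUT to the rows with a successor in `U`; end rows; exceptional rows (as predicates on `D.Rw`)
* `sf_sg_hyp`                              `SfCls.GpHyp D i j ..` for the frames `sfMcFr D i j (sg b.1) b.2`
* `sf_sg_out`                              the terminal costs of the extracted piece = costs after subtraction of `sg b` of a row of `U` reachable from the group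
-/

set_option autoImplicit false

namespace Claimed.Agent.R256

open Claimed.Agent.R255

/-- the data of a violation of `Spg` -/
structure SfSgBad (D : SfDoc) (π' : SfPar) (τ κ0 t i j : ℝ) (ι : Type) (Sb : ι → D.Row i → Prop) (sg : ι → SfTest) (U : D.Row j → Prop)
    (S : D.Row i → Prop) : Prop where
  hi : i ∈ D.G
  hj : j ∈ D.G
  hij : i < j
  ht : t ≤ κ0 * (j - i)
  disj : ∀ b b' ρ, Sb b ρ → Sb b' ρ → b = b'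
  own : ∀ ρ', U ρ' → ∀ ρ, D.Conn i j ρ ρ' → S ρ ∨ ∃ b, Sb b ρ
  lovl : ∀ lam, (({b | ∃ ρ ρ', Sb b ρ ∧ D.Conn i j ρ ρ' ∧ U ρ' ∧ D.lab j ρ' = lam} : Set ι).ncard : ℝ) ≤ D.s ^ (-(κ0 * (j - i)))
  size : ∀ b, (sg b).size ≤ D.s ^ (-(1 / t))
  c2 : 0 < π'.c2 → ∀ b ρ ρ', Sb b ρ → D.Conn i j ρ ρ' → U ρ' → sfR2 (D.lab j ρ') (sg b) (D.len j) ≤ D.s ^ (-((π'.c2 - τ) * (j - i)))
  c1 : π'.c2 = 0 → ∀ b ρ ρ', Sb b ρ → D.Conn i j ρ ρ' → U ρ' → sfR2 (D.lab j ρ') (sg b) (D.len j) ≤ D.s ^ (-(κ0 * (j - i))) ∧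
      sfR1 (D.lab j ρ') (sg b) ≤ D.s ^ (-((π'.c1 - τ) * (j - i)))
  big : D.s ^ (-t) * (D.P i).pr S ^ ((2 : ℝ) / 3) + D.s ^ (κ0 * (j - i)) < (D.P j).pr U

theorem sf_sg_of_not_bad (D : SfDoc) (π' : SfPar) (τ κ0 t : ℝ)
    (h : ∀ (i j : ℝ) (ι : Type) [Finite ι] (Sb : ι → D.Row i → Prop) (sg : ι → SfTest) (U : D.Row j → Prop) (S : D.Row i → Prop),
      ¬ SfSgBad D π' τ κ0 t i j ι Sb sg U S) : D.Spg π' τ κ0 t := by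
  intro i hi j hj hij ht ι _ Sb sg U S h1 h2 h3 h4 h5 h6
  by_contra hc
  exact h i j ι Sb sg U S ⟨hi, hj, hij, ht, h1, h2, h3, h4, h5, h6, not_le.1 hc⟩

/-- groups refined by the starting time -/
abbrev SfSgBin (D : SfDoc) (i : ℝ) (ι : Type) : Type := ι × Set.range (fun ρ : D.Row i => D.T i ρ)

/-- starting rows of a refined group: one starting time, a successor in `U` -/
def sfSgSb (D : SfDoc) (i j : ℝ) {ι : Type} (Sb : ι → D.Row i → Prop) (U : D.Row j → Prop) (b : SfSgBin D i ι) (u : D.Rw) : Prop :=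
  ∃ (ρ : D.Row i) (ρ' : D.Row j), u = ⟨i, ρ⟩ ∧ Sb b.1 ρ ∧ D.T i ρ = b.2.1 ∧ D.Conn i j ρ ρ' ∧ U ρ'

/-- end rows -/
def sfSgU (D : SfDoc) (j : ℝ) (U : D.Row j → Prop) (v : D.Rw) : Prop := ∃ ρ' : D.Row j, v = ⟨j, ρ'⟩ ∧ U ρ'

theorem sf_sg_hyp_eqns_cite : True := by
  have := @sfSgSb.eq_1
  have := @sfSgU.eq_1
  trivial

theorem sf_sg_u_iff (D : SfDoc) (j : ℝ) (U : D.Row j → Prop) (ρ' : D.Row j) : sfSgU D j U ⟨j, ρ'⟩ ↔ U ρ' := by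
  constructor
  · rintro ⟨ρ'', e, h⟩
    have e' : ρ' = ρ'' := eq_of_heq (Sigma.mk.inj e).2
    subst e'
    exact h
  · exact fun h => ⟨ρ', rfl, h⟩

section

variable {D : SfDoc} {π π' : SfPar} {Ls C0 τ κ0 t i j : ℝ} {ι : Type} {Sb : ι → D.Row i → Prop} {sg : ι → SfTest} {U : D.Row j → Prop}
  {S : D.Row i → Prop}

/-- a connected pair (group row, end row) in coordinates -/
theorem sf_sg_pair (b : SfSgBin D i ι) (u v : D.Rw) (hu : sfSgSb D i j Sb U b u) (hv : sfSgU D j U v) (hc : D.Conn u.1 v.1 u.2 v.2) :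
    ∃ (ρ : D.Row i) (ρ' : D.Row j), u = ⟨i, ρ⟩ ∧ v = ⟨j, ρ'⟩ ∧ Sb b.1 ρ ∧ D.T i ρ = b.2.1 ∧ D.Conn i j ρ ρ' ∧ U ρ' := by
  obtain ⟨ρ, -, rfl, h1, h2, -, -⟩ := hu
  obtain ⟨ρ', rfl, h3⟩ := hv
  exact ⟨ρ, ρ', rfl, rfl, h1, h2, hc, h3⟩

theorem sf_sg_sb_disj (hB : SfSgBad D π' τ κ0 t i j ι Sb sg U S) (b b' : SfSgBin D i ι) (u : D.Rw)
    (h : sfSgSb D i j Sb U b u) (h' : sfSgSb D i j Sb U b' u) : b = b' := by
  obtain ⟨ρ, -, rfl, h1, h2, -, -⟩ := h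
  obtain ⟨ρ1, -, e, h1', h2', -, -⟩ := h'
  have e' : ρ = ρ1 := eq_of_heq (Sigma.mk.inj e).2
  subst e'
  exact Prod.ext (hB.disj _ _ _ h1 h1') (Subtype.ext (h2.symm.trans h2'))

theorem sf_sg_own (hB : SfSgBad D π' τ κ0 t i j ι Sb sg U S) (u v : D.Rw) (hv : sfSgU D j U v) (hu : u.1 = i)
    (hc : D.Conn u.1 v.1 u.2 v.2) : sfSgU D i S u ∨ ∃ b : SfSgBin D i ι, sfSgSb D i j Sb U b u := by
  obtain ⟨ρ', rfl, hU⟩ := hv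
  obtain ⟨k, ρ⟩ := u
  simp only at hu
  subst hu
  rcases hB.own ρ' hU ρ hc with h | ⟨b, h⟩
  · exact Or.inl ⟨ρ, rfl, h⟩
  · exact Or.inr ⟨(b, ⟨_, ρ, rfl⟩), ρ, ρ', rfl, h, rfl, hc, hU⟩

theorem sf_sg_mass (hg : D.Good π Ls C0 t) (hB : SfSgBad D π' τ κ0 t i j ι Sb sg U S) (a : ℝ) (ha : κ0 ≤ a) :
    D.s ^ (a * (j - i)) + D.s ^ (-t) * (D.P i).pr (fun ρ => sfSgU D i S ⟨i, ρ⟩) ^ ((2 : ℝ) / 3) ≤ (D.P j).pr (fun ρ' => sfSgU D j U ⟨j, ρ'⟩) := by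
  have e1 : (fun ρ => sfSgU D i S ⟨i, ρ⟩) = S := funext fun ρ => propext (sf_sg_u_iff D i S ρ)
  have e2 : (fun ρ' => sfSgU D j U ⟨j, ρ'⟩) = U := funext fun ρ' => propext (sf_sg_u_iff D j U ρ')
  rw [e1, e2]
  have h1 : D.s ^ (a * (j - i)) ≤ D.s ^ (κ0 * (j - i)) :=
    sf_mc_anti hg.1.hs.1 hg.1.hs.2 (mul_le_mul_of_nonneg_right ha (by linarith [hB.hij]))
  linarith [hB.big]

/-- the groups that reach a label of the gate `j` -/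
theorem sf_sg_lb_ovl [Finite ι] (hg : D.Good π Ls C0 t) (hB : SfSgBad D π' τ κ0 t i j ι Sb sg U S) (a : ℝ) (ha : κ0 ≤ a) (lam : SfTest) :
    (({b | ∃ u v : D.Rw, sfSgSb D i j Sb U b u ∧ sfSgU D j U v ∧ D.Conn u.1 v.1 u.2 v.2 ∧ D.lab v.1 v.2 = lam} : Set (SfSgBin D i ι)).ncard : ℝ)
      ≤ D.s ^ (-(a * (j - i))) := by
  have hs := hg.1.hs
  have hmono : D.s ^ (-(κ0 * (j - i))) ≤ D.s ^ (-(a * (j - i))) :=
    sf_mc_anti hs.1 hs.2 (neg_le_neg (mul_le_mul_of_nonneg_right ha (by linarith [hB.hij])))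
  refine le_trans ?_ ((hB.lovl lam).trans hmono)
  have : ({b | ∃ u v : D.Rw, sfSgSb D i j Sb U b u ∧ sfSgU D j U v ∧ D.Conn u.1 v.1 u.2 v.2 ∧ D.lab v.1 v.2 = lam} : Set (SfSgBin D i ι)).ncard
      ≤ ({b | ∃ ρ ρ', Sb b ρ ∧ D.Conn i j ρ ρ' ∧ U ρ' ∧ D.lab j ρ' = lam} : Set ι).ncard := by
    refine Set.ncard_le_ncard_of_injOn Prod.fst ?_ ?_ (Set.toFinite _)
    · rintro b ⟨u, v, hu, hv, hc, hl⟩
      obtain ⟨ρ, ρ', rfl, rfl, h1, -, h3, h4⟩ := sf_sg_pair b u v hu hv hc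
      exact ⟨ρ, ρ', h1, h3, h4, hl⟩
    · rintro b ⟨u, v, hu, hv, hc, hl⟩ b' ⟨u', v', hu', hv', hc', hl'⟩ hbb
      obtain ⟨ρ, ρ', rfl, rfl, -, h2, h3, -⟩ := sf_sg_pair b u v hu hv hc
      obtain ⟨ρ1, ρ1', rfl, rfl, -, h2', h3', -⟩ := sf_sg_pair b' u' v' hu' hv' hc'
      have hT : D.T j ρ' = D.T j ρ1' := by
        unfold SfDoc.T
        simp only at hl hl'
        rw [hl, hl']
      have t1 := sf_mc_anc_conn D π C0 t hg.1 i j hB.hi hB.hj hB.hij ρ ρ' h3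
      have t2 := sf_mc_anc_conn D π C0 t hg.1 i j hB.hi hB.hj hB.hij ρ1 ρ1' h3'
      refine Prod.ext hbb (Subtype.ext ?_)
      rw [← h2, ← h2', ← t1, ← t2, hT]
  exact_mod_cast this

/-- the curvature cost of a reachable end row is `≤ s^-(c2+1)` in both cases -/
theorem sf_sg_R2_le (hg : D.Good π Ls C0 t) (hB : SfSgBad D π' τ κ0 t i j ι Sb sg U S) (hτ : 0 < τ) (hκ : 0 < κ0 ∧ κ0 ≤ 1) (hc2 : 0 ≤ π'.c2)
    (b : ι) (ρ : D.Row i) (ρ' : D.Row j) (h1 : Sb b ρ) (h2 : D.Conn i j ρ ρ') (hU : U ρ') :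
    sfR2 (D.lab j ρ') (sg b) (D.len j) ≤ D.s ^ (-(π'.c2 + 1)) := by
  have hs := hg.1.hs
  have hi := hg.1.gate.2 i hB.hi
  have hj := hg.1.gate.2 j hB.hj
  have hij := hB.hij
  have hd0 : 0 < j - i := by linarith
  have hd1 : j - i ≤ 1 := by linarith
  rcases hc2.lt_or_eq with hpos | h0
  · refine (hB.c2 hpos b ρ ρ' h1 h2 hU).trans (sf_mc_p_mono hs.1 hs.2 ?_)
    nlinarith
  · refine ((hB.c1 h0.symm b ρ ρ' h1 h2 hU).1).trans (sf_mc_p_mono hs.1 hs.2 ?_)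
    nlinarith [hκ.1, hκ.2]

end

/-- a shear of polynomial size whose curvature cost at ONE row of the gate `j` is `≤ s^-(c2+1)` is polynomial on `[0,1]`      (= `sf_mc_sg_bd` without the violation) -/
theorem sf_sg_sg_bd {D : SfDoc} {π : SfPar} {Ls C0 t j : ℝ} (hg : D.Good π Ls C0 t) (hj : j ∈ D.G) (ht : 0 < t) (c2 : ℝ) (hc2 : 0 ≤ c2) (sg0 : SfTest)
    (hsz : sg0.size ≤ D.s ^ (-(1 / t))) (ρ' : D.Row j) (hR2 : sfR2 (D.lab j ρ') sg0 (D.len j) ≤ D.s ^ (-(c2 + 1))) (T : ℝ) (hT : 0 ≤ T ∧ T ≤ 1) :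
    |sg0.al| ≤ 3 * D.s ^ (-(sfMcE C0 Ls t c2)) ∧ |sg0.beAt T| ≤ 3 * D.s ^ (-(sfMcE C0 Ls t c2)) ∧ |sg0.K| ≤ 3 * D.s ^ (-(sfMcE C0 Ls t c2)) := by
  have hs := hg.1.hs
  obtain ⟨-, -, -, -, -, hal, -, hK⟩ := sf_mc_tst_coord sg0 _ hsz
  have hw := sf_mc_width D π Ls C0 t ht hg j hj
  have hown := hg.1.own j hj ρ'
  obtain ⟨-, -, -, -, -, -, hlbe, -⟩ := sf_mc_tst_coord _ _ (hg.1.bdd j hj ρ').2
  have hlen := sf_mc_len_pos D π C0 t hg.1 j hj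
  obtain ⟨w, hwd⟩ : ∃ w, w = |Ls| + t := ⟨_, rfl⟩
  rw [← hwd] at hw
  have hw0 : 0 ≤ w := by rw [hwd]; positivity
  have ht1 : 0 ≤ 1 / t := by positivity
  have hC : 0 ≤ |C0| := abs_nonneg _
  obtain ⟨E, hE⟩ : ∃ E, E = sfMcE C0 Ls t c2 := ⟨_, rfl⟩
  have hEd : E = |C0| + 3 * w + c2 + 1 + 1 / t := by rw [hE, hwd]; rfl
  rw [← hE]
  have hpE : 0 < D.s ^ (-E) := Real.rpow_pos_of_pos hs.1 _
  have h1 : D.s ^ (-(1 / t)) ≤ D.s ^ (-E) := sf_mc_p_mono hs.1 hs.2 (by rw [hEd]; linarith)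
  have h2 : D.s ^ (-C0) ≤ D.s ^ (-E) := sf_mc_p_mono hs.1 hs.2 (by rw [hEd]; linarith [le_abs_self C0])
  have h3 : D.s ^ (-(c2 + 1 + 3 * w)) ≤ D.s ^ (-E) := sf_mc_p_mono hs.1 hs.2 (by rw [hEd]; linarith)
  refine ⟨by linarith, ?_, by linarith⟩
  have hf0 : 0 < D.f j := lt_of_lt_of_le (Real.rpow_pos_of_pos hs.1 _) hw.2.2.1
  have hr0 : 0 < D.r j := lt_of_lt_of_le (Real.rpow_pos_of_pos hs.1 _) hw.1
  have hq : D.s ^ (3 * w) ≤ D.r j ^ 2 / D.f j := by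
    rw [le_div_iff₀ hf0]
    have e1 : D.s ^ (3 * w) * D.s ^ (-w) = (D.s ^ w) ^ 2 := by
      rw [← Real.rpow_add hs.1, ← Real.rpow_natCast, ← Real.rpow_mul hs.1.le]; congr 1; push_cast; ring
    calc D.s ^ (3 * w) * D.f j ≤ D.s ^ (3 * w) * D.s ^ (-w) :=
          mul_le_mul_of_nonneg_left hw.2.2.2 (Real.rpow_pos_of_pos hs.1 _).le
      _ = (D.s ^ w) ^ 2 := e1
      _ ≤ D.r j ^ 2 := pow_le_pow_left₀ (Real.rpow_pos_of_pos hs.1 _).le hw.1 2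
  have hx : |(D.lab j ρ').be - sg0.beAt (D.lab j ρ').T| ≤ D.s ^ (-(c2 + 1 + 3 * w)) := by
    unfold sfR2 at hR2
    rw [hown.1, hown.2.1] at hR2
    have hy : 0 ≤ D.len j * |(D.lab j ρ').K - sg0.K| := mul_nonneg hlen.le (abs_nonneg _)
    have hx0 : 0 ≤ |(D.lab j ρ').be - sg0.beAt (D.lab j ρ').T| := abs_nonneg _
    have h4 : D.s ^ (3 * w) * |(D.lab j ρ').be - sg0.beAt (D.lab j ρ').T| ≤ D.s ^ (-(c2 + 1)) := by
      refine le_trans ?_ hR2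
      calc D.s ^ (3 * w) * |(D.lab j ρ').be - sg0.beAt (D.lab j ρ').T|
          ≤ D.r j ^ 2 / D.f j * |(D.lab j ρ').be - sg0.beAt (D.lab j ρ').T| := mul_le_mul_of_nonneg_right hq hx0
        _ ≤ _ := mul_le_mul_of_nonneg_left (by linarith) (by positivity)
    have h5 : 0 < D.s ^ (3 * w) := Real.rpow_pos_of_pos hs.1 _
    have e2 : D.s ^ (-(c2 + 1 + 3 * w)) = D.s ^ (-(c2 + 1)) / D.s ^ (3 * w) := by
      rw [div_eq_mul_inv, ← Real.rpow_neg hs.1.le, sf_mc_p_mul hs.1]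
    rw [e2, le_div_iff₀ h5]
    linarith
  have hTT : |T - (D.lab j ρ').T| ≤ 1 := by
    have h6 : 0 ≤ (D.lab j ρ').T := hown.2.2.2.1
    have h7 : (D.lab j ρ').T + D.len j ≤ 1 := hown.2.2.2.2
    rw [abs_le]; constructor <;> linarith [hT.1, hT.2]
  have h8 := sf_mc_mul_le hTT hK
  have e3 : sg0.beAt T = (D.lab j ρ').be + (-((D.lab j ρ').be - sg0.beAt (D.lab j ρ').T)) + (T - (D.lab j ρ').T) * sg0.K := by
    simp only [SfTest.beAt]; ring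
  rw [e3]
  have t1 := abs_add_le ((D.lab j ρ').be + (-((D.lab j ρ').be - sg0.beAt (D.lab j ρ').T))) ((T - (D.lab j ρ').T) * sg0.K)
  have t2 := abs_add_le (D.lab j ρ').be (-((D.lab j ρ').be - sg0.beAt (D.lab j ρ').T))
  rw [abs_neg] at t2
  linarith

/-- **(fr_ray)**, one row -/
theorem sf_sg_ray1 {D : SfDoc} {π : SfPar} {Ls C0 t i j : ℝ} (hg : D.Good π Ls C0 t) (hi : i ∈ D.G) (hj : j ∈ D.G) (ht : 0 < t) (c2 : ℝ) (hc2 : 0 ≤ c2)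
    (h30 : D.s ≤ 1 / 30) (sg0 : SfTest) (hsz : sg0.size ≤ D.s ^ (-(1 / t))) (ρ' : D.Row j)
    (hR2 : sfR2 (D.lab j ρ') sg0 (D.len j) ≤ D.s ^ (-(c2 + 1))) (T : ℝ) (hT : 0 ≤ T ∧ T ≤ 1) (ρ : D.Row i) :
    ((sfMcFr D i j sg0 T).ray (D.ray i ρ)).size ≤ D.s ^ (-(sfMcM C0 Ls t c2)) := by
  have hs := hg.1.hs
  obtain ⟨hm, hL, hr, hF, -, -⟩ := sf_mc_units hg ht hi hj
  obtain ⟨hal, hbe, hK⟩ := sf_sg_sg_bd hg hj ht c2 hc2 sg0 hsz ρ' hR2 T hT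
  have hE0 : 0 ≤ sfMcE C0 Ls t c2 := by unfold sfMcE; positivity
  have hpE := sf_mc_p_one hs.1 hs.2 hE0
  have hZ := sf_mc_p_one hs.1 hs.2 (abs_nonneg C0)
  have hz : (D.ray i ρ).size ≤ D.s ^ (-|C0|) := (hg.1.bdd i hi ρ).1.trans (sf_mc_p_mono hs.1 hs.2 (le_abs_self _))
  rw [sf_mc_fr_eq]
  refine (sf_mc_ray_size _ _ _ _ _ _ _ _ _ _ _ hT hm hL hr hF (by linarith) hal hbe hK hZ hz).trans ?_
  have e : 10 * (3 * D.s ^ (-(sfMcE C0 Ls t c2))) * (D.s ^ (-|C0|)) ^ 2 = 30 * D.s ^ (-(sfMcE C0 Ls t c2 + 2 * |C0|)) := by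
    have e1 : D.s ^ (-(sfMcE C0 Ls t c2 + 2 * |C0|)) = D.s ^ (-(sfMcE C0 Ls t c2)) * (D.s ^ (-|C0|) * D.s ^ (-|C0|)) := by
      rw [sf_mc_p_mul hs.1, sf_mc_p_mul hs.1]; congr 1; ring
    rw [e1]; ring
  rw [e]
  refine (sf_mc_fin hs.1 hs.2 h30 30 _ _ (le_refl _)).trans (sf_mc_p_mono hs.1 hs.2 ?_)
  unfold sfMcM
  linarith

/-- **(fr_lab)**, one row -/
theorem sf_sg_lab1 {D : SfDoc} {π : SfPar} {Ls C0 t i j : ℝ} (hg : D.Good π Ls C0 t) (hi : i ∈ D.G) (hj : j ∈ D.G) (ht : 0 < t) (c2 : ℝ) (hc2 : 0 ≤ c2)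
    (h30 : D.s ≤ 1 / 30) (sg0 : SfTest) (hsz : sg0.size ≤ D.s ^ (-(1 / t))) (ρ' : D.Row j)
    (hR2 : sfR2 (D.lab j ρ') sg0 (D.len j) ≤ D.s ^ (-(c2 + 1))) (T : ℝ) (hT : 0 ≤ T ∧ T ≤ 1) :
    ((sfMcFr D i j sg0 T).tst (D.lab j ρ')).size ≤ D.s ^ (-(sfMcM C0 Ls t c2)) := by
  have hs := hg.1.hs
  obtain ⟨hm, hL, hr, hF, hLm, hR⟩ := sf_mc_units hg ht hi hj
  obtain ⟨hal, hbe, hK⟩ := sf_sg_sg_bd hg hj ht c2 hc2 sg0 hsz ρ' hR2 T hT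
  have hE0 : 0 ≤ sfMcE C0 Ls t c2 := by unfold sfMcE; positivity
  have hpE := sf_mc_p_one hs.1 hs.2 hE0
  have hZ := sf_mc_p_one hs.1 hs.2 (abs_nonneg C0)
  have hz : (D.lab j ρ').size ≤ D.s ^ (-|C0|) := (hg.1.bdd j hj ρ').2.trans (sf_mc_p_mono hs.1 hs.2 (le_abs_self _))
  have hown := hg.1.own j hj ρ'
  have hlen := sf_mc_len_pos D π C0 t hg.1 j hj
  have hQT : 0 ≤ (D.lab j ρ').T ∧ (D.lab j ρ').T ≤ 1 := by
    have h6 : 0 ≤ (D.lab j ρ').T := hown.2.2.2.1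
    have h7 : (D.lab j ρ').T + D.len j ≤ 1 := hown.2.2.2.2
    exact ⟨h6, by linarith⟩
  rw [sf_mc_fr_eq]
  refine (sf_mc_tst_size _ _ _ _ _ _ _ _ _ _ 1 _ _ hT hQT hm hL hr hF hLm (sf_mc_p_one hs.1 hs.2 ht.le) hR (le_refl _) (by linarith)
    hal hbe hK hZ hz).trans ?_
  have hZE : D.s ^ (-|C0|) ≤ D.s ^ (-(sfMcE C0 Ls t c2)) := sf_mc_p_mono hs.1 hs.2 (by
    unfold sfMcE
    have : 0 ≤ 1 / t := by positivity
    have : 0 ≤ |Ls| := abs_nonneg _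
    linarith)
  have hpt : 0 < D.s ^ (-t) := Real.rpow_pos_of_pos hs.1 _
  have hnum : (D.s ^ (-|C0|) + 2 * (3 * D.s ^ (-(sfMcE C0 Ls t c2)))) * 1 ^ 2 * D.s ^ (-t) ≤ 7 * D.s ^ (-(sfMcE C0 Ls t c2 + t)) := by
    rw [← sf_mc_p_mul hs.1, one_pow, mul_one]
    have h9 : D.s ^ (-|C0|) + 2 * (3 * D.s ^ (-(sfMcE C0 Ls t c2))) ≤ 7 * D.s ^ (-(sfMcE C0 Ls t c2)) := by linarith
    calc _ ≤ 7 * D.s ^ (-(sfMcE C0 Ls t c2)) * D.s ^ (-t) := mul_le_mul_of_nonneg_right h9 hpt.le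
      _ = _ := by ring
  have hm3 : 0 < (D.s ^ (1 + (|Ls| + t))) ^ 3 := pow_pos hm.1 3
  refine (div_le_div_of_nonneg_right hnum hm3.le).trans ?_
  refine (sf_mc_fin hs.1 hs.2 h30 7 _ _ (by norm_num)).trans (sf_mc_p_mono hs.1 hs.2 ?_)
  unfold sfMcM
  linarith [abs_nonneg C0]

/-- the starting times lie in `[0,1]` -/
theorem sf_sg_time_mem (D : SfDoc) (π : SfPar) (C0 t : ℝ) (h : D.Core π C0 t) (i : ℝ) (hi : i ∈ D.G) (ρ : D.Row i) : 0 ≤ D.T i ρ ∧ D.T i ρ ≤ 1 := by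
  have ho := h.own i hi ρ
  have hl := sf_mc_len_pos D π C0 t h i hi
  exact ⟨ho.2.2.2.1, by linarith [ho.2.2.2.2]⟩

/-- **(HYP)** a violation of `Spg` is a partition for group extraction -/
theorem sf_sg_hyp {D : SfDoc} {π π' : SfPar} {Ls C0 τ κ0 t i j : ℝ} {ι : Type} [Finite ι] {Sb : ι → D.Row i → Prop} {sg : ι → SfTest}
    {U : D.Row j → Prop} {S : D.Row i → Prop} (hg : D.Good π Ls C0 t) (hB : SfSgBad D π' τ κ0 t i j ι Sb sg U S) (ht : 0 < t) (hτ : 0 < τ)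
    (hκ : 0 < κ0 ∧ κ0 ≤ 1) (hc2 : 0 ≤ π'.c2) (h30 : D.s ≤ 1 / 30) (a C1 : ℝ) (ha : κ0 ≤ a) (hC1 : sfMcM C0 Ls t π'.c2 ≤ C1 * (j - i)) :
    SfCls.GpHyp D i j (SfSgBin D i ι) (sfSgSb D i j Sb U) (sfSgU D i S) (sfSgU D j U) (fun b => sfMcFr D i j (sg b.1) b.2.1) a t C1 where
  gi := hB.hi
  gj := hB.hj
  u_dep := fun v hv => by
    obtain ⟨ρ', rfl, -⟩ := hv
    rfl
  sb_dep := fun b u hu => by
    obtain ⟨ρ, ρ', rfl, -⟩ := hu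
    rfl
  sb_disj := sf_sg_sb_disj hB
  sb_time := fun b u hu => by
    obtain ⟨ρ, ρ', rfl, -, h2, -, -⟩ := hu
    exact h2
  own := sf_sg_own hB
  mass := sf_sg_mass hg hB a ha
  lb_ovl := sf_sg_lb_ovl hg hB a ha
  fr := fun _ => ⟨rfl, rfl, rfl⟩
  fr_ray := fun b u hu => by
    obtain ⟨ρ, ρ', rfl, h1, h2, h3, h4⟩ := hu
    have hT : 0 ≤ b.2.1 ∧ b.2.1 ≤ 1 := by
      rw [← h2]; exact sf_sg_time_mem D π C0 t hg.1 i hB.hi ρ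
    exact (sf_sg_ray1 hg hB.hi hB.hj ht π'.c2 hc2 h30 (sg b.1) (hB.size b.1) ρ' (sf_sg_R2_le hg hB hτ hκ hc2 b.1 ρ ρ' h1 h3 h4) b.2.1 hT ρ).trans
      (sf_mc_p_mono hg.1.hs.1 hg.1.hs.2 hC1)
  fr_lab := fun b lam hr => by
    obtain ⟨u, v, hu, hv, hc, rfl⟩ := hr
    obtain ⟨ρ, ρ', rfl, rfl, h1, h2, h3, h4⟩ := sf_sg_pair b u v hu hv hc
    have hT : 0 ≤ b.2.1 ∧ b.2.1 ≤ 1 := by
      rw [← h2]; exact sf_sg_time_mem D π C0 t hg.1 i hB.hi ρ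
    exact (sf_sg_lab1 hg hB.hi hB.hj ht π'.c2 hc2 h30 (sg b.1) (hB.size b.1) ρ' (sf_sg_R2_le hg hB hτ hκ hc2 b.1 ρ ρ' h1 h3 h4) b.2.1 hT).trans
      (sf_mc_p_mono hg.1.hs.1 hg.1.hs.2 hC1)

/-- **(OUT)** the terminal costs of the extracted piece -/
theorem sf_sg_out {D : SfDoc} {π π' : SfPar} {Ls C0 τ κ0 t i j : ℝ} {ι : Type} {Sb : ι → D.Row i → Prop} {sg : ι → SfTest}
    {U : D.Row j → Prop} {S : D.Row i → Prop} (hg : D.Good π Ls C0 t) (hB : SfSgBad D π' τ κ0 t i j ι Sb sg U S) (D' : SfDoc) (h1 : (1 : ℝ) ∈ D'.G)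
    (Gk : Finset ℝ) (t' : ℝ) (b : SfSgBin D i ι) (e : D'.Rw → D.Rw) (hsub : D'.Sub D i j (sfMcFr D i j (sg b.1) b.2.1) Gk t' e)
    (hend : ∀ u : D'.Rw, u.1 = 1 → sfSgU D j U (e u) ∧ SfCls.GpRch D (sfSgSb D i j Sb U) (sfSgU D j U) b (D.lab (e u).1 (e u).2)) (ρ : D'.Row 1) :
    ∃ (ρ0 : D.Row i) (ρ' : D.Row j), Sb b.1 ρ0 ∧ D.Conn i j ρ0 ρ' ∧ U ρ' ∧
      sfR2 (D'.lab 1 ρ) sfZero D'.s = sfR2 (D.lab j ρ') (sg b.1) (D.len j) ∧ sfR1 (D'.lab 1 ρ) sfZero = sfR1 (D.lab j ρ') (sg b.1) := by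
  have hs' : D'.s = D.len j / D.len i := hsub.hs
  obtain ⟨⟨ρ1, he, -⟩, u0, v0, hu0, hv0, hc0, hl0⟩ := hend ⟨1, ρ⟩ rfl
  obtain ⟨ρ0, ρ', rfl, rfl, a1, -, a3, a4⟩ := sf_sg_pair b u0 v0 hu0 hv0 hc0
  refine ⟨ρ0, ρ', a1, a3, a4, ?_⟩
  rw [he] at hl0
  simp only at hl0
  have hwj := hg.1.hw.2.2 j hB.hj
  have hli := sf_mc_len_pos D π C0 t hg.1 i hB.hi
  have hφ : (sfMcFr D i j (sg b.1) b.2.1).Pos := ⟨hli, hwj.1, hwj.2⟩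
  have hown := hg.1.own j hB.hj ρ'
  have eij : i + 1 * (j - i) = j := by ring
  have hr1 : D'.r 1 = 1 := by
    rw [hsub.hr 1 h1, eij]; exact div_self hwj.1.ne'
  have hf1 : D'.f 1 = 1 := by
    rw [(hsub.hf 1 h1).2.2 one_pos, eij]; exact div_self hwj.2.ne'
  have hlab := hsub.hlab ⟨1, ρ⟩ h1
  rw [he] at hlab
  simp only at hlab
  rw [← hl0] at hlab
  have hlab' : D'.lab 1 ρ = (sfMcFr D i j (sg b.1) b.2.1).tst (D.lab j ρ') := by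
    have e1 : ((sfMcFr D i j (sg b.1) b.2.1).tst (D.lab j ρ')).r = 1 := by
      show (D.lab j ρ').r / D.r j = 1
      rw [hown.1]; exact div_self hwj.1.ne'
    have e2 : ((sfMcFr D i j (sg b.1) b.2.1).tst (D.lab j ρ')).f = 1 := by
      show (D.lab j ρ').f / D.f j = 1
      rw [hown.2.1]; exact div_self hwj.2.ne'
    refine hlab.trans ?_
    exact sf_mc_with _ _ _ (e1.trans hr1.symm) (e2.trans hf1.symm)
  rw [hlab', hs']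
  constructor
  · have := sf_frame_R2 (sfMcFr D i j (sg b.1) b.2.1) hφ (D.lab j ρ') (D.len j)
    exact this.trans (sf_mc_R2 _ _ _ _)
  · have := sf_frame_R1 (sfMcFr D i j (sg b.1) b.2.1) hφ (D.lab j ρ')
    exact this.trans (sf_mc_R1 _ _ _)

end Claimed.Agent.R256
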