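import Claimed.Agent.R256.Soft.AMinMain
import Claimed.Agent.R256.Soft.ASpgHyp

/-!
# Row 256 (S0496), unit SOFT, A9 SPG, file 3: RARITY TRANSPORT MODULO COST-IMPROVED GROUPS IS RIGID      (helper149; clone of `Soft/AMinMain.lean` of helper286; prefix `sf_sg_`)

`sf_sg_spg`: `Spg` is RIGID on the class, `κ0` is package free.      ENTRY: `K.Cal π Ls` + `K.CalGp π Ls` (hypothesis `hgp`; it becomes the field `Cal.gp`).
A violation of `Spg` on `[i,j]` is a partition for group extraction (`sf_sg_hyp`); the extracted piece is a good configuration at the scale `len j / len i` whose terminal costs are the costs after subtraction of the shear of the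
group of a row of `U` reachable from the group (`sf_sg_out`), i.e. improved by a fixed power (`sf_mc_scale`): against `sf_min2`, resp. `sf_min1`.
Order of the constants: `τ` → accuracy `a2` of the minimality → accuracy `a` of GP (`t' = a2`) → `κ0` → `C0, t` → `C1, h, t1 = t` → `S ↦ S'` → scale of the minimality at `S'` → scale of GP.
The configuration is `Gd` at the accuracy `t / 32`.
-/

set_option autoImplicit false

namespace Claimed.Agent.R256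

open Claimed.Agent.R255

/-- **(GEN)** the pattern part: `Imp` = "the terminal costs are improved" -/
theorem sf_sg_gen (K : SfCls) (π : SfPar) (Ls : ℝ) (hK : K.Cal π Ls) (hgp : K.CalGp π Ls) (π' : SfPar) (hc2 : 0 ≤ π'.c2) (τ : ℝ) (hτ : 0 < τ) (a2 κ1 : ℝ)
    (ha2 : 0 < a2) (hκ1 : 0 < κ1 ∧ κ1 ≤ 1) (Imp : SfDoc → Prop)
    (hmin : ∀ C0 : ℝ, SfAll K.ob K.sc (fun cf => ¬ (K.Gd π Ls C0 a2 cf ∧ Imp (K.doc cf))))
    (himp : ∀ (κ0 C0 t : ℝ) (D D' : SfDoc) (i j : ℝ) (ι : Type) (Sb : ι → D.Row i → Prop) (sg : ι → SfTest) (U : D.Row j → Prop) (S : D.Row i → Prop),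
      0 < κ0 → κ0 ≤ κ1 → D.Good π Ls C0 t → SfSgBad D π' τ κ0 t i j ι Sb sg U S → D'.s = D.len j / D.len i →
      (∀ ρ : D'.Row 1, ∃ (b : ι) (ρ0 : D.Row i) (ρ' : D.Row j), Sb b ρ0 ∧ D.Conn i j ρ0 ρ' ∧ U ρ' ∧
        sfR2 (D'.lab 1 ρ) sfZero D'.s = sfR2 (D.lab j ρ') (sg b) (D.len j) ∧ sfR1 (D'.lab 1 ρ) sfZero = sfR1 (D.lab j ρ') (sg b)) → Imp D') :
    ∃ κ0 : ℝ, 0 < κ0 ∧ ∀ C0 t : ℝ, 0 < t → SfAll K.ob K.sc (fun c => K.Gd π Ls C0 (t / 32) c → (K.doc c).Spg π' τ κ0 t) := by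
  obtain ⟨cF, hge⟩ := hgp
  obtain ⟨a, ha, hGE⟩ := hge a2 ha2
  have hκ0 : 0 < min a κ1 := lt_min ha hκ1.1
  refine ⟨min a κ1, hκ0, fun C0 t ht S => ?_⟩
  obtain ⟨S', hS'⟩ := hGE (sfMcM C0 Ls t π'.c2 * (min a κ1) / t) C0 (t / min a κ1) t (div_pos ht hκ0) ht S
  obtain ⟨s1, hs1, hmin'⟩ := hmin (cF (sfMcM C0 Ls t π'.c2 * (min a κ1) / t)) S'
  obtain ⟨σ, hσ, H⟩ := hS' s1 hs1
  refine ⟨min σ (1 / 30), lt_min hσ (by norm_num), fun c hob hsc hgd0 => sf_sg_of_not_bad _ _ _ _ _ (fun i j ι _ Sb sg U Sx hB => ?_)⟩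
  have hgd : K.Gd π Ls C0 t c := sf_gd_mono K π Ls hK.md_mono C0 (t / 32) t (by positivity) (by linarith) c hgd0
  have h30 : (K.doc c).s ≤ 1 / 30 := (hK.sc_le c).trans (hsc.le.trans (min_le_right _ _))
  have hd : 0 < j - i := by linarith [hB.hij]
  have hji : t / min a κ1 ≤ j - i := by
    rw [div_le_iff₀ hκ0]; linarith [hB.ht]
  have hta : t ≤ a * (j - i) := hB.ht.trans (mul_le_mul_of_nonneg_right (min_le_left _ _) hd.le)
  have hM0 : 0 ≤ sfMcM C0 Ls t π'.c2 := by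
    unfold sfMcM sfMcE; positivity
  have hC1 : sfMcM C0 Ls t π'.c2 ≤ sfMcM C0 Ls t π'.c2 * (min a κ1) / t * (j - i) := by
    have h1 : 1 ≤ min a κ1 / t * (j - i) := by
      rw [div_mul_eq_mul_div, le_div_iff₀ ht]; linarith [hB.ht]
    calc sfMcM C0 Ls t π'.c2 = sfMcM C0 Ls t π'.c2 * 1 := (mul_one _).symm
      _ ≤ sfMcM C0 Ls t π'.c2 * (min a κ1 / t * (j - i)) := mul_le_mul_of_nonneg_left h1 hM0
      _ = _ := by ring
  obtain ⟨c', b, e, hob', hsc', hgd'', hsub, hend⟩ := H c hob (lt_of_lt_of_le hsc (min_le_left _ _)) i j hji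
    (sf_gd_mono K π Ls hK.md_mono C0 t _ ht hta c hgd) hgd0
    (SfSgBin (K.doc c) i ι) (sfSgSb (K.doc c) i j Sb U) (sfSgU (K.doc c) i Sx) (sfSgU (K.doc c) j U) (fun b => sfMcFr (K.doc c) i j (sg b.1) b.2.1)
    (sf_sg_hyp hgd.1 hB ht hτ ⟨hκ0, (min_le_right _ _).trans hκ1.2⟩ hc2 h30 a _ (min_le_left _ _) hC1)
  refine hmin' c' hob' hsc' ⟨hgd'', ?_⟩
  refine himp (min a κ1) C0 t (K.doc c) (K.doc c') i j ι Sb sg U Sx hκ0 (min_le_right _ _) hgd.1 hB hsub.hs (fun ρ => ?_)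
  obtain ⟨ρ0, ρ', b1, b2, b3, e2, e1⟩ := sf_sg_out hgd.1 hB (K.doc c') hgd''.1.1.gate.1 {j} a2 b e hsub hend ρ
  exact ⟨b.1, ρ0, ρ', b1, b2, b3, e2, e1⟩

/-- **(A9 SPG)** rarity transport modulo cost-improved groups is RIGID; `κ0` is package free -/
theorem sf_sg_spg (K : SfCls) (π : SfPar) (Ls : ℝ) (hK : K.Cal π Ls) (hgp : K.CalGp π Ls) (π' : SfPar) (h2 : π'.c2 = K.c2 π Ls)
    (h1 : π'.c2 = 0 → π'.c1 = K.c1 π Ls) (hpos : 0 < K.c2 π Ls ∨ (K.c2 π Ls = 0 ∧ 0 < K.c1 π Ls)) (τ : ℝ) (hτ : 0 < τ) :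
    ∃ κ0 : ℝ, 0 < κ0 ∧ ∀ C0 t : ℝ, 0 < t → SfAll K.ob K.sc (fun c => K.Gd π Ls C0 (t / 32) c → (K.doc c).Spg π' τ κ0 t) := by
  rcases hpos with hc | ⟨hc0, hc⟩
  · -- positive curvature cost
    obtain ⟨c2, hc2⟩ : ∃ c2, c2 = K.c2 π Ls := ⟨_, rfl⟩
    rw [← hc2] at hc h2
    have hτ1 : 0 < min τ c2 := lt_min hτ hc
    obtain ⟨a2, ha2, hmin⟩ := sf_min2 K π Ls (min τ c2 / 2) (half_pos hτ1) (by rw [← hc2]; linarith [min_le_right τ c2])
    rw [← hc2] at hmin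
    have hκ1 : 0 < min τ c2 / (8 * (c2 + 1)) ∧ min τ c2 / (8 * (c2 + 1)) ≤ 1 := by
      have h8 : 0 < 8 * (c2 + 1) := by linarith
      refine ⟨div_pos hτ1 h8, ?_⟩
      rw [div_le_one h8]; linarith [min_le_right τ c2]
    refine sf_sg_gen K π Ls hK hgp π' (by rw [h2]; exact hc.le) τ hτ a2 _ ha2 hκ1
      (fun D' => ∀ ρ, sfR2 (D'.lab 1 ρ) sfZero D'.s ≤ D'.s ^ (-(c2 - min τ c2 / 2))) hmin ?_
    intro κ0 C0 t D D' i j ι Sb sg U S hκ0 hκle hg hB hs' hrow ρ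
    obtain ⟨b, ρ0, ρ', b1, b2, hU, e2, -⟩ := hrow ρ
    obtain ⟨n1, n2⟩ := sf_mc_num c2 (min τ c2) κ0 hτ1 (min_le_right _ _) hκ0 hκle
    rw [e2, hs']
    have hd : 0 < j - i := by linarith [hB.hij]
    refine (hB.c2 (by rw [h2]; exact hc) b ρ0 ρ' b1 b2 hU).trans (le_trans ?_ (sf_mc_scale hg hB.hi hB.hj hB.hij hB.ht _ _ n1 n2))
    refine sf_mc_p_mono hg.1.hs.1 hg.1.hs.2 (mul_le_mul_of_nonneg_right ?_ hd.le)
    rw [h2]; linarith [min_le_left τ c2]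
  · -- zero curvature cost, positive linear cost
    have h20 : π'.c2 = 0 := h2.trans hc0
    have h1' := h1 h20
    obtain ⟨c1, hc1⟩ : ∃ c1, c1 = K.c1 π Ls := ⟨_, rfl⟩
    rw [← hc1] at hc h1'
    have hτ1 : 0 < min τ c1 := lt_min hτ hc
    obtain ⟨a1, ha1, hmin⟩ := sf_min1 K π Ls (min τ c1 / 2) (half_pos hτ1) (by rw [← hc1]; linarith [min_le_right τ c1])
    rw [← hc1] at hmin
    have h8 : 0 < 8 * (c1 + 1) := by linarith
    have hκ1 : 0 < min (min (1 / 4) (a1 / 2)) (min τ c1 / (8 * (c1 + 1))) ∧ min (min (1 / 4) (a1 / 2)) (min τ c1 / (8 * (c1 + 1))) ≤ 1 := by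
      refine ⟨lt_min (lt_min (by norm_num) (half_pos ha1)) (div_pos hτ1 h8), ?_⟩
      exact (min_le_left _ _).trans ((min_le_left _ _).trans (by norm_num))
    refine sf_sg_gen K π Ls hK hgp π' (by rw [h20]) τ hτ a1 _ ha1 hκ1
      (fun D' => ∀ ρ, sfR2 (D'.lab 1 ρ) sfZero D'.s ≤ D'.s ^ (-a1) ∧ sfR1 (D'.lab 1 ρ) sfZero ≤ D'.s ^ (-(c1 - min τ c1 / 2))) hmin ?_
    intro κ0 C0 t D D' i j ι Sb sg U S hκ0 hκle hg hB hs' hrow ρ
    obtain ⟨b, ρ0, ρ', b1, b2, hU, e2, e1⟩ := hrow ρ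
    have k1 : κ0 ≤ 1 / 4 := hκle.trans ((min_le_left _ _).trans (min_le_left _ _))
    have k2 : κ0 ≤ a1 / 2 := hκle.trans ((min_le_left _ _).trans (min_le_right _ _))
    obtain ⟨n1, n2⟩ := sf_mc_num c1 (min τ c1) κ0 hτ1 (min_le_right _ _) hκ0 (hκle.trans (min_le_right _ _))
    have hd : 0 < j - i := by linarith [hB.hij]
    have hc := hB.c1 h20 b ρ0 ρ' b1 b2 hU
    rw [e2, e1, hs']
    constructor
    · refine hc.1.trans (sf_mc_scale hg hB.hi hB.hj hB.hij hB.ht κ0 a1 ha1.le ?_)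
      nlinarith
    · refine hc.2.trans (le_trans ?_ (sf_mc_scale hg hB.hi hB.hj hB.hij hB.ht _ _ n1 n2))
      refine sf_mc_p_mono hg.1.hs.1 hg.1.hs.2 (mul_le_mul_of_nonneg_right ?_ hd.le)
      rw [h1']; linarith [min_le_left τ c1]

end Claimed.Agent.R256
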