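import Claimed.Agent.R256.Soft.AZnNear

/-!
# Row 256 (S0496), unit SOFT, A10 ZN: SHEARS ALONG CHAINS      (architect helper286)      leaf L-256-SOFT-ZN-SHEAR      PAPER FREE, ONE `SfDoc`, powers of `s`
Notation: `E = |3 Ls + 1|`, `A = s^-(sfZnA Ls) = s^-(E + |Ls| + 3)`, `ε = s^(|C0|+4) ≤ s^4`.   Constants `≤ 1000` are absorbed by `s^-1` (`H.small`).
Tools: `sf_mc_anti`, `sf_mc_p_mono`, `sf_mc_p_mul`, `sf_mc_p_one`, `sf_mc_width`, `sf_mc_len_pos`, `sf_zn_near`, `sf_zn_xi`.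
-/

set_option autoImplicit false

namespace Claimed.Agent.R256

open Claimed.Agent.R255

variable {D : SfDoc} {π : SfPar} {Ls C0 t : ℝ}

/-- constants `≤ 1000` are absorbed by `s^-1` -/
theorem sf_zn_sh_abs {s : ℝ} (h0 : 0 < s) (h : s ≤ 1 / 1000) (c x : ℝ) (hc : c ≤ 1000) : c * s ^ (-x) ≤ s ^ (-(x + 1)) := by
  have h1 : (1000 : ℝ) ≤ s ^ (-(1 : ℝ)) := by
    rw [Real.rpow_neg h0.le, Real.rpow_one, le_inv_comm₀ (by norm_num) h0]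
    linarith
  have hp : 0 < s ^ (-x) := Real.rpow_pos_of_pos h0 _
  calc c * s ^ (-x) ≤ s ^ (-(1 : ℝ)) * s ^ (-x) := mul_le_mul_of_nonneg_right (hc.trans h1) hp.le
    _ = s ^ (-(x + 1)) := by rw [sf_mc_p_mul h0]; congr 1; ring

/-- widths and lengths      (`sf_mc_width`, `Core.hlen`, `Core.gate`, `Core.own`) -/
theorem sf_zn_wid (H : SfZn D π Ls C0 t) (k : ℝ) (hk : k ∈ D.G) :
    (0 < D.r k ∧ D.r k ≤ 1) ∧ (0 < D.f k ∧ D.f k ≤ D.s ^ (-(sfZnA Ls))) ∧ (0 < D.len k ∧ D.len k ≤ D.s ^ (-t)) ∧ D.s ^ (1 + t) ≤ D.len k ∧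
      D.s ^ t ≤ D.len 0 ∧ ∀ ρ : D.Row k, 0 ≤ (D.lab k ρ).T ∧ (D.lab k ρ).T ≤ 1 := by
  have hs := H.good.1.hs
  have hw := sf_mc_width D π Ls C0 t H.ht.1 H.good k hk
  have hpos := H.good.1.hw.2.2 k hk
  have hlen := H.good.1.hlen.2 k hk
  have hk01 := H.good.1.gate.2 k hk
  have hl0 := sf_mc_len_pos D π C0 t H.good.1 k hk
  have ht := H.ht
  refine ⟨⟨hpos.1, hw.2.1⟩, ⟨hpos.2, hw.2.2.2.trans (sf_mc_p_mono hs.1 hs.2 ?_)⟩, ⟨hl0, hlen.2.trans (sf_mc_anti hs.1 hs.2 (by linarith))⟩,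
    (sf_mc_anti hs.1 hs.2 (by linarith)).trans hlen.1, ?_, fun ρ => ?_⟩
  · unfold sfZnA
    linarith [abs_nonneg (3 * Ls + 1)]
  · have := (H.good.1.hlen.2 0 H.g0).1
    rwa [zero_add] at this
  · have hown := H.good.1.own k hk ρ
    have h6 : 0 ≤ (D.lab k ρ).T := hown.2.2.2.1
    have h7 : (D.lab k ρ).T + D.len k ≤ 1 := hown.2.2.2.2
    exact ⟨h6, by linarith⟩

/-- the end label at the ray of a row on a chain -/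
theorem sf_zn_sh_end (H : SfZn D π Ls C0 t) (u : D.Rw) (hu : u.1 ∈ D.G) (v : D.Row 1) (h : D.ZnCh u v) :
    |(D.lab 1 v).be| ≤ D.s ^ (-t) ∧ |(D.lab 1 v).K| ≤ D.s ^ (-(1 + t)) ∧ |(D.lab 1 v).Pd (D.ray u.1 u.2)| ≤ 11 * D.s ^ (-t) := by
  have hs := H.good.1.hs
  have ht := H.ht
  have h1G := H.good.1.gate.1
  obtain ⟨hc1, hc2⟩ := H.cost v
  have hown := H.good.1.own 1 h1G v
  have hr1 : (D.lab 1 v).r = 1 := hown.1.trans H.good.1.hw.1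
  have hl1 : D.len 1 = D.s := H.good.1.hlen.1
  obtain ⟨m1, m2, -, -, -⟩ := hown.2.2.1
  rw [hr1] at m1
  rw [hr1, hl1, mul_one] at m2
  have hT0 : 0 ≤ (D.lab 1 v).T := hown.2.2.2.1
  have hT1 : (D.lab 1 v).T ≤ 1 := by
    have h7 : (D.lab 1 v).T + D.len 1 ≤ 1 := hown.2.2.2.2
    rw [hl1] at h7
    linarith [hs.1]
  obtain ⟨n1, n2, -, -, -⟩ := sf_zn_near H u hu v h
  have hε : D.s ^ (|C0| + 4) ≤ D.s := by
    have := sf_mc_anti hs.1 hs.2 (show (1 : ℝ) ≤ |C0| + 4 by linarith [abs_nonneg C0])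
    rwa [Real.rpow_one] at this
  have hp : 0 < D.s ^ (-t) := Real.rpow_pos_of_pos hs.1 _
  have hbe0 : 0 ≤ |(D.lab 1 v).be| := abs_nonneg _
  have hK0 : 0 ≤ |(D.lab 1 v).K| := abs_nonneg _
  have hsK0 : 0 ≤ D.s * |(D.lab 1 v).K| := mul_nonneg hs.1.le hK0
  have hbe : |(D.lab 1 v).be| ≤ D.s ^ (-t) := by linarith
  have hsK : D.s * |(D.lab 1 v).K| ≤ D.s ^ (-t) := by linarith
  have hK : |(D.lab 1 v).K| ≤ D.s ^ (-(1 + t)) := by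
    have e : D.s ^ (-(1 + t)) = D.s ^ (-t) / D.s := by
      rw [div_eq_mul_inv, ← Real.rpow_neg_one, ← Real.rpow_add hs.1]; congr 1; ring
    rw [e, le_div_iff₀ hs.1]
    linarith
  refine ⟨hbe, hK, ?_⟩
  have e : (D.lab 1 v).Pd (D.ray u.1 u.2) = (D.lab 1 v).Pc + 2 * ((D.lab 1 v).be * ((D.ray u.1 u.2).X - (D.lab 1 v).x))
      + (-(2 * ((D.lab 1 v).K * ((D.ray u.1 u.2).Bt (D.lab 1 v).T - (D.lab 1 v).b)))) := by
    simp only [SfTest.Pd, SfTest.Pc]; ring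
  have hX : |(D.ray u.1 u.2).X - (D.lab 1 v).x| ≤ 2 := by
    have e1 : (D.ray u.1 u.2).X - (D.lab 1 v).x = ((D.ray u.1 u.2).X - (D.ray 1 v).X) + ((D.ray 1 v).X - (D.lab 1 v).x) := by ring
    rw [e1]
    have := abs_add_le ((D.ray u.1 u.2).X - (D.ray 1 v).X) ((D.ray 1 v).X - (D.lab 1 v).x)
    linarith [hs.2]
  have hB : |(D.ray u.1 u.2).Bt (D.lab 1 v).T - (D.lab 1 v).b| ≤ 3 * D.s := by
    have e1 : (D.ray u.1 u.2).Bt (D.lab 1 v).T - (D.lab 1 v).b = ((D.ray u.1 u.2).B - (D.ray 1 v).B)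
        + (D.lab 1 v).T * ((D.ray u.1 u.2).X - (D.ray 1 v).X) + ((D.ray 1 v).Bt (D.lab 1 v).T - (D.lab 1 v).b) := by
      simp only [SfRay.Bt]; ring
    rw [e1]
    have a1 := abs_add_le (((D.ray u.1 u.2).B - (D.ray 1 v).B) + (D.lab 1 v).T * ((D.ray u.1 u.2).X - (D.ray 1 v).X))
      ((D.ray 1 v).Bt (D.lab 1 v).T - (D.lab 1 v).b)
    have a2 := abs_add_le ((D.ray u.1 u.2).B - (D.ray 1 v).B) ((D.lab 1 v).T * ((D.ray u.1 u.2).X - (D.ray 1 v).X))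
    have hTa : |(D.lab 1 v).T| ≤ 1 := by rw [abs_of_nonneg hT0]; exact hT1
    have a3 := sf_mc_mul_le hTa n1
    linarith
  rw [e]
  have b1 := abs_add_le ((D.lab 1 v).Pc + 2 * ((D.lab 1 v).be * ((D.ray u.1 u.2).X - (D.lab 1 v).x)))
    (-(2 * ((D.lab 1 v).K * ((D.ray u.1 u.2).Bt (D.lab 1 v).T - (D.lab 1 v).b))))
  have b2 := abs_add_le (D.lab 1 v).Pc (2 * ((D.lab 1 v).be * ((D.ray u.1 u.2).X - (D.lab 1 v).x)))
  rw [abs_neg, abs_mul, abs_of_pos (by norm_num : (0 : ℝ) < 2)] at b1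
  rw [abs_mul, abs_of_pos (by norm_num : (0 : ℝ) < 2)] at b2
  have b3 := sf_mc_mul_le hbe hX
  have b4 : |(D.lab 1 v).K * ((D.ray u.1 u.2).Bt (D.lab 1 v).T - (D.lab 1 v).b)| ≤ 3 * D.s ^ (-t) := by
    rw [abs_mul]
    calc |(D.lab 1 v).K| * |(D.ray u.1 u.2).Bt (D.lab 1 v).T - (D.lab 1 v).b| ≤ |(D.lab 1 v).K| * (3 * D.s) :=
          mul_le_mul_of_nonneg_left hB hK0
      _ = 3 * (D.s * |(D.lab 1 v).K|) := by ring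
      _ ≤ 3 * D.s ^ (-t) := by linarith
  linarith

/-- **(SHEAR)** the shear of a label on a chain to an end row of zero cost.
PLAN.  End row `Q1 = lab 1 v` (`r = f = 1`): `H.cost v`:  `|be1| ≤ s^-t`, `|K1| ≤ s^-(1+t)`, `|Pc1| ≤ s^-t`.
`Q1.Pd z_u = Q1.Pc + 2 be1 (X_u - x1) - 2 K1 (Bt_u(T1) - b1)`;   `|X_u - x1| ≤ ε + 1`, `|Bt_u(T1) - b1| ≤ 2ε + s`  (`sf_zn_near`, `Core.own 1`, `len 1 = s`):   `|Q1.Pd z_u| ≤ 6 s^-t`.      This settles `u = ⟨1, v⟩`.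
`k = u.1 < 1`: `Mat.mm k 1` (`f 1 / r 1 ^ 2 = 1`, `(3 Ls + 1)(1 - k) + t ≤ E + t`):   `|be_k| ≤ s^-(E+t) + |be1| + |K1| ≤ 3 s^-(E+1+t)`   (`beAt`, `|T_k - T_1| ≤ 1`);
`|K_k| ≤ s^-(E+t) / len k + |K1| ≤ 2 s^-(E+1+2t)`   (`len k ≥ s^(1+t)`);      `|Q_k.Pd z_u| ≤ s^-(E+t) + 6 s^-t ≤ 7 s^-(E+t)`. -/
theorem sf_zn_shear (H : SfZn D π Ls C0 t) (u : D.Rw) (hu : u.1 ∈ D.G) (v : D.Row 1) (h : D.ZnCh u v) :
    |(D.lab u.1 u.2).be| ≤ D.s ^ (-(sfZnA Ls)) ∧ |(D.lab u.1 u.2).K| ≤ D.s ^ (-(sfZnA Ls)) ∧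
      |(D.lab u.1 u.2).Pd (D.ray u.1 u.2)| ≤ D.s ^ (-(sfZnA Ls)) := by
  have hs := H.good.1.hs
  have ht := H.ht
  have h1G := H.good.1.gate.1
  obtain ⟨e1, e2, e3⟩ := sf_zn_sh_end H u hu v h
  obtain ⟨E, hE⟩ : ∃ E, E = |3 * Ls + 1| := ⟨_, rfl⟩
  have hE0 : 0 ≤ E := by rw [hE]; exact abs_nonneg _
  have hL0 : 0 ≤ |Ls| := abs_nonneg _
  have hA : sfZnA Ls = E + |Ls| + 3 := by rw [hE]; rfl
  rw [hA]
  have e3' : 11 * D.s ^ (-t) ≤ D.s ^ (-(t + 1)) := sf_zn_sh_abs hs.1 H.small 11 t (by norm_num)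
  obtain ⟨k, ρ⟩ := u
  rcases h with h | ⟨hlt, hc⟩
  · cases h
    exact ⟨e1.trans (sf_mc_p_mono hs.1 hs.2 (by linarith)), e2.trans (sf_mc_p_mono hs.1 hs.2 (by linarith)),
      (e3.trans e3').trans (sf_mc_p_mono hs.1 hs.2 (by linarith))⟩
  · simp only at hlt hc hu e3 ⊢
    have hk01 := H.good.1.gate.2 k hu
    obtain ⟨mm1, mm2⟩ := H.good.2.mm k hu 1 h1G hlt ρ v hc
    rw [H.good.1.hw.1, H.good.1.hw.2.1] at mm1 mm2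
    have hU : (1 : ℝ) / 1 ^ 2 * D.s ^ (-((3 * Ls + 1) * (1 - k) + t)) ≤ D.s ^ (-(E + t)) := by
      have e : (1 : ℝ) / 1 ^ 2 = 1 := by norm_num
      rw [e, one_mul]
      refine sf_mc_p_mono hs.1 hs.2 ?_
      have : (3 * Ls + 1) * (1 - k) ≤ E * 1 := by
        calc (3 * Ls + 1) * (1 - k) ≤ E * (1 - k) := mul_le_mul_of_nonneg_right (by rw [hE]; exact le_abs_self _) (by linarith)
          _ ≤ E * 1 := mul_le_mul_of_nonneg_left (by linarith) hE0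
      linarith
    have hU' : (1 : ℝ) / 1 * D.s ^ (-((3 * Ls + 1) * (1 - k) + t)) ≤ D.s ^ (-(E + t)) := by
      have e : (1 : ℝ) / 1 = 1 / 1 ^ 2 := by norm_num
      rw [e]; exact hU
    obtain ⟨-, -, ⟨hl0, -⟩, hl1, -, hTk⟩ := sf_zn_wid H k hu
    obtain ⟨-, -, -, -, -, hT1⟩ := sf_zn_wid H 1 h1G
    have hTk := hTk ρ
    have hT1 := hT1 v
    have hA0 : 0 ≤ |(D.lab k ρ).be - (D.lab 1 v).beAt (D.T k ρ)| := abs_nonneg _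
    have hB0 : 0 ≤ |(D.lab k ρ).K - (D.lab 1 v).K| := abs_nonneg _
    have hAA : |(D.lab k ρ).be - (D.lab 1 v).beAt (D.T k ρ)| ≤ D.s ^ (-(E + t)) := by
      have := mul_nonneg hl0.le hB0
      linarith
    have hBB : |(D.lab k ρ).K - (D.lab 1 v).K| ≤ D.s ^ (-(E + 1 + 2 * t)) := by
      have h3 : D.s ^ (1 + t) * |(D.lab k ρ).K - (D.lab 1 v).K| ≤ D.s ^ (-(E + t)) := by
        have := mul_le_mul_of_nonneg_right hl1 hB0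
        linarith
      have hp : 0 < D.s ^ (1 + t) := Real.rpow_pos_of_pos hs.1 _
      have e : D.s ^ (-(E + 1 + 2 * t)) = D.s ^ (-(E + t)) / D.s ^ (1 + t) := by
        rw [div_eq_mul_inv, ← Real.rpow_neg hs.1.le, ← Real.rpow_add hs.1]; congr 1; ring
      rw [e, le_div_iff₀ hp]
      linarith
    have q1 : D.s ^ (-t) ≤ D.s ^ (-(E + 1 + 2 * t)) := sf_mc_p_mono hs.1 hs.2 (by linarith)
    have q2 : D.s ^ (-(1 + t)) ≤ D.s ^ (-(E + 1 + 2 * t)) := sf_mc_p_mono hs.1 hs.2 (by linarith)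
    have q3 : D.s ^ (-(E + t)) ≤ D.s ^ (-(E + 1 + 2 * t)) := sf_mc_p_mono hs.1 hs.2 (by linarith)
    have q4 : 12 * D.s ^ (-(E + 1 + 2 * t)) ≤ D.s ^ (-(E + |Ls| + 3)) :=
      (sf_zn_sh_abs hs.1 H.small 12 _ (by norm_num)).trans (sf_mc_p_mono hs.1 hs.2 (by linarith))
    have hp : 0 < D.s ^ (-(E + 1 + 2 * t)) := Real.rpow_pos_of_pos hs.1 _
    refine ⟨?_, ?_, ?_⟩
    · have hTT : |D.T k ρ - (D.lab 1 v).T| ≤ 1 := by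
        have : D.T k ρ = (D.lab k ρ).T := rfl
        rw [this, abs_le]; constructor <;> linarith [hTk.1, hTk.2, hT1.1, hT1.2]
      have c1 := sf_mc_mul_le hTT e2
      have e : (D.lab k ρ).be = ((D.lab k ρ).be - (D.lab 1 v).beAt (D.T k ρ)) + (D.lab 1 v).be + (D.T k ρ - (D.lab 1 v).T) * (D.lab 1 v).K := by
        simp only [SfTest.beAt]; ring
      rw [e]
      have t1 := abs_add_le (((D.lab k ρ).be - (D.lab 1 v).beAt (D.T k ρ)) + (D.lab 1 v).be) ((D.T k ρ - (D.lab 1 v).T) * (D.lab 1 v).K)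
      have t2 := abs_add_le ((D.lab k ρ).be - (D.lab 1 v).beAt (D.T k ρ)) (D.lab 1 v).be
      linarith
    · have e : (D.lab k ρ).K = ((D.lab k ρ).K - (D.lab 1 v).K) + (D.lab 1 v).K := by ring
      rw [e]
      have t1 := abs_add_le ((D.lab k ρ).K - (D.lab 1 v).K) (D.lab 1 v).K
      linarith
    · have e : (D.lab k ρ).Pd (D.ray k ρ) = ((D.lab k ρ).Pd (D.ray k ρ) - (D.lab 1 v).Pd (D.ray k ρ)) + (D.lab 1 v).Pd (D.ray k ρ) := by ring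
      rw [e]
      have t1 := abs_add_le ((D.lab k ρ).Pd (D.ray k ρ) - (D.lab 1 v).Pd (D.ray k ρ)) ((D.lab 1 v).Pd (D.ray k ρ))
      linarith

/-- **(AL)** the derivative of the shear at the centre ray of the cell of the end row.
PLAN.  With `ξ = sfZnXi U m z_u`, `Q = lab u`:   `Q.al + 2 Q.be m1 - 2 Q.K (m2 + Q.T m1) = Q.Pd z_u - 2 Q.be ξ.X + 2 Q.K (ξ.B + Q.T ξ.X)`  (`ring` after unfolding),   `|.| ≤ A + 4A + 8A`   (`sf_zn_shear`, `sf_zn_xi`, `0 ≤ Q.T ≤ 1`). -/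
theorem sf_zn_al (H : SfZn D π Ls C0 t) (u : D.Rw) (hu : u.1 ∈ D.G) (v : D.Row 1) (h : D.ZnCh u v) :
    |(D.lab u.1 u.2).al + 2 * (D.lab u.1 u.2).be * ((sfZnChi (sfZnU D Ls) (D.ray 1 v)).1 : ℝ)
        - 2 * (D.lab u.1 u.2).K * (((sfZnChi (sfZnU D Ls) (D.ray 1 v)).2.1 : ℝ) + (D.lab u.1 u.2).T * ((sfZnChi (sfZnU D Ls) (D.ray 1 v)).1 : ℝ))|
      ≤ 13 * D.s ^ (-(sfZnA Ls)) := by
  obtain ⟨s1, s2, s3⟩ := sf_zn_shear H u hu v h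
  obtain ⟨x1, x2, -, -, -⟩ := sf_zn_xi H u hu v h
  obtain ⟨-, -, -, -, -, hT⟩ := sf_zn_wid H u.1 hu
  have hT := hT u.2
  have hTa : |(D.lab u.1 u.2).T| ≤ 1 := by rw [abs_of_nonneg hT.1]; exact hT.2
  obtain ⟨m, hm⟩ : ∃ m, m = sfZnChi (sfZnU D Ls) (D.ray 1 v) := ⟨_, rfl⟩
  rw [← hm] at x1 x2 ⊢
  obtain ⟨Q, hQ⟩ : ∃ Q, Q = D.lab u.1 u.2 := ⟨_, rfl⟩
  obtain ⟨z, hz⟩ : ∃ z, z = D.ray u.1 u.2 := ⟨_, rfl⟩
  rw [← hQ] at s1 s2 s3 hTa ⊢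
  rw [← hz] at s3 x1 x2
  obtain ⟨A, hA⟩ : ∃ A, A = D.s ^ (-(sfZnA Ls)) := ⟨_, rfl⟩
  rw [← hA] at s1 s2 s3 ⊢
  have e : Q.al + 2 * Q.be * (m.1 : ℝ) - 2 * Q.K * ((m.2.1 : ℝ) + Q.T * (m.1 : ℝ))
      = Q.Pd z + (-(2 * (Q.be * (sfZnXi (sfZnU D Ls) m z).X))) + 2 * (Q.K * ((sfZnXi (sfZnU D Ls) m z).B + Q.T * (sfZnXi (sfZnU D Ls) m z).X)) := by
    simp only [SfTest.Pd, sfZnXi, SfRay.Bt]; ring
  rw [e]
  have t1 := abs_add_le (Q.Pd z + (-(2 * (Q.be * (sfZnXi (sfZnU D Ls) m z).X))))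
    (2 * (Q.K * ((sfZnXi (sfZnU D Ls) m z).B + Q.T * (sfZnXi (sfZnU D Ls) m z).X)))
  have t2 := abs_add_le (Q.Pd z) (-(2 * (Q.be * (sfZnXi (sfZnU D Ls) m z).X)))
  rw [abs_neg, abs_mul, abs_of_pos (by norm_num : (0 : ℝ) < 2)] at t2
  rw [abs_mul 2, abs_of_pos (by norm_num : (0 : ℝ) < 2)] at t1
  have t3 := sf_mc_mul_le s1 x1
  have t4 : |(sfZnXi (sfZnU D Ls) m z).B + Q.T * (sfZnXi (sfZnU D Ls) m z).X| ≤ 4 := by
    have a1 := abs_add_le (sfZnXi (sfZnU D Ls) m z).B (Q.T * (sfZnXi (sfZnU D Ls) m z).X)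
    have a2 := sf_mc_mul_le hTa x1
    linarith
  have t5 := sf_mc_mul_le s2 t4
  linarith

end Claimed.Agent.R256
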