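import Claimed.Agent.R256.Soft.AZnSize
import Claimed.Agent.R256.Soft.AZnShear

/-!
# Row 256 (S0496), unit SOFT, A10 ZN: SUPPORT IN THE FRAME OF A ROOT CELL      (architect helper286)      leaves L-256-SOFT-ZN-FRRAY, L-256-SOFT-ZN-FRLAB      PAPER FREE
Notation: `U = sfZnU D Ls = s^-(E+|Ls|+6)`, `A = s^-(E+|Ls|+3)`, `L = len 0 ∈ [s^t, s^-t]`, `sfZnC Ls = E+|Ls|+10`.
-/

set_option autoImplicit false

namespace Claimed.Agent.R256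

open Claimed.Agent.R255

variable {D : SfDoc} {π : SfPar} {Ls C0 t : ℝ}

theorem sf_zn_fr_inv {s : ℝ} (h0 : 0 < s) (h : s ≤ 1 / 1000) : 1000 ≤ s ^ (-(1 : ℝ)) := by
  rw [Real.rpow_neg_one, le_inv_comm₀ (by norm_num) h0]
  linarith

theorem sf_zn_fr_bas (H : SfZn D π Ls C0 t) :
    0 < D.s ∧ D.s < 1 ∧ 1 ≤ D.s ^ (-t) ∧ 1 ≤ D.s ^ (-(sfZnA Ls)) ∧ 1000 * D.s ^ (-(sfZnA Ls)) ≤ sfZnU D Ls ∧
      57024 * sfZnU D Ls * (D.s ^ (-t)) ^ 9 ≤ D.s ^ (-(sfZnC Ls)) := by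
  have hs := H.good.1.hs
  have h0 := hs.1
  have h1 := hs.2
  have hi := sf_zn_fr_inv h0 H.small
  have hZ : 1 ≤ D.s ^ (-t) := sf_mc_p_one h0 h1 H.ht.1.le
  have hA0 : 0 ≤ sfZnA Ls := by unfold sfZnA; positivity
  have hA : 1 ≤ D.s ^ (-(sfZnA Ls)) := sf_mc_p_one h0 h1 hA0
  refine ⟨h0, h1, hZ, hA, ?_, ?_⟩
  · have e : sfZnU D Ls = D.s ^ (-(1 : ℝ)) * D.s ^ (-(sfZnA Ls)) * D.s ^ (-(2 : ℝ)) := by
      unfold sfZnU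
      rw [sf_mc_p_mul h0, sf_mc_p_mul h0]
      congr 1
      unfold sfZnW sfZnA
      ring
    have h2 : 1 ≤ D.s ^ (-(2 : ℝ)) := sf_mc_p_one h0 h1 (by norm_num)
    rw [e]
    calc 1000 * D.s ^ (-(sfZnA Ls)) ≤ D.s ^ (-(1 : ℝ)) * D.s ^ (-(sfZnA Ls)) := mul_le_mul_of_nonneg_right hi (by linarith)
      _ = D.s ^ (-(1 : ℝ)) * D.s ^ (-(sfZnA Ls)) * 1 := by ring
      _ ≤ D.s ^ (-(1 : ℝ)) * D.s ^ (-(sfZnA Ls)) * D.s ^ (-(2 : ℝ)) := mul_le_mul_of_nonneg_left h2 (by positivity)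
  · have e : D.s ^ (-(sfZnC Ls)) = sfZnU D Ls * (D.s ^ (-(1 : ℝ)) * (D.s ^ (-(1 : ℝ)) * (D.s ^ (-(1 : ℝ)) * D.s ^ (-(1 : ℝ))))) := by
      unfold sfZnU
      rw [sf_mc_p_mul h0, sf_mc_p_mul h0, sf_mc_p_mul h0, sf_mc_p_mul h0]
      congr 1
      unfold sfZnW sfZnC
      ring
    have hZ9 : (D.s ^ (-t)) ^ 9 ≤ D.s ^ (-(1 : ℝ)) := by
      rw [← Real.rpow_natCast, ← Real.rpow_mul h0.le]
      apply sf_mc_anti h0 h1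
      push_cast
      linarith [H.ht.2]
    have hU : 0 < sfZnU D Ls := Real.rpow_pos_of_pos h0 _
    rw [e]
    generalize D.s ^ (-(1 : ℝ)) = w at hi hZ9 ⊢
    have hw2 : 1000 * 1000 ≤ w * w := mul_le_mul hi hi (by norm_num) (by linarith)
    have hw3 : 1000 * (1000 * 1000) ≤ w * (w * w) := mul_le_mul hi hw2 (by norm_num) (by linarith)
    calc 57024 * sfZnU D Ls * (D.s ^ (-t)) ^ 9 ≤ 57024 * sfZnU D Ls * w := mul_le_mul_of_nonneg_left hZ9 (by positivity)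
      _ = sfZnU D Ls * (w * 57024) := by ring
      _ ≤ sfZnU D Ls * (w * (w * (w * w))) :=
          mul_le_mul_of_nonneg_left (mul_le_mul_of_nonneg_left (by linarith) (by linarith)) hU.le

theorem sf_zn_fr_div (H : SfZn D π Ls C0 t) (a c : ℝ) (hac : |a| ≤ c) : |a / D.len 0| ≤ c * D.s ^ (-t) := by
  obtain ⟨h0, -, -, -, -, -⟩ := sf_zn_fr_bas H
  obtain ⟨-, -, -, -, hL, -⟩ := sf_zn_wid H 0 H.g0
  have hLpos : 0 < D.len 0 := lt_of_lt_of_le (Real.rpow_pos_of_pos h0 _) hL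
  have hinv : 1 / D.len 0 ≤ D.s ^ (-t) := by
    rw [Real.rpow_neg h0.le, ← one_div]
    exact one_div_le_one_div_of_le (Real.rpow_pos_of_pos h0 _) hL
  rw [abs_div, abs_of_pos hLpos, div_eq_mul_one_div]
  exact mul_le_mul hac hinv (by positivity) ((abs_nonneg a).trans hac)

/-- frame coordinates of a ray on a chain to the end row `v`, in the frame of the cell of `v`.
PLAN: `sf_zn_ray_eq`, `sf_zn_xi`, `1 / L ≤ s^-t` (`sf_zn_wid`), `0 ≤ T0 ≤ 1`. -/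
theorem sf_zn_fr_crd (H : SfZn D π Ls C0 t) (u : D.Rw) (hu : u.1 ∈ D.G) (v : D.Row 1) (h : D.ZnCh u v) (T0 : ℝ) (hT0 : 0 ≤ T0 ∧ T0 ≤ 1) :
    |((sfZnFr (D.len 0) (sfZnU D Ls) T0 (sfZnChi (sfZnU D Ls) (D.ray 1 v))).ray (D.ray u.1 u.2)).X| ≤ 2 ∧
    |((sfZnFr (D.len 0) (sfZnU D Ls) T0 (sfZnChi (sfZnU D Ls) (D.ray 1 v))).ray (D.ray u.1 u.2)).B| ≤ 4 * D.s ^ (-t) ∧
    |((sfZnFr (D.len 0) (sfZnU D Ls) T0 (sfZnChi (sfZnU D Ls) (D.ray 1 v))).ray (D.ray u.1 u.2)).Y| ≤ 6 * D.s ^ (-t) ∧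
    |((sfZnFr (D.len 0) (sfZnU D Ls) T0 (sfZnChi (sfZnU D Ls) (D.ray 1 v))).ray (D.ray u.1 u.2)).N| ≤ 2 * sfZnU D Ls ∧
    |((sfZnFr (D.len 0) (sfZnU D Ls) T0 (sfZnChi (sfZnU D Ls) (D.ray 1 v))).ray (D.ray u.1 u.2)).D| ≤ 4 * sfZnU D Ls * D.s ^ (-t) := by
  obtain ⟨x1, x2, x3, x4, x5⟩ := sf_zn_xi H u hu v h
  rw [sf_zn_ray_eq]
  generalize sfZnXi (sfZnU D Ls) (sfZnChi (sfZnU D Ls) (D.ray 1 v)) (D.ray u.1 u.2) = ξ at x1 x2 x3 x4 x5 ⊢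
  refine ⟨x1, sf_zn_fr_div H _ 4 ?_, sf_zn_fr_div H _ 6 ?_, x4, sf_zn_fr_div H _ (4 * sfZnU D Ls) ?_⟩
  · have : |T0 * ξ.X| ≤ 2 := by
      rw [abs_mul, abs_of_nonneg hT0.1]
      nlinarith [abs_nonneg ξ.X]
    calc |ξ.B + T0 * ξ.X| ≤ |ξ.B| + |T0 * ξ.X| := abs_add_le _ _
      _ ≤ 4 := by linarith
  · have : |T0 * ξ.X ^ 2| ≤ 4 := by
      rw [abs_mul, abs_of_nonneg hT0.1, abs_pow]
      nlinarith [abs_nonneg ξ.X]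
    calc |ξ.Y + T0 * ξ.X ^ 2| ≤ |ξ.Y| + |T0 * ξ.X ^ 2| := abs_add_le _ _
      _ ≤ 6 := by linarith
  · have : |T0 * ξ.N| ≤ 2 * sfZnU D Ls := by
      rw [abs_mul, abs_of_nonneg hT0.1]
      nlinarith [abs_nonneg ξ.N]
    calc |ξ.D + T0 * ξ.N| ≤ |ξ.D| + |T0 * ξ.N| := abs_add_le _ _
      _ ≤ 4 * sfZnU D Ls := by linarith

/-- **(FR-RAY)**      (`sf_zn_fr_crd`, `SfRay.size`, `max_le`;  `6 U s^-t ≤ s^-(W+1+t)`) -/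
theorem sf_zn_fr_ray (H : SfZn D π Ls C0 t) (u : D.Rw) (hu : u.1 ∈ D.G) (v : D.Row 1) (h : D.ZnCh u v) (T0 : ℝ) (hT0 : 0 ≤ T0 ∧ T0 ≤ 1) :
    ((sfZnFr (D.len 0) (sfZnU D Ls) T0 (sfZnChi (sfZnU D Ls) (D.ray 1 v))).ray (D.ray u.1 u.2)).size ≤ D.s ^ (-(sfZnC Ls)) := by
  obtain ⟨h0, h1, hZ, hA, hAU, hfin⟩ := sf_zn_fr_bas H
  obtain ⟨c1, c2, c3, c4, c5⟩ := sf_zn_fr_crd H u hu v h T0 hT0
  have hU : 1 ≤ sfZnU D Ls := by linarith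
  have hZ9 : D.s ^ (-t) ≤ (D.s ^ (-t)) ^ 9 := le_self_pow₀ hZ (by norm_num)
  have k1 : sfZnU D Ls * D.s ^ (-t) ≤ sfZnU D Ls * (D.s ^ (-t)) ^ 9 := mul_le_mul_of_nonneg_left hZ9 (by linarith)
  have k2 : D.s ^ (-t) ≤ sfZnU D Ls * D.s ^ (-t) := le_mul_of_one_le_left (by linarith) hU
  have k3 : sfZnU D Ls ≤ sfZnU D Ls * D.s ^ (-t) := le_mul_of_one_le_right (by linarith) hZ
  have hb : 6 * (sfZnU D Ls * D.s ^ (-t)) ≤ D.s ^ (-(sfZnC Ls)) := by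
    refine le_trans ?_ hfin
    nlinarith
  unfold SfRay.size
  refine max_le ?_ (max_le ?_ (max_le ?_ (max_le ?_ ?_)))
  · linarith
  · linarith
  · linarith
  · linarith
  · linarith

/-- **(FR-LAB)**
PLAN.  `φ` = the frame, `Q = lab u`, `k = u.1`.   `Core.own` + `sf_frame_mem φ (sf_zn_fr_pos ..) Q (len k) z_u`:  `(φ.tst Q).Mem (len k / L) (φ.ray z_u)`.      `sf_zn_tst_eq`:  `|T'| = |Q.T - T0| / L ≤ s^-t`;  `|al'| ≤ 13 A` (`sf_zn_al`);  `|be'| ≤ A`;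
`|K'| = |Q.K| L ≤ A s^-t`;  `r' ≤ 1`;  `f' ≤ A`;  `len k / L ≤ s^-(2t)` (`sf_zn_wid`).      `sf_zn_size` with `Z = 6 s^-(2t)`, `V = 4 U s^-t` (`13 A ≤ U`), rays by `sf_zn_fr_crd`:
`size ≤ 11 · 4 · 6^4 · U s^-(9t) = 57024 U s^-(9t) ≤ s^-(W + 2 + 9t) ≤ s^-(W+4)`   (`57024 ≤ s^-2`, `9t ≤ 9/16`). -/
theorem sf_zn_fr_lab (H : SfZn D π Ls C0 t) (u : D.Rw) (hu : u.1 ∈ D.G) (v : D.Row 1) (h : D.ZnCh u v) (T0 : ℝ) (hT0 : 0 ≤ T0 ∧ T0 ≤ 1) :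
    ((sfZnFr (D.len 0) (sfZnU D Ls) T0 (sfZnChi (sfZnU D Ls) (D.ray 1 v))).tst (D.lab u.1 u.2)).size ≤ D.s ^ (-(sfZnC Ls)) := by
  obtain ⟨h0, h1, hZ, hA, hAU, hfin⟩ := sf_zn_fr_bas H
  obtain ⟨c1, c2, c3, c4, c5⟩ := sf_zn_fr_crd H u hu v h T0 hT0
  obtain ⟨⟨hr0, hr1⟩, ⟨hf0, hf1⟩, ⟨hl0, hl1⟩, -, -, hT⟩ := sf_zn_wid H u.1 hu
  obtain ⟨-, -, ⟨hL0, hL1⟩, -, hL, -⟩ := sf_zn_wid H 0 H.g0
  obtain ⟨s1, s2, -⟩ := sf_zn_shear H u hu v h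
  have hal := sf_zn_al H u hu v h
  obtain ⟨o1, o2, o3, -, -⟩ := H.good.1.own u.1 hu u.2
  obtain ⟨e1, e2, e3, e4, e5, e6⟩ := sf_zn_tst_eq (D.len 0) (sfZnU D Ls) T0 (sfZnChi (sfZnU D Ls) (D.ray 1 v)) (D.lab u.1 u.2)
  have hm : ((sfZnFr (D.len 0) (sfZnU D Ls) T0 (sfZnChi (sfZnU D Ls) (D.ray 1 v))).tst (D.lab u.1 u.2)).Mem (D.len u.1 / D.len 0)
      ((sfZnFr (D.len 0) (sfZnU D Ls) T0 (sfZnChi (sfZnU D Ls) (D.ray 1 v))).ray (D.ray u.1 u.2)) :=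
    (sf_frame_mem _ (sf_zn_fr_pos (D.len 0) (sfZnU D Ls) T0 (sfZnChi (sfZnU D Ls) (D.ray 1 v)) hL0) (D.lab u.1 u.2) (D.len u.1) (D.ray u.1 u.2)).2 o3
  have hTu := hT u.2
  have d1 := sf_zn_fr_div H ((D.lab u.1 u.2).T - T0) 1 (by rw [abs_le]; constructor <;> linarith [hT0.1, hT0.2, hTu.1, hTu.2])
  have d2 := sf_zn_fr_div H (D.len u.1) (D.s ^ (-t)) (by rw [abs_of_pos hl0]; exact hl1)
  rw [abs_of_nonneg (div_nonneg hl0.le hL0.le)] at d2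
  have hU : 1 ≤ sfZnU D Ls := by linarith
  have z2 : D.s ^ (-t) ≤ (D.s ^ (-t)) ^ 2 := le_self_pow₀ hZ (by norm_num)
  have k3 : sfZnU D Ls ≤ sfZnU D Ls * D.s ^ (-t) := le_mul_of_one_le_right (by linarith) hZ
  have hsz := sf_zn_size _ _ _ (6 * (D.s ^ (-t)) ^ 2) (4 * sfZnU D Ls * D.s ^ (-t)) (by linarith) (by linarith) hm
    (by linarith) (by linarith) (by linarith) (by linarith) c5 (by rw [e1]; linarith)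
    ⟨div_nonneg hl0.le hL0.le, by nlinarith⟩ ⟨by rw [e5, o1]; exact hr0.le, by rw [e5, o1]; exact hr1⟩
    ⟨by rw [e6, o2]; exact hf0.le, by rw [e6, o2]; linarith⟩ (by rw [e2]; linarith) (by rw [e3]; linarith)
    (by
      rw [e4, abs_mul, abs_of_pos hL0]
      have : |(D.lab u.1 u.2).K| * D.len 0 ≤ D.s ^ (-(sfZnA Ls)) * D.s ^ (-t) := mul_le_mul s2 hL1 hL0.le (by linarith)
      have : D.s ^ (-(sfZnA Ls)) * D.s ^ (-t) ≤ sfZnU D Ls * D.s ^ (-t) := mul_le_mul_of_nonneg_right (by linarith) (by linarith)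
      linarith)
  refine hsz.trans (le_trans (le_of_eq ?_) hfin)
  ring

end Claimed.Agent.R256
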