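import Claimed.Agent.R256.Soft.AZnDefs

/-!
# Row 256 (S0496), unit SOFT, A10 ZN: TWO PURE LEMMAS ON ONE TEST      (architect helper286)      leaves L-256-SOFT-ZN-SIZE, L-256-SOFT-ZN-DIAM      PAPER FREE, pure (absolute values, products)
-/

set_option autoImplicit false

namespace Claimed.Agent.R256

theorem sf_zn_size_pm {a b A B : ℝ} (ha : |a| ≤ A) (hb : |b| ≤ B) : |a * b| ≤ A * B := by
  rw [abs_mul]
  exact mul_le_mul ha hb (abs_nonneg _) ((abs_nonneg _).trans ha)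

/-- **(SIZE)** a test with bounded shear `(al, be, K)`, bounded widths and time that contains a bounded ray has bounded centres and constants.
PLAN (unfold `SfTest.Mem`, `SfRay.Bt/Yt/Dt`, `SfTest.size`; `max_le`):   `|x| ≤ Z + 1 ≤ 2Z`;   `|Bt T| ≤ Z + Z² ≤ 2Z²`, `|b| ≤ 3Z²`;   `|Yt T| ≤ Z + Z³ ≤ 2Z³`, `|y| ≤ 2Z³ + 2 (2Z) Z + Z ≤ 7Z³`;
`|c| ≤ V (2 + Z + Z² + 6Z³) ≤ 10 V Z³`;   `|Dt T| ≤ 2ZV`, `|d| ≤ V (3Z + 2Z² + 2Z³ + 4Z⁴) ≤ 11 V Z⁴`. -/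
theorem sf_zn_size (Q : SfTest) (z : SfRay) (l Z V : ℝ) (hZ : 1 ≤ Z) (hV : 1 ≤ V) (hm : Q.Mem l z)
    (hX : |z.X| ≤ Z) (hB : |z.B| ≤ Z) (hY : |z.Y| ≤ Z) (hN : |z.N| ≤ V) (hD : |z.D| ≤ V) (hT : |Q.T| ≤ Z) (hl : 0 ≤ l ∧ l ≤ Z)
    (hr : 0 ≤ Q.r ∧ Q.r ≤ 1) (hf : 0 ≤ Q.f ∧ Q.f ≤ V) (hal : |Q.al| ≤ V) (hbe : |Q.be| ≤ V) (hK : |Q.K| ≤ V) :
    Q.size ≤ 11 * V * Z ^ 4 := by
  obtain ⟨h1, h2, h3, h4, h5⟩ := hm
  have hZ0 : (0 : ℝ) ≤ Z := by linarith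
  have hV0 : (0 : ℝ) ≤ V := by linarith
  have z2 : Z ≤ Z ^ 2 := by nlinarith
  have z3 : Z ^ 2 ≤ Z ^ 3 := by nlinarith
  have z4 : Z ^ 3 ≤ Z ^ 4 := by nlinarith [pow_nonneg hZ0 3]
  have v1 : V * 1 ≤ V * Z := mul_le_mul_of_nonneg_left hZ hV0
  have v2 : V * Z ≤ V * Z ^ 2 := mul_le_mul_of_nonneg_left z2 hV0
  have v3 : V * Z ^ 2 ≤ V * Z ^ 3 := mul_le_mul_of_nonneg_left z3 hV0
  have v4 : V * Z ^ 3 ≤ V * Z ^ 4 := mul_le_mul_of_nonneg_left z4 hV0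
  have w4 : 1 * Z ^ 4 ≤ V * Z ^ 4 := mul_le_mul_of_nonneg_right hV (by positivity)
  have hlr : l * Q.r ≤ Z := by nlinarith [hl.1, hl.2, hr.1, hr.2]
  have hlr2 : l * Q.r ^ 2 ≤ Z := by
    have : Q.r ^ 2 ≤ 1 := by nlinarith [hr.1, hr.2]
    nlinarith [hl.1, hl.2, sq_nonneg Q.r]
  have hlf : l * Q.f ≤ Z * V := mul_le_mul hl.2 hf.2 hf.1 hZ0
  have hx : |Q.x| ≤ 2 * Z := by
    have e : Q.x = z.X - (z.X - Q.x) := by ring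
    rw [e]
    refine (abs_sub _ _).trans ?_
    linarith [hr.2]
  have hX2 : |z.X ^ 2| ≤ Z ^ 2 := by
    rw [pow_two, pow_two]
    exact sf_zn_size_pm hX hX
  have hBt : |z.Bt Q.T| ≤ 2 * Z ^ 2 := by
    unfold SfRay.Bt
    refine (abs_add_le _ _).trans ?_
    have := sf_zn_size_pm hT hX
    linarith
  have hYt : |z.Yt Q.T| ≤ 2 * Z ^ 3 := by
    unfold SfRay.Yt
    refine (abs_add_le _ _).trans ?_
    have := sf_zn_size_pm hT hX2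
    linarith
  have hDt : |z.Dt Q.T| ≤ 2 * (V * Z) := by
    unfold SfRay.Dt
    refine (abs_add_le _ _).trans ?_
    have := sf_zn_size_pm hT hN
    linarith
  have hb : |Q.b| ≤ 3 * Z ^ 2 := by
    have e : Q.b = z.Bt Q.T - (z.Bt Q.T - Q.b) := by ring
    rw [e]
    refine (abs_sub _ _).trans ?_
    linarith
  have hy : |Q.y| ≤ 7 * Z ^ 3 := by
    have e : Q.y = z.Yt Q.T - Q.x * (z.Bt Q.T - Q.b) * 2 - (z.Yt Q.T - Q.y - 2 * Q.x * (z.Bt Q.T - Q.b)) := by ring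
    rw [e]
    refine (abs_sub _ _).trans ?_
    refine (add_le_add_left (abs_sub _ _) _).trans ?_
    have a1 := sf_zn_size_pm hx (h2.trans hlr)
    rw [abs_mul _ (2 : ℝ), abs_two]
    linarith
  have hXB : |z.X * z.Bt Q.T| ≤ Z * (2 * Z ^ 2) := sf_zn_size_pm hX hBt
  have hc : |Q.c| ≤ 10 * (V * Z ^ 3) := by
    have e : Q.c = z.N - Q.al * z.X - Q.be * z.X ^ 2 - Q.K * z.Yt Q.T + Q.K * (z.X * z.Bt Q.T) * 2
        - (z.N - Q.c - Q.al * z.X - Q.be * z.X ^ 2 - Q.K * (z.Yt Q.T - 2 * z.X * z.Bt Q.T)) := by ring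
    rw [e]
    refine (abs_sub _ _).trans ?_
    refine (add_le_add_left (abs_add_le _ _) _).trans ?_
    refine (add_le_add_left (add_le_add_left (abs_sub _ _) _) _).trans ?_
    refine (add_le_add_left (add_le_add_left (add_le_add_left (abs_sub _ _) _) _) _).trans ?_
    refine (add_le_add_left (add_le_add_left (add_le_add_left (add_le_add_left (abs_sub _ _) _) _) _) _).trans ?_
    have a1 := sf_zn_size_pm hal hX
    have a2 := sf_zn_size_pm hbe hX2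
    have a3 := sf_zn_size_pm hK hYt
    have a4 := sf_zn_size_pm hK hXB
    rw [abs_mul _ (2 : ℝ), abs_two]
    linarith [hf.2]
  have hBt2 : |z.Bt Q.T ^ 2| ≤ (2 * Z ^ 2) * (2 * Z ^ 2) := by
    rw [pow_two]
    exact sf_zn_size_pm hBt hBt
  have hd : |Q.d| ≤ 11 * (V * Z ^ 4) := by
    have e : Q.d = z.Dt Q.T - Q.al * z.Bt Q.T - Q.be * z.Yt Q.T + Q.K * z.Bt Q.T ^ 2
        - (z.Dt Q.T - Q.d - Q.al * z.Bt Q.T - Q.be * z.Yt Q.T + Q.K * z.Bt Q.T ^ 2) := by ring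
    rw [e]
    refine (abs_sub _ _).trans ?_
    refine (add_le_add_left (abs_add_le _ _) _).trans ?_
    refine (add_le_add_left (add_le_add_left (abs_sub _ _) _) _).trans ?_
    refine (add_le_add_left (add_le_add_left (add_le_add_left (abs_sub _ _) _) _) _).trans ?_
    have a1 := sf_zn_size_pm hal hBt
    have a2 := sf_zn_size_pm hbe hYt
    have a3 := sf_zn_size_pm hK hBt2
    linarith
  unfold SfTest.size
  refine max_le ?_ (max_le ?_ (max_le ?_ (max_le ?_ (max_le ?_ (max_le ?_ (max_le ?_ ?_))))))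
  · linarith
  · linarith
  · linarith
  · linarith
  · linarith
  · linarith
  · linarith
  · linarith

/-- **(DIAM)** two rays in one test with bounded shear.
PLAN.  `|ΔX| ≤ 2r ≤ 2`, so `|z.X| ≤ 4`;   `|Δ(Bt T)| ≤ 2 l r ≤ 2Z`, `|ΔB| ≤ 2Z + 2 ≤ 4Z`;   `|Q.x| ≤ 3`, `|Δ(Yt T)| ≤ 2 l r² + 2 |x| |Δ(Bt T)| ≤ 14Z`, `|Δ(X²)| ≤ 12`, `|ΔY| ≤ 26Z`;
`|z'.Bt T| ≤ 4`, `|z.Bt T| ≤ 6Z`, `|Δ(X Bt T)| ≤ 16Z`,   `|ΔN| ≤ 2f + 2V + 12V + V (14Z + 32Z) ≤ 62VZ`;   `|Δ(Bt T ²)| ≤ 2Z (6Z + 4)`,  `|Δ(Dt T)| ≤ 2 l f + 2ZV + 14ZV + V 2Z (6Z+4) ≤ 38 V Z²`,  `|ΔD| ≤ 100 V Z²`. -/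
theorem sf_zn_diam (Q : SfTest) (z z' : SfRay) (l Z V : ℝ) (hZ : 1 ≤ Z) (hV : 1 ≤ V) (hm : Q.Mem l z) (hm' : Q.Mem l z')
    (hX : |z'.X| ≤ 2) (hB : |z'.B| ≤ 2) (hT : 0 ≤ Q.T ∧ Q.T ≤ 1) (hl : 0 ≤ l ∧ l ≤ Z) (hr : 0 ≤ Q.r ∧ Q.r ≤ 1) (hf : 0 ≤ Q.f ∧ Q.f ≤ V)
    (hal : |Q.al| ≤ V) (hbe : |Q.be| ≤ V) (hK : |Q.K| ≤ V) :
    |z.X - z'.X| ≤ 2 ∧ |z.B - z'.B| ≤ 4 * Z ∧ |z.Y - z'.Y| ≤ 26 * Z ∧ |z.N - z'.N| ≤ 62 * V * Z ∧ |z.D - z'.D| ≤ 100 * V * Z ^ 2 := by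
  obtain ⟨h1, h2, h3, h4, h5⟩ := hm
  obtain ⟨k1, k2, k3, k4, k5⟩ := hm'
  have hZ0 : (0 : ℝ) ≤ Z := by linarith
  have hV0 : (0 : ℝ) ≤ V := by linarith
  have z2 : Z ≤ Z ^ 2 := by nlinarith
  have v1 : V * 1 ≤ V * Z := mul_le_mul_of_nonneg_left hZ hV0
  have v2 : V * Z ≤ V * Z ^ 2 := mul_le_mul_of_nonneg_left z2 hV0
  have hlr : l * Q.r ≤ Z := by nlinarith [hl.1, hl.2, hr.1, hr.2]
  have hlr2 : l * Q.r ^ 2 ≤ Z := by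
    have : Q.r ^ 2 ≤ 1 := by nlinarith [hr.1, hr.2]
    nlinarith [hl.1, hl.2, sq_nonneg Q.r]
  have hlf : l * Q.f ≤ Z * V := mul_le_mul hl.2 hf.2 hf.1 hZ0
  have hTa : |Q.T| ≤ 1 := abs_le.2 ⟨by linarith [hT.1], hT.2⟩
  have dX : |z.X - z'.X| ≤ 2 := by
    rw [abs_le] at h1 k1 ⊢
    constructor <;> linarith [hr.2]
  have aX : |z.X| ≤ 4 := by
    rw [abs_le] at dX hX ⊢
    constructor <;> linarith
  have sX : |z.X + z'.X| ≤ 6 := by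
    rw [abs_le] at aX hX ⊢
    constructor <;> linarith
  have ax : |Q.x| ≤ 3 := by
    rw [abs_le] at k1 hX ⊢
    constructor <;> linarith [hr.2]
  have dBt : |z.Bt Q.T - z'.Bt Q.T| ≤ 2 * Z := by
    rw [abs_le] at h2 k2 ⊢
    constructor <;> linarith
  have tX := abs_le.1 (sf_zn_size_pm hTa dX)
  have dB : |z.B - z'.B| ≤ 4 * Z := by
    have := abs_le.1 dBt
    unfold SfRay.Bt at this
    rw [abs_le]
    constructor <;> linarith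
  have xB := abs_le.1 (sf_zn_size_pm ax dBt)
  have dYt : |z.Yt Q.T - z'.Yt Q.T| ≤ 14 * Z := by
    rw [abs_le] at h3 k3 ⊢
    constructor <;> linarith
  have dX2 : |z.X ^ 2 - z'.X ^ 2| ≤ 12 := by
    have e : z.X ^ 2 - z'.X ^ 2 = (z.X - z'.X) * (z.X + z'.X) := by ring
    rw [e]
    exact (sf_zn_size_pm dX sX).trans (by norm_num)
  have tX2 := abs_le.1 (sf_zn_size_pm hTa dX2)
  have dY : |z.Y - z'.Y| ≤ 26 * Z := by
    have := abs_le.1 dYt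
    unfold SfRay.Yt at this
    rw [abs_le]
    constructor <;> linarith
  have tX' := abs_le.1 (sf_zn_size_pm hTa hX)
  have aBt' : |z'.Bt Q.T| ≤ 4 := by
    unfold SfRay.Bt
    rw [abs_le] at hB ⊢
    constructor <;> linarith
  have sBt : |z.Bt Q.T + z'.Bt Q.T| ≤ 6 * Z + 4 := by
    rw [abs_le] at aBt' dBt ⊢
    constructor <;> linarith
  have dXB : |z.X * z.Bt Q.T - z'.X * z'.Bt Q.T| ≤ 16 * Z := by
    have e : z.X * z.Bt Q.T - z'.X * z'.Bt Q.T = z.X * (z.Bt Q.T - z'.Bt Q.T) + (z.X - z'.X) * z'.Bt Q.T := by ring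
    rw [e]
    refine (abs_add_le _ _).trans ?_
    have a1 := sf_zn_size_pm aX dBt
    have a2 := sf_zn_size_pm dX aBt'
    linarith
  have dN : |z.N - z'.N| ≤ 62 * V * Z := by
    have a1 := abs_le.1 (sf_zn_size_pm hal dX)
    have a2 := abs_le.1 (sf_zn_size_pm hbe dX2)
    have a3 := abs_le.1 (sf_zn_size_pm hK dYt)
    have a4 := abs_le.1 (sf_zn_size_pm hK dXB)
    rw [abs_le] at h4 k4 ⊢
    constructor <;> linarith [hf.2]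
  have dBt2 : |z.Bt Q.T ^ 2 - z'.Bt Q.T ^ 2| ≤ 2 * Z * (6 * Z + 4) := by
    have e : z.Bt Q.T ^ 2 - z'.Bt Q.T ^ 2 = (z.Bt Q.T - z'.Bt Q.T) * (z.Bt Q.T + z'.Bt Q.T) := by ring
    rw [e]
    exact sf_zn_size_pm dBt sBt
  have dDt : |z.Dt Q.T - z'.Dt Q.T| ≤ 38 * V * Z ^ 2 := by
    have a1 := abs_le.1 (sf_zn_size_pm hal dBt)
    have a2 := abs_le.1 (sf_zn_size_pm hbe dYt)
    have a3 := abs_le.1 (sf_zn_size_pm hK dBt2)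
    rw [abs_le] at h5 k5 ⊢
    constructor <;> linarith
  have tN := abs_le.1 (sf_zn_size_pm hTa dN)
  have dD : |z.D - z'.D| ≤ 100 * V * Z ^ 2 := by
    have := abs_le.1 dDt
    unfold SfRay.Dt at this
    rw [abs_le]
    constructor <;> linarith
  exact ⟨dX, dB, dY, dN, dD⟩

end Claimed.Agent.R256
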