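import Claimed.Agent.R256.Soft.AZnCount
import Claimed.Agent.R256.Soft.AZnSize
import Claimed.Agent.R256.Soft.AZnShear
import Claimed.Agent.R256.Soft.AZnFr

/-!
# Row 256 (S0496), unit SOFT, A10 ZN: CELLS REACHED FROM ONE LABEL      (architect helper286)      leaves L-256-SOFT-ZN-LABBOX, L-256-SOFT-ZN-CELLLAB      PAPER FREE
Notation: `U = sfZnU D Ls = s^-(E+|Ls|+6)`, `A = s^-(sfZnA Ls) = s^-(E+|Ls|+3)`, `Z = s^-t`.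
-/

set_option autoImplicit false

namespace Claimed.Agent.R256

open Claimed.Agent.R255

variable {D : SfDoc} {π : SfPar} {Ls C0 t : ℝ}

theorem sf_zn_lab_num (H : SfZn D π Ls C0 t) :
    806 * D.s ^ (-(sfZnA Ls)) * D.s ^ (-t) ≤ sfZnU D Ls ∧ 1300 * D.s ^ (-(sfZnA Ls)) * (D.s ^ (-t)) ^ 2 ≤ sfZnU D Ls := by
  obtain ⟨h0, h1, hZ, hA, -, -⟩ := sf_zn_fr_bas H
  have hi := sf_zn_fr_inv h0 H.small
  have e : sfZnU D Ls = D.s ^ (-(sfZnA Ls)) * (D.s ^ (-(1 : ℝ)) * (D.s ^ (-(1 : ℝ)) * D.s ^ (-(1 : ℝ)))) := by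
    unfold sfZnU
    rw [sf_mc_p_mul h0, sf_mc_p_mul h0, sf_mc_p_mul h0]
    congr 1
    unfold sfZnW sfZnA
    ring
  have hZ2 : (D.s ^ (-t)) ^ 2 ≤ D.s ^ (-(1 : ℝ)) := by
    rw [← Real.rpow_natCast, ← Real.rpow_mul h0.le]
    apply sf_mc_anti h0 h1
    push_cast
    linarith [H.ht.2]
  have hZ1 : D.s ^ (-t) ≤ D.s ^ (-(1 : ℝ)) := (le_self_pow₀ hZ (by norm_num)).trans hZ2
  rw [e]
  generalize D.s ^ (-(1 : ℝ)) = w at hi hZ1 hZ2 ⊢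
  generalize D.s ^ (-t) = Z at hZ hZ1 hZ2 ⊢
  generalize D.s ^ (-(sfZnA Ls)) = A at hA ⊢
  have hw2 : 1000 * 1000 ≤ w * w := mul_le_mul hi hi (by norm_num) (by linarith)
  constructor
  · calc 806 * A * Z = A * (Z * 806) := by ring
      _ ≤ A * (w * (w * w)) :=
          mul_le_mul_of_nonneg_left (mul_le_mul hZ1 (by linarith) (by norm_num) (by linarith)) (by linarith)
  · calc 1300 * A * Z ^ 2 = A * (Z ^ 2 * 1300) := by ring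
      _ ≤ A * (w * (w * w)) :=
          mul_le_mul_of_nonneg_left (mul_le_mul hZ2 (by linarith) (by norm_num) (by linarith)) (by linarith)

theorem sf_zn_lab_tri (a b c α β γ : ℝ) (h1 : |a - b| ≤ α) (h2 : |a - c| ≤ β) (h3 : |c| ≤ γ) : |b| ≤ α + β + γ := by
  rw [abs_le] at *
  constructor <;> linarith [h1.1, h1.2, h2.1, h2.2, h3.1, h3.2]

/-- **(LAB-BOX)** two chains `u0 → v0`, `u → v` that start in rows of the same gate with the SAME label: chart coordinates of the second end ray in the cell of the first.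
PLAN.  `m0 = sfZnChi U (ray 1 v0)`, chart frame `φ = sfZnFr 1 U 0 m0` (`sf_zn_fr_pos`), `lam = lab u0 = lab u`, `k = u0.1 = u.1`.   By `sf_zn_ray_eq` (`T0 = 0`, `L = 1`: `simp`) `φ.ray z = sfZnXi U m0 z`.
`Core.own` + `sf_frame_mem φ _ lam (len k) z` (`len k / 1`):  `(φ.tst lam).Mem (len k) (ξ z_u)` and `.. (ξ z_u0)`.      `sf_zn_tst_eq`: `T` unchanged (in `[0,1]`, `sf_zn_wid`), `al` = the expression of `sf_zn_al` (`≤ 13 A`, chain `u0 → v0`), `be`, `K` (`≤ A`, `sf_zn_shear`), `r ≤ 1`, `f ≤ A`.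
`sf_zn_diam` with `Z = s^-t`, `V = 13 A`, `z' = ξ z_u0` (`≤ 2` by `sf_zn_xi`):   `ξ z_u` is `≤ (4, 6Z, 28Z)` and `≤ 2U + 806 A Z ≤ 3U`, `≤ 2U + 1300 A Z² ≤ 3U`   (`806 ≤ s^-1`, `1300 ≤ s^-2`, `2t ≤ 1/8`).
`sf_zn_move` for the chain `u → v` in the reference cell `m0` (`sf_zn_m_bd`): one more unit. -/
theorem sf_zn_lab_box (H : SfZn D π Ls C0 t) (u0 u : D.Rw) (hu0 : u0.1 ∈ D.G) (hk : u.1 = u0.1) (hl : D.lab u.1 u.2 = D.lab u0.1 u0.2)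
    (v0 v : D.Row 1) (h0 : D.ZnCh u0 v0) (h : D.ZnCh u v) :
    |(sfZnXi (sfZnU D Ls) (sfZnChi (sfZnU D Ls) (D.ray 1 v0)) (D.ray 1 v)).X| ≤ 29 * D.s ^ (-t) ∧
    |(sfZnXi (sfZnU D Ls) (sfZnChi (sfZnU D Ls) (D.ray 1 v0)) (D.ray 1 v)).B| ≤ 29 * D.s ^ (-t) ∧
    |(sfZnXi (sfZnU D Ls) (sfZnChi (sfZnU D Ls) (D.ray 1 v0)) (D.ray 1 v)).Y| ≤ 29 * D.s ^ (-t) ∧
    |(sfZnXi (sfZnU D Ls) (sfZnChi (sfZnU D Ls) (D.ray 1 v0)) (D.ray 1 v)).N| ≤ 4 * sfZnU D Ls ∧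
    |(sfZnXi (sfZnU D Ls) (sfZnChi (sfZnU D Ls) (D.ray 1 v0)) (D.ray 1 v)).D| ≤ 4 * sfZnU D Ls := by
  obtain ⟨hs0, hs1, hZ, hA, hAU, -⟩ := sf_zn_fr_bas H
  obtain ⟨n1, n2⟩ := sf_zn_lab_num H
  have hu : u.1 ∈ D.G := by rw [hk]; exact hu0
  obtain ⟨⟨hr0, hr1⟩, ⟨hf0, hf1⟩, ⟨hl0, hl1⟩, -, -, hT⟩ := sf_zn_wid H u0.1 hu0
  obtain ⟨s1, s2, -⟩ := sf_zn_shear H u0 hu0 v0 h0
  have hal := sf_zn_al H u0 hu0 v0 h0
  obtain ⟨o1, o2, o3, -, -⟩ := H.good.1.own u0.1 hu0 u0.2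
  obtain ⟨-, -, p3, -, -⟩ := H.good.1.own u.1 hu u.2
  have hlen : D.len u.1 = D.len u0.1 := by rw [hk]
  rw [hl, hlen] at p3
  obtain ⟨x1, x2, x3, x4, x5⟩ := sf_zn_xi H u0 hu0 v0 h0
  obtain ⟨m1, m2, m3, m4, m5⟩ := sf_zn_move H u hu v h (sfZnChi (sfZnU D Ls) (D.ray 1 v0)) (sf_zn_m_bd H _ v0)
  obtain ⟨e1, e2, e3, e4, e5, e6⟩ := sf_zn_tst_eq 1 (sfZnU D Ls) 0 (sfZnChi (sfZnU D Ls) (D.ray 1 v0)) (D.lab u0.1 u0.2)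
  have hray : ∀ z, (sfZnFr 1 (sfZnU D Ls) 0 (sfZnChi (sfZnU D Ls) (D.ray 1 v0))).ray z
      = sfZnXi (sfZnU D Ls) (sfZnChi (sfZnU D Ls) (D.ray 1 v0)) z := by
    intro z
    rw [sf_zn_ray_eq]
    simp
  have hpos := sf_zn_fr_pos 1 (sfZnU D Ls) 0 (sfZnChi (sfZnU D Ls) (D.ray 1 v0)) one_pos
  have q0 : ((sfZnFr 1 (sfZnU D Ls) 0 (sfZnChi (sfZnU D Ls) (D.ray 1 v0))).tst (D.lab u0.1 u0.2)).Mem (D.len u0.1 / 1)
      ((sfZnFr 1 (sfZnU D Ls) 0 (sfZnChi (sfZnU D Ls) (D.ray 1 v0))).ray (D.ray u0.1 u0.2)) :=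
    (sf_frame_mem _ hpos (D.lab u0.1 u0.2) (D.len u0.1) (D.ray u0.1 u0.2)).2 o3
  have q1 : ((sfZnFr 1 (sfZnU D Ls) 0 (sfZnChi (sfZnU D Ls) (D.ray 1 v0))).tst (D.lab u0.1 u0.2)).Mem (D.len u0.1 / 1)
      ((sfZnFr 1 (sfZnU D Ls) 0 (sfZnChi (sfZnU D Ls) (D.ray 1 v0))).ray (D.ray u.1 u.2)) :=
    (sf_frame_mem _ hpos (D.lab u0.1 u0.2) (D.len u0.1) (D.ray u.1 u.2)).2 p3
  rw [hray, div_one] at q0 q1
  have hTu := hT u0.2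
  rw [sub_zero, div_one] at e1
  rw [mul_one] at e4
  obtain ⟨d1, d2, d3, d4, d5⟩ := sf_zn_diam _ _ _ _ (D.s ^ (-t)) (13 * D.s ^ (-(sfZnA Ls))) hZ (by linarith) q1 q0 x1 x2
    ⟨by rw [e1]; exact hTu.1, by rw [e1]; exact hTu.2⟩ ⟨hl0.le, hl1⟩ ⟨by rw [e5, o1]; exact hr0.le, by rw [e5, o1]; exact hr1⟩
    ⟨by rw [e6, o2]; exact hf0.le, by rw [e6, o2]; linarith⟩ (by rw [e2]; exact hal) (by rw [e3]; linarith) (by rw [e4]; linarith)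
  refine ⟨(sf_zn_lab_tri _ _ _ _ _ _ m1 d1 x1).trans (by linarith), (sf_zn_lab_tri _ _ _ _ _ _ m2 d2 x2).trans (by linarith),
    (sf_zn_lab_tri _ _ _ _ _ _ m3 d3 x3).trans (by linarith), (sf_zn_lab_tri _ _ _ _ _ _ m4 d4 x4).trans (by linarith),
    (sf_zn_lab_tri _ _ _ _ _ _ m5 d5 x5).trans (by linarith)⟩

theorem sf_zn_cell_num (Z : ℝ) (hZ : 1 ≤ Z) (n : ℕ) (hn : (n : ℝ) ≤ 30 * Z) :
    (((2 * n + 2) ^ 4 * (4 * n ^ 2 + 6 * n + 2) : ℕ) : ℝ) ≤ 2 * 10 ^ 11 * Z ^ 6 := by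
  push_cast
  have hn0 : (0 : ℝ) ≤ n := Nat.cast_nonneg n
  generalize (n : ℝ) = x at hn hn0 ⊢
  have a1 : 2 * x + 2 ≤ 62 * Z := by linarith
  have a2 : 4 * x ^ 2 + 6 * x + 2 ≤ 3782 * Z ^ 2 := by nlinarith
  calc (2 * x + 2) ^ 4 * (4 * x ^ 2 + 6 * x + 2) ≤ (62 * Z) ^ 4 * (3782 * Z ^ 2) :=
        mul_le_mul (pow_le_pow_left₀ (by linarith) a1 4) a2 (by positivity) (by positivity)
    _ = 62 ^ 4 * 3782 * Z ^ 6 := by ring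
    _ ≤ 2 * 10 ^ 11 * Z ^ 6 := mul_le_mul_of_nonneg_right (by norm_num) (by positivity)

/-- **(CELL-LAB)** the cells of the end rows reached from the rows of one gate with one label.
PLAN.  Empty set: trivial.   Otherwise fix `(u0, v0)`;  `n = ⌈29 s^-t⌉₊ ≤ 30 s^-t` (`Nat.ceil_lt_add_one`, `1 ≤ s^-t`), `4 ≤ n`;  `sf_zn_lab_box` puts the set into the set of `sf_zn_count U _ m0 n`;
`(2n+2)^4 (4n²+6n+2) ≤ (62 Z)^4 (3782 Z²) ≤ 2·10^11 Z^6`,  `Z^6 = s^-(6t)` (`Real.rpow_natCast`, `Real.rpow_mul`). -/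
theorem sf_zn_cell_lab (H : SfZn D π Ls C0 t) (k : ℝ) (hk : k ∈ D.G) (lam : SfTest) :
    (({m | ∃ (u : D.Rw) (v : D.Row 1), u.1 = k ∧ D.lab u.1 u.2 = lam ∧ sfZnChi (sfZnU D Ls) (D.ray 1 v) = m ∧ D.ZnCh u v} : Set SfZnCell).ncard : ℝ)
      ≤ 2 * 10 ^ 11 * D.s ^ (-(6 * t)) := by
  have hs := H.good.1.hs
  have h0 := hs.1
  have h1 := hs.2
  have hZ : 1 ≤ D.s ^ (-t) := sf_mc_p_one h0 h1 H.ht.1.le
  have hU : 0 < sfZnU D Ls := Real.rpow_pos_of_pos h0 _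
  have hZ6 : D.s ^ (-(6 * t)) = (D.s ^ (-t)) ^ 6 := by
    rw [← Real.rpow_natCast, ← Real.rpow_mul h0.le]
    congr 1
    push_cast
    ring
  rw [hZ6]
  rcases Set.eq_empty_or_nonempty ({m | ∃ (u : D.Rw) (v : D.Row 1), u.1 = k ∧ D.lab u.1 u.2 = lam ∧
      sfZnChi (sfZnU D Ls) (D.ray 1 v) = m ∧ D.ZnCh u v} : Set SfZnCell) with he | ⟨m0, u0, v0, hk0, hl0, rfl, hc0⟩
  · rw [he, Set.ncard_empty, Nat.cast_zero]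
    positivity
  · obtain ⟨hfin, hcard⟩ := sf_zn_count (sfZnU D Ls) hU (sfZnChi (sfZnU D Ls) (D.ray 1 v0)) ⌈29 * D.s ^ (-t)⌉₊
    have hn1 : 29 * D.s ^ (-t) ≤ (⌈29 * D.s ^ (-t)⌉₊ : ℝ) := Nat.le_ceil _
    have hn2 : (⌈29 * D.s ^ (-t)⌉₊ : ℝ) ≤ 30 * D.s ^ (-t) := by
      have := Nat.ceil_lt_add_one (show 0 ≤ 29 * D.s ^ (-t) by positivity)
      linarith
    refine le_trans (Nat.cast_le.2 ((Set.ncard_le_ncard ?_ hfin).trans hcard)) (sf_zn_cell_num _ hZ _ hn2)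
    rintro m ⟨u, v, hku, hlu, rfl, hc⟩
    obtain ⟨b1, b2, b3, b4, b5⟩ := sf_zn_lab_box H u0 u (hk0 ▸ hk) (hku.trans hk0.symm) (hlu.trans hl0.symm) v0 v hc0 hc
    refine ⟨D.ray 1 v, rfl, b1.trans hn1, b2.trans hn1, b3.trans hn1, b4.trans ?_, b5.trans ?_⟩
    · exact mul_le_mul_of_nonneg_right (by linarith) hU.le
    · exact mul_le_mul_of_nonneg_right (by linarith) hU.le

end Claimed.Agent.R256
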