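import Claimed.Agent.R256.Soft.AZnDefs

/-!
# Row 256 (S0496), unit SOFT, A10 ZN: RAYS ALONG CHAINS      (architect helper286)      leaf L-256-SOFT-ZN-NEAR      PAPER FREE, ONE `SfDoc`, powers of `s`
Tools: `sf_mc_anti`, `sf_mc_p_mono`, `sf_mc_p_mul`, `sf_mc_p_one`, `sf_mc_width`, `sf_mc_len_pos` (`Soft/AMinKit.lean`, `Soft/AMinFr.lean`), `sf_zn_box`.
-/

set_option autoImplicit false

namespace Claimed.Agent.R256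

open Claimed.Agent.R255

variable {D : SfDoc} {π : SfPar} {Ls C0 t : ℝ}

/-- **(NEAR)** the ray of a row on a chain to the end row `v`.
PLAN.  `u = ⟨1, v⟩`: all differences vanish.   Otherwise `k = u.1 < 1`:  base part = `H.neg` (unfold `SfRay.bdist`, `le_max_*`).   Classical (`π.hyb = false`): `Core.normC`, the rays are equal.
Hybrid: `Core.normH` at `(k, 1)`, `f 1 = 1`:  `|ΔN| ≤ s^-t`;   `|Δ Dt(T_v)| ≤ s^-t len k f k ≤ s^-t s^-t s^-(|Ls|+t)` (`Core.hlen`, `k ≥ 0`; `sf_mc_width`);   `ΔD = Δ Dt(T_v) - T_v ΔN`, `0 ≤ T_v ≤ 1` (`Core.own`). -/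
theorem sf_zn_near (H : SfZn D π Ls C0 t) (u : D.Rw) (hu : u.1 ∈ D.G) (v : D.Row 1) (h : D.ZnCh u v) :
    |(D.ray u.1 u.2).X - (D.ray 1 v).X| ≤ D.s ^ (|C0| + 4) ∧ |(D.ray u.1 u.2).B - (D.ray 1 v).B| ≤ D.s ^ (|C0| + 4) ∧
    |(D.ray u.1 u.2).Y - (D.ray 1 v).Y| ≤ D.s ^ (|C0| + 4) ∧ |(D.ray u.1 u.2).N - (D.ray 1 v).N| ≤ D.s ^ (-t) ∧
    |(D.ray u.1 u.2).D - (D.ray 1 v).D| ≤ 2 * D.s ^ (-(|Ls| + 3 * t)) := by
  have hC := H.good.1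
  have hs := hC.hs
  have hp : ∀ x : ℝ, 0 < D.s ^ x := fun x => Real.rpow_pos_of_pos hs.1 x
  rcases h with rfl | ⟨hlt, hc⟩
  · simp only [sub_self, abs_zero]
    exact ⟨(hp _).le, (hp _).le, (hp _).le, (hp _).le, by have := hp (-(|Ls| + 3 * t)); linarith⟩
  have g1 := hC.gate.1
  have hb := H.neg u.1 hu 1 g1 hlt u.2 v hc
  unfold SfRay.bdist at hb
  have b1 := (le_max_left _ _).trans hb
  have b2 := ((le_max_left _ _).trans (le_max_right _ _)).trans hb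
  have b3 := ((le_max_right _ _).trans (le_max_right _ _)).trans hb
  refine ⟨b1, b2, b3, ?_⟩
  cases hh : π.hyb with
  | false =>
    have e := hC.normC hh u.1 hu 1 g1 hlt u.2 v hc
    rw [e]
    simp only [sub_self, abs_zero]
    exact ⟨(hp _).le, by have := hp (-(|Ls| + 3 * t)); linarith⟩
  | true =>
    obtain ⟨n1, n2⟩ := hC.normH hh u.1 hu 1 g1 hlt u.2 v hc
    rw [hC.hw.2.1, mul_one] at n1
    have hk := hC.gate.2 u.1 hu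
    have hl := (hC.hlen.2 u.1 hu).2
    have hl0 := sf_mc_len_pos D π C0 t hC u.1 hu
    have hl' : D.len u.1 ≤ D.s ^ (-t) := hl.trans (sf_mc_anti hs.1 hs.2 (by linarith [hk.1]))
    have hw := sf_mc_width D π Ls C0 t H.ht.1 H.good u.1 hu
    have hf0 : 0 < D.f u.1 := (hC.hw.2.2 u.1 hu).2
    have hlf : D.len u.1 * D.f u.1 ≤ D.s ^ (-t) * D.s ^ (-(|Ls| + t)) := mul_le_mul hl' hw.2.2.2 hf0.le (hp _).le
    have n2' : |(D.ray 1 v).Dt (D.T 1 v) - (D.ray u.1 u.2).Dt (D.T 1 v)| ≤ D.s ^ (-(|Ls| + 3 * t)) := by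
      refine n2.trans ?_
      calc D.s ^ (-t) * (D.len u.1 * D.f u.1) ≤ D.s ^ (-t) * (D.s ^ (-t) * D.s ^ (-(|Ls| + t))) :=
            mul_le_mul_of_nonneg_left hlf (hp _).le
        _ = D.s ^ (-(|Ls| + 3 * t)) := by
            rw [sf_mc_p_mul hs.1, sf_mc_p_mul hs.1]
            congr 1
            ring
    have ho := hC.own 1 g1 v
    have hT0 : 0 ≤ D.T 1 v := ho.2.2.2.1
    have hT1 : D.T 1 v ≤ 1 := by
      have := ho.2.2.2.2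
      rw [hC.hlen.1] at this
      linarith [hs.1]
    have hmono : D.s ^ (-t) ≤ D.s ^ (-(|Ls| + 3 * t)) := sf_mc_p_mono hs.1 hs.2 (by linarith [abs_nonneg Ls, H.ht.1])
    have n1' : |(D.ray u.1 u.2).N - (D.ray 1 v).N| ≤ D.s ^ (-t) := by rw [abs_sub_comm]; exact n1
    refine ⟨n1', ?_⟩
    have hTN : |D.T 1 v * ((D.ray u.1 u.2).N - (D.ray 1 v).N)| ≤ D.s ^ (-t) := by
      rw [abs_mul, abs_of_nonneg hT0]
      calc D.T 1 v * |(D.ray u.1 u.2).N - (D.ray 1 v).N| ≤ 1 * D.s ^ (-t) := mul_le_mul hT1 n1' (abs_nonneg _) zero_le_one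
        _ = D.s ^ (-t) := one_mul _
    unfold SfRay.Dt at n2'
    rw [abs_le] at n2' hTN ⊢
    constructor <;> linarith [n2'.1, n2'.2, hTN.1, hTN.2]

/-- the first index of the cell of an end row      (`Core.bdd`, `|⌊x⌋| ≤ |x| + 1`) -/
theorem sf_zn_m_bd (H : SfZn D π Ls C0 t) (U : ℝ) (v : D.Row 1) : |((sfZnChi U (D.ray 1 v)).1 : ℝ)| ≤ D.s ^ (-|C0|) + 1 := by
  have hC := H.good.1
  have hs := hC.hs
  have hb := (hC.bdd 1 hC.gate.1 v).1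
  unfold SfRay.size at hb
  have hX : |(D.ray 1 v).X| ≤ D.s ^ (-|C0|) :=
    ((le_max_left _ _).trans hb).trans (sf_mc_p_mono hs.1 hs.2 (le_abs_self C0))
  show |((⌊(D.ray 1 v).X⌋ : ℤ) : ℝ)| ≤ _
  have h1 := Int.floor_le (D.ray 1 v).X
  have h2 := Int.lt_floor_add_one (D.ray 1 v).X
  rw [abs_le] at hX ⊢
  constructor <;> linarith [hX.1, hX.2]

/-- **(MOVE)** chart coordinates in ANY reference cell whose first index is polynomial.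
PLAN: `sf_zn_near`;   `ΔY' = ΔY - 2 m0.1 ΔB`,  `|.| ≤ s^(|C0|+4) (3 + 2 s^-|C0|) ≤ 5 s^4 ≤ 1`;   `s^-t ≤ U`,  `2 s^-(|Ls|+3t) ≤ s^-(|Ls|+3t+1) ≤ U`. -/
theorem sf_zn_move (H : SfZn D π Ls C0 t) (u : D.Rw) (hu : u.1 ∈ D.G) (v : D.Row 1) (h : D.ZnCh u v) (m0 : SfZnCell)
    (hm0 : |(m0.1 : ℝ)| ≤ D.s ^ (-|C0|) + 1) :
    |(sfZnXi (sfZnU D Ls) m0 (D.ray u.1 u.2)).X - (sfZnXi (sfZnU D Ls) m0 (D.ray 1 v)).X| ≤ 1 ∧
    |(sfZnXi (sfZnU D Ls) m0 (D.ray u.1 u.2)).B - (sfZnXi (sfZnU D Ls) m0 (D.ray 1 v)).B| ≤ 1 ∧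
    |(sfZnXi (sfZnU D Ls) m0 (D.ray u.1 u.2)).Y - (sfZnXi (sfZnU D Ls) m0 (D.ray 1 v)).Y| ≤ 1 ∧
    |(sfZnXi (sfZnU D Ls) m0 (D.ray u.1 u.2)).N - (sfZnXi (sfZnU D Ls) m0 (D.ray 1 v)).N| ≤ sfZnU D Ls ∧
    |(sfZnXi (sfZnU D Ls) m0 (D.ray u.1 u.2)).D - (sfZnXi (sfZnU D Ls) m0 (D.ray 1 v)).D| ≤ sfZnU D Ls := by
  have hC := H.good.1
  have hs := hC.hs
  have hp : ∀ x : ℝ, 0 < D.s ^ x := fun x => Real.rpow_pos_of_pos hs.1 x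
  obtain ⟨n1, n2, n3, n4, n5⟩ := sf_zn_near H u hu v h
  have hs4 : D.s ^ (4 : ℝ) ≤ 1 / 1000 := by
    have := sf_mc_anti hs.1 hs.2 (show (1 : ℝ) ≤ 4 by norm_num)
    rw [Real.rpow_one] at this
    exact this.trans H.small
  have he4 : D.s ^ (|C0| + 4) ≤ D.s ^ (4 : ℝ) := sf_mc_anti hs.1 hs.2 (by linarith [abs_nonneg C0])
  have hem : D.s ^ (-|C0|) * D.s ^ (|C0| + 4) = D.s ^ (4 : ℝ) := by
    rw [← Real.rpow_add hs.1]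
    congr 1
    ring
  have hinv : (2 : ℝ) ≤ D.s ^ (-(1 : ℝ)) := by
    rw [Real.rpow_neg_one]
    have : (1000 : ℝ) ≤ D.s⁻¹ := by
      rw [le_inv_comm₀ (by norm_num) hs.1]
      exact H.small.trans (by norm_num)
    linarith
  simp only [sfZnXi]
  refine ⟨?_, ?_, ?_, ?_, ?_⟩
  · have e : (D.ray u.1 u.2).X - (m0.1 : ℝ) - ((D.ray 1 v).X - (m0.1 : ℝ)) = (D.ray u.1 u.2).X - (D.ray 1 v).X := by ring
    rw [e]
    linarith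
  · have e : (D.ray u.1 u.2).B - (m0.2.1 : ℝ) - ((D.ray 1 v).B - (m0.2.1 : ℝ)) = (D.ray u.1 u.2).B - (D.ray 1 v).B := by ring
    rw [e]
    linarith
  · have e : (D.ray u.1 u.2).Y - 2 * (m0.1 : ℝ) * (D.ray u.1 u.2).B - (m0.2.2.1 : ℝ) - ((D.ray 1 v).Y - 2 * (m0.1 : ℝ) * (D.ray 1 v).B - (m0.2.2.1 : ℝ))
        = ((D.ray u.1 u.2).Y - (D.ray 1 v).Y) - (m0.1 : ℝ) * ((D.ray u.1 u.2).B - (D.ray 1 v).B) * 2 := by ring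
    rw [e]
    refine (abs_sub _ _).trans ?_
    rw [abs_mul _ (2 : ℝ), abs_two, abs_mul]
    have : |(m0.1 : ℝ)| * |(D.ray u.1 u.2).B - (D.ray 1 v).B| ≤ (D.s ^ (-|C0|) + 1) * D.s ^ (|C0| + 4) :=
      mul_le_mul hm0 n2 (abs_nonneg _) (by have := hp (-|C0|); linarith)
    rw [add_mul, hem, one_mul] at this
    linarith
  · have e : (D.ray u.1 u.2).N - sfZnU D Ls * (m0.2.2.2.1 : ℝ) - ((D.ray 1 v).N - sfZnU D Ls * (m0.2.2.2.1 : ℝ)) = (D.ray u.1 u.2).N - (D.ray 1 v).N := by ring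
    rw [e]
    refine n4.trans ?_
    unfold sfZnU sfZnW
    exact sf_mc_p_mono hs.1 hs.2 (by linarith [abs_nonneg Ls, abs_nonneg (3 * Ls + 1), H.ht.2])
  · have e : (D.ray u.1 u.2).D - sfZnU D Ls * (m0.2.2.2.2 : ℝ) - ((D.ray 1 v).D - sfZnU D Ls * (m0.2.2.2.2 : ℝ)) = (D.ray u.1 u.2).D - (D.ray 1 v).D := by ring
    rw [e]
    refine n5.trans ?_
    calc 2 * D.s ^ (-(|Ls| + 3 * t)) ≤ D.s ^ (-(1 : ℝ)) * D.s ^ (-(|Ls| + 3 * t)) := mul_le_mul_of_nonneg_right hinv (hp _).le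
      _ = D.s ^ (-(1 + (|Ls| + 3 * t))) := sf_mc_p_mul hs.1 _ _
      _ ≤ sfZnU D Ls := by
          unfold sfZnU sfZnW
          exact sf_mc_p_mono hs.1 hs.2 (by linarith [abs_nonneg Ls, abs_nonneg (3 * Ls + 1), H.ht.2])

/-- **(XI)** chart coordinates in the cell of the end row      (`sf_zn_box` + `sf_zn_move` + `sf_zn_m_bd`) -/
theorem sf_zn_xi (H : SfZn D π Ls C0 t) (u : D.Rw) (hu : u.1 ∈ D.G) (v : D.Row 1) (h : D.ZnCh u v) :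
    |(sfZnXi (sfZnU D Ls) (sfZnChi (sfZnU D Ls) (D.ray 1 v)) (D.ray u.1 u.2)).X| ≤ 2 ∧
    |(sfZnXi (sfZnU D Ls) (sfZnChi (sfZnU D Ls) (D.ray 1 v)) (D.ray u.1 u.2)).B| ≤ 2 ∧
    |(sfZnXi (sfZnU D Ls) (sfZnChi (sfZnU D Ls) (D.ray 1 v)) (D.ray u.1 u.2)).Y| ≤ 2 ∧
    |(sfZnXi (sfZnU D Ls) (sfZnChi (sfZnU D Ls) (D.ray 1 v)) (D.ray u.1 u.2)).N| ≤ 2 * sfZnU D Ls ∧
    |(sfZnXi (sfZnU D Ls) (sfZnChi (sfZnU D Ls) (D.ray 1 v)) (D.ray u.1 u.2)).D| ≤ 2 * sfZnU D Ls := by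
  have hU : 0 < sfZnU D Ls := Real.rpow_pos_of_pos H.good.1.hs.1 _
  obtain ⟨b1, b2, b3, b4, b5⟩ := sf_zn_box (sfZnU D Ls) hU (D.ray 1 v)
  obtain ⟨m1, m2, m3, m4, m5⟩ := sf_zn_move H u hu v h (sfZnChi (sfZnU D Ls) (D.ray 1 v)) (sf_zn_m_bd H _ v)
  rw [abs_le] at m1 m2 m3 m4 m5
  refine ⟨abs_le.2 ⟨?_, ?_⟩, abs_le.2 ⟨?_, ?_⟩, abs_le.2 ⟨?_, ?_⟩, abs_le.2 ⟨?_, ?_⟩, abs_le.2 ⟨?_, ?_⟩⟩ <;>
    linarith [b1.1, b1.2, b2.1, b2.2, b3.1, b3.2, b4.1, b4.2, b5.1, b5.2, m1.1, m1.2, m2.1, m2.2, m3.1, m3.2, m4.1, m4.2, m5.1, m5.2]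

end Claimed.Agent.R256
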