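import Claimed.Agent.R256.Soft.AZnCount
import Claimed.Agent.R256.Soft.AZnNear

/-!
# Row 256 (S0496), unit SOFT, A10 ZN: CELLS REACHED FROM ONE ROOT ROW      (architect helper286)      leaf L-256-SOFT-ZN-CELLSB      PAPER FREE
-/

set_option autoImplicit false

namespace Claimed.Agent.R256

open Claimed.Agent.R255

variable {D : SfDoc} {π : SfPar} {Ls C0 t : ℝ}

theorem sf_zn_cell_sb_aux (a b c r : ℝ) (h1 : |a - b| ≤ r) (h2 : |a - c| ≤ r) (h3 : 0 ≤ c ∧ c < r) : |b| ≤ ((3 : ℕ) : ℝ) * r := by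
  have e1 := abs_le.1 h1
  have e2 := abs_le.1 h2
  push_cast
  rw [abs_le]
  constructor <;> linarith [e1.1, e1.2, e2.1, e2.2, h3.1, h3.2]

/-- **(CELL-SB)** the cells of the end rows reached from one row of the gate `0`.
PLAN.  Empty set: `Set.ncard_empty`.   Otherwise fix `v0` in it, `m0 = sfZnChi U (ray 1 v0)` (`sf_zn_m_bd`).   For `v` in the set use `sf_zn_move` twice (`u = ⟨0, ρ⟩`, `D.ZnCh u v = Or.inr ⟨zero_lt_one, hc⟩`, reference cell `m0`) and `sf_zn_box` for `v0`: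
the chart coordinates of `ray 1 v` in `m0` are `≤ 3`, resp. `≤ 3 U`.   `sf_zn_count U _ m0 3` + `Set.ncard_le_ncard`:   `8^4 * 56 = 229376`. -/
theorem sf_zn_cell_sb (H : SfZn D π Ls C0 t) (ρ : D.Row 0) :
    ({m | ∃ v : D.Row 1, sfZnChi (sfZnU D Ls) (D.ray 1 v) = m ∧ D.Conn 0 1 ρ v} : Set SfZnCell).ncard ≤ 229376 := by
  rcases Set.eq_empty_or_nonempty ({m | ∃ v : D.Row 1, sfZnChi (sfZnU D Ls) (D.ray 1 v) = m ∧ D.Conn 0 1 ρ v} : Set SfZnCell) with he | ⟨m0, v0, hm0, hc0⟩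
  · rw [he, Set.ncard_empty]
    exact Nat.zero_le _
  have hs := H.good.1.hs
  have hU : 0 < sfZnU D Ls := Real.rpow_pos_of_pos hs.1 _
  have hb0 : |(m0.1 : ℝ)| ≤ D.s ^ (-|C0|) + 1 := by
    rw [← hm0]
    exact sf_zn_m_bd H _ v0
  obtain ⟨hfin, hcard⟩ := sf_zn_count (sfZnU D Ls) hU m0 3
  refine (Set.ncard_le_ncard ?_ hfin).trans (hcard.trans (by norm_num))
  rintro m ⟨v, hm, hc⟩
  refine ⟨D.ray 1 v, hm, ?_⟩
  obtain ⟨a1, a2, a3, a4, a5⟩ := sf_zn_move H ⟨0, ρ⟩ H.g0 v (Or.inr ⟨zero_lt_one, hc⟩) m0 hb0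
  obtain ⟨b1, b2, b3, b4, b5⟩ := sf_zn_move H ⟨0, ρ⟩ H.g0 v0 (Or.inr ⟨zero_lt_one, hc0⟩) m0 hb0
  obtain ⟨c1, c2, c3, c4, c5⟩ := sf_zn_box (sfZnU D Ls) hU (D.ray 1 v0)
  rw [hm0] at c1 c2 c3 c4 c5
  have k1 := sf_zn_cell_sb_aux _ _ _ 1 a1 b1 c1
  have k2 := sf_zn_cell_sb_aux _ _ _ 1 a2 b2 c2
  have k3 := sf_zn_cell_sb_aux _ _ _ 1 a3 b3 c3
  rw [mul_one] at k1 k2 k3
  exact ⟨k1, k2, k3, sf_zn_cell_sb_aux _ _ _ _ a4 b4 c4, sf_zn_cell_sb_aux _ _ _ _ a5 b5 c5⟩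

end Claimed.Agent.R256
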