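import Claimed.Agent.R256.Soft.AZnDefs

/-!
# Row 256 (S0496), unit SOFT, A10 ZN: COUNTING ROOT CELLS      (architect helper286)      leaf L-256-SOFT-ZN-COUNT      PAPER FREE, pure (floors, finite sets of integers)
-/

set_option autoImplicit false

namespace Claimed.Agent.R256

theorem sf_zn_count_fl (x : ℝ) (k : ℤ) (M : ℤ) (h1 : (k : ℝ) ≤ x) (h2 : x < k + 1) (h : |x| ≤ M) : k ∈ Finset.Icc (-M) M := by
  rw [Finset.mem_Icc]
  obtain ⟨ha, hb⟩ := abs_le.mp h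
  constructor
  · have h3 : ((-M : ℤ) : ℝ) < ((k + 1 : ℤ) : ℝ) := by
      push_cast
      linarith
    have h4 := Int.cast_lt.mp h3
    omega
  · have h3 : (k : ℝ) ≤ (M : ℝ) := by linarith
    exact_mod_cast h3

theorem sf_zn_count_card (n : ℕ) :
    (Finset.Icc (-(n : ℤ)) n ×ˢ Finset.Icc (-(n : ℤ)) n ×ˢ Finset.Icc (-((2 * n ^ 2 + n : ℕ) : ℤ)) ((2 * n ^ 2 + n : ℕ) : ℤ) ×ˢ Finset.Icc (-(n : ℤ)) n ×ˢ Finset.Icc (-(n : ℤ)) n).card
      ≤ (2 * n + 2) ^ 4 * (4 * n ^ 2 + 6 * n + 2) := by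
  have c1 : ∀ k : ℕ, (Finset.Icc (-(k : ℤ)) k).card = 2 * k + 1 := by
    intro k
    rw [Int.card_Icc]
    omega
  rw [Finset.card_product, Finset.card_product, Finset.card_product, Finset.card_product, c1, c1]
  have h1 : 2 * n + 1 ≤ 2 * n + 2 := by omega
  have h2 : 2 * (2 * n ^ 2 + n) + 1 ≤ 4 * n ^ 2 + 6 * n + 2 := by nlinarith
  calc (2 * n + 1) * ((2 * n + 1) * ((2 * (2 * n ^ 2 + n) + 1) * ((2 * n + 1) * (2 * n + 1))))
      ≤ (2 * n + 2) * ((2 * n + 2) * ((4 * n ^ 2 + 6 * n + 2) * ((2 * n + 2) * (2 * n + 2)))) := by gcongr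
    _ = (2 * n + 2) ^ 4 * (4 * n ^ 2 + 6 * n + 2) := by ring

/-- **(COUNT)** the cells of the rays whose chart coordinates in a reference cell `m0` are `≤ n` (base), `≤ n U` (normal).
PLAN.  Let `m = sfZnChi U z`, `ξ = sfZnXi U m0 z`.   `m.1 - m0.1 = ⌊ξ.X⌋`, `m.2.1 - m0.2.1 = ⌊ξ.B⌋`, `m4 - m04 = ⌊ξ.N / U⌋`, `m5 - m05 = ⌊ξ.D / U⌋`  (`Int.floor_sub_intCast`): all in `Icc (-n) n`.
With `e = m.1 - m0.1`:   `z.Y - 2 m.1 z.B = ξ.Y + m03 - 2 e (ξ.B + m02)`,  so  `m3 - m03 + 2 e m02 = ⌊ξ.Y - 2 e ξ.B⌋ ∈ Icc (-(2n²+n)) (2n²+n)`.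
The map `m ↦ (m.1 - m0.1, m2 - m02, m3 - m03 + 2 (m.1 - m0.1) m02, m4 - m04, m5 - m05)` is injective and sends the set into a product of `Finset.Icc`'s: `Set.ncard_le_ncard_of_injOn` / `Set.Finite.subset`, `Int.card_Icc`. -/
theorem sf_zn_count (U : ℝ) (hU : 0 < U) (m0 : SfZnCell) (n : ℕ) :
    ({m | ∃ z : SfRay, sfZnChi U z = m ∧ |(sfZnXi U m0 z).X| ≤ n ∧ |(sfZnXi U m0 z).B| ≤ n ∧ |(sfZnXi U m0 z).Y| ≤ n ∧
        |(sfZnXi U m0 z).N| ≤ n * U ∧ |(sfZnXi U m0 z).D| ≤ n * U} : Set SfZnCell).Finite ∧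
    ({m | ∃ z : SfRay, sfZnChi U z = m ∧ |(sfZnXi U m0 z).X| ≤ n ∧ |(sfZnXi U m0 z).B| ≤ n ∧ |(sfZnXi U m0 z).Y| ≤ n ∧
        |(sfZnXi U m0 z).N| ≤ n * U ∧ |(sfZnXi U m0 z).D| ≤ n * U} : Set SfZnCell).ncard ≤ (2 * n + 2) ^ 4 * (4 * n ^ 2 + 6 * n + 2) := by
  set S : Set SfZnCell := {m | ∃ z : SfRay, sfZnChi U z = m ∧ |(sfZnXi U m0 z).X| ≤ n ∧ |(sfZnXi U m0 z).B| ≤ n ∧ |(sfZnXi U m0 z).Y| ≤ n ∧
        |(sfZnXi U m0 z).N| ≤ n * U ∧ |(sfZnXi U m0 z).D| ≤ n * U} with hS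
  let g : SfZnCell → ℤ × ℤ × ℤ × ℤ × ℤ := fun m =>
    (m.1 - m0.1, m.2.1 - m0.2.1, m.2.2.1 - m0.2.2.1 + 2 * (m.1 - m0.1) * m0.2.1, m.2.2.2.1 - m0.2.2.2.1, m.2.2.2.2 - m0.2.2.2.2)
  have hg : Function.Injective g := by
    rintro ⟨a1, a2, a3, a4, a5⟩ ⟨b1, b2, b3, b4, b5⟩ h
    simp only [g, Prod.mk.injEq] at h
    obtain ⟨h1, h2, h3, h4, h5⟩ := h
    have e1 : a1 = b1 := by omega
    subst e1
    have e2 : a2 = b2 := by omega
    have e3 : a3 = b3 := by linarith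
    have e4 : a4 = b4 := by omega
    have e5 : a5 = b5 := by omega
    rw [e2, e3, e4, e5]
  let T : Finset (ℤ × ℤ × ℤ × ℤ × ℤ) :=
    Finset.Icc (-(n : ℤ)) n ×ˢ Finset.Icc (-(n : ℤ)) n ×ˢ Finset.Icc (-((2 * n ^ 2 + n : ℕ) : ℤ)) ((2 * n ^ 2 + n : ℕ) : ℤ) ×ˢ Finset.Icc (-(n : ℤ)) n ×ˢ Finset.Icc (-(n : ℤ)) n
  have hmap : Set.MapsTo g S (T : Set (ℤ × ℤ × ℤ × ℤ × ℤ)) := by
    rintro m ⟨z, rfl, hX, hB, hY, hN, hD⟩
    obtain ⟨m1, m2, m3, m4, m5⟩ := m0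
    simp only [sfZnXi] at hX hB hY hN hD
    have fX := Int.floor_le z.X
    have fX' := Int.lt_floor_add_one z.X
    have fB := Int.floor_le z.B
    have fB' := Int.lt_floor_add_one z.B
    have fY := Int.floor_le (z.Y - 2 * (⌊z.X⌋ : ℝ) * z.B)
    have fY' := Int.lt_floor_add_one (z.Y - 2 * (⌊z.X⌋ : ℝ) * z.B)
    have fN := Int.floor_le (z.N / U)
    have fN' := Int.lt_floor_add_one (z.N / U)
    have fD := Int.floor_le (z.D / U)
    have fD' := Int.lt_floor_add_one (z.D / U)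
    have k1 : ⌊z.X⌋ - m1 ∈ Finset.Icc (-(n : ℤ)) n := by
      apply sf_zn_count_fl (z.X - m1)
      · push_cast; linarith
      · push_cast; linarith
      · exact_mod_cast hX
    have k2 : ⌊z.B⌋ - m2 ∈ Finset.Icc (-(n : ℤ)) n := by
      apply sf_zn_count_fl (z.B - m2)
      · push_cast; linarith
      · push_cast; linarith
      · exact_mod_cast hB
    have hdiv : ∀ (x : ℝ) (k : ℤ), |x - U * k| ≤ n * U → |x / U - k| ≤ n := by
      intro x k h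
      have e : x / U - k = (x - U * k) / U := by field_simp
      rw [e, abs_div, abs_of_pos hU, div_le_iff₀ hU]
      exact h
    have k4 : ⌊z.N / U⌋ - m4 ∈ Finset.Icc (-(n : ℤ)) n := by
      apply sf_zn_count_fl (z.N / U - m4)
      · push_cast; linarith
      · push_cast; linarith
      · exact_mod_cast hdiv _ _ hN
    have k5 : ⌊z.D / U⌋ - m5 ∈ Finset.Icc (-(n : ℤ)) n := by
      apply sf_zn_count_fl (z.D / U - m5)
      · push_cast; linarith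
      · push_cast; linarith
      · exact_mod_cast hdiv _ _ hD
    have k3 : ⌊z.Y - 2 * (⌊z.X⌋ : ℝ) * z.B⌋ - m3 + 2 * (⌊z.X⌋ - m1) * m2 ∈ Finset.Icc (-((2 * n ^ 2 + n : ℕ) : ℤ)) ((2 * n ^ 2 + n : ℕ) : ℤ) := by
      apply sf_zn_count_fl ((z.Y - 2 * m1 * z.B - m3) - 2 * ((⌊z.X⌋ : ℝ) - m1) * (z.B - m2))
      · push_cast; linarith
      · push_cast; linarith
      · have he : |(⌊z.X⌋ : ℝ) - m1| ≤ n := by
          rw [Finset.mem_Icc] at k1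
          rw [abs_le]
          constructor
          · have := k1.1
            have h : ((-(n : ℤ) : ℤ) : ℝ) ≤ ((⌊z.X⌋ - m1 : ℤ) : ℝ) := Int.cast_le.mpr this
            push_cast at h
            exact h
          · have := k1.2
            have h : ((⌊z.X⌋ - m1 : ℤ) : ℝ) ≤ (((n : ℤ) : ℤ) : ℝ) := Int.cast_le.mpr this
            push_cast at h
            exact h
        have hn : (0 : ℝ) ≤ n := Nat.cast_nonneg n
        calc |(z.Y - 2 * m1 * z.B - m3) - 2 * ((⌊z.X⌋ : ℝ) - m1) * (z.B - m2)|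
            ≤ |z.Y - 2 * m1 * z.B - m3| + |2 * ((⌊z.X⌋ : ℝ) - m1) * (z.B - m2)| := abs_sub _ _
          _ = |z.Y - 2 * m1 * z.B - m3| + 2 * (|(⌊z.X⌋ : ℝ) - m1| * |z.B - m2|) := by
              rw [abs_mul, abs_mul, abs_of_pos (by norm_num : (0 : ℝ) < 2)]
              ring
          _ ≤ n + 2 * ((n : ℝ) * n) := by
              gcongr
          _ = (((2 * n ^ 2 + n : ℕ) : ℤ) : ℝ) := by
              push_cast
              ring
    simp only [g, T, sfZnChi, Finset.coe_product, Set.mem_prod, Finset.mem_coe]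
    exact ⟨k1, k2, k3, k4, k5⟩
  have hfin : S.Finite := Set.Finite.of_injOn hmap hg.injOn T.finite_toSet
  refine ⟨hfin, ?_⟩
  calc S.ncard ≤ (T : Set (ℤ × ℤ × ℤ × ℤ × ℤ)).ncard := Set.ncard_le_ncard_of_injOn g hmap hg.injOn T.finite_toSet
    _ = T.card := Set.ncard_coe_finset T
    _ ≤ _ := sf_zn_count_card n

end Claimed.Agent.R256
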