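import Claimed.Agent.R256.Soft.AMinFr

/-!
# Row 256 (S0496), unit SOFT, A10 ZN, file 1: ROOT CELLS      (architect helper286; chief helper19; prefix `sf_zn_`, `sfZn`, `SfZn`)      no sorry

Chain under `sf_zn` (`Soft/Contract.lean`; 02-cylinder.tex l.938-955): zero costs with ONE support constant on every mesh.
## PLAN
`Feas1 0` at a fine accuracy (support constant `C0` arbitrary) → DOC on the mesh `{0} ∪ F ∪ {1}` → GE on `[0,1]`, ALL gates kept, bins = ROOT CELLS of the rays of the END rows, frames = base boost + translation + CONSTANT normal translation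
(they change neither `R_2` nor `R_1`).   In the frame of its cell everything that is connected to an end row is bounded by `s^-(sfZnC Ls)`, an exponent that depends on `Ls` only: the piece has the support constant `cF (sfZnC Ls)`.
## ROOT CELLS (time ZERO coordinates; the root interval has length `len 0 = s^(± t)`, so units `1` are as good as units `len 0`)
`sfZnChi U z = (⌊X⌋, ⌊B⌋, ⌊Y - 2 ⌊X⌋ B⌋, ⌊N/U⌋, ⌊D/U⌋)`      Heisenberg lattice in the base, lattice of unit `U = s^-(sfZnW Ls)` in the normal phase plane.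
`sfZnXi U m z = (X - m1, B - m2, Y - 2 m1 B - m3, N - U m4, D - U m5)`      chart coordinates of `z` in the cell `m`;  `z` in the cell `m` ⟺ they lie in `[0,1)³ × [0,U)²` (`sf_zn_box`).
`sfZnFr L U T0 m`      the frame: root time `T0`, time unit `L`, centre = the ray `(m1, m2, m3 + 2 m1 m2)`, units `1`, shear = the constants `(U m4, U m5)`;   `sf_zn_ray_eq`: frame coordinates = `(ξ1, (ξ2 + T0 ξ1)/L, (ξ3 + T0 ξ1²)/L, ξ4, (ξ5 + T0 ξ4)/L)`.
## STANDING HYPOTHESES `SfZn D π Ls C0 t`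
good at the accuracy `t ≤ 1/16`, `0 ∈ G`, `s ≤ 1/1000`, zero costs `s^-t`, base errors along chains `≤ s^(|C0| + 4)` (they beat the support constant: new field of `Cal`).
## EXPONENTS      `E = |3 Ls + 1|`, `Λ = |Ls|`:   `sfZnA = E + Λ + 3` (shear parameters, widths),   `sfZnW = E + Λ + 6` (normal unit),   `sfZnC = E + Λ + 10` (support in the frame).
-/

set_option autoImplicit false

namespace Claimed.Agent.R256

open Claimed.Agent.R255

/-- exponent of the shear parameters -/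
noncomputable def sfZnA (Ls : ℝ) : ℝ := |3 * Ls + 1| + |Ls| + 3
/-- exponent of the normal unit -/
noncomputable def sfZnW (Ls : ℝ) : ℝ := |3 * Ls + 1| + |Ls| + 6
/-- exponent of the support in the frame -/
noncomputable def sfZnC (Ls : ℝ) : ℝ := |3 * Ls + 1| + |Ls| + 10

/-- a root cell -/
abbrev SfZnCell : Type := ℤ × ℤ × ℤ × ℤ × ℤ

/-- the root cell of a ray -/
noncomputable def sfZnChi (U : ℝ) (z : SfRay) : SfZnCell :=
  (⌊z.X⌋, ⌊z.B⌋, ⌊z.Y - 2 * (⌊z.X⌋ : ℝ) * z.B⌋, ⌊z.N / U⌋, ⌊z.D / U⌋)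

/-- chart coordinates of a ray in a root cell -/
def sfZnXi (U : ℝ) (m : SfZnCell) (z : SfRay) : SfRay :=
  ⟨z.X - m.1, z.B - m.2.1, z.Y - 2 * m.1 * z.B - m.2.2.1, z.N - U * m.2.2.2.1, z.D - U * m.2.2.2.2⟩

/-- the frame of a root cell: root time `T0`, time unit `L` -/
def sfZnFr (L U T0 : ℝ) (m : SfZnCell) : SfFrame :=
  ⟨T0, L, m.1, m.2.1 + T0 * m.1, m.2.2.1 + 2 * m.1 * m.2.1 + T0 * (m.1 : ℝ) ^ 2, 1, 1, ⟨0, 0, 0, 0, U * m.2.2.2.1, U * m.2.2.2.2, 0, 0, 0, 0, 0⟩⟩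

/-- the normal unit of a configuration -/
noncomputable def sfZnU (D : SfDoc) (Ls : ℝ) : ℝ := D.s ^ (-(sfZnW Ls))

/-- `u` is the end row `v` or lies on a chain to `v` -/
def SfDoc.ZnCh (D : SfDoc) (u : D.Rw) (v : D.Row 1) : Prop := u = ⟨1, v⟩ ∨ (u.1 < 1 ∧ D.Conn u.1 1 u.2 v)

/-- the standing hypotheses -/
structure SfZn (D : SfDoc) (π : SfPar) (Ls C0 t : ℝ) : Prop where
  good : D.Good π Ls C0 t
  ht : 0 < t ∧ t ≤ 1 / 16
  g0 : (0 : ℝ) ∈ D.G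
  small : D.s ≤ 1 / 1000
  cost : D.Zero t
  neg : ∀ i ∈ D.G, ∀ j ∈ D.G, i < j → ∀ ρ ρ', D.Conn i j ρ ρ' → (D.ray i ρ).bdist (D.ray j ρ') ≤ D.s ^ (|C0| + 4)

theorem sf_zn_eqns_cite : True := by
  have := @sfZnA.eq_1
  have := @sfZnW.eq_1
  have := @sfZnC.eq_1
  have := @sfZnChi.eq_1
  have := @sfZnXi.eq_1
  have := @sfZnFr.eq_1
  have := @sfZnU.eq_1
  have := @SfDoc.ZnCh.eq_1
  trivial

/-- a ray lies in the unit box of its cell -/
theorem sf_zn_box (U : ℝ) (hU : 0 < U) (z : SfRay) :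
    (0 ≤ (sfZnXi U (sfZnChi U z) z).X ∧ (sfZnXi U (sfZnChi U z) z).X < 1) ∧ (0 ≤ (sfZnXi U (sfZnChi U z) z).B ∧ (sfZnXi U (sfZnChi U z) z).B < 1) ∧
    (0 ≤ (sfZnXi U (sfZnChi U z) z).Y ∧ (sfZnXi U (sfZnChi U z) z).Y < 1) ∧ (0 ≤ (sfZnXi U (sfZnChi U z) z).N ∧ (sfZnXi U (sfZnChi U z) z).N < U) ∧
    (0 ≤ (sfZnXi U (sfZnChi U z) z).D ∧ (sfZnXi U (sfZnChi U z) z).D < U) := by
  have hfl : ∀ x : ℝ, 0 ≤ x - (⌊x⌋ : ℝ) ∧ x - (⌊x⌋ : ℝ) < 1 := fun x => ⟨by linarith [Int.floor_le x], by linarith [Int.lt_floor_add_one x]⟩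
  have hfu : ∀ x : ℝ, 0 ≤ x - U * (⌊x / U⌋ : ℝ) ∧ x - U * (⌊x / U⌋ : ℝ) < U := by
    intro x
    obtain ⟨h1, h2⟩ := hfl (x / U)
    have e : x - U * (⌊x / U⌋ : ℝ) = U * (x / U - (⌊x / U⌋ : ℝ)) := by field_simp
    rw [e]
    exact ⟨mul_nonneg hU.le h1, by nlinarith⟩
  refine ⟨hfl _, hfl _, ?_, hfu _, hfu _⟩
  exact hfl (z.Y - 2 * (⌊z.X⌋ : ℝ) * z.B)

/-- frame coordinates from chart coordinates -/
theorem sf_zn_ray_eq (L U T0 : ℝ) (m : SfZnCell) (z : SfRay) :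
    (sfZnFr L U T0 m).ray z = ⟨(sfZnXi U m z).X, ((sfZnXi U m z).B + T0 * (sfZnXi U m z).X) / L, ((sfZnXi U m z).Y + T0 * (sfZnXi U m z).X ^ 2) / L,
      (sfZnXi U m z).N, ((sfZnXi U m z).D + T0 * (sfZnXi U m z).N) / L⟩ := by
  simp only [SfFrame.ray, sfZnFr, sfZnXi, SfRay.Bt, SfRay.Yt, SfRay.Dt, SfTest.shA, SfTest.shS, SfTest.beAt, SfRay.mk.injEq]
  refine ⟨by ring, by ring, by ring, by ring, by ring⟩

/-- the shear part of a test in the frame of a root cell -/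
theorem sf_zn_tst_eq (L U T0 : ℝ) (m : SfZnCell) (Q : SfTest) :
    ((sfZnFr L U T0 m).tst Q).T = (Q.T - T0) / L ∧ ((sfZnFr L U T0 m).tst Q).al = Q.al + 2 * Q.be * m.1 - 2 * Q.K * (m.2.1 + Q.T * m.1) ∧
      ((sfZnFr L U T0 m).tst Q).be = Q.be ∧ ((sfZnFr L U T0 m).tst Q).K = Q.K * L ∧ ((sfZnFr L U T0 m).tst Q).r = Q.r ∧ ((sfZnFr L U T0 m).tst Q).f = Q.f := by
  simp only [SfFrame.tst, sfZnFr, SfFrame.bc, SfTest.beAt]
  refine ⟨trivial, by ring, by ring, by ring, by ring, by ring⟩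

/-- the frames are positive -/
theorem sf_zn_fr_pos (L U T0 : ℝ) (m : SfZnCell) (hL : 0 < L) : (sfZnFr L U T0 m).Pos := ⟨hL, one_pos, one_pos⟩

/-- the costs do not see the frame -/
theorem sf_zn_fr_cost (L U T0 : ℝ) (m : SfZnCell) (Q : SfTest) (l : ℝ) :
    sfR2 Q (sfZnFr L U T0 m).sg l = sfR2 Q sfZero l ∧ sfR1 Q (sfZnFr L U T0 m).sg = sfR1 Q sfZero := by
  simp only [sfR2, sfR1, sfZnFr, sfZero, SfTest.beAt, SfTest.PdAt]
  exact ⟨trivial, trivial⟩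

end Claimed.Agent.R256
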