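import Claimed.Agent.R256.Soft.AZnDefs

/-!
# Row 256 (S0496), unit SOFT, A10 ZN: THE NUMBER OF ROOT INTERVALS      (architect helper286)      leaf L-256-SOFT-ZN-TIME      PAPER FREE
-/

set_option autoImplicit false

namespace Claimed.Agent.R256

open Claimed.Agent.R255

variable {D : SfDoc} {π : SfPar} {Ls C0 t : ℝ}

/-- **(TIME)** the root times above the end rows.
PLAN.  `sfMcAncT D 0 1 T'` is `0` or a time `D.T 0 ρ` (unfold, `dif_pos` / `dif_neg`): the range lies in `insert 0 (Set.range (D.T 0))`.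
The times of the gate `0` lie in `[0,1]` (`Core.own`) and are `len 0`-separated (`Core.grid`), `len 0 ≥ s^t` (`Core.hlen`):  `T ↦ ⌊T / len 0⌋` is injective on them with values in `Finset.Icc 0 ⌊1 / len 0⌋`,  so there are `≤ 1 / len 0 + 1 ≤ s^-t + 1` of them. -/
theorem sf_zn_times (H : SfZn D π Ls C0 t) :
    ((Set.range (fun ρ' : D.Row 1 => sfMcAncT D 0 1 (D.T 1 ρ'))).ncard : ℝ) ≤ D.s ^ (-t) + 2 := by
  classical
  have h : D.Core π C0 t := H.good.1
  obtain ⟨hs0, hs1⟩ := h.hs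
  obtain ⟨L, hL⟩ : ∃ L, L = D.len 0 := ⟨_, rfl⟩
  have hLge : D.s ^ t ≤ L := by
    have := (h.hlen.2 0 H.g0).1
    rwa [zero_add, ← hL] at this
  have hst : 0 < D.s ^ t := Real.rpow_pos_of_pos hs0 _
  have hL0 : 0 < L := hst.trans_le hLge
  obtain ⟨B, hB⟩ : ∃ B : Finset ℝ, B = Finset.univ.image (D.T 0) := ⟨_, rfl⟩
  have hsub : Set.range (fun ρ' : D.Row 1 => sfMcAncT D 0 1 (D.T 1 ρ')) ⊆ ((insert 0 B : Finset ℝ) : Set ℝ) := by
    rintro _ ⟨ρ', rfl⟩
    simp only [Finset.coe_insert, Set.mem_insert_iff, Finset.mem_coe]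
    unfold sfMcAncT
    split_ifs with hex
    · right
      rw [hB]
      exact Finset.mem_image_of_mem _ (Finset.mem_univ _)
    · left
      rfl
  have h1 : (Set.range (fun ρ' : D.Row 1 => sfMcAncT D 0 1 (D.T 1 ρ'))).ncard ≤ B.card + 1 := by
    refine (Set.ncard_le_ncard hsub (Finset.finite_toSet _)).trans ?_
    rw [Set.ncard_coe_finset]
    exact Finset.card_insert_le _ _
  have h2 : B.card ≤ (Finset.Icc (0 : ℤ) ⌊1 / L⌋).card := by
    refine Finset.card_le_card_of_injOn (fun T => ⌊T / L⌋) ?_ ?_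
    · intro T hT
      rw [hB] at hT
      obtain ⟨ρ, _, rfl⟩ := Finset.mem_image.1 hT
      obtain ⟨_, _, _, o1, o2⟩ := h.own 0 H.g0 ρ
      rw [← hL] at o2
      simp only [Finset.coe_Icc, Set.mem_Icc]
      refine ⟨Int.floor_nonneg.2 (div_nonneg o1 hL0.le), Int.floor_le_floor (div_le_div_of_nonneg_right (by linarith) hL0.le)⟩
    · intro T hT T' hT' hTT
      rw [hB] at hT hT'
      obtain ⟨ρ, _, rfl⟩ := Finset.mem_image.1 (Finset.mem_coe.1 hT)
      obtain ⟨ρ', _, rfl⟩ := Finset.mem_image.1 (Finset.mem_coe.1 hT')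
      by_contra hne
      have g := h.grid 0 H.g0 ρ ρ' hne
      rw [← hL] at g
      have a := Int.abs_sub_lt_one_of_floor_eq_floor hTT
      rw [← sub_div, abs_div, abs_of_pos hL0, div_lt_one hL0] at a
      linarith
  rw [Int.card_Icc] at h2
  have h3 : ((⌊1 / L⌋ + 1 - 0).toNat : ℝ) ≤ D.s ^ (-t) + 1 := by
    have hfl : 0 ≤ ⌊1 / L⌋ := Int.floor_nonneg.2 (by positivity)
    have e : ((⌊1 / L⌋ + 1 - 0).toNat : ℝ) = ((⌊1 / L⌋ + 1 - 0 : ℤ) : ℝ) := by
      have : (((⌊1 / L⌋ + 1 - 0).toNat : ℤ) : ℝ) = ((⌊1 / L⌋ + 1 - 0 : ℤ) : ℝ) := by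
        rw [Int.toNat_of_nonneg (by omega)]
      exact_mod_cast this
    rw [e]
    push_cast
    have f1 : (⌊1 / L⌋ : ℝ) ≤ 1 / L := Int.floor_le _
    have f2 : 1 / L ≤ D.s ^ (-t) := by
      rw [Real.rpow_neg hs0.le, ← one_div]
      exact one_div_le_one_div_of_le hst hLge
    linarith
  have h4 : ((Set.range (fun ρ' : D.Row 1 => sfMcAncT D 0 1 (D.T 1 ρ'))).ncard : ℝ) ≤ (B.card : ℝ) + 1 := by exact_mod_cast h1
  have h5 : (B.card : ℝ) ≤ ((⌊1 / L⌋ + 1 - 0).toNat : ℝ) := by exact_mod_cast h2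
  linarith

end Claimed.Agent.R256
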