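import Claimed.Agent.R255.Ent.Basic
import Claimed.Agent.R256.Soft.ACov
import Claimed.Agent.R256.Soft.AZnTime
import Claimed.Agent.R256.Soft.AZnCellSb
import Claimed.Agent.R256.Soft.AZnCellLab
import Claimed.Agent.R256.Soft.AZnFr

/-!
# Row 256 (S0496), unit SOFT, A10 ZN: THE ROOT CELLS ARE A COVER FOR GROUP EXTRACTION      (architect helper286)      no sorry in this file

`sf_zn_hyp`: under `SfZn D π Ls C0 t` the root cells of the end rays, refined by the root interval (`SfMcBin`), with the exact predecessor sets and the frames `sfZnFr`, satisfy `SfCls.GeHyp D 0 1 D.G ..` (ALL gates kept)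
with the support exponent `sfZnC Ls`, which depends on `Ls` only.      `sf_zn_out`: the piece has zero costs.
-/

set_option autoImplicit false

namespace Claimed.Agent.R256

open Claimed.Agent.R255

/-- the root cells that occur -/
abbrev SfZnI (D : SfDoc) (Ls : ℝ) : Type := Set.range (fun v : D.Row 1 => sfZnChi (sfZnU D Ls) (D.ray 1 v))

/-- the end rows of a root cell -/
def sfZnUb (D : SfDoc) (Ls : ℝ) (b : SfZnI D Ls) (v : D.Row 1) : Prop := sfZnChi (sfZnU D Ls) (D.ray 1 v) = b.1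

theorem sf_zn_hyp_eqns_cite : True := by
  have := @sfZnUb.eq_1
  trivial

variable {D : SfDoc} {π : SfPar} {Ls C0 t : ℝ}

/-- numerology of the overlaps -/
theorem sf_zn_num (H : SfZn D π Ls C0 t) (a : ℝ) (ha : 14 * t ≤ a) (hM : (10 : ℝ) ^ 12 ≤ D.s ^ (-(a / 2))) (c x : ℝ) (hc' : c ≤ 10 ^ 12)
    (hx : x ≤ 7 * t) : c * D.s ^ (-x) ≤ D.s ^ (-(a * (1 - 0))) := by
  have hs := H.good.1.hs
  have e : D.s ^ (-(a * (1 - 0))) = D.s ^ (-(a / 2)) * D.s ^ (-(a / 2)) := by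
    rw [sf_mc_p_mul hs.1]; congr 1; ring
  rw [e]
  exact mul_le_mul (hc'.trans hM) (sf_mc_p_mono hs.1 hs.2 (by linarith)) (Real.rpow_pos_of_pos hs.1 _).le (Real.rpow_pos_of_pos hs.1 _).le

/-- the root cells are a cover by (trivial) shear bins -/
theorem sf_zn_cv (H : SfZn D π Ls C0 t) (a : ℝ) (ha : 14 * t ≤ a) (hM : (10 : ℝ) ^ 12 ≤ D.s ^ (-(a / 2))) :
    SfCv D a 0 0 1 (SfZnI D Ls) (sfZnUb D Ls) (fun _ => sfZero) := by
  have hs := H.good.1.hs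
  have h1G := H.good.1.gate.1
  have ha0 : 0 < a := by linarith [H.ht.1]
  refine ⟨H.g0, h1G, zero_lt_one, fun b b' ρ' h h' => Subtype.ext (h.symm.trans h'), fun ρ => ?_, fun lam => ?_,
    fun b ρ' _ T _ _ => ?_, ?_⟩
  · have h1 : ({b | ∃ ρ', sfZnUb D Ls b ρ' ∧ D.Conn 0 1 ρ ρ'} : Set (SfZnI D Ls)).ncard
        ≤ ({m | ∃ v : D.Row 1, sfZnChi (sfZnU D Ls) (D.ray 1 v) = m ∧ D.Conn 0 1 ρ v} : Set SfZnCell).ncard := by
      refine Set.ncard_le_ncard_of_injOn Subtype.val ?_ (fun a _ b _ h => Subtype.ext h) ?_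
      · rintro b ⟨ρ', hb, hc⟩
        exact ⟨ρ', hb, hc⟩
      · refine (Set.finite_range (fun v : D.Row 1 => sfZnChi (sfZnU D Ls) (D.ray 1 v))).subset ?_
        rintro m ⟨v, hv, -⟩
        exact ⟨v, hv⟩
    have h2 := h1.trans (sf_zn_cell_sb H ρ)
    have h3 : ((({b | ∃ ρ', sfZnUb D Ls b ρ' ∧ D.Conn 0 1 ρ ρ'} : Set (SfZnI D Ls)).ncard : ℕ) : ℝ) ≤ ((229376 : ℕ) : ℝ) := by exact_mod_cast h2
    refine h3.trans ?_
    have := sf_zn_num H a ha hM 229376 0 (by norm_num) (by linarith [H.ht.1])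
    simpa using this
  · have h1 : ({b | ∃ ρ', sfZnUb D Ls b ρ' ∧ D.lab 1 ρ' = lam} : Set (SfZnI D Ls)).ncard
        ≤ ({m | ∃ (u : D.Rw) (v : D.Row 1), u.1 = 1 ∧ D.lab u.1 u.2 = lam ∧ sfZnChi (sfZnU D Ls) (D.ray 1 v) = m ∧ D.ZnCh u v} : Set SfZnCell).ncard := by
      refine Set.ncard_le_ncard_of_injOn Subtype.val ?_ (fun a _ b _ h => Subtype.ext h) ?_
      · rintro b ⟨ρ', hb, hl⟩
        exact ⟨⟨1, ρ'⟩, ρ', rfl, hl, hb, Or.inl rfl⟩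
      · refine (Set.finite_range (fun v : D.Row 1 => sfZnChi (sfZnU D Ls) (D.ray 1 v))).subset ?_
        rintro m ⟨-, v, -, -, hv, -⟩
        exact ⟨v, hv⟩
    have h3 : ((({b | ∃ ρ', sfZnUb D Ls b ρ' ∧ D.lab 1 ρ' = lam} : Set (SfZnI D Ls)).ncard : ℕ) : ℝ)
        ≤ (({m | ∃ (u : D.Rw) (v : D.Row 1), u.1 = 1 ∧ D.lab u.1 u.2 = lam ∧ sfZnChi (sfZnU D Ls) (D.ray 1 v) = m ∧ D.ZnCh u v} : Set SfZnCell).ncard : ℝ) := by
      exact_mod_cast h1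
    exact h3.trans ((sf_zn_cell_lab H 1 h1G lam).trans (sf_zn_num H a ha hM _ _ (by norm_num) (by linarith [H.ht.1])))
  · simp [sfZero, SfTest.beAt]
  · have h1 : (D.P 1).pr (fun ρ' => ∃ b, sfZnUb D Ls b ρ') = 1 := ent_pr_eq_one _ (fun ρ' _ => ⟨⟨_, ρ', rfl⟩, rfl⟩)
    rw [h1]
    exact Real.rpow_le_one hs.1.le hs.2.le (by linarith)

/-- **(HYP)** the root cells are a cover for group extraction, ALL gates kept, universal support exponent -/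
theorem sf_zn_hyp (H : SfZn D π Ls C0 t) (a : ℝ) (ha : 14 * t ≤ a) (hM : (10 : ℝ) ^ 12 ≤ D.s ^ (-(a / 2))) :
    SfCls.GeHyp D 0 1 D.G (SfMcBin D 0 1 (SfZnI D Ls)) (sfMcSb D 0 1 (sfZnUb D Ls)) (sfMcUb D 0 1 (sfZnUb D Ls))
      (fun b => sfZnFr (D.len 0) (sfZnU D Ls) b.2.1 b.1.1) a (sfZnC Ls) where
  gi := H.g0
  gj := H.good.1.gate.1
  kept := ⟨H.good.1.gate.1, fun k hk => ⟨hk, (H.good.1.gate.2 k hk).1, (H.good.1.gate.2 k hk).2⟩⟩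
  ub_dep := sf_mc_ub_dep
  ub_disj := sf_cv_ub_disj (sf_zn_cv H a ha hM)
  ub_mass := sf_cv_ub_mass H.good (sf_zn_cv H a ha hM) a le_rfl
  sb_dep := sf_mc_sb_dep
  sb_time := fun b u hu => sf_cv_sb_time H.good (sf_zn_cv H a ha hM) b u hu
  sb_pred := sf_mc_sb_pred
  sb_ovl := sf_cv_sb_ovl H.good (sf_zn_cv H a ha hM) a le_rfl
  lb_ovl := fun k hk lam => by
    have hs := H.good.1.hs
    have hfinC : ({m | ∃ (u : D.Rw) (v : D.Row 1), u.1 = k ∧ D.lab u.1 u.2 = lam ∧ sfZnChi (sfZnU D Ls) (D.ray 1 v) = m ∧ D.ZnCh u v} :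
        Set SfZnCell).Finite := by
      refine (Set.finite_range (fun v : D.Row 1 => sfZnChi (sfZnU D Ls) (D.ray 1 v))).subset ?_
      rintro m ⟨-, v, -, -, hv, -⟩
      exact ⟨v, hv⟩
    have h1 : ({b | ∃ u v : D.Rw, u.1 = k ∧ D.lab u.1 u.2 = lam ∧ sfMcUb D 0 1 (sfZnUb D Ls) b v ∧ (u = v ∨ (u.1 < v.1 ∧ D.Conn u.1 v.1 u.2 v.2))} :
        Set (SfMcBin D 0 1 (SfZnI D Ls))).ncard
        ≤ (({m | ∃ (u : D.Rw) (v : D.Row 1), u.1 = k ∧ D.lab u.1 u.2 = lam ∧ sfZnChi (sfZnU D Ls) (D.ray 1 v) = m ∧ D.ZnCh u v} : Set SfZnCell) ×ˢ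
            (Set.range (fun ρ' : D.Row 1 => sfMcAncT D 0 1 (D.T 1 ρ')))).ncard := by
      refine Set.ncard_le_ncard_of_injOn (fun b => (b.1.1, b.2.1)) ?_ ?_ (hfinC.prod (Set.finite_range _))
      · rintro b ⟨u, v, hu, hl, ⟨ρ', rfl, hU, -⟩, huv⟩
        exact ⟨⟨u, ρ', hu, hl, hU, huv⟩, b.2.2⟩
      · rintro b - b' - hbb
        have e1 : b.1.1 = b'.1.1 := congrArg Prod.fst hbb
        have e2 : b.2.1 = b'.2.1 := congrArg Prod.snd hbb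
        exact Prod.ext (Subtype.ext e1) (Subtype.ext e2)
    rw [Set.ncard_prod] at h1
    have h2 : ((({b | ∃ u v : D.Rw, u.1 = k ∧ D.lab u.1 u.2 = lam ∧ sfMcUb D 0 1 (sfZnUb D Ls) b v ∧ (u = v ∨ (u.1 < v.1 ∧ D.Conn u.1 v.1 u.2 v.2))} :
        Set (SfMcBin D 0 1 (SfZnI D Ls))).ncard : ℕ) : ℝ)
        ≤ (({m | ∃ (u : D.Rw) (v : D.Row 1), u.1 = k ∧ D.lab u.1 u.2 = lam ∧ sfZnChi (sfZnU D Ls) (D.ray 1 v) = m ∧ D.ZnCh u v} : Set SfZnCell).ncard : ℝ)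
          * ((Set.range (fun ρ' : D.Row 1 => sfMcAncT D 0 1 (D.T 1 ρ'))).ncard : ℝ) := by exact_mod_cast h1
    refine h2.trans ?_
    have hZ : 1 ≤ D.s ^ (-t) := sf_mc_p_one hs.1 hs.2 H.ht.1.le
    have h3 : ((Set.range (fun ρ' : D.Row 1 => sfMcAncT D 0 1 (D.T 1 ρ'))).ncard : ℝ) ≤ 3 * D.s ^ (-t) := (sf_zn_times H).trans (by linarith)
    have hp6 : 0 < D.s ^ (-(6 * t)) := Real.rpow_pos_of_pos hs.1 _
    have h4 := mul_le_mul (sf_zn_cell_lab H k hk lam) h3 (Nat.cast_nonneg _) (by positivity)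
    refine h4.trans ?_
    have e : 2 * 10 ^ 11 * D.s ^ (-(6 * t)) * (3 * D.s ^ (-t)) = 6 * 10 ^ 11 * D.s ^ (-(7 * t)) := by
      have : D.s ^ (-(7 * t)) = D.s ^ (-(6 * t)) * D.s ^ (-t) := by
        rw [sf_mc_p_mul hs.1]; congr 1; ring
      rw [this]; ring
    rw [e]
    exact sf_zn_num H a ha hM _ _ (by norm_num) le_rfl
  fr := fun _ => ⟨rfl, H.good.1.hw.1.symm, H.good.1.hw.2.1.symm⟩
  fr_ray := fun b u hu => by
    obtain ⟨ρ, ρ', rfl, hU, hanc, hc⟩ := hu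
    have hT : 0 ≤ b.2.1 ∧ b.2.1 ≤ 1 := by
      rw [← hanc]; exact sf_mc_anc_mem D π C0 t H.good.1 0 1 H.g0 _
    have hU' : sfZnChi (sfZnU D Ls) (D.ray 1 ρ') = b.1.1 := hU
    have := sf_zn_fr_ray H ⟨0, ρ⟩ H.g0 ρ' (Or.inr ⟨zero_lt_one, hc⟩) b.2.1 hT
    rw [hU'] at this
    refine this.trans (le_of_eq ?_)
    congr 1; ring
  fr_lab := fun b u v hv hk huv => by
    obtain ⟨ρ', rfl, hU, hanc⟩ := hv
    have hT : 0 ≤ b.2.1 ∧ b.2.1 ≤ 1 := by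
      rw [← hanc]; exact sf_mc_anc_mem D π C0 t H.good.1 0 1 H.g0 _
    have hU' : sfZnChi (sfZnU D Ls) (D.ray 1 ρ') = b.1.1 := hU
    have := sf_zn_fr_lab H u hk ρ' huv b.2.1 hT
    rw [hU'] at this
    refine this.trans (le_of_eq ?_)
    congr 1; ring

end Claimed.Agent.R256
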