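import Claimed.Agent.R256.Soft.AFinMain
import Claimed.Agent.R256.Soft.AZnHyp

/-!
# Row 256 (S0496), unit SOFT, A10 ZN: ZERO COSTS WITH ONE SUPPORT CONSTANT      (architect helper286)      no sorry in this file

`sf_zn_main`: `Feas1 0` ⟹ `ZeroAlt`.      Order of the constants: `C0 := cF (sfZnC Ls)` → `F, t` → gap `h'` of the mesh `{0} ∪ F ∪ {1}` → accuracy `a` of GE (`h'`, `t`) → accuracy `t1` of the outer configuration → accuracy of DOC →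
`Feas1 0` (support constant arbitrary) → DOC → base errors beat the support constant (RIGID) → small scale → GE on the root cells (`sf_zn_hyp`), all gates kept.
-/

set_option autoImplicit false

namespace Claimed.Agent.R256

open Claimed.Agent.R255

/-- the gap of a finite mesh -/
theorem sf_zn_gap (M : Finset ℝ) : ∃ h : ℝ, 0 < h ∧ ∀ k ∈ M, ∀ l ∈ M, k < l → h ≤ l - k := by
  classical
  by_cases hne : ((M ×ˢ M).filter (fun p => p.1 < p.2)).Nonempty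
  · obtain ⟨p, hp, hmin⟩ := Finset.exists_min_image _ (fun p : ℝ × ℝ => p.2 - p.1) hne
    refine ⟨p.2 - p.1, ?_, fun k hk l hl hkl => hmin (k, l) (Finset.mem_filter.2 ⟨Finset.mem_product.2 ⟨hk, hl⟩, hkl⟩)⟩
    have := (Finset.mem_filter.1 hp).2
    linarith
  · exact ⟨1, one_pos, fun k hk l hl hkl => absurd ⟨(k, l), Finset.mem_filter.2 ⟨Finset.mem_product.2 ⟨hk, hl⟩, hkl⟩⟩ hne⟩

/-- the costs of a normalised label -/
theorem sf_zn_cost_eq (Q : SfTest) (hr : Q.r = 1) (hf : Q.f = 1) (l : ℝ) : sfR2 Q sfZero l = |Q.be| + l * |Q.K| ∧ sfR1 Q sfZero = |Q.Pc| := by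
  simp [sfR2, sfR1, sfZero, SfTest.beAt, SfTest.PdAt, hr, hf]

/-- **(OUT)** the piece has zero costs -/
theorem sf_zn_out {D : SfDoc} {π : SfPar} {Ls C0 t : ℝ} (H : SfZn D π Ls C0 t) (D' : SfDoc) (h1 : (1 : ℝ) ∈ D'.G) (Gk : Finset ℝ) (t' : ℝ)
    (b : SfMcBin D 0 1 (SfZnI D Ls)) (e : D'.Rw → D.Rw) (hsub : D'.Sub D 0 1 (sfZnFr (D.len 0) (sfZnU D Ls) b.2.1 b.1.1) Gk t' e)
    (hend : ∀ u : D'.Rw, u.1 = 1 → sfMcUb D 0 1 (sfZnUb D Ls) b (e u)) (ρ : D'.Row 1) :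
    D'.s = D.len 1 / D.len 0 ∧ |(D'.lab 1 ρ).be| + D'.s * |(D'.lab 1 ρ).K| ≤ D.s ^ (-t) ∧ |(D'.lab 1 ρ).Pc| ≤ D.s ^ (-t) := by
  have hg := H.good
  have h1G := hg.1.gate.1
  have hs' : D'.s = D.len 1 / D.len 0 := hsub.hs
  refine ⟨hs', ?_⟩
  obtain ⟨ρ', he, -, -⟩ := hend ⟨1, ρ⟩ rfl
  have hli := sf_mc_len_pos D π C0 t hg.1 0 H.g0
  have hφ := sf_zn_fr_pos (D.len 0) (sfZnU D Ls) b.2.1 b.1.1 hli
  have hown := hg.1.own 1 h1G ρ'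
  have hQr : (D.lab 1 ρ').r = 1 := hown.1.trans hg.1.hw.1
  have hQf : (D.lab 1 ρ').f = 1 := hown.2.1.trans hg.1.hw.2.1
  have eij : (0 : ℝ) + 1 * (1 - 0) = 1 := by ring
  have hr1 : D'.r 1 = 1 := by
    rw [hsub.hr 1 h1, eij, hg.1.hw.1]; norm_num
  have hf1 : D'.f 1 = 1 := by
    rw [(hsub.hf 1 h1).2.2 one_pos, eij, hg.1.hw.2.1]; norm_num
  have hlab := hsub.hlab ⟨1, ρ⟩ h1
  rw [he] at hlab
  obtain ⟨-, -, -, -, er, ef⟩ := sf_zn_tst_eq (D.len 0) (sfZnU D Ls) b.2.1 b.1.1 (D.lab 1 ρ')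
  have hlab' : D'.lab 1 ρ = (sfZnFr (D.len 0) (sfZnU D Ls) b.2.1 b.1.1).tst (D.lab 1 ρ') :=
    hlab.trans (sf_mc_with _ _ _ ((er.trans hQr).trans hr1.symm) ((ef.trans hQf).trans hf1.symm))
  have c2 := sf_frame_R2 (sfZnFr (D.len 0) (sfZnU D Ls) b.2.1 b.1.1) hφ (D.lab 1 ρ') (D.len 1)
  have c1 := sf_frame_R1 (sfZnFr (D.len 0) (sfZnU D Ls) b.2.1 b.1.1) hφ (D.lab 1 ρ')
  rw [(sf_zn_fr_cost _ _ _ _ _ _).1] at c2
  rw [(sf_zn_fr_cost (D.len 0) (sfZnU D Ls) b.2.1 b.1.1 (D.lab 1 ρ') 0).2] at c1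
  rw [(sf_zn_cost_eq _ (er.trans hQr) (ef.trans hQf) _).1, (sf_zn_cost_eq _ hQr hQf _).1] at c2
  rw [(sf_zn_cost_eq _ (er.trans hQr) (ef.trans hQf) 0).2, (sf_zn_cost_eq _ hQr hQf 0).2] at c1
  have hz := H.cost ρ'
  rw [hlab', hs']
  constructor
  · have c2' : |((sfZnFr (D.len 0) (sfZnU D Ls) b.2.1 b.1.1).tst (D.lab 1 ρ')).be|
        + D.len 1 / D.len 0 * |((sfZnFr (D.len 0) (sfZnU D Ls) b.2.1 b.1.1).tst (D.lab 1 ρ')).K| = |(D.lab 1 ρ').be| + D.len 1 * |(D.lab 1 ρ').K| := c2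
    rw [c2', hg.1.hlen.1]
    exact hz.1
  · rw [c1]
    exact hz.2

/-- **(A10 ZN)** zero cost: ONE support constant, every mesh -/
theorem sf_zn_main (K : SfCls) (π : SfPar) (Ls : ℝ) (hK : K.Cal π Ls) (h : K.Feas1 π Ls 0) : K.ZeroAlt π Ls := by
  have hneg := hK.fin
  obtain ⟨cF, hge⟩ := hK.ge
  refine ⟨cF (sfZnC Ls), fun F hF t ht => ?_⟩
  obtain ⟨h', hh', hgap⟩ := sf_zn_gap (insert 1 (insert 0 F))
  obtain ⟨a, ha, hGE⟩ := hge h' t hh' ht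
  obtain ⟨t1, ht1def⟩ : ∃ t1, t1 = min (a / 14) (min (1 / 16) (t / 2)) := ⟨_, rfl⟩
  have ht1 : 0 < t1 := by rw [ht1def]; exact lt_min (by linarith) (lt_min (by norm_num) (half_pos ht))
  have ht1a : 14 * t1 ≤ a := by
    have : t1 ≤ a / 14 := by rw [ht1def]; exact min_le_left _ _
    linarith
  have ht116 : t1 ≤ 1 / 16 := by rw [ht1def]; exact (min_le_right _ _).trans (min_le_left _ _)
  have ht1t : t1 ≤ t / 2 := by rw [ht1def]; exact (min_le_right _ _).trans (min_le_right _ _)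
  have hF0 : ∀ i ∈ insert 0 F, (0 : ℝ) ≤ i ∧ i ≤ 1 := by
    intro i hi
    rcases Finset.mem_insert.1 hi with rfl | hi
    · exact ⟨le_refl _, zero_le_one⟩
    · exact hF i hi
  obtain ⟨ad, had, hdoc⟩ := sf_cv_doc K π Ls hK (insert 0 F) hF0 t1 ht1
  have ht0 : 0 < min ad t1 := lt_min had ht1
  obtain ⟨C0, hex⟩ := h (min ad t1) ht0
  obtain ⟨C0', hex'⟩ := hdoc C0 (fun c => 0 < (K.doc c).s ∧ (K.doc c).s < 1 ∧
      ∀ ρ, sfR2 ((K.doc c).lab 1 ρ) sfZero (K.doc c).s ≤ (K.doc c).s ^ (-t1) ∧ sfR1 ((K.doc c).lab 1 ρ) sfZero ≤ (K.doc c).s ^ (-t1))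
    (sf_ex_mono (fun c hc => ⟨sf_gd_mono K π Ls hK.md_mono C0 _ ad ht0 (min_le_left _ _) c hc.1, hc.1.1.1.hs.1, hc.1.1.1.hs.2, fun ρ =>
      ⟨(hc.2 ρ).1.trans (sf_mc_p_mono hc.1.1.1.hs.1 hc.1.1.1.hs.2 (min_le_right _ _)),
        (hc.2 ρ).2.trans (sf_mc_p_mono hc.1.1.1.hs.1 hc.1.1.1.hs.2 (by rw [zero_add]; exact min_le_right _ _))⟩⟩) hex)
  obtain ⟨S, hS⟩ := sf_ex_and_all hex' (hneg (|C0'| + 4))
  obtain ⟨S', hS'⟩ := hGE (sfZnC Ls) C0' 1 one_pos S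
  refine ⟨S', fun s0 h0 => ?_⟩
  obtain ⟨σ, hσ, Hge⟩ := hS' s0 h0
  obtain ⟨σ1, hσ1, hsm⟩ := sf_cv_small (a / 2) (10 ^ 12) (half_pos ha) (by norm_num)
  obtain ⟨c, hob, hsc, ⟨hG, hgd, c0, ⟨-, -, hc0⟩, hs0, hl0⟩, hng⟩ := hS (min σ (min σ1 (1 / 1000))) (lt_min hσ (lt_min hσ1 (by norm_num)))
  have hs := hgd.1.1.hs
  have h1G := hgd.1.1.gate.1
  have h0G : (0 : ℝ) ∈ (K.doc c).G := by rw [hG]; simp
  have hscs : (K.doc c).s < min σ (min σ1 (1 / 1000)) := lt_of_le_of_lt (hK.sc_le c) hsc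
  have H : SfZn (K.doc c) π Ls C0' t1 := by
    refine ⟨hgd.1, ⟨ht1, ht116⟩, h0G, (hscs.le.trans ((min_le_right _ _).trans (min_le_right _ _))), fun ρ => ?_, hng t1 hgd.2⟩
    obtain ⟨ρ0, e0⟩ := hl0 ρ
    have hown := hgd.1.1.own 1 h1G ρ
    have hc := hc0 ρ0
    rw [← e0, ← hs0, (sf_zn_cost_eq _ (hown.1.trans hgd.1.1.hw.1) (hown.2.1.trans hgd.1.1.hw.2.1) _).1,
      (sf_zn_cost_eq _ (hown.1.trans hgd.1.1.hw.1) (hown.2.1.trans hgd.1.1.hw.2.1) 0).2] at hc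
    exact hc
  have hM : (10 : ℝ) ^ 12 ≤ (K.doc c).s ^ (-(a / 2)) := hsm _ hs.1 (lt_of_lt_of_le hscs ((min_le_right _ _).trans (min_le_left _ _)))
  have hgd' : K.Gd π Ls C0' (a * (1 - 0)) c := sf_gd_mono K π Ls hK.md_mono C0' t1 _ ht1 (by linarith) c hgd
  obtain ⟨c', b, e, hob', hsc', hgd'', hsub, -, -, hend, -⟩ := Hge c hob (lt_of_lt_of_le hsc (min_le_left _ _)) 0 1 (by norm_num) hgd' (K.doc c).G
    (SfMcBin (K.doc c) 0 1 (SfZnI (K.doc c) Ls)) (sfMcSb (K.doc c) 0 1 (sfZnUb (K.doc c) Ls)) (sfMcUb (K.doc c) 0 1 (sfZnUb (K.doc c) Ls))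
    (fun b => sfZnFr ((K.doc c).len 0) (sfZnU (K.doc c) Ls) b.2.1 b.1.1) (sf_zn_hyp H a ht1a hM)
    (fun k hk l hl hkl => by
      rw [hG] at hk hl
      have := hgap k hk l hl hkl
      linarith)
    (fun k hk => by
      rcases (hgd.1.1.gate.2 k hk).1.lt_or_eq with hk0 | hk0
      · rw [hG] at hk h0G
        have := hgap 0 h0G k hk hk0
        exact Or.inr (by linarith)
      · exact Or.inl hk0.symm)
    (fun g hg _ _ _ _ => hg)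
  refine ⟨c', hob', hsc', fun i hi => ?_, hgd'', fun ρ => ?_⟩
  · have hiG : i ∈ (K.doc c).G := by
      rw [hG]; exact Finset.mem_insert_of_mem (Finset.mem_insert_of_mem hi)
    have := hsub.kept i hiG
    simpa using this
  · obtain ⟨hs', z2, z1⟩ := sf_zn_out H (K.doc c') hgd''.1.1.gate.1 _ t b e hsub hend ρ
    have h6 := sf_mc_scale (κ0 := 1 / 4) hgd.1 h0G h1G zero_lt_one (by linarith) t1 t ht.le (by linarith)
    have h7 : (K.doc c).s ^ (-t1) ≤ (K.doc c').s ^ (-t) := by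
      rw [hs']
      refine le_trans (le_of_eq ?_) h6
      congr 1; ring
    exact ⟨z2.trans h7, z1.trans h7⟩

end Claimed.Agent.R256
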