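import Claimed.Agent.R256.Soft.AAbDefs
import Claimed.Agent.R256.Soft.AMinKit

/-!
# Row 256 (S0496), unit SOFT, A7 AF, file 2: DEFINITIONS AND PLAN      (architect helper10; chief helper19; AB + SH: helper55)      no sorry

Prop. cyl:affine (02-cylinder.tex l.1095-1235) = `sf_af` (`Soft/Contract.lean`), TOP-DOWN.   Prefix `sf_af_`, `sfAf`, `SfAf`.   ENTRY = `D.Out π t` of helper55 (`Soft/AAbDefs.lean`) on any given fine mesh.
## PLAN
 P1 WINDOW (`Soft/AfWin.lean`).   Limit profiles `u, n` of the outer configurations (`sf_af_cmp`, queries = depths, statistics `log_s r_i`, `log_s f_i`); they are Lipschitz (`Mat.wr`), `u` is nonincreasing, the shape constraints and (Pl) pass to the limit;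
    `x0` = a common differentiability point (`sf_af_diff`), `J = -u'(x0)`, `q = n'(x0) - 2 u'(x0)`; `[A,B] ∋ x0` short  ⟹  `D.Wn A B J q (ε (B-A))` on outer configurations of arbitrarily good accuracy, on meshes containing any given finite set.
 P2 COVER (`Soft/AfLink.lean`, `Soft/AfHyp.lean`), DOC LEVEL.   Bins = END rows `v` of the gate `B`: key = (time of the interval of the gate `A` above `v`, eight integers = successive roundings of the coordinates of `lab v` in the frame under construction).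
    Units of the frame `(len A, r B, f B)`.   TRIANGULAR: `x, b, y, K, β, P_c, c, d`; each coordinate of `φ.tst R` is affine with slope `-1` in the parameter of the same name (natural units) and does not see the later ones (`sf_af_mk_tst`).
    Widths (natural units, `Δ = s^(B-A)`): base `1`;  `K`: `Δ^-c2` if `c2 ≥ 1`, else NOT binned;  `β`: `Δ^-c2` if `c2 > 0`, else not binned;  `P_c`: `Δ^-max(1,c2)` if `c2 > 0`, `Δ^-c1` if `c2 = 0`;  `c, d`: `Δ^-(1+|q|+2J)`.      (= bins (i)-(iv) of the paper + linear + normal phase bins)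
    KEY ESTIMATE `sf_af_sz`: every label on a chain to `v` has, in the frame of `v`, coordinates `≤ s^(-C t) ×` the width.   ⟹ sizes `≤ Δ^-C1` (`fr_lab`, `fr_ray`), and `≤ (3 s^(-C t))^8` bins per label (`sf_af_count`: `lb_ovl`, `sb_ovl`).
 P3 OUT (`Soft/AfOut.lean`), DOC LEVEL.   `D'.Sub D A B φ ..` + reach clause  ⟹  `D'.AffP π a'`  ((A) is covariant; (B), `eqK`, `stK`, `linP` = `sf_af_sz` resp. `rowB`, `rowK` in natural units; exponents: `D'.s = s^((B-A) ± 2t)`).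
 P4 ASSEMBLY (`Soft/AfMain.lean`): `C1 = C1(π', Ls)`, `C0 := cF C1`;  given `(F, a')`: `ε`, window, mesh, `a = a_GE (gap, t)`, GE.
All tolerances of a DOC LEVEL leaf are ONE number `t` (`D.AfH`): losses are `s^(-C t)` with `C = C(π, Ls)` chosen by the prover; numerical constants are absorbed by `s^t ≤ 1/2`.
-/

set_option autoImplicit false

namespace Claimed.Agent.R256

open Claimed.Agent.R255

/-- the affine family -/
def sfAfPar (π : SfPar) (c2 c1 J q : ℝ) : SfPar := { π with c2 := c2, c1 := c1, J := J, q := q }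

namespace SfDoc

/-- base errors `≤ s^N` along chains -/
def Fb (D : SfDoc) (N : ℝ) : Prop :=
  ∀ i ∈ D.G, ∀ j ∈ D.G, i < j → ∀ ρ ρ', D.Conn i j ρ ρ' → (D.ray i ρ).bdist (D.ray j ρ') ≤ D.s ^ N

/-- **the window** `[A,B]`: at ALL gates of `[A,B]` the widths follow the affine profiles of slopes `(-J, q)` up to `s^(± e)` -/
structure Wn (D : SfDoc) (A B J q e : ℝ) : Prop where
  gA : A ∈ D.G
  gB : B ∈ D.G
  hAB : A < B
  wr : ∀ k ∈ D.G, A ≤ k → k ≤ B → D.s ^ (J * (B - k) + e) ≤ D.r k / D.r B ∧ D.r k / D.r B ≤ D.s ^ (J * (B - k) - e)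
  w2 : ∀ k ∈ D.G, A ≤ k → k ≤ B → D.s ^ (q * (k - B) + e) ≤ D.w2 k / D.w2 B ∧ D.w2 k / D.w2 B ≤ D.s ^ (q * (k - B) - e)

end SfDoc

/-- the widths of the bins of the shear, in natural units (`0` = not binned) -/
structure SfAfW where
  K : ℝ
  be : ℝ
  al : ℝ
  c : ℝ
  d : ℝ

/-- the widths of the family `π` on a window of length `h`, WIDENED by the graded factors `s^(-e), .., s^(-5e)` (helper149, helper229): with `C t ≤ e` every label on a chain has coordinates `≤ c ×` the width, `c` a CONSTANT,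
so the overlaps of the bins are bounded by a constant (the accuracy of GE depends on the mesh, the tolerance `t` of `Out` is chosen before the mesh).   Grading: `β` sees `K`, `P_c` sees `β, K`, `d` sees `c`. -/
noncomputable def sfAfWd (π : SfPar) (s h e : ℝ) : SfAfW where
  K := if 1 ≤ π.c2 then s ^ (-(π.c2 * h + e)) else 0
  be := if 0 < π.c2 then s ^ (-(π.c2 * h + 2 * e)) else 0
  al := if 0 < π.c2 then s ^ (-(max 1 π.c2 * h + 3 * e)) else s ^ (-(π.c1 * h + 3 * e))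
  c := s ^ (-((1 + |π.q| + 2 * π.J) * h + 4 * e))
  d := s ^ (-((1 + |π.q| + 2 * π.J) * h + 5 * e))

/-- the eight coordinates of a test: `x, b, y, K, β, P_c, c, d` -/
def sfAfCo (P : SfTest) : Fin 8 → ℝ := ![P.x, P.b, P.y, P.K, P.be, P.Pc, P.c, P.d]

/-- units of a frame: root time, time unit, widths, bin widths -/
structure SfAfU where
  T0 : ℝ
  L : ℝ
  r0 : ℝ
  F0 : ℝ
  W : SfAfW

namespace SfAfU

/-- positive units -/
def Pos (U : SfAfU) : Prop := 0 < U.L ∧ 0 < U.r0 ∧ 0 < U.F0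

/-- a frame from its eight parameters IN NATURAL UNITS -/
noncomputable def fr (U : SfAfU) (x b y K be al c d : ℝ) : SfFrame :=
  ⟨U.T0, U.L, U.r0 * x, U.L * U.r0 * b, U.L * U.r0 ^ 2 * y, U.r0, U.F0,
    ⟨U.T0, 0, 0, 0, U.F0 * c, U.L * U.F0 * d, U.F0 / U.r0 * al, U.F0 / U.r0 ^ 2 * be, U.F0 / (U.L * U.r0 ^ 2) * K, 0, 0⟩⟩

/-- the frame of eight integers -/
noncomputable def of (U : SfAfU) (n : Fin 8 → ℤ) : SfFrame :=
  U.fr (n 0) (n 1) (n 2) (U.W.K * n 3) (U.W.be * n 4) (U.W.al * n 5) (U.W.c * n 6) (U.W.d * n 7)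

/-- successive roundings of the coordinates of `Q` -/
noncomputable def n0 (U : SfAfU) (Q : SfTest) : ℤ := ⌊((U.fr 0 0 0 0 0 0 0 0).tst Q).x⌋
noncomputable def n1 (U : SfAfU) (Q : SfTest) : ℤ := ⌊((U.fr (U.n0 Q) 0 0 0 0 0 0 0).tst Q).b⌋
noncomputable def n2 (U : SfAfU) (Q : SfTest) : ℤ := ⌊((U.fr (U.n0 Q) (U.n1 Q) 0 0 0 0 0 0).tst Q).y⌋
noncomputable def n3 (U : SfAfU) (Q : SfTest) : ℤ := ⌊((U.fr (U.n0 Q) (U.n1 Q) (U.n2 Q) 0 0 0 0 0).tst Q).K / U.W.K⌋
noncomputable def n4 (U : SfAfU) (Q : SfTest) : ℤ :=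
  ⌊((U.fr (U.n0 Q) (U.n1 Q) (U.n2 Q) (U.W.K * U.n3 Q) 0 0 0 0).tst Q).be / U.W.be⌋
noncomputable def n5 (U : SfAfU) (Q : SfTest) : ℤ :=
  ⌊((U.fr (U.n0 Q) (U.n1 Q) (U.n2 Q) (U.W.K * U.n3 Q) (U.W.be * U.n4 Q) 0 0 0).tst Q).Pc / U.W.al⌋
noncomputable def n6 (U : SfAfU) (Q : SfTest) : ℤ :=
  ⌊((U.fr (U.n0 Q) (U.n1 Q) (U.n2 Q) (U.W.K * U.n3 Q) (U.W.be * U.n4 Q) (U.W.al * U.n5 Q) 0 0).tst Q).c / U.W.c⌋
noncomputable def n7 (U : SfAfU) (Q : SfTest) : ℤ :=
  ⌊((U.fr (U.n0 Q) (U.n1 Q) (U.n2 Q) (U.W.K * U.n3 Q) (U.W.be * U.n4 Q) (U.W.al * U.n5 Q) (U.W.c * U.n6 Q) 0).tst Q).d / U.W.d⌋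

/-- the code of a test -/
noncomputable def code (U : SfAfU) (Q : SfTest) : Fin 8 → ℤ :=
  ![U.n0 Q, U.n1 Q, U.n2 Q, U.n3 Q, U.n4 Q, U.n5 Q, U.n6 Q, U.n7 Q]

/-- the eight widths -/
def wd (U : SfAfU) : Fin 8 → ℝ := ![1, 1, 1, U.W.K, U.W.be, U.W.al, U.W.c, U.W.d]

end SfAfU

namespace SfDoc

/-- the units of the window `[A,B]` over the root time `T0`; `e` = widening exponent of the bins -/
noncomputable def afU (D : SfDoc) (π : SfPar) (A B e T0 : ℝ) : SfAfU := ⟨T0, D.len A, D.r B, D.f B, sfAfWd π D.s (B - A) e⟩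

/-- the key of an end row: time of its interval of the gate `A`, code of its label -/
noncomputable def afKey (D : SfDoc) (π : SfPar) (A B e : ℝ) (v : D.Row B) : ℝ × (Fin 8 → ℤ) :=
  (sfMcAncT D A B (D.T B v), (D.afU π A B e (sfMcAncT D A B (D.T B v))).code (D.lab B v))

/-- the bins -/
abbrev AfBin (D : SfDoc) (π : SfPar) (A B e : ℝ) : Type := Set.range (D.afKey π A B e)

/-- the frame of a key -/
noncomputable def afFk (D : SfDoc) (π : SfPar) (A B e : ℝ) (κ : ℝ × (Fin 8 → ℤ)) : SfFrame := (D.afU π A B e κ.1).of κ.2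

/-- the frame of a bin -/
noncomputable def afFr (D : SfDoc) (π : SfPar) (A B e : ℝ) (b : D.AfBin π A B e) : SfFrame := D.afFk π A B e b.1

/-- marked end rows of a bin: the rows with the key of the bin which have a predecessor at the gate `A` (the others have mass `≤ s^(1/t)` by `Core.sp`) -/
def afUb (D : SfDoc) (π : SfPar) (A B e : ℝ) (b : D.AfBin π A B e) (v : D.Rw) : Prop :=
  ∃ ρ' : D.Row B, v = ⟨B, ρ'⟩ ∧ D.afKey π A B e ρ' = b.1 ∧ ∃ ρ : D.Row A, D.Conn A B ρ ρ'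

/-- starting rows of a bin: the exact predecessor set -/
def afSb (D : SfDoc) (π : SfPar) (A B e : ℝ) (b : D.AfBin π A B e) (u : D.Rw) : Prop :=
  ∃ (ρ : D.Row A) (ρ' : D.Row B), u = ⟨A, ρ⟩ ∧ D.afKey π A B e ρ' = b.1 ∧ D.Conn A B ρ ρ'

/-- `u` lies on a chain to the end row `v`, inside the window -/
def AfCh (D : SfDoc) (A B : ℝ) (u : D.Rw) (v : D.Row B) : Prop :=
  u = ⟨B, v⟩ ∨ (u.1 ∈ D.G ∧ A ≤ u.1 ∧ u.1 < B ∧ D.Conn u.1 B u.2 v)

/-- the frame of an end row -/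
noncomputable def afFv (D : SfDoc) (π : SfPar) (A B e : ℝ) (v : D.Row B) : SfFrame := D.afFk π A B e (D.afKey π A B e v)

/-- **standing hypotheses of the DOC LEVEL leaves of AF**: ONE tolerance `t` -/
structure AfH (D : SfDoc) (π : SfPar) (Ls C0 A B t : ℝ) : Prop where
  val : π.Valid
  good : D.Good π Ls C0 t
  out : D.Out π t
  wn : D.Wn A B π.J π.q t
  fb : D.Fb (6 * |C0| + 6 * |Ls| + 20)
  t0 : 0 < t
  th : t ≤ B - A
  sm : D.s ^ t ≤ 1 / 2

end SfDoc

/-- **two tests with a common ray** (normalised picture): `z` lies in the base part of `P` (interval length `lP`) and, with slack `2`, in the base part of `Q` (interval length `lQ`, nested);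
`a2, aK, a1` = the comparisons (A);   `aA, aS` = the comparisons of the velocity and position parts of the two shears at `z` -/
structure SfLk (P Q : SfTest) (z : SfRay) (lP lQ a2 aK a1 aA aS : ℝ) : Prop where
  bP : |z.X - P.x| ≤ P.r ∧ |z.Bt P.T - P.b| ≤ lP * P.r ∧ |z.Yt P.T - P.y - 2 * P.x * (z.Bt P.T - P.b)| ≤ lP * P.r ^ 2
  bQ : |z.X - Q.x| ≤ 2 * Q.r ∧ |z.Bt Q.T - Q.b| ≤ 2 * (lQ * Q.r) ∧ |z.Yt Q.T - Q.y - 2 * Q.x * (z.Bt Q.T - Q.b)| ≤ 2 * (lQ * Q.r ^ 2)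
  tm : P.T ≤ Q.T ∧ Q.T + lQ ≤ P.T + lP
  lq : 0 ≤ lQ
  c2 : |P.beAt Q.T - Q.be| ≤ a2
  cK : |P.K - Q.K| ≤ aK
  c1 : |P.Pd z - Q.Pd z| ≤ a1
  cA : |P.shA z - Q.shA z| ≤ aA
  cS : |P.shS Q.T z - Q.shS Q.T z| ≤ aS

/-- the exponent of the sizes in the frames -/
noncomputable def sfAfC1 (π : SfPar) : ℝ := 2 + π.c2 + |π.c1| + |π.q| + 2 * π.J

theorem sf_af_eqns_cite : True := by
  have := @sfAfPar.eq_1
  have := @SfDoc.Fb.eq_1
  have := @sfAfWd.eq_1
  have := @SfAfU.Pos.eq_1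
  have := @SfAfU.fr.eq_1
  have := @SfAfU.of.eq_1
  have := @SfAfU.n0.eq_1
  have := @SfAfU.n1.eq_1
  have := @SfAfU.n2.eq_1
  have := @SfAfU.n3.eq_1
  have := @SfAfU.n4.eq_1
  have := @SfAfU.n5.eq_1
  have := @SfAfU.n6.eq_1
  have := @SfAfU.n7.eq_1
  have := @SfAfU.code.eq_1
  have := @SfAfU.wd.eq_1
  have := @sfAfCo.eq_1
  have := @SfDoc.afU.eq_1
  have := @SfDoc.afKey.eq_1
  have := @SfDoc.afFk.eq_1
  have := @SfDoc.afFr.eq_1
  have := @SfDoc.afFv.eq_1
  have := @SfDoc.afUb.eq_1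
  have := @SfDoc.afSb.eq_1
  have := @SfDoc.AfCh.eq_1
  have := @sfAfC1.eq_1
  trivial

end Claimed.Agent.R256
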