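import Claimed.Agent.R256.Soft.AfDefs

/-!
# Row 256 (S0496), unit SOFT, A7 AF, file 3: FRAMES BY SUCCESSIVE ROUNDING      (architect helper10)      paper free, pure algebra

* identities for shears (`sf_af_shA_at`, `sf_af_Pd_at`, `sf_af_shS_evol`, `sf_af_mem_iff`) and their covariance (`sf_af_fr_shA`, `sf_af_fr_Dt`, `sf_af_fr_Bt`, `sf_af_fr_Yt`)      PROVED
* `sf_af_mk_tst`     TRIANGULAR structure of `φ.tst R` in the eight parameters (natural units)      PROVED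
* `sf_af_fr_diff`    two codes which agree below `m`: the `m`-th coordinates of ANY test differ by `wd m * (n m - n' m)`
* `sf_af_fr_self`    the coordinates of `Q` in its own frame lie in `[0, wd m)`;   `sf_af_code_zero`: a coordinate which is not binned has the code `0`
-/

set_option autoImplicit false

namespace Claimed.Agent.R256

open Claimed.Agent.R255

/-- the velocity part of a shear, read at another time -/
theorem sf_af_shA_at (Q : SfTest) (z : SfRay) (t : ℝ) :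
    Q.shA z = Q.c + Q.al * z.X + Q.beAt t * z.X ^ 2 + Q.K * (z.Yt t - 2 * z.X * z.Bt t) := by
  simp only [SfTest.shA, SfTest.beAt, SfRay.Yt, SfRay.Bt]; ring

/-- the derivative `P(F)`, read at another time -/
theorem sf_af_Pd_at (Q : SfTest) (z : SfRay) (t : ℝ) :
    Q.Pd z = Q.al + 2 * Q.beAt t * z.X - 2 * Q.K * z.Bt t := by
  simp only [SfTest.Pd, SfTest.beAt, SfRay.Bt]; ring

/-- evolution of the position defect -/
theorem sf_af_shS_evol (Q : SfTest) (z : SfRay) (t t' : ℝ) :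
    z.Dt t' - Q.shS t' z = (z.Dt t - Q.shS t z) + (t' - t) * (z.N - Q.shA z) := by
  simp only [SfTest.shA, SfTest.shS, SfTest.beAt, SfRay.Yt, SfRay.Bt, SfRay.Dt]; ring

/-- membership in terms of the two parts of the shear -/
theorem sf_af_mem_iff (Q : SfTest) (l : ℝ) (z : SfRay) : Q.Mem l z ↔
    |z.X - Q.x| ≤ Q.r ∧ |z.Bt Q.T - Q.b| ≤ l * Q.r ∧ |z.Yt Q.T - Q.y - 2 * Q.x * (z.Bt Q.T - Q.b)| ≤ l * Q.r ^ 2 ∧
      |z.N - Q.shA z| ≤ Q.f ∧ |z.Dt Q.T - Q.shS Q.T z| ≤ l * Q.f := by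
  have e1 : z.N - Q.c - Q.al * z.X - Q.be * z.X ^ 2 - Q.K * (z.Yt Q.T - 2 * z.X * z.Bt Q.T) = z.N - Q.shA z := by
    simp only [SfTest.shA]; ring
  have e2 : z.Dt Q.T - Q.d - Q.al * z.Bt Q.T - Q.be * z.Yt Q.T + Q.K * z.Bt Q.T ^ 2 = z.Dt Q.T - Q.shS Q.T z := by
    simp only [SfTest.shS, SfTest.beAt]; ring
  unfold SfTest.Mem
  rw [e1, e2]

/-- the velocity part of a shear in the frame -/
theorem sf_af_fr_shA (φ : SfFrame) (hφ : φ.Pos) (Q : SfTest) (z : SfRay) :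
    (φ.tst Q).shA (φ.ray z) = (Q.shA z - φ.sg.shA z) / φ.F0 := by
  obtain ⟨hL, hr, hF⟩ := hφ
  have hL' := hL.ne'
  have hr' := hr.ne'
  have hF' := hF.ne'
  simp only [SfFrame.ray, SfFrame.tst, SfRay.Bt, SfRay.Yt, SfFrame.bc, SfFrame.yc, SfTest.shA, SfTest.beAt]
  field_simp
  ring

/-- the position part of a shear in the frame -/
theorem sf_af_fr_shS (φ : SfFrame) (hφ : φ.Pos) (Q : SfTest) (z : SfRay) (t : ℝ) :
    (φ.tst Q).shS ((t - φ.T0) / φ.L) (φ.ray z) = (Q.shS t z - φ.sg.shS t z) / (φ.L * φ.F0) := by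
  obtain ⟨hL, hr, hF⟩ := hφ
  have hL' := hL.ne'
  have hr' := hr.ne'
  have hF' := hF.ne'
  simp only [SfFrame.ray, SfFrame.tst, SfRay.Bt, SfRay.Yt, SfFrame.bc, SfFrame.yc, SfTest.shS, SfTest.beAt]
  field_simp
  ring

theorem sf_af_fr_Dt (φ : SfFrame) (hφ : φ.Pos) (z : SfRay) (t : ℝ) :
    (φ.ray z).Dt ((t - φ.T0) / φ.L) = (z.Dt t - φ.sg.shS t z) / (φ.L * φ.F0) := by
  obtain ⟨hL, hr, hF⟩ := hφ
  have hL' := hL.ne'
  have hr' := hr.ne'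
  have hF' := hF.ne'
  simp only [SfFrame.ray, SfRay.Bt, SfRay.Yt, SfRay.Dt, SfTest.shA, SfTest.shS, SfTest.beAt]
  field_simp
  ring

theorem sf_af_fr_Bt (φ : SfFrame) (hφ : φ.Pos) (z : SfRay) (t : ℝ) :
    (φ.ray z).Bt ((t - φ.T0) / φ.L) = (z.Bt t - φ.bc t) / (φ.L * φ.r0) := by
  obtain ⟨hL, hr, hF⟩ := hφ
  have hL' := hL.ne'
  have hr' := hr.ne'
  simp only [SfFrame.ray, SfRay.Bt, SfFrame.bc]
  field_simp
  ring

theorem sf_af_fr_Yt (φ : SfFrame) (hφ : φ.Pos) (z : SfRay) (t : ℝ) :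
    (φ.ray z).Yt ((t - φ.T0) / φ.L) = (z.Yt t - φ.yc t - 2 * φ.x0 * (z.Bt t - φ.bc t)) / (φ.L * φ.r0 ^ 2) := by
  obtain ⟨hL, hr, hF⟩ := hφ
  have hL' := hL.ne'
  have hr' := hr.ne'
  simp only [SfFrame.ray, SfRay.Bt, SfRay.Yt, SfFrame.bc, SfFrame.yc]
  field_simp
  ring

/-- the centre derivative in the frame -/
theorem sf_af_fr_Pc (φ : SfFrame) (hφ : φ.Pos) (Q : SfTest) :
    (φ.tst Q).Pc = (Q.Pc - φ.sg.PdAt Q.x Q.b Q.T) * φ.r0 / φ.F0 := by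
  obtain ⟨hL, hr, hF⟩ := hφ
  have hL' := hL.ne'
  have hr' := hr.ne'
  have hF' := hF.ne'
  simp only [SfFrame.tst, SfTest.beAt, SfTest.Pc, SfTest.PdAt, SfFrame.bc]
  field_simp
  ring

/-- the frames of a unit system are positive -/
theorem sf_af_fr_pos (U : SfAfU) (hU : U.Pos) (x b y K be al c d : ℝ) : (U.fr x b y K be al c d).Pos := hU

theorem sf_af_of_pos (U : SfAfU) (hU : U.Pos) (n : Fin 8 → ℤ) : (U.of n).Pos := hU

/-- **TRIANGULAR structure** of the coordinates of a test in a frame given in natural units -/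
theorem sf_af_mk_tst (U : SfAfU) (hU : U.Pos) (x b y K be al c d : ℝ) (R : SfTest) :
    ((U.fr x b y K be al c d).tst R).x = ((U.fr 0 0 0 0 0 0 0 0).tst R).x - x ∧
    ((U.fr x b y K be al c d).tst R).b = ((U.fr x 0 0 0 0 0 0 0).tst R).b - b ∧
    ((U.fr x b y K be al c d).tst R).y = ((U.fr x b 0 0 0 0 0 0).tst R).y - y ∧
    ((U.fr x b y K be al c d).tst R).K = ((U.fr x b y 0 0 0 0 0).tst R).K - K ∧
    ((U.fr x b y K be al c d).tst R).be = ((U.fr x b y K 0 0 0 0).tst R).be - be ∧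
    ((U.fr x b y K be al c d).tst R).Pc = ((U.fr x b y K be 0 0 0).tst R).Pc - al ∧
    ((U.fr x b y K be al c d).tst R).c = ((U.fr x b y K be al 0 0).tst R).c - c ∧
    ((U.fr x b y K be al c d).tst R).d = ((U.fr x b y K be al c 0).tst R).d - d := by
  obtain ⟨hL, hr, hF⟩ := hU
  have hL' := hL.ne'
  have hr' := hr.ne'
  have hF' := hF.ne'
  refine ⟨?_, ?_, ?_, ?_, ?_, ?_, ?_, ?_⟩
  all_goals
    simp only [SfAfU.fr, SfFrame.tst, SfFrame.bc, SfFrame.yc, SfTest.beAt, SfTest.Pc]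
    field_simp
    ring

/-- LEAF AF-F1 (~120 l.).   Two codes which agree below `m`.   PLAN: `fin_cases m`; unfold `SfAfU.of`, `sfAfCo`, `SfAfU.wd` (`Matrix.cons_val_*`, `simp`); rewrite both sides with the `m`-th line of `sf_af_mk_tst`;
the two "partial" frames coincide since the lower integers agree (`h 0 ..`, ..); `ring`. -/
theorem sf_af_fr_diff (U : SfAfU) (hU : U.Pos) (n n' : Fin 8 → ℤ) (R : SfTest) (m : Fin 8) (h : ∀ l : Fin 8, l < m → n l = n' l) :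
    sfAfCo ((U.of n).tst R) m - sfAfCo ((U.of n').tst R) m = - (U.wd m * ((n m : ℝ) - (n' m : ℝ))) := by
  obtain ⟨a0, a1, a2, a3, a4, a5, a6, a7⟩ :=
    sf_af_mk_tst U hU (n 0) (n 1) (n 2) (U.W.K * n 3) (U.W.be * n 4) (U.W.al * n 5) (U.W.c * n 6) (U.W.d * n 7) R
  obtain ⟨b0, b1, b2, b3, b4, b5, b6, b7⟩ :=
    sf_af_mk_tst U hU (n' 0) (n' 1) (n' 2) (U.W.K * n' 3) (U.W.be * n' 4) (U.W.al * n' 5) (U.W.c * n' 6) (U.W.d * n' 7) R
  fin_cases m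
  · show ((U.of n).tst R).x - ((U.of n').tst R).x = -(1 * ((n 0 : ℝ) - (n' 0 : ℝ)))
    unfold SfAfU.of
    rw [a0, b0]
    ring
  · have h0 : n 0 = n' 0 := h 0 (by decide)
    show ((U.of n).tst R).b - ((U.of n').tst R).b = -(1 * ((n 1 : ℝ) - (n' 1 : ℝ)))
    unfold SfAfU.of
    rw [a1, b1, h0]
    ring
  · have h0 : n 0 = n' 0 := h 0 (by decide)
    have h1 : n 1 = n' 1 := h 1 (by decide)
    show ((U.of n).tst R).y - ((U.of n').tst R).y = -(1 * ((n 2 : ℝ) - (n' 2 : ℝ)))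
    unfold SfAfU.of
    rw [a2, b2, h0, h1]
    ring
  · have h0 : n 0 = n' 0 := h 0 (by decide)
    have h1 : n 1 = n' 1 := h 1 (by decide)
    have h2 : n 2 = n' 2 := h 2 (by decide)
    show ((U.of n).tst R).K - ((U.of n').tst R).K = -(U.W.K * ((n 3 : ℝ) - (n' 3 : ℝ)))
    unfold SfAfU.of
    rw [a3, b3, h0, h1, h2]
    ring
  · have h0 : n 0 = n' 0 := h 0 (by decide)
    have h1 : n 1 = n' 1 := h 1 (by decide)
    have h2 : n 2 = n' 2 := h 2 (by decide)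
    have h3 : n 3 = n' 3 := h 3 (by decide)
    show ((U.of n).tst R).be - ((U.of n').tst R).be = -(U.W.be * ((n 4 : ℝ) - (n' 4 : ℝ)))
    unfold SfAfU.of
    rw [a4, b4, h0, h1, h2, h3]
    ring
  · have h0 : n 0 = n' 0 := h 0 (by decide)
    have h1 : n 1 = n' 1 := h 1 (by decide)
    have h2 : n 2 = n' 2 := h 2 (by decide)
    have h3 : n 3 = n' 3 := h 3 (by decide)
    have h4 : n 4 = n' 4 := h 4 (by decide)
    show ((U.of n).tst R).Pc - ((U.of n').tst R).Pc = -(U.W.al * ((n 5 : ℝ) - (n' 5 : ℝ)))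
    unfold SfAfU.of
    rw [a5, b5, h0, h1, h2, h3, h4]
    ring
  · have h0 : n 0 = n' 0 := h 0 (by decide)
    have h1 : n 1 = n' 1 := h 1 (by decide)
    have h2 : n 2 = n' 2 := h 2 (by decide)
    have h3 : n 3 = n' 3 := h 3 (by decide)
    have h4 : n 4 = n' 4 := h 4 (by decide)
    have h5 : n 5 = n' 5 := h 5 (by decide)
    show ((U.of n).tst R).c - ((U.of n').tst R).c = -(U.W.c * ((n 6 : ℝ) - (n' 6 : ℝ)))
    unfold SfAfU.of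
    rw [a6, b6, h0, h1, h2, h3, h4, h5]
    ring
  · have h0 : n 0 = n' 0 := h 0 (by decide)
    have h1 : n 1 = n' 1 := h 1 (by decide)
    have h2 : n 2 = n' 2 := h 2 (by decide)
    have h3 : n 3 = n' 3 := h 3 (by decide)
    have h4 : n 4 = n' 4 := h 4 (by decide)
    have h5 : n 5 = n' 5 := h 5 (by decide)
    have h6 : n 6 = n' 6 := h 6 (by decide)
    show ((U.of n).tst R).d - ((U.of n').tst R).d = -(U.W.d * ((n 7 : ℝ) - (n' 7 : ℝ)))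
    unfold SfAfU.of
    rw [a7, b7, h0, h1, h2, h3, h4, h5, h6]
    ring

/-- the remainder of a rounding -/
theorem sf_af_fr_self_rem (X W : ℝ) (hW : 0 < W) : 0 ≤ X - W * (⌊X / W⌋ : ℝ) ∧ X - W * (⌊X / W⌋ : ℝ) < W := by
  have h1 := Int.floor_le (X / W)
  have h2 := Int.lt_floor_add_one (X / W)
  rw [le_div_iff₀ hW] at h1
  rw [div_lt_iff₀ hW] at h2
  constructor <;> nlinarith

/-- the remainder of a rounding, unit width -/
theorem sf_af_fr_self_rem1 (X : ℝ) : 0 ≤ X - (⌊X⌋ : ℝ) ∧ X - (⌊X⌋ : ℝ) < 1 := by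
  have h1 := Int.floor_le X
  have h2 := Int.lt_floor_add_one X
  constructor <;> linarith

/-- LEAF AF-F2 (~150 l.).   The coordinates of `Q` in its own frame.   PLAN: `fin_cases m`; the `m`-th line of `sf_af_mk_tst` gives `co m = X - w * ⌊X / w⌋` with `X` = the coordinate in the partial frame = the argument of the floor in `SfAfU.n_m`;
`Int.floor_le`, `Int.lt_floor_add_one`, `div_le_iff₀`. -/
theorem sf_af_fr_self (U : SfAfU) (hU : U.Pos) (Q : SfTest) (m : Fin 8) (hm : 0 < U.wd m) :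
    0 ≤ sfAfCo ((U.of (U.code Q)).tst Q) m ∧ sfAfCo ((U.of (U.code Q)).tst Q) m < U.wd m := by
  obtain ⟨a0, a1, a2, a3, a4, a5, a6, a7⟩ :=
    sf_af_mk_tst U hU (U.n0 Q) (U.n1 Q) (U.n2 Q) (U.W.K * U.n3 Q) (U.W.be * U.n4 Q) (U.W.al * U.n5 Q) (U.W.c * U.n6 Q) (U.W.d * U.n7 Q) Q
  have e : U.of (U.code Q) = U.fr (U.n0 Q) (U.n1 Q) (U.n2 Q) (U.W.K * U.n3 Q) (U.W.be * U.n4 Q) (U.W.al * U.n5 Q) (U.W.c * U.n6 Q) (U.W.d * U.n7 Q) := rfl
  rw [e]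
  fin_cases m
  · show 0 ≤ ((U.fr (U.n0 Q) (U.n1 Q) (U.n2 Q) (U.W.K * U.n3 Q) (U.W.be * U.n4 Q) (U.W.al * U.n5 Q) (U.W.c * U.n6 Q) (U.W.d * U.n7 Q)).tst Q).x ∧
      ((U.fr (U.n0 Q) (U.n1 Q) (U.n2 Q) (U.W.K * U.n3 Q) (U.W.be * U.n4 Q) (U.W.al * U.n5 Q) (U.W.c * U.n6 Q) (U.W.d * U.n7 Q)).tst Q).x < 1
    rw [a0]
    exact sf_af_fr_self_rem1 _
  · show 0 ≤ ((U.fr (U.n0 Q) (U.n1 Q) (U.n2 Q) (U.W.K * U.n3 Q) (U.W.be * U.n4 Q) (U.W.al * U.n5 Q) (U.W.c * U.n6 Q) (U.W.d * U.n7 Q)).tst Q).b ∧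
      ((U.fr (U.n0 Q) (U.n1 Q) (U.n2 Q) (U.W.K * U.n3 Q) (U.W.be * U.n4 Q) (U.W.al * U.n5 Q) (U.W.c * U.n6 Q) (U.W.d * U.n7 Q)).tst Q).b < 1
    rw [a1]
    exact sf_af_fr_self_rem1 _
  · show 0 ≤ ((U.fr (U.n0 Q) (U.n1 Q) (U.n2 Q) (U.W.K * U.n3 Q) (U.W.be * U.n4 Q) (U.W.al * U.n5 Q) (U.W.c * U.n6 Q) (U.W.d * U.n7 Q)).tst Q).y ∧
      ((U.fr (U.n0 Q) (U.n1 Q) (U.n2 Q) (U.W.K * U.n3 Q) (U.W.be * U.n4 Q) (U.W.al * U.n5 Q) (U.W.c * U.n6 Q) (U.W.d * U.n7 Q)).tst Q).y < 1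
    rw [a2]
    exact sf_af_fr_self_rem1 _
  · have hW : 0 < U.W.K := hm
    show 0 ≤ ((U.fr (U.n0 Q) (U.n1 Q) (U.n2 Q) (U.W.K * U.n3 Q) (U.W.be * U.n4 Q) (U.W.al * U.n5 Q) (U.W.c * U.n6 Q) (U.W.d * U.n7 Q)).tst Q).K ∧
      ((U.fr (U.n0 Q) (U.n1 Q) (U.n2 Q) (U.W.K * U.n3 Q) (U.W.be * U.n4 Q) (U.W.al * U.n5 Q) (U.W.c * U.n6 Q) (U.W.d * U.n7 Q)).tst Q).K < U.W.K
    rw [a3]
    exact sf_af_fr_self_rem _ _ hW
  · have hW : 0 < U.W.be := hm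
    show 0 ≤ ((U.fr (U.n0 Q) (U.n1 Q) (U.n2 Q) (U.W.K * U.n3 Q) (U.W.be * U.n4 Q) (U.W.al * U.n5 Q) (U.W.c * U.n6 Q) (U.W.d * U.n7 Q)).tst Q).be ∧
      ((U.fr (U.n0 Q) (U.n1 Q) (U.n2 Q) (U.W.K * U.n3 Q) (U.W.be * U.n4 Q) (U.W.al * U.n5 Q) (U.W.c * U.n6 Q) (U.W.d * U.n7 Q)).tst Q).be < U.W.be
    rw [a4]
    exact sf_af_fr_self_rem _ _ hW
  · have hW : 0 < U.W.al := hm
    show 0 ≤ ((U.fr (U.n0 Q) (U.n1 Q) (U.n2 Q) (U.W.K * U.n3 Q) (U.W.be * U.n4 Q) (U.W.al * U.n5 Q) (U.W.c * U.n6 Q) (U.W.d * U.n7 Q)).tst Q).Pc ∧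
      ((U.fr (U.n0 Q) (U.n1 Q) (U.n2 Q) (U.W.K * U.n3 Q) (U.W.be * U.n4 Q) (U.W.al * U.n5 Q) (U.W.c * U.n6 Q) (U.W.d * U.n7 Q)).tst Q).Pc < U.W.al
    rw [a5]
    exact sf_af_fr_self_rem _ _ hW
  · have hW : 0 < U.W.c := hm
    show 0 ≤ ((U.fr (U.n0 Q) (U.n1 Q) (U.n2 Q) (U.W.K * U.n3 Q) (U.W.be * U.n4 Q) (U.W.al * U.n5 Q) (U.W.c * U.n6 Q) (U.W.d * U.n7 Q)).tst Q).c ∧
      ((U.fr (U.n0 Q) (U.n1 Q) (U.n2 Q) (U.W.K * U.n3 Q) (U.W.be * U.n4 Q) (U.W.al * U.n5 Q) (U.W.c * U.n6 Q) (U.W.d * U.n7 Q)).tst Q).c < U.W.c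
    rw [a6]
    exact sf_af_fr_self_rem _ _ hW
  · have hW : 0 < U.W.d := hm
    show 0 ≤ ((U.fr (U.n0 Q) (U.n1 Q) (U.n2 Q) (U.W.K * U.n3 Q) (U.W.be * U.n4 Q) (U.W.al * U.n5 Q) (U.W.c * U.n6 Q) (U.W.d * U.n7 Q)).tst Q).d ∧
      ((U.fr (U.n0 Q) (U.n1 Q) (U.n2 Q) (U.W.K * U.n3 Q) (U.W.be * U.n4 Q) (U.W.al * U.n5 Q) (U.W.c * U.n6 Q) (U.W.d * U.n7 Q)).tst Q).d < U.W.d
    rw [a7]
    exact sf_af_fr_self_rem _ _ hW

/-- LEAF AF-F3 (~40 l.).   A coordinate which is not binned has the code `0` (`x / 0 = 0`, `⌊0⌋ = 0`). -/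
theorem sf_af_code_zero (U : SfAfU) (Q : SfTest) (m : Fin 8) (hm : U.wd m = 0) : U.code Q m = 0 := by
  fin_cases m
  · exact absurd (show (1 : ℝ) = 0 from hm) one_ne_zero
  · exact absurd (show (1 : ℝ) = 0 from hm) one_ne_zero
  · exact absurd (show (1 : ℝ) = 0 from hm) one_ne_zero
  · have hW : U.W.K = 0 := hm
    show U.n3 Q = 0
    unfold SfAfU.n3
    rw [hW, div_zero, Int.floor_zero]
  · have hW : U.W.be = 0 := hm
    show U.n4 Q = 0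
    unfold SfAfU.n4
    rw [hW, div_zero, Int.floor_zero]
  · have hW : U.W.al = 0 := hm
    show U.n5 Q = 0
    unfold SfAfU.n5
    rw [hW, div_zero, Int.floor_zero]
  · have hW : U.W.c = 0 := hm
    show U.n6 Q = 0
    unfold SfAfU.n6
    rw [hW, div_zero, Int.floor_zero]
  · have hW : U.W.d = 0 := hm
    show U.n7 Q = 0
    unfold SfAfU.n7
    rw [hW, div_zero, Int.floor_zero]

end Claimed.Agent.R256
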