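import Claimed.Agent.R256.Soft.Cmp

/-!
# Row 256 (S0496), unit SOFT, A7 AF, file 1: PAPER-FREE KIT      (architect helper10; chief helper19; prefix `sf_af_`)

Three Mathlib-only tools of the affine reduction (Prop. cyl:affine, 02-cylinder.tex l.1095-1235).
* `sf_af_cmp`    compactness for a DIRECTED family of classes `D i` which is NOT monotone (every index has its own support constant, mesh, accuracy): ONE limit profile `z`, realised beyond every index on every finite list of queries.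
                 Proof = the proof of `sf_cmp` (`Soft/Cmp.lean`) with `Z i0 n := {z ∈ X | ∃ i ≥ i0, SfEx (D i ∧ ∀ q ∈ dom i, |stat q - z q| ≤ 1/(n+1))}` (nonempty by `sf_cmp_fin`-type pigeonhole on `dom i`, decreasing in `(i0, n)`).
* `sf_af_diff`   a common differentiability point `x0 ∈ (1/4, 1)` of two Lipschitz profiles on `[0,1]`, at which the slope of `g = n - 2u` is `≤ σ` if `g ≥ σ (x - 1)`, `g 1 = 0`.
                 Proof: extend by clamping (`Set.projIcc`) to Lipschitz functions on `ℝ`; `LipschitzWith.ae_differentiableAt_real`; if `deriv g > σ` a.e. on `(1/4, 1)` then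
                 `g 1 - g (1/4) = ∫ deriv g > σ * (3/4)` (`LipschitzOnWith.absolutelyContinuousOnInterval`, `AbsolutelyContinuousOnInterval.integral_deriv_eq_sub`), against `g (1/4) ≥ - σ * (3/4)`.
* `sf_af_count`  fibred counting: `n` integer coordinates, jointly injective on `S`; two points of `S` with the same first `m` coordinates differ by `≤ M` in the next one  ⟹  `S` is finite with `≤ (M+1)^n` points.
-/

set_option autoImplicit false

namespace Claimed.Agent.R256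

universe u v w x

/-- **compactness for a directed, non monotone family** -/
theorem sf_af_cmp {Cfg : Type u} {Pkg : Type v} {ob : Pkg → Cfg → Prop} {sc : Cfg → ℝ} {Q : Type w} {I : Type x}
    (le : I → I → Prop) (hrefl : ∀ i, le i i) (htrans : ∀ i j k, le i j → le j k → le i k) (hdir : ∀ i j, ∃ k, le i k ∧ le j k) (i00 : I)
    (D : I → Cfg → Prop) (dom : I → Finset Q) (hdom : ∀ i j, le i j → dom i ⊆ dom j)
    (U : Set Q) (hcof : ∀ F : Finset Q, (∀ q ∈ F, q ∈ U) → ∀ i, ∃ j, le i j ∧ F ⊆ dom j)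
    (stat : Q → Cfg → ℝ) (C : Q → ℝ) (hC0 : ∀ q, 0 ≤ C q) (hC : ∀ i E q, q ∈ dom i → D i E → |stat q E| ≤ C q)
    (hex : ∀ i, SfEx ob sc (D i)) :
    ∃ z : Q → ℝ, (∀ q, |z q| ≤ C q) ∧ ∀ (F : Finset Q), (∀ q ∈ F, q ∈ U) → ∀ (a : ℝ) (i0 : I), 0 < a →
      ∃ i, le i0 i ∧ F ⊆ dom i ∧ SfEx ob sc (fun E => D i E ∧ ∀ q ∈ F, |stat q E - z q| ≤ a) := by
  classical
  set X : Set (Q → ℝ) := Set.pi Set.univ (fun q => Set.Icc (-C q) (C q)) with hX
  have hXc : IsCompact X := isCompact_univ_pi fun q => isCompact_Icc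
  have hXcl : IsClosed X := hXc.isClosed
  set acc : ℕ → ℝ := fun n => 1 / ((n : ℝ) + 1) with hacc
  have hacc0 : ∀ n, 0 < acc n := fun n => by simp only [hacc]; positivity
  have haccm : ∀ n n', n ≤ n' → acc n' ≤ acc n := by
    intro n n' h
    simp only [hacc]
    apply one_div_le_one_div_of_le (by positivity)
    have : (n : ℝ) ≤ n' := Nat.cast_le.2 h
    linarith
  set Z : I × ℕ → Set (Q → ℝ) := fun p =>
    {z | z ∈ X ∧ ∃ i, le p.1 i ∧ SfEx ob sc (fun E => D i E ∧ ∀ q ∈ dom i, |stat q E - z q| ≤ acc p.2)} with hZ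
  have hZX : ∀ p, closure (Z p) ⊆ X := fun p => closure_minimal (fun z hz => hz.1) hXcl
  have hZmono : ∀ p r : I × ℕ, le p.1 r.1 → p.2 ≤ r.2 → Z r ⊆ Z p := by
    intro p r h1 h2 z hz
    obtain ⟨hzX, i, hi, hs⟩ := hz
    exact ⟨hzX, i, htrans _ _ _ h1 hi, sf_ex_mono (fun E hE => ⟨hE.1, fun q hq => (hE.2 q hq).trans (haccm _ _ h2)⟩) hs⟩
  have : Nonempty (I × ℕ) := ⟨(i00, 0)⟩
  have hne : (⋂ p, closure (Z p)).Nonempty := by
    apply IsCompact.nonempty_iInter_of_directed_nonempty_isCompact_isClosed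
    · intro p r
      obtain ⟨k, hk1, hk2⟩ := hdir p.1 r.1
      exact ⟨(k, max p.2 r.2), closure_mono (hZmono _ _ hk1 (le_max_left _ _)), closure_mono (hZmono _ _ hk2 (le_max_right _ _))⟩
    · intro p
      obtain ⟨z, hz, hzex⟩ := sf_cmp_fin (ob := ob) (sc := sc) (fun F _ E => D p.1 E ∧ F ⊆ dom p.1) stat C hC0
        (fun F _ E q hq hE => hC p.1 E q (hE.2 hq) hE.1) (dom p.1) (acc p.2) (hacc0 _)
        (sf_ex_mono (fun E hE => ⟨hE, subset_rfl⟩) (hex p.1))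
      refine ⟨z, subset_closure ⟨fun q _ => abs_le.1 (hz q), p.1, hrefl _, sf_ex_mono (fun E hE => ⟨hE.1.1, hE.2⟩) hzex⟩⟩
    · intro p
      exact hXc.of_isClosed_subset isClosed_closure (hZX p)
    · intro p
      exact isClosed_closure
  obtain ⟨z, hz⟩ := hne
  rw [Set.mem_iInter] at hz
  refine ⟨z, fun q => abs_le.2 (hZX (i00, 0) (hz (i00, 0)) q (Set.mem_univ q)), fun F hF a i0 ha => ?_⟩
  obtain ⟨j, hj, hFj⟩ := hcof F hF i0
  obtain ⟨n, hn⟩ := exists_nat_one_div_lt (show 0 < a / 2 by linarith)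
  have hU : IsOpen (⋂ q ∈ F, (fun z' : Q → ℝ => z' q) ⁻¹' Metric.ball (z q) (a / 2)) :=
    isOpen_biInter_finset fun q _ => Metric.isOpen_ball.preimage (continuous_apply q)
  have hzU : z ∈ ⋂ q ∈ F, (fun z' : Q → ℝ => z' q) ⁻¹' Metric.ball (z q) (a / 2) := by
    simp only [Set.mem_iInter, Set.mem_preimage]
    intro q _
    exact Metric.mem_ball_self (by linarith)
  obtain ⟨z', hz'U, hz'Z⟩ := mem_closure_iff.1 (hz (j, n)) _ hU hzU
  simp only [Set.mem_iInter, Set.mem_preimage, Metric.mem_ball, Real.dist_eq] at hz'U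
  obtain ⟨-, i, hi, hs⟩ := hz'Z
  have hFi : F ⊆ dom i := hFj.trans (hdom _ _ hi)
  refine ⟨i, htrans _ _ _ hj hi, hFi, sf_ex_mono (fun E hE => ⟨hE.1, fun q hq => ?_⟩) hs⟩
  have h1 : |stat q E - z' q| ≤ acc n := hE.2 q (hFi hq)
  have h2 := hz'U q hq
  have h3 : acc n < a / 2 := hn
  calc |stat q E - z q| = |(stat q E - z' q) + (z' q - z q)| := by ring_nf
    _ ≤ |stat q E - z' q| + |z' q - z q| := abs_add_le _ _
    _ ≤ a := by linarith

open MeasureTheory in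
theorem sf_af_aux_pt (U N : ℝ → ℝ) (K : NNReal) (hU : LipschitzWith K U) (hN : LipschitzWith K N) (σ : ℝ)
    (hG : (N 1 - 2 * U 1) - (N (1 / 4) - 2 * U (1 / 4)) ≤ σ * (3 / 4)) :
    ∃ x0 : ℝ, 1 / 4 < x0 ∧ x0 < 1 ∧ DifferentiableAt ℝ U x0 ∧ DifferentiableAt ℝ N x0 ∧ deriv N x0 - 2 * deriv U x0 ≤ σ := by
  by_contra hcon
  push Not at hcon
  have hGl : LipschitzWith (K + (K + K)) (fun x => N x - (U x + U x)) := hN.sub (hU.add hU)
  have hac : AbsolutelyContinuousOnInterval (fun x => N x - (U x + U x)) (1 / 4) 1 :=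
    (hGl.lipschitzOnWith (s := Set.uIcc (1 / 4) 1)).absolutelyContinuousOnInterval
  have hI := hac.integral_deriv_eq_sub
  have hint := hac.intervalIntegrable_deriv
  have hint2 : IntervalIntegrable (fun x => deriv (fun x => N x - (U x + U x)) x - σ) volume (1 / 4) 1 :=
    hint.sub intervalIntegrable_const
  have hI2 : ∫ x in (1 / 4 : ℝ)..1, (deriv (fun x => N x - (U x + U x)) x - σ) ≤ 0 := by
    rw [intervalIntegral.integral_sub hint intervalIntegrable_const, hI, intervalIntegral.integral_const, smul_eq_mul]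
    linarith
  have hae : ∀ᵐ x : ℝ, x ∈ Set.Ioc (1 / 4 : ℝ) 1 → 0 < deriv (fun x => N x - (U x + U x)) x - σ := by
    have h1 : ∀ᵐ x : ℝ, x ≠ 1 := compl_mem_ae_iff.2 (measure_singleton 1)
    filter_upwards [hU.ae_differentiableAt_real, hN.ae_differentiableAt_real, h1] with x hxU hxN hx1 hx
    have h2 := hcon x hx.1 (lt_of_le_of_ne hx.2 hx1) hxU hxN
    have h3 : deriv (fun x => N x - (U x + U x)) x = deriv N x - (deriv U x + deriv U x) :=
      ((hxN.hasDerivAt).sub ((hxU.hasDerivAt).add (hxU.hasDerivAt))).deriv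
    rw [h3]
    linarith
  have hnn : 0 ≤ᵐ[volume.restrict (Set.uIoc (1 / 4 : ℝ) 1)] fun x => deriv (fun x => N x - (U x + U x)) x - σ := by
    rw [Set.uIoc_of_le (by norm_num)]
    rw [Filter.EventuallyLE, ae_restrict_iff' measurableSet_Ioc]
    filter_upwards [hae] with x hx hx' using (hx hx').le
  have hpos := (intervalIntegral.integral_pos_iff_support_of_nonneg_ae' hnn hint2).2 ⟨by norm_num, by
    have h1 : volume (Set.Ioc (1 / 4 : ℝ) 1)
        ≤ volume (Function.support (fun x => deriv (fun x => N x - (U x + U x)) x - σ) ∩ Set.Ioc (1 / 4 : ℝ) 1) := by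
      apply measure_mono_ae
      filter_upwards [hae] with x hx hx'
      exact ⟨(hx hx').ne', hx'⟩
    refine lt_of_lt_of_le ?_ h1
    rw [Real.volume_Ioc]
    norm_num⟩
  linarith

theorem sf_af_aux_lin (f : ℝ → ℝ) (x0 d : ℝ) (h : HasDerivAt f d x0) (ε : ℝ) (hε : 0 < ε) :
    ∃ h0 : ℝ, 0 < h0 ∧ ∀ x : ℝ, |x - x0| ≤ h0 → |f x - f x0 - d * (x - x0)| ≤ ε * |x - x0| := by
  have h1 := (hasDerivAt_iff_isLittleO.1 h).def hε
  obtain ⟨δ, hδ, H⟩ := Metric.eventually_nhds_iff.1 h1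
  refine ⟨δ / 2, by positivity, fun x hx => ?_⟩
  have h2 := H (y := x) (by rw [Real.dist_eq]; linarith)
  simp only [Real.norm_eq_abs, smul_eq_mul] at h2
  rw [mul_comm d]
  exact h2

/-- **a common differentiability point with a slope condition** -/
theorem sf_af_diff (u n : ℝ → ℝ) (L σ : ℝ)
    (hu : ∀ x y : ℝ, 0 ≤ x → x ≤ 1 → 0 ≤ y → y ≤ 1 → |u x - u y| ≤ L * |x - y|)
    (hn : ∀ x y : ℝ, 0 ≤ x → x ≤ 1 → 0 ≤ y → y ≤ 1 → |n x - n y| ≤ L * |x - y|)
    (hg : ∀ x : ℝ, 0 ≤ x → x ≤ 1 → σ * (x - 1) ≤ n x - 2 * u x) (h1 : n 1 - 2 * u 1 = 0) :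
    ∃ x0 du dn : ℝ, 1 / 4 < x0 ∧ x0 < 1 ∧ dn - 2 * du ≤ σ ∧ ∀ ε : ℝ, 0 < ε → ∃ h0 : ℝ, 0 < h0 ∧
      ∀ x : ℝ, 0 ≤ x → x ≤ 1 → |x - x0| ≤ h0 →
        |u x - u x0 - du * (x - x0)| ≤ ε * |x - x0| ∧ |n x - n x0 - dn * (x - x0)| ≤ ε * |x - x0| := by
  have hL : 0 ≤ L := by
    have := hu 0 1 le_rfl zero_le_one zero_le_one le_rfl
    have h2 := abs_nonneg (u 0 - u 1)
    norm_num at this
    linarith
  have hKL : ((L.toNNReal : NNReal) : ℝ) = L := Real.coe_toNNReal L hL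
  have hul : LipschitzOnWith L.toNNReal u (Set.Icc 0 1) := LipschitzOnWith.of_dist_le_mul fun x hx y hy => by
    rw [Real.dist_eq, Real.dist_eq, hKL]
    exact hu x y hx.1 hx.2 hy.1 hy.2
  have hnl : LipschitzOnWith L.toNNReal n (Set.Icc 0 1) := LipschitzOnWith.of_dist_le_mul fun x hx y hy => by
    rw [Real.dist_eq, Real.dist_eq, hKL]
    exact hn x y hx.1 hx.2 hy.1 hy.2
  obtain ⟨U, hU, hUe⟩ := hul.extend_real
  obtain ⟨N, hN, hNe⟩ := hnl.extend_real
  have m1 : (1 : ℝ) ∈ Set.Icc (0 : ℝ) 1 := ⟨zero_le_one, le_rfl⟩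
  have m4 : (1 / 4 : ℝ) ∈ Set.Icc (0 : ℝ) 1 := ⟨by norm_num, by norm_num⟩
  obtain ⟨x0, a1, a2, dU, dN, hs⟩ := sf_af_aux_pt U N _ hU hN σ (by
    rw [← hUe m1, ← hNe m1, ← hUe m4, ← hNe m4, h1]
    have := hg (1 / 4) m4.1 m4.2
    linarith)
  have m0 : x0 ∈ Set.Icc (0 : ℝ) 1 := ⟨by linarith, a2.le⟩
  refine ⟨x0, deriv U x0, deriv N x0, a1, a2, hs, fun ε hε => ?_⟩
  obtain ⟨p, hp, Hp⟩ := sf_af_aux_lin U x0 _ dU.hasDerivAt ε hε
  obtain ⟨q, hq, Hq⟩ := sf_af_aux_lin N x0 _ dN.hasDerivAt ε hε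
  refine ⟨min p q, lt_min hp hq, fun x b1 b2 b3 => ?_⟩
  have mx : x ∈ Set.Icc (0 : ℝ) 1 := ⟨b1, b2⟩
  rw [hUe mx, hUe m0, hNe mx, hNe m0]
  exact ⟨Hp x (b3.trans (min_le_left _ _)), Hq x (b3.trans (min_le_right _ _))⟩

/-- the induction of `sf_af_count` -/
theorem sf_af_count_ind {X : Type u} (M : ℕ) : ∀ (n : ℕ) (S : Set X) (f : Fin n → X → ℤ),
    (∀ x ∈ S, ∀ y ∈ S, (∀ m, f m x = f m y) → x = y) →
    (∀ x ∈ S, ∀ y ∈ S, ∀ m : Fin n, (∀ l : Fin n, l < m → f l x = f l y) → |f m x - f m y| ≤ (M : ℤ)) →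
    S.Finite ∧ S.ncard ≤ (M + 1) ^ n := by
  intro n
  induction n with
  | zero =>
    intro S f hinj _
    have hsub : S.Subsingleton := fun x hx y hy => hinj x hx y hy (fun m => m.elim0)
    refine ⟨hsub.finite, ?_⟩
    rw [pow_zero, Set.ncard_le_one hsub.finite]
    exact fun x hx y hy => hsub hx hy
  | succ n ih =>
    intro S f hinj hcl
    rcases S.eq_empty_or_nonempty with rfl | ⟨x0, hx0⟩
    · exact ⟨Set.finite_empty, by simp⟩
    have h0 : ∀ x ∈ S, ∀ y ∈ S, |f 0 x - f 0 y| ≤ (M : ℤ) := fun x hx y hy =>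
      hcl x hx y hy 0 (fun l hl => absurd hl (Fin.not_lt_zero l))
    obtain ⟨a, ⟨xa, hxa, hga⟩, hmin⟩ := Int.exists_least_of_bdd (P := fun z => ∃ x ∈ S, f 0 x = z)
      ⟨f 0 x0 - M, by
        rintro z ⟨x, hx, rfl⟩
        have := abs_le.1 (h0 x hx x0 hx0)
        linarith [this.1]⟩ ⟨f 0 x0, x0, hx0, rfl⟩
    have hrg : ∀ x ∈ S, f 0 x ∈ Finset.Icc a (a + M) := by
      intro x hx
      rw [Finset.mem_Icc]
      refine ⟨hmin _ ⟨x, hx, rfl⟩, ?_⟩
      have := abs_le.1 (h0 x hx xa hxa)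
      linarith [this.2]
    have hfib : ∀ v : ℤ, ({x | x ∈ S ∧ f 0 x = v} : Set X).Finite ∧ ({x | x ∈ S ∧ f 0 x = v} : Set X).ncard ≤ (M + 1) ^ n := by
      intro v
      refine ih _ (fun m => f m.succ) ?_ ?_
      · intro x hx y hy h
        refine hinj x hx.1 y hy.1 (fun m => ?_)
        refine Fin.cases ?_ (fun m' => h m') m
        rw [hx.2, hy.2]
      · intro x hx y hy m h
        refine hcl x hx.1 y hy.1 m.succ (fun l => ?_)
        refine Fin.cases (fun _ => ?_) (fun l' hl' => h l' (Fin.succ_lt_succ_iff.1 hl')) l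
        rw [hx.2, hy.2]
    have hfin : S.Finite := by
      refine Set.Finite.subset (Set.Finite.biUnion (Finset.finite_toSet (Finset.Icc a (a + M))) (fun v _ => (hfib v).1)) ?_
      intro x hx
      simp only [Set.mem_iUnion]
      exact ⟨f 0 x, Finset.mem_coe.2 (hrg x hx), hx, rfl⟩
    refine ⟨hfin, ?_⟩
    rw [Set.ncard_eq_toFinset_card S hfin]
    have h1 := Finset.card_le_mul_card_image_of_maps_to (f := f 0) (s := hfin.toFinset) (t := Finset.Icc a (a + M))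
      (fun x hx => hrg x (hfin.mem_toFinset.1 hx)) ((M + 1) ^ n) (by
        intro v _
        refine le_trans (le_of_eq ?_) (hfib v).2
        rw [← Set.ncard_coe_finset]
        congr 1
        ext x
        simp)
    refine h1.trans (le_of_eq ?_)
    rw [Int.card_Icc, pow_succ]
    congr 1
    have : a + (M : ℤ) + 1 - a = ((M + 1 : ℕ) : ℤ) := by push_cast; ring
    rw [this, Int.toNat_natCast]

/-- **fibred counting** -/
theorem sf_af_count {X : Type u} (n M : ℕ) (S : Set X) (f : Fin n → X → ℤ)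
    (hinj : ∀ x ∈ S, ∀ y ∈ S, (∀ m, f m x = f m y) → x = y)
    (hcl : ∀ x ∈ S, ∀ y ∈ S, ∀ m : Fin n, (∀ l : Fin n, l < m → f l x = f l y) → |f m x - f m y| ≤ (M : ℤ)) :
    S.Finite ∧ S.ncard ≤ (M + 1) ^ n := by
  exact sf_af_count_ind M n S f hinj hcl

end Claimed.Agent.R256
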