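import Claimed.Agent.R256.Soft.Pat

/-!
# Row 256, unit SOFT, file 3: the master compactness lemma (limit profiles realised on every finite query list)      (helper19)

Paper free.   `Q` = any set of queries (depths, names, widths ...), `stat q E` = the normalised statistic of the query `q` on the configuration `E` (width exponent, score, entropy ...),
`D F a E` = "`E` is prepared for the finite query list `F` with accuracy `a`" (antitone in `F`, monotone in `a`), on which `|stat q E| ≤ C q` for `q ∈ F`.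
If `SfEx (D F a)` for all `F`, `a > 0`, there is ONE profile `z : Q → ℝ` with `SfEx (D F a ∧ ∀ q ∈ F, |stat q - z q| ≤ a)` for all `F`, `a > 0`.
This replaces "growing finite lists of queries followed by subsequences", Arzela-Ascoli on finer meshes and the diagonal arguments of secs. 2, 4 (the EXIST pattern is kept for each list, so every RIGID statement still applies afterwards: `sf_ex_and_all`).
-/

set_option autoImplicit false

namespace Claimed.Agent.R256

universe u v w

variable {Cfg : Type u} {Pkg : Type v} {ob : Pkg → Cfg → Prop} {sc : Cfg → ℝ} {Q : Type w}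

/-- one more coordinate: pigeonhole on a grid of mesh `a` of `[-C, C]` -/
theorem sf_cmp_step {A : Cfg → Prop} (val : Cfg → ℝ) (C a : ℝ) (ha : 0 < a) (hC : ∀ E, A E → |val E| ≤ C)
    (h : SfEx ob sc A) : ∃ y : ℝ, |y| ≤ C ∧ SfEx ob sc (fun E => A E ∧ |val E - y| ≤ a) := by
  have h1 : SfEx ob sc (fun E => ∃ k ∈ Finset.range (⌊2 * C / a⌋₊ + 1), A E ∧ |val E - (-C + k * a)| ≤ a) := by
    refine sf_ex_mono (fun E hE => ?_) h
    have hv := abs_le.1 (hC E hE)
    have h0 : 0 ≤ (val E + C) / a := div_nonneg (by linarith [hv.1]) ha.le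
    refine ⟨⌊(val E + C) / a⌋₊, ?_, hE, ?_⟩
    · rw [Finset.mem_range, Nat.lt_succ_iff]
      apply Nat.floor_le_floor
      apply div_le_div_of_nonneg_right _ ha.le
      linarith [hv.2]
    · have f1 := Nat.floor_le h0
      have f2 := Nat.lt_floor_add_one ((val E + C) / a)
      rw [le_div_iff₀ ha] at f1
      rw [div_lt_iff₀ ha] at f2
      rw [abs_le]
      constructor <;> nlinarith
  obtain ⟨k, hk, hex⟩ := sf_ex_finset _ h1
  refine ⟨-C + k * a, ?_, hex⟩
  obtain ⟨S, hS⟩ := h
  obtain ⟨E, -, -, hAE⟩ := hS 1 one_pos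
  have hC0 : 0 ≤ C := (abs_nonneg _).trans (hC E hAE)
  rw [Finset.mem_range, Nat.lt_succ_iff] at hk
  have hk' : (k : ℝ) ≤ 2 * C / a :=
    (Nat.cast_le.2 hk).trans (Nat.floor_le (div_nonneg (by linarith) ha.le))
  rw [le_div_iff₀ ha] at hk'
  have hk0 : 0 ≤ (k : ℝ) * a := by positivity
  rw [abs_le]
  constructor <;> linarith

/-- finite lists: pigeonhole in the cube -/
theorem sf_cmp_fin (D : Finset Q → ℝ → Cfg → Prop) (stat : Q → Cfg → ℝ) (C : Q → ℝ)
    (hC0 : ∀ q, 0 ≤ C q) (hC : ∀ F a E q, q ∈ F → D F a E → |stat q E| ≤ C q)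
    (F : Finset Q) (a : ℝ) (ha : 0 < a) (hex : SfEx ob sc (D F a)) :
    ∃ z : Q → ℝ, (∀ q, |z q| ≤ C q) ∧ SfEx ob sc (fun E => D F a E ∧ ∀ q ∈ F, |stat q E - z q| ≤ a) := by
  classical
  have key : ∀ G : Finset Q, G ⊆ F → ∃ z : Q → ℝ, (∀ q, |z q| ≤ C q) ∧
      SfEx ob sc (fun E => D F a E ∧ ∀ q ∈ G, |stat q E - z q| ≤ a) := by
    intro G
    induction G using Finset.induction_on with
    | empty =>
      intro _
      exact ⟨fun _ => 0, fun q => by simpa using hC0 q,
        sf_ex_mono (fun E hE => ⟨hE, fun q hq => absurd hq (Finset.notMem_empty q)⟩) hex⟩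
    | insert q0 G hq0 ih =>
      intro hsub
      obtain ⟨z, hz, hzex⟩ := ih ((Finset.subset_insert q0 G).trans hsub)
      obtain ⟨y, hy, hyex⟩ := sf_cmp_step (stat q0) (C q0) a ha
        (fun E hE => hC F a E q0 (hsub (Finset.mem_insert_self q0 G)) hE.1) hzex
      refine ⟨Function.update z q0 y, fun q => ?_, sf_ex_mono (fun E hE => ⟨hE.1.1, fun q hq => ?_⟩) hyex⟩
      · by_cases hq : q = q0
        · subst hq; simpa using hy
        · simpa [Function.update_of_ne hq] using hz q
      · rcases Finset.mem_insert.1 hq with rfl | hq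
        · simpa using hE.2
        · have hne : q ≠ q0 := fun h => hq0 (h ▸ hq)
          simpa [Function.update_of_ne hne] using hE.1.2 q hq
  exact key F subset_rfl

/-- **master compactness lemma** -/
theorem sf_cmp (D : Finset Q → ℝ → Cfg → Prop)
    (hD : ∀ F F' a a' E, F' ⊆ F → a ≤ a' → D F a E → D F' a' E)
    (stat : Q → Cfg → ℝ) (C : Q → ℝ) (hC : ∀ F a E q, q ∈ F → D F a E → |stat q E| ≤ C q)
    (hex : ∀ F a, 0 < a → SfEx ob sc (D F a)) :
    ∃ z : Q → ℝ, (∀ q, |z q| ≤ C q) ∧
      ∀ F a, 0 < a → SfEx ob sc (fun E => D F a E ∧ ∀ q ∈ F, |stat q E - z q| ≤ a) := by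
  classical
  have hC0 : ∀ q, 0 ≤ C q := by
    intro q
    obtain ⟨S, hS⟩ := hex {q} 1 one_pos
    obtain ⟨E, -, -, hE⟩ := hS 1 one_pos
    exact (abs_nonneg _).trans (hC {q} 1 E q (Finset.mem_singleton_self q) hE)
  set X : Set (Q → ℝ) := Set.pi Set.univ (fun q => Set.Icc (-C q) (C q)) with hX
  have hXc : IsCompact X := isCompact_univ_pi fun q => isCompact_Icc
  have hXcl : IsClosed X := hXc.isClosed
  set acc : ℕ → ℝ := fun n => 1 / ((n : ℝ) + 1) with hacc
  have hacc0 : ∀ n, 0 < acc n := fun n => by simp only [hacc]; positivity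
  have haccm : ∀ n n', n ≤ n' → acc n' ≤ acc n := by
    intro n n' h
    simp only [hacc]
    apply one_div_le_one_div_of_le (by positivity)
    have : (n : ℝ) ≤ n' := Nat.cast_le.2 h
    linarith
  set Z : Finset Q × ℕ → Set (Q → ℝ) := fun i =>
    {z | z ∈ X ∧ SfEx ob sc (fun E => D i.1 (acc i.2) E ∧ ∀ q ∈ i.1, |stat q E - z q| ≤ acc i.2)} with hZ
  have hZX : ∀ i, closure (Z i) ⊆ X := fun i => closure_minimal (fun z hz => hz.1) hXcl
  have hZmono : ∀ i j : Finset Q × ℕ, i.1 ⊆ j.1 → i.2 ≤ j.2 → Z j ⊆ Z i := by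
    intro i j h1 h2 z hz
    refine ⟨hz.1, sf_ex_mono (fun E hE => ⟨hD _ _ _ _ E h1 (haccm _ _ h2) hE.1, fun q hq => ?_⟩) hz.2⟩
    exact (hE.2 q (h1 hq)).trans (haccm _ _ h2)
  have hne : (⋂ i, closure (Z i)).Nonempty := by
    apply IsCompact.nonempty_iInter_of_directed_nonempty_isCompact_isClosed
    · intro i j
      refine ⟨(i.1 ∪ j.1, max i.2 j.2), closure_mono (hZmono _ _ ?_ ?_), closure_mono (hZmono _ _ ?_ ?_)⟩
      · exact Finset.subset_union_left
      · exact le_max_left _ _
      · exact Finset.subset_union_right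
      · exact le_max_right _ _
    · intro i
      obtain ⟨z, hz, hzex⟩ := sf_cmp_fin D stat C hC0 hC i.1 (acc i.2) (hacc0 _) (hex _ _ (hacc0 _))
      refine ⟨z, subset_closure ⟨?_, hzex⟩⟩
      intro q _
      exact abs_le.1 (hz q)
    · intro i
      exact hXc.of_isClosed_subset isClosed_closure (hZX i)
    · intro i
      exact isClosed_closure
  obtain ⟨z, hz⟩ := hne
  rw [Set.mem_iInter] at hz
  refine ⟨z, fun q => ?_, fun F a ha => ?_⟩
  · exact abs_le.2 (hZX (∅, 0) (hz (∅, 0)) q (Set.mem_univ q))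
  · obtain ⟨n, hn⟩ := exists_nat_one_div_lt (show 0 < a / 2 by linarith)
    have hU : IsOpen (⋂ q ∈ F, (fun z' : Q → ℝ => z' q) ⁻¹' Metric.ball (z q) (a / 2)) :=
      isOpen_biInter_finset fun q _ => Metric.isOpen_ball.preimage (continuous_apply q)
    have hzU : z ∈ ⋂ q ∈ F, (fun z' : Q → ℝ => z' q) ⁻¹' Metric.ball (z q) (a / 2) := by
      simp only [Set.mem_iInter, Set.mem_preimage]
      intro q _
      exact Metric.mem_ball_self (by linarith)
    obtain ⟨z', hz'U, hz'Z⟩ := mem_closure_iff.1 (hz (F, n)) _ hU hzU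
    simp only [Set.mem_iInter, Set.mem_preimage, Metric.mem_ball, Real.dist_eq] at hz'U
    refine sf_ex_mono (fun E hE => ⟨hD _ _ _ _ E subset_rfl ?_ hE.1, fun q hq => ?_⟩) hz'Z.2
    · show acc n ≤ a
      simp only [hacc]; linarith
    · have h1 := hE.2 q hq
      have h2 := hz'U q hq
      have h3 : acc n < a / 2 := hn
      calc |stat q E - z q| = |(stat q E - z' q) + (z' q - z q)| := by ring_nf
        _ ≤ |stat q E - z' q| + |z' q - z q| := abs_add_le _ _
        _ ≤ a := by
          have h1' : |stat q E - z' q| ≤ acc n := h1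
          linarith

end Claimed.Agent.R256
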