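import Mathlib

/-!
# Row 256, unit SOFT, file 4: the finite window lemma      (helper19)

Paper free, Mathlib only.   Finite substitute for "choose an interior common differentiability point of the Lipschitz profiles and take shrinking segments `[A, B]` about it" (proof of Prop. cyl:affine, 02-cylinder.tex l.1128-1140).

`sfPt κ a = a / 2^κ` (dyadic depth), `sfInc f κ a = f ((a+1)/2^κ) - f (a/2^κ)`,
`SfAff f ε κ m a` = on the window `[a/2^κ, (a+1)/2^κ]` every `f i` is within `ε · 2^{-κ}` of its chord at all the `2^m + 1` points of the sub-mesh of level `κ + m`.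

* `sf_win` : finitely many functions that are `L`-Lipschitz between NEIGHBOURS of the mesh of level `κ0 + R m`, `card ι · L² ≤ R θ ε²`  ⟹  at one of the levels `κ = κ0 + r m`, `r < R`, at most `θ 2^κ` windows fail `SfAff`.
  (`L²` martingale of the dyadic slopes: the energies `∑_a 2^κ (inc)²` increase with `κ` and are `≤ L²`; pigeonhole on `r`.)     So the tangent gap is `h = 2^{-κ} ≥ 2^{-(κ0 + R m)}`, a function of the requested accuracy only.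
* `sf_win_slope` : if `f(1) - f(k0/2^κ') ≤ σ (1 - i0) - t0`, at every level `κ` with `(|σ| + L) 2^{-κ} ≤ t0/4` at least `t0 2^κ / (4 (|σ| + L))` windows inside `[i0, 1]` have chord slope `≤ σ - t0/2`  (case `c = 1`, `q < 1`).
-/

set_option autoImplicit false

namespace Claimed.Agent.R256

open Finset
open scoped BigOperators

/-- the dyadic point `a / 2^κ` -/
noncomputable def sfPt (κ a : ℕ) : ℝ := (a : ℝ) / 2 ^ κ

/-- the increment of `f` over the `a`-th window of level `κ` -/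
noncomputable def sfInc (f : ℝ → ℝ) (κ a : ℕ) : ℝ := f (sfPt κ (a + 1)) - f (sfPt κ a)

/-- the energy of level `κ` : `∫ (slope)²` -/
noncomputable def sfEn (f : ℝ → ℝ) (κ : ℕ) : ℝ := ∑ a ∈ range (2 ^ κ), (2 : ℝ) ^ κ * sfInc f κ a ^ 2

/-- the window `a` of level `κ` is `ε`-affine at the sub-mesh of level `κ + m` -/
def SfAff {ι : Type*} (f : ι → ℝ → ℝ) (ε : ℝ) (κ m a : ℕ) : Prop :=
  ∀ i, ∀ j, j ≤ 2 ^ m →
    |f i (sfPt (κ + m) (a * 2 ^ m + j)) - f i (sfPt κ a) - (j : ℝ) / 2 ^ m * sfInc (f i) κ a| ≤ ε / 2 ^ κ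

theorem sf_pt_mul (κ m a : ℕ) : sfPt (κ + m) (a * 2 ^ m) = sfPt κ a := by
  unfold sfPt
  rw [pow_add]
  push_cast
  field_simp

/-- telescoping over the sub-mesh -/
theorem sf_inc_tele (f : ℝ → ℝ) (κ m a j0 : ℕ) :
    ∑ j ∈ range j0, sfInc f (κ + m) (a * 2 ^ m + j) = f (sfPt (κ + m) (a * 2 ^ m + j0)) - f (sfPt κ a) := by
  have h := Finset.sum_range_sub (fun j => f (sfPt (κ + m) (a * 2 ^ m + j))) j0
  simp only [add_zero, sf_pt_mul] at h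
  rw [← h]
  rfl

theorem sf_inc_sum (f : ℝ → ℝ) (κ m a : ℕ) :
    ∑ j ∈ range (2 ^ m), sfInc f (κ + m) (a * 2 ^ m + j) = sfInc f κ a := by
  rw [sf_inc_tele, show a * 2 ^ m + 2 ^ m = (a + 1) * 2 ^ m by ring, sf_pt_mul]
  rfl

/-- Cauchy-Schwarz for the deviation of the partial sums from the chord -/
theorem sf_dev_sq (x : ℕ → ℝ) (n j0 : ℕ) (hn : 0 < n) (hj : j0 ≤ n) :
    (∑ j ∈ range j0, x j - (j0 : ℝ) / n * ∑ j ∈ range n, x j) ^ 2
      ≤ n * ∑ j ∈ range n, x j ^ 2 - (∑ j ∈ range n, x j) ^ 2 := by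
  set S := ∑ j ∈ range n, x j with hS
  have hn' : (0 : ℝ) < n := Nat.cast_pos.2 hn
  have h1 : ∑ j ∈ range j0, x j - (j0 : ℝ) / n * S = ∑ j ∈ range j0, (x j - S / n) := by
    rw [Finset.sum_sub_distrib, Finset.sum_const, card_range, nsmul_eq_mul]
    ring
  have h2 : (∑ j ∈ range j0, (x j - S / n)) ^ 2 ≤ (j0 : ℝ) * ∑ j ∈ range j0, (x j - S / n) ^ 2 := by
    have := sq_sum_le_card_mul_sum_sq (s := range j0) (f := fun j => x j - S / n)
    simpa using this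
  have h3 : ∑ j ∈ range j0, (x j - S / n) ^ 2 ≤ ∑ j ∈ range n, (x j - S / n) ^ 2 :=
    Finset.sum_le_sum_of_subset_of_nonneg (Finset.range_subset_range.2 hj) (fun _ _ _ => sq_nonneg _)
  have h4 : ∑ j ∈ range n, (x j - S / n) ^ 2 = ∑ j ∈ range n, x j ^ 2 - S ^ 2 / n := by
    have : ∀ j ∈ range n, (x j - S / n) ^ 2 = x j ^ 2 - 2 * (S / n) * x j + (S / n) ^ 2 := fun j _ => by ring
    rw [Finset.sum_congr rfl this, Finset.sum_add_distrib, Finset.sum_sub_distrib, ← Finset.mul_sum,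
      Finset.sum_const, card_range, nsmul_eq_mul, ← hS]
    field_simp
    ring
  have h5 : 0 ≤ ∑ j ∈ range n, (x j - S / n) ^ 2 := Finset.sum_nonneg fun _ _ => sq_nonneg _
  have hj' : (j0 : ℝ) ≤ n := Nat.cast_le.2 hj
  calc (∑ j ∈ range j0, x j - (j0 : ℝ) / n * S) ^ 2 = (∑ j ∈ range j0, (x j - S / n)) ^ 2 := by rw [h1]
    _ ≤ (j0 : ℝ) * ∑ j ∈ range j0, (x j - S / n) ^ 2 := h2
    _ ≤ (n : ℝ) * ∑ j ∈ range n, (x j - S / n) ^ 2 :=
        mul_le_mul hj' h3 (Finset.sum_nonneg fun _ _ => sq_nonneg _) hn'.le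
    _ = n * ∑ j ∈ range n, x j ^ 2 - S ^ 2 := by
        rw [h4]; field_simp

/-- sum over blocks -/
theorem sf_sum_blocks (φ : ℕ → ℝ) (A n : ℕ) :
    ∑ a ∈ range A, ∑ j ∈ range n, φ (a * n + j) = ∑ b ∈ range (A * n), φ b := by
  induction A with
  | zero => simp
  | succ A ih =>
    rw [Finset.sum_range_succ, ih, Nat.succ_mul, Finset.sum_range_add]

/-- the variance of the window `a` -/
noncomputable def sfVar (f : ℝ → ℝ) (κ m a : ℕ) : ℝ :=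
  (2 : ℝ) ^ κ * ((2 : ℝ) ^ m * ∑ j ∈ range (2 ^ m), sfInc f (κ + m) (a * 2 ^ m + j) ^ 2 - sfInc f κ a ^ 2)

theorem sf_var_nonneg (f : ℝ → ℝ) (κ m a : ℕ) : 0 ≤ sfVar f κ m a := by
  have h := sf_dev_sq (fun j => sfInc f (κ + m) (a * 2 ^ m + j)) (2 ^ m) 0 (by positivity) (Nat.zero_le _)
  rw [sf_inc_sum] at h
  unfold sfVar
  push_cast at h
  have h0 := (sq_nonneg _).trans h
  positivity

theorem sf_var_sum (f : ℝ → ℝ) (κ m : ℕ) :
    ∑ a ∈ range (2 ^ κ), sfVar f κ m a = sfEn f (κ + m) - sfEn f κ := by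
  unfold sfVar sfEn
  rw [pow_add 2 κ m, ← sf_sum_blocks, ← Finset.sum_sub_distrib]
  refine Finset.sum_congr rfl fun a _ => ?_
  rw [← Finset.mul_sum, pow_add]
  ring

/-- deviation from the chord `≤ √(var / 2^κ)` -/
theorem sf_dev_le (f : ℝ → ℝ) (κ m a j : ℕ) (hj : j ≤ 2 ^ m) :
    (2 : ℝ) ^ κ * (f (sfPt (κ + m) (a * 2 ^ m + j)) - f (sfPt κ a) - (j : ℝ) / 2 ^ m * sfInc f κ a) ^ 2
      ≤ sfVar f κ m a := by
  have h := sf_dev_sq (fun j => sfInc f (κ + m) (a * 2 ^ m + j)) (2 ^ m) j (by positivity) hj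
  rw [sf_inc_sum, sf_inc_tele] at h
  push_cast at h
  unfold sfVar
  exact mul_le_mul_of_nonneg_left h (by positivity)

theorem sf_en_nonneg (f : ℝ → ℝ) (κ : ℕ) : 0 ≤ sfEn f κ :=
  Finset.sum_nonneg fun _ _ => by positivity

theorem sf_en_le (f : ℝ → ℝ) (κ : ℕ) (L : ℝ) (hf : ∀ a, a < 2 ^ κ → |sfInc f κ a| ≤ L / 2 ^ κ) :
    sfEn f κ ≤ L ^ 2 := by
  unfold sfEn
  have h : ∀ a ∈ range (2 ^ κ), (2 : ℝ) ^ κ * sfInc f κ a ^ 2 ≤ L ^ 2 / 2 ^ κ := by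
    intro a ha
    have h1 := hf a (Finset.mem_range.1 ha)
    have h2 : sfInc f κ a ^ 2 ≤ (L / 2 ^ κ) ^ 2 := sq_le_sq' (by linarith [(abs_le.1 h1).1]) (abs_le.1 h1).2
    calc (2 : ℝ) ^ κ * sfInc f κ a ^ 2 ≤ (2 : ℝ) ^ κ * (L / 2 ^ κ) ^ 2 :=
          mul_le_mul_of_nonneg_left h2 (by positivity)
      _ = L ^ 2 / 2 ^ κ := by field_simp
  calc ∑ a ∈ range (2 ^ κ), (2 : ℝ) ^ κ * sfInc f κ a ^ 2 ≤ ∑ _a ∈ range (2 ^ κ), L ^ 2 / 2 ^ κ :=
        Finset.sum_le_sum h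
    _ = L ^ 2 := by
        rw [Finset.sum_const, card_range, nsmul_eq_mul]
        push_cast
        field_simp

/-- **the finite window lemma** -/
theorem sf_win {ι : Type*} [Fintype ι] (f : ι → ℝ → ℝ) (L ε θ : ℝ) (hε : 0 < ε) (m κ0 R : ℕ)
    (hR0 : 0 < R) (hR : (Fintype.card ι : ℝ) * L ^ 2 ≤ R * (θ * ε ^ 2))
    (hf : ∀ i a, a < 2 ^ (κ0 + R * m) → |sfInc (f i) (κ0 + R * m) a| ≤ L / 2 ^ (κ0 + R * m)) :
    ∃ r, r < R ∧ ∃ B : Finset ℕ, (B.card : ℝ) ≤ θ * 2 ^ (κ0 + r * m) ∧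
      ∀ a, a < 2 ^ (κ0 + r * m) → a ∉ B → SfAff f ε (κ0 + r * m) m a := by
  classical
  set T : ℕ → ℝ := fun r => ∑ i, sfEn (f i) (κ0 + r * m) with hT
  have hT0 : 0 ≤ T 0 := Finset.sum_nonneg fun i _ => sf_en_nonneg _ _
  have hTR : T R ≤ (Fintype.card ι : ℝ) * L ^ 2 := by
    calc T R ≤ ∑ _i : ι, L ^ 2 := Finset.sum_le_sum fun i _ => sf_en_le _ _ _ (hf i)
      _ = (Fintype.card ι : ℝ) * L ^ 2 := by rw [Finset.sum_const, card_univ, nsmul_eq_mul]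
  have htel : ∑ r ∈ range R, (T (r + 1) - T r) = T R - T 0 := Finset.sum_range_sub T R
  obtain ⟨r, hr, hstep⟩ : ∃ r, r < R ∧ T (r + 1) - T r ≤ θ * ε ^ 2 := by
    by_contra hc
    push Not at hc
    have h1 : ∑ _r ∈ range R, θ * ε ^ 2 < ∑ r ∈ range R, (T (r + 1) - T r) :=
      Finset.sum_lt_sum_of_nonempty (Finset.nonempty_range_iff.2 hR0.ne')
        (fun r hr => hc r (Finset.mem_range.1 hr))
    rw [Finset.sum_const, card_range, nsmul_eq_mul, htel] at h1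
    linarith
  set κ := κ0 + r * m with hκ
  have hκm : κ0 + (r + 1) * m = κ + m := by rw [hκ]; ring
  have hsum : ∑ a ∈ range (2 ^ κ), ∑ i, sfVar (f i) κ m a ≤ θ * ε ^ 2 := by
    rw [Finset.sum_comm]
    have : ∑ i, ∑ a ∈ range (2 ^ κ), sfVar (f i) κ m a = T (r + 1) - T r := by
      simp only [hT, hκm, ← Finset.sum_sub_distrib]
      exact Finset.sum_congr rfl fun i _ => sf_var_sum _ _ _
    rw [this]
    exact hstep
  have h2κ : (0 : ℝ) < 2 ^ κ := by positivity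
  refine ⟨r, hr, (range (2 ^ κ)).filter (fun a => ¬ SfAff f ε κ m a), ?_, ?_⟩
  · have hbad : ∀ a ∈ (range (2 ^ κ)).filter (fun a => ¬ SfAff f ε κ m a),
        ε ^ 2 / 2 ^ κ ≤ ∑ i, sfVar (f i) κ m a := by
      intro a ha
      have hna := (Finset.mem_filter.1 ha).2
      unfold SfAff at hna
      push Not at hna
      obtain ⟨i, j, hj, hdev⟩ := hna
      have h1 := sf_dev_le (f i) κ m a j hj
      have h2 : (ε / 2 ^ κ) ^ 2 ≤
          (f i (sfPt (κ + m) (a * 2 ^ m + j)) - f i (sfPt κ a) - (j : ℝ) / 2 ^ m * sfInc (f i) κ a) ^ 2 := by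
        rw [← sq_abs (f i (sfPt (κ + m) (a * 2 ^ m + j)) - f i (sfPt κ a) - (j : ℝ) / 2 ^ m * sfInc (f i) κ a)]
        exact pow_le_pow_left₀ (by positivity) hdev.le 2
      have h3 : ε ^ 2 / 2 ^ κ = (2 : ℝ) ^ κ * (ε / 2 ^ κ) ^ 2 := by field_simp
      calc ε ^ 2 / 2 ^ κ = (2 : ℝ) ^ κ * (ε / 2 ^ κ) ^ 2 := h3
        _ ≤ sfVar (f i) κ m a := (mul_le_mul_of_nonneg_left h2 h2κ.le).trans h1
        _ ≤ ∑ i, sfVar (f i) κ m a :=
          Finset.single_le_sum (f := fun i => sfVar (f i) κ m a) (fun i _ => sf_var_nonneg _ _ _ _) (Finset.mem_univ i)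
    have h4 : (((range (2 ^ κ)).filter (fun a => ¬ SfAff f ε κ m a)).card : ℝ) * (ε ^ 2 / 2 ^ κ) ≤ θ * ε ^ 2 := by
      calc (((range (2 ^ κ)).filter (fun a => ¬ SfAff f ε κ m a)).card : ℝ) * (ε ^ 2 / 2 ^ κ)
          = ∑ _a ∈ (range (2 ^ κ)).filter (fun a => ¬ SfAff f ε κ m a), ε ^ 2 / 2 ^ κ := by
            rw [Finset.sum_const, nsmul_eq_mul]
        _ ≤ ∑ a ∈ (range (2 ^ κ)).filter (fun a => ¬ SfAff f ε κ m a), ∑ i, sfVar (f i) κ m a :=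
            Finset.sum_le_sum hbad
        _ ≤ ∑ a ∈ range (2 ^ κ), ∑ i, sfVar (f i) κ m a :=
            Finset.sum_le_sum_of_subset_of_nonneg (Finset.filter_subset _ _)
              (fun a _ _ => Finset.sum_nonneg fun i _ => sf_var_nonneg _ _ _ _)
        _ ≤ θ * ε ^ 2 := hsum
    have hε2 : 0 < ε ^ 2 := by positivity
    have h5 : (((range (2 ^ κ)).filter (fun a => ¬ SfAff f ε κ m a)).card : ℝ) * ε ^ 2 ≤ θ * 2 ^ κ * ε ^ 2 := by
      have := mul_le_mul_of_nonneg_right h4 h2κ.le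
      calc (((range (2 ^ κ)).filter (fun a => ¬ SfAff f ε κ m a)).card : ℝ) * ε ^ 2
          = (((range (2 ^ κ)).filter (fun a => ¬ SfAff f ε κ m a)).card : ℝ) * (ε ^ 2 / 2 ^ κ) * 2 ^ κ := by
            field_simp
        _ ≤ θ * ε ^ 2 * 2 ^ κ := this
        _ = θ * 2 ^ κ * ε ^ 2 := by ring
    exact le_of_mul_le_mul_right h5 hε2
  · intro a ha hB
    by_contra hc
    exact hB (Finset.mem_filter.2 ⟨Finset.mem_range.2 ha, hc⟩)

/-- a window that is both `ε`-affine and good, as soon as the good windows have density `> θ` at every level -/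
theorem sf_win_good {ι : Type*} [Fintype ι] (f : ι → ℝ → ℝ) (L ε θ : ℝ) (hε : 0 < ε) (m κ0 R : ℕ)
    (hR0 : 0 < R) (hR : (Fintype.card ι : ℝ) * L ^ 2 ≤ R * (θ * ε ^ 2))
    (hf : ∀ i a, a < 2 ^ (κ0 + R * m) → |sfInc (f i) (κ0 + R * m) a| ≤ L / 2 ^ (κ0 + R * m))
    (W : ℕ → Finset ℕ) (hW : ∀ r, r < R → (∀ a ∈ W r, a < 2 ^ (κ0 + r * m)) ∧ θ * 2 ^ (κ0 + r * m) < ((W r).card : ℝ)) :
    ∃ r, r < R ∧ ∃ a ∈ W r, SfAff f ε (κ0 + r * m) m a := by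
  classical
  obtain ⟨r, hr, B, hB, hgood⟩ := sf_win f L ε θ hε m κ0 R hR0 hR hf
  obtain ⟨hW1, hW2⟩ := hW r hr
  have hcard : B.card < (W r).card := by
    have : (B.card : ℝ) < ((W r).card : ℝ) := lt_of_le_of_lt hB hW2
    exact_mod_cast this
  obtain ⟨a, haW, haB⟩ := Finset.exists_mem_notMem_of_card_lt_card hcard
  exact ⟨r, hr, a, haW, hgood a (hW1 a haW) haB⟩

/-- **windows of small slope.**  `i0 = a0 / 2^κ`;  if the chord of `f` over `[i0, 1]` is below `σ (1 - i0) - t0` and all increments are `≥ - L 2^{-κ}`, the windows of `[i0, 1]` of slope `≤ σ - t0/2` have density `≥ t0 / (2 (σ + L))`. -/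
theorem sf_win_slope (f : ℝ → ℝ) (L σ t0 : ℝ) (ht0 : 0 < t0) (κ a0 : ℕ) (ha0 : a0 ≤ 2 ^ κ)
    (hL : ∀ a, a < 2 ^ κ → - (L / 2 ^ κ) ≤ sfInc f κ a)
    (hgap : f (sfPt κ (2 ^ κ)) - f (sfPt κ a0) ≤ σ * (1 - sfPt κ a0) - t0) :
    ∃ W : Finset ℕ, (∀ a ∈ W, a0 ≤ a ∧ a < 2 ^ κ ∧ sfInc f κ a ≤ (σ - t0 / 2) / 2 ^ κ) ∧
      t0 / 2 * 2 ^ κ ≤ (W.card : ℝ) * (σ + L) := by
  classical
  have h2κ : (0 : ℝ) < 2 ^ κ := by positivity
  set I := Finset.Ico a0 (2 ^ κ) with hI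
  set W := I.filter (fun a => sfInc f κ a ≤ (σ - t0 / 2) / 2 ^ κ) with hW
  have htel : ∑ a ∈ I, sfInc f κ a = f (sfPt κ (2 ^ κ)) - f (sfPt κ a0) := by
    rw [hI, Finset.sum_Ico_eq_sum_range]
    have h := Finset.sum_range_sub (fun j => f (sfPt κ (a0 + j))) (2 ^ κ - a0)
    simp only [add_zero, Nat.add_sub_cancel' ha0] at h
    rw [← h]
    rfl
  have hsplit := Finset.sum_filter_add_sum_filter_not I (fun a => sfInc f κ a ≤ (σ - t0 / 2) / 2 ^ κ) (sfInc f κ)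
  have h1 : (W.card : ℝ) * (-(L / 2 ^ κ)) ≤ ∑ a ∈ W, sfInc f κ a := by
    rw [← nsmul_eq_mul, ← Finset.sum_const]
    refine Finset.sum_le_sum fun a ha => hL a ?_
    exact (Finset.mem_Ico.1 (Finset.mem_filter.1 ha).1).2
  have h2 : ((I.filter (fun a => ¬ sfInc f κ a ≤ (σ - t0 / 2) / 2 ^ κ)).card : ℝ) * ((σ - t0 / 2) / 2 ^ κ)
      ≤ ∑ a ∈ I.filter (fun a => ¬ sfInc f κ a ≤ (σ - t0 / 2) / 2 ^ κ), sfInc f κ a := by
    rw [← nsmul_eq_mul, ← Finset.sum_const]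
    refine Finset.sum_le_sum fun a ha => ?_
    exact (not_le.1 (Finset.mem_filter.1 ha).2).le
  have hcard : ((I.filter (fun a => ¬ sfInc f κ a ≤ (σ - t0 / 2) / 2 ^ κ)).card : ℝ)
      = ((2 : ℝ) ^ κ - a0) - W.card := by
    have h := Finset.card_filter_add_card_filter_not (s := I) (fun a => sfInc f κ a ≤ (σ - t0 / 2) / 2 ^ κ)
    have hIc : I.card = 2 ^ κ - a0 := by rw [hI, Nat.card_Ico]
    rw [hIc] at h
    have h' : ((W.card + (I.filter (fun a => ¬ sfInc f κ a ≤ (σ - t0 / 2) / 2 ^ κ)).card : ℕ) : ℝ)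
        = ((2 ^ κ - a0 : ℕ) : ℝ) := by rw [← h]
    rw [Nat.cast_sub ha0] at h'
    push_cast at h'
    linarith
  refine ⟨W, fun a ha => ?_, ?_⟩
  · have hm := Finset.mem_filter.1 ha
    exact ⟨(Finset.mem_Ico.1 hm.1).1, (Finset.mem_Ico.1 hm.1).2, hm.2⟩
  · have hpt : sfPt κ a0 = (a0 : ℝ) / 2 ^ κ := rfl
    rw [hcard] at h2
    rw [htel] at hsplit
    have hmain : (W.card : ℝ) * (-(L / 2 ^ κ)) + (((2 : ℝ) ^ κ - a0) - W.card) * ((σ - t0 / 2) / 2 ^ κ)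
        ≤ σ * (1 - (a0 : ℝ) / 2 ^ κ) - t0 := by
      rw [← hpt]; linarith
    have hmul := mul_le_mul_of_nonneg_right hmain h2κ.le
    have e1 : ((W.card : ℝ) * (-(L / 2 ^ κ)) + (((2 : ℝ) ^ κ - a0) - W.card) * ((σ - t0 / 2) / 2 ^ κ)) * 2 ^ κ
        = -(W.card : ℝ) * L + (((2 : ℝ) ^ κ - a0) - W.card) * (σ - t0 / 2) := by
      field_simp
    have e2 : (σ * (1 - (a0 : ℝ) / 2 ^ κ) - t0) * 2 ^ κ = σ * ((2 : ℝ) ^ κ - a0) - t0 * 2 ^ κ := by
      field_simp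
    rw [e1, e2] at hmul
    have ha0' : (0 : ℝ) ≤ a0 := Nat.cast_nonneg _
    have hWc : (0 : ℝ) ≤ W.card := Nat.cast_nonneg _
    nlinarith

theorem sf_win_eqns_cite : True := by
  have := @sfPt.eq_1
  have := @sfInc.eq_1
  have := @sfEn.eq_1
  have := @sfVar.eq_1
  have := @SfAff.eq_1.{0}
  trivial

end Claimed.Agent.R256
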