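import Claimed.Agent.R256.Soft.AfDefs
import Claimed.Agent.R256.Soft.Mono
import Claimed.Agent.R256.Soft.Win
import Claimed.Agent.R256.Soft.Cmp

/-!
# Row 256 (S0496), unit SOFT, A7 AF, blocks WIN + CMP: CONTRACT      (architect helper17; A7 chief helper10; prefix `sf_aw_`)

Prop. cyl:affine (02-cylinder.tex l.1095-1223), the two SOFT steps of the proof:
* **WIN** (l.1128-1140: "choose an interior common differentiability point of the Lipschitz profiles, take shrinking segments `[A,B]`"), FINITE form, DOC LEVEL, on ONE `D : SfDoc` with `D.Good π Ls C0 a`, `D.Out π0 t` (`Soft/AAbDefs.lean`)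
  whose gates contain the dyadic mesh of level `N`:   `sf_aw_win` : there is a dyadic window `[A,B] ⊆ [1/2,1]`, `B - A = 2^(-κ) ≥ 2^(-N)`, and slopes `(J,q)` with the EXACT relations `SfPar.Sl` such that the widths are affine on ALL gates of `[A,B]` up to `ε (B - A)` : `D.Wn A B J q (ε (B - A))`  (`SfDoc.Wn` of helper10, `Soft/AfDefs.lean`);   `Sl` + `Pd` ⟹ `Valid` (`sf_aw_sl_valid`), so `AfH.val` holds at finite scale.
* **CMP** (l.1217-1222: "the mesh in the normalized depth may now tend to zero"): `sf_aw_cmp` : if for every finite list of gates and every accuracy there are good configurations with `AffP` for SOME slopes with `Sl`, then ONE pair of slopes serves all lists and accuracies, and it is `Valid`.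
  Statistics of `sf_cmp`: the width exponents `uE 0`, `nE 0` of the gate `0`.
`uE k = log_s r_k`, `nE k = log_s f_k` are used only inside this file.
LEAVES: EXP (`sf_aw_pow` .. `sf_aw_shape`), SEL, INT, ADJ, WN, PERT, LIM.      Never change a statement; a defect goes to helper17.
-/

set_option autoImplicit false

namespace Claimed.Agent.R256

open Claimed.Agent.R255

namespace SfDoc

/-- `log_s r_k` -/
noncomputable def uE (D : SfDoc) (k : ℝ) : ℝ := Real.logb D.s (D.r k)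

/-- `log_s f_k` -/
noncomputable def nE (D : SfDoc) (k : ℝ) : ℝ := Real.logb D.s (D.f k)

end SfDoc

/-- the EXACT relations between the slopes `(J,q)` and the costs (a CLOSED set of slopes: `q ≤ 1` if `c2 = 1`); `L` = bound of the slopes -/
structure SfPar.Sl (π : SfPar) (L : ℝ) : Prop where
  J0 : 0 ≤ π.J
  JL : π.J ≤ L
  qL : |π.q| ≤ L
  eq : 0 < π.c2 → π.c2 ≠ 1 → π.q = π.c2
  st : π.c2 = 1 → π.q ≤ 1
  lin : π.c2 = 0 → π.q = π.c1 + π.J
  pl : π.hyb = true → π.q - 2 * π.J = -1 / 2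

/-- the bound of the slopes -/
noncomputable def sfAwL (Ls : ℝ) : ℝ := 3 * (|Ls| + 1) + 3

/-- two profiles as one family -/
def sfAwPair (u n : ℝ → ℝ) : Bool → ℝ → ℝ := fun b => cond b n u

theorem sf_aw_eqns_cite : True := by
  have := @SfDoc.uE.eq_1
  have := @SfDoc.nE.eq_1
  have := @sfAwL.eq_1
  have := @sfAwPair.eq_1
  trivial

/-! ## 1. Exponents      (leaf L-256-SOFT-AW-EXP, ~250 l.) -/

theorem sf_aw_pow {s x : ℝ} (h0 : 0 < s) (h1 : s < 1) (hx : 0 < x) : s ^ Real.logb s x = x :=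
  Real.rpow_logb h0 h1.ne hx

/-- `x ≤ s^y ↔ y ≤ log_s x`,   `s^y ≤ x ↔ log_s x ≤ y` -/
theorem sf_aw_le_iff {s x y : ℝ} (h0 : 0 < s) (h1 : s < 1) (hx : 0 < x) : (x ≤ s ^ y ↔ y ≤ Real.logb s x) ∧ (s ^ y ≤ x ↔ Real.logb s x ≤ y) :=
  ⟨(Real.le_logb_iff_rpow_le_of_base_lt_one h0 h1 hx).symm, (Real.logb_le_iff_le_rpow_of_base_lt_one h0 h1 hx).symm⟩

theorem sf_aw_one (D : SfDoc) (π : SfPar) (C0 a : ℝ) (h : D.Core π C0 a) : D.uE 1 = 0 ∧ D.nE 1 = 0 := by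
  unfold SfDoc.uE SfDoc.nE
  rw [h.hw.1, h.hw.2.1]
  simp

/-- `Mat.wr` in exponents -/
theorem sf_aw_lip (D : SfDoc) (π : SfPar) (Ls C0 a : ℝ) (h : D.Good π Ls C0 a) (i j : ℝ) (hi : i ∈ D.G) (hj : j ∈ D.G) (hij : i < j) :
    0 ≤ D.uE i - D.uE j ∧ D.uE i - D.uE j ≤ |Ls| * (j - i) + a ∧ |D.nE i - D.nE j| ≤ |Ls| * (j - i) + a := by
  obtain ⟨hc, hm⟩ := h
  obtain ⟨h0, h1⟩ := hc.hs
  obtain ⟨hri, hfi⟩ := hc.hw.2.2 i hi
  obtain ⟨hrj, hfj⟩ := hc.hw.2.2 j hj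
  obtain ⟨w1, w2, w3, w4⟩ := hm.wr i hi j hj hij
  have eu : D.uE i - D.uE j = Real.logb D.s (D.r i / D.r j) := by
    unfold SfDoc.uE
    rw [Real.logb_div hri.ne' hrj.ne']
  have en : D.nE i - D.nE j = Real.logb D.s (D.f i / D.f j) := by
    unfold SfDoc.nE
    rw [Real.logb_div hfi.ne' hfj.ne']
  have hL : Ls * (j - i) ≤ |Ls| * (j - i) := mul_le_mul_of_nonneg_right (le_abs_self _) (by linarith)
  have hr : 0 < D.r i / D.r j := div_pos hri hrj
  have hf : 0 < D.f i / D.f j := div_pos hfi hfj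
  rw [eu, en]
  refine ⟨?_, ?_, ?_⟩
  · apply (sf_aw_le_iff h0 h1 hr).1.1
    simpa using w2
  · exact ((sf_aw_le_iff h0 h1 hr).2.1 w1).trans (by linarith)
  · rw [abs_le]
    have a1 := (sf_aw_le_iff h0 h1 hf).2.1 w3
    have a2 := (sf_aw_le_iff h0 h1 hf).1.1 w4
    constructor <;> linarith

/-- the shape constraints of `Out` in exponents -/
theorem sf_aw_shape (D : SfDoc) (π π0 : SfPar) (C0 a t : ℝ) (h : D.Core π C0 a) (hO : D.Out π0 t) (i : ℝ) (hi : i ∈ D.G) :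
    (0 < π0.c2 → π0.c2 * (i - 1) - t ≤ D.nE i - 2 * D.uE i) ∧
    (0 < π0.c2 → π0.c2 ≠ 1 → D.nE i - 2 * D.uE i ≤ π0.c2 * (i - 1) + t) ∧
    (π0.c2 = 0 → |D.nE i - D.uE i - π0.c1 * (i - 1)| ≤ t) ∧
    (π0.hyb = true → 1 / 4 ≤ i → |D.nE i - (1 - i) / 2| ≤ t) := by
  obtain ⟨h0, h1⟩ := h.hs
  obtain ⟨hri, hfi⟩ := h.hw.2.2 i hi
  have e2 : D.nE i - 2 * D.uE i = Real.logb D.s (D.w2 i) := by
    unfold SfDoc.uE SfDoc.nE SfDoc.w2
    rw [Real.logb_div hfi.ne' (pow_pos hri 2).ne', Real.logb_pow]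
    norm_num
  have e1 : D.nE i - D.uE i = Real.logb D.s (D.w1 i) := by
    unfold SfDoc.uE SfDoc.nE SfDoc.w1
    rw [Real.logb_div hfi.ne' hri.ne']
  have hw2 : 0 < D.w2 i := div_pos hfi (pow_pos hri 2)
  have hw1 : 0 < D.w1 i := div_pos hfi hri
  refine ⟨fun hc => ?_, fun hc hc1 => ?_, fun hc => ?_, fun hh hq => ?_⟩
  · rw [e2]
    exact (sf_aw_le_iff h0 h1 hw2).1.1 (hO.s1 hc i hi)
  · rw [e2]
    exact (sf_aw_le_iff h0 h1 hw2).2.1 (hO.s2 hc hc1 i hi)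
  · rw [e1, abs_le]
    obtain ⟨a1, a2⟩ := hO.s3 hc i hi
    have b1 := (sf_aw_le_iff h0 h1 hw1).2.1 a1
    have b2 := (sf_aw_le_iff h0 h1 hw1).1.1 a2
    constructor <;> linarith
  · rw [abs_le]
    obtain ⟨a1, a2⟩ := hO.pl hh i hi hq
    have b1 := (sf_aw_le_iff h0 h1 hfi).2.1 a1
    have b2 := (sf_aw_le_iff h0 h1 hfi).1.1 a2
    unfold SfDoc.nE
    constructor <;> linarith

/-! ## 2. Selection of the window      (leaf L-256-SOFT-AW-SEL, ~350 l.; MATHLIB + `Soft/Win.lean` ONLY) -/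

/-- increments of a coarser level -/
theorem sf_aw_sel_inc (f : ℝ → ℝ) (L : ℝ) (N κ : ℕ) (hκ : κ ≤ N) (hf : ∀ a, a < 2 ^ N → |sfInc f N a| ≤ L / 2 ^ N) (a : ℕ) (ha : a < 2 ^ κ) :
    |sfInc f κ a| ≤ L / 2 ^ κ := by
  obtain ⟨d, rfl⟩ := Nat.exists_eq_add_of_le hκ
  rw [← sf_inc_sum f κ d a]
  calc |∑ j ∈ Finset.range (2 ^ d), sfInc f (κ + d) (a * 2 ^ d + j)|
      ≤ ∑ j ∈ Finset.range (2 ^ d), |sfInc f (κ + d) (a * 2 ^ d + j)| := Finset.abs_sum_le_sum_abs _ _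
    _ ≤ ∑ _j ∈ Finset.range (2 ^ d), L / 2 ^ (κ + d) := by
        refine Finset.sum_le_sum fun j hj => hf _ ?_
        have hj' := Finset.mem_range.1 hj
        calc a * 2 ^ d + j < a * 2 ^ d + 2 ^ d := by omega
          _ = (a + 1) * 2 ^ d := by ring
          _ ≤ 2 ^ κ * 2 ^ d := Nat.mul_le_mul_right _ ha
          _ = 2 ^ (κ + d) := (pow_add 2 κ d).symm
    _ = L / 2 ^ κ := by
        rw [Finset.sum_const, Finset.card_range, nsmul_eq_mul, pow_add]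
        push_cast
        field_simp

theorem sf_aw_sel_sub (u n : ℝ → ℝ) (κ a : ℕ) : sfInc (fun x => n x - 2 * u x) κ a = sfInc n κ a - 2 * sfInc u κ a := by
  unfold sfInc
  ring

/-- **SEL.**   Two profiles `u`, `n`, `L`-Lipschitz between neighbours of the dyadic mesh of level `N`.   `one = true` (case `c2 = 1`): the chord of `b2 = n - 2u` over `[1/2,1]` has slope `≤ 1 + 2 t0`.
Then there is a window of a level `κ`, `1 ≤ κ`, `κ + m ≤ N`, inside `[1/2,1]`, `ε`-affine on its sub-mesh of level `κ + m`, `L / 2^m ≤ ε`, and (if `one`) of `b2`-slope `≤ 1 + ε`.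
PLAN.   `m` with `L / 2^m ≤ ε`;  `κ0 = 1`;  `ε' = ε / 2`, `σ = 1 + ε'`, `tS = ε' / 4`, `t0 = ε' / 4` (`1/2 + t0 ≤ σ / 2 - tS`);  `θ = min (1/4) (tS / (4 (σ + 3 L + 1)))`;  `R` with `2 L² ≤ R θ ε²`, `R ≥ 1`;  `N = κ0 + R m`.
`sf_win_good` with `ι = Bool`, `f = sfAwPair u n`;  `W r` = all windows `a ∈ [2^(κ-1), 2^κ)` if `one = false` (`card = 2^(κ-1) > θ 2^κ`);  if `one = true` the set of `sf_win_slope` for `f = n - 2u`, `a0 = 2^(κ-1)`, Lipschitz constant `3 L`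
(increments of level `κ ≤ N` are sums of `2^(N-κ)` increments of level `N`: `sf_inc_sum`): `card W ≥ tS 2^κ / (2 (σ + 3L)) > θ 2^κ`, slope `≤ σ - tS / 2 ≤ 1 + ε`. -/
theorem sf_aw_sel (L ε : ℝ) (hL : 0 ≤ L) (hε : 0 < ε) (one : Bool) : ∃ (N : ℕ) (t0 : ℝ), 0 < t0 ∧ ∀ u n : ℝ → ℝ,
    (∀ a, a < 2 ^ N → |sfInc u N a| ≤ L / 2 ^ N ∧ |sfInc n N a| ≤ L / 2 ^ N) →
    (one = true → (n 1 - 2 * u 1) - (n (1 / 2) - 2 * u (1 / 2)) ≤ 1 / 2 + t0) →
    ∃ κ m a : ℕ, 1 ≤ κ ∧ κ + m ≤ N ∧ L / 2 ^ m ≤ ε ∧ 2 ^ κ ≤ 2 * a ∧ a < 2 ^ κ ∧ SfAff (sfAwPair u n) ε κ m a ∧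
      (one = true → sfInc n κ a - 2 * sfInc u κ a ≤ (1 + ε) / 2 ^ κ) := by
  classical
  obtain ⟨m, hm⟩ : ∃ m : ℕ, L / 2 ^ m ≤ ε := by
    obtain ⟨m, hm⟩ := pow_unbounded_of_one_lt (L / ε) (one_lt_two : (1 : ℝ) < 2)
    refine ⟨m, ?_⟩
    rw [div_le_iff₀ (by positivity)]
    have := (div_lt_iff₀ hε).1 hm
    linarith
  set σ : ℝ := 1 + ε / 2 with hσ
  set tS : ℝ := ε / 8 with htS
  have hσL : 0 < σ + 3 * L := by positivity
  have htS0 : 0 < tS := by positivity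
  set θ : ℝ := min (1 / 4) (tS / (4 * (σ + 3 * L + 1))) with hθ
  have hθ0 : 0 < θ := lt_min (by norm_num) (by positivity)
  have hθ1 : θ ≤ 1 / 4 := min_le_left _ _
  have hθ2 : θ * (σ + 3 * L) < tS / 2 := by
    have h1 : θ ≤ tS / (4 * (σ + 3 * L + 1)) := min_le_right _ _
    have h2 : θ * (4 * (σ + 3 * L + 1)) ≤ tS := (le_div_iff₀ (by positivity)).1 h1
    nlinarith
  obtain ⟨R, hR⟩ : ∃ R : ℕ, 2 * L ^ 2 / (θ * ε ^ 2) ≤ R := exists_nat_ge _
  refine ⟨1 + (R + 1) * m, ε / 8, by positivity, fun u n hinc hone => ?_⟩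
  set W : ℕ → Finset ℕ := fun r => (Finset.Ico (2 ^ (r * m)) (2 ^ (1 + r * m))).filter
    (fun a => one = true → sfInc n (1 + r * m) a - 2 * sfInc u (1 + r * m) a ≤ (1 + ε) / 2 ^ (1 + r * m)) with hW
  have hRR : (Fintype.card Bool : ℝ) * L ^ 2 ≤ ((R + 1 : ℕ) : ℝ) * (θ * ε ^ 2) := by
    have h1 : 2 * L ^ 2 ≤ R * (θ * ε ^ 2) := (div_le_iff₀ (by positivity)).1 hR
    have h2 : 0 < θ * ε ^ 2 := by positivity
    rw [Fintype.card_bool]
    push_cast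
    linarith
  have hf : ∀ (i : Bool) (a : ℕ), a < 2 ^ (1 + (R + 1) * m) → |sfInc (sfAwPair u n i) (1 + (R + 1) * m) a| ≤ L / 2 ^ (1 + (R + 1) * m) := by
    intro i a ha
    cases i
    · exact (hinc a ha).1
    · exact (hinc a ha).2
  have hWW : ∀ r, r < R + 1 → (∀ a ∈ W r, a < 2 ^ (1 + r * m)) ∧ θ * 2 ^ (1 + r * m) < ((W r).card : ℝ) := by
    intro r hr
    refine ⟨fun a ha => (Finset.mem_Ico.1 (Finset.mem_filter.1 ha).1).2, ?_⟩
    have hκN : 1 + r * m ≤ 1 + (R + 1) * m := by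
      have : r * m ≤ (R + 1) * m := Nat.mul_le_mul_right _ hr.le
      omega
    have h2 : (0 : ℝ) < 2 ^ (1 + r * m) := by positivity
    cases hone' : one
    · have hWr : W r = Finset.Ico (2 ^ (r * m)) (2 ^ (1 + r * m)) := by
        rw [hW]
        apply Finset.filter_true_of_mem
        intro a _ hc
        rw [hone'] at hc
        exact absurd hc (by simp)
      rw [hWr, Nat.card_Ico]
      have e : 2 ^ (1 + r * m) - 2 ^ (r * m) = 2 ^ (r * m) := by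
        rw [pow_add]; omega
      rw [e, pow_add]
      push_cast
      have : (0 : ℝ) < 2 ^ (r * m) := by positivity
      nlinarith
    · have hp1 : sfPt (1 + r * m) (2 ^ (1 + r * m)) = 1 := by
        unfold sfPt
        push_cast
        field_simp
      have hp2 : sfPt (1 + r * m) (2 ^ (r * m)) = 1 / 2 := by
        unfold sfPt
        rw [pow_add]
        push_cast
        field_simp
      obtain ⟨W', hW'1, hW'2⟩ := sf_win_slope (fun x => n x - 2 * u x) (3 * L) σ tS htS0 (1 + r * m) (2 ^ (r * m))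
        (Nat.pow_le_pow_right (by norm_num) (by omega))
        (by
          intro a ha
          rw [sf_aw_sel_sub]
          have h1 := sf_aw_sel_inc u L _ _ hκN (fun a ha => (hinc a ha).1) a ha
          have h3 := sf_aw_sel_inc n L _ _ hκN (fun a ha => (hinc a ha).2) a ha
          have e : 3 * L / 2 ^ (1 + r * m) = 3 * (L / 2 ^ (1 + r * m)) := by ring
          rw [e]
          have := abs_le.1 h1
          have := abs_le.1 h3
          linarith)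
        (by
          rw [hp1, hp2]
          have := hone hone'
          rw [hσ, htS]
          linarith)
      have hsub : W' ⊆ W r := by
        intro a ha
        obtain ⟨a1, a2, a3⟩ := hW'1 a ha
        rw [hW]
        refine Finset.mem_filter.2 ⟨Finset.mem_Ico.2 ⟨a1, a2⟩, fun _ => ?_⟩
        rw [sf_aw_sel_sub] at a3
        refine a3.trans ?_
        apply div_le_div_of_nonneg_right _ h2.le
        rw [hσ, htS]
        linarith
      have hcard : (W'.card : ℝ) ≤ ((W r).card : ℝ) := by exact_mod_cast Finset.card_le_card hsub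
      have h5 : θ * 2 ^ (1 + r * m) * (σ + 3 * L) < (W'.card : ℝ) * (σ + 3 * L) := by
        calc θ * 2 ^ (1 + r * m) * (σ + 3 * L) = θ * (σ + 3 * L) * 2 ^ (1 + r * m) := by ring
          _ < tS / 2 * 2 ^ (1 + r * m) := mul_lt_mul_of_pos_right hθ2 h2
          _ ≤ _ := hW'2
      exact (lt_of_mul_lt_mul_right h5 hσL.le).trans_le hcard
  obtain ⟨r, hr, a, haW, haff⟩ := sf_win_good (sfAwPair u n) L ε θ hε m 1 (R + 1) (Nat.succ_pos _) hRR hf W hWW
  have hmem := Finset.mem_filter.1 haW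
  have hIco := Finset.mem_Ico.1 hmem.1
  refine ⟨1 + r * m, m, a, by omega, ?_, hm, ?_, hIco.2, haff, hmem.2⟩
  · have : (r + 1) * m ≤ (R + 1) * m := Nat.mul_le_mul_right _ hr
    have e : (r + 1) * m = r * m + m := by ring
    omega
  · rw [pow_add]
    have := hIco.1
    omega

/-! ## 3. From the sub-mesh to all gates      (leaf L-256-SOFT-AW-INT, ~250 l.; MATHLIB + `Soft/Win.lean` ONLY) -/

/-- **INT.**   `A = sfPt κ n`, `B = sfPt κ (n+1)`, `h = 2^(-κ)`, `σ = 2^κ * sfInc u κ n` (chord slope).   If `u` is `(L, a)`-Lipschitz on `G` and within `ε h` of its chord on the sub-mesh, then at every `k ∈ G ∩ [A,B]`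
`|u k - u B - σ (k - B)| ≤ (ε + 2 L / 2^m) h + 2 a`.
PROOF.   `j = ⌊(k - A) 2^(κ+m)⌋₊ ≤ 2^m`, `k_j = sfPt (κ+m) (n 2^m + j) ≤ k`, `k - k_j ≤ h / 2^m`.   `u k - u B - σ (k - B) = (u k - u k_j) + (u k_j - u A - (j/2^m) inc) + σ (k_j - k)`  (`u B = u A + inc`, `k_j = A + j h / 2^m`),
`|u k - u k_j| ≤ L h / 2^m + a` (or `0`),  `|σ| h = |inc| ≤ L h + a`. -/
theorem sf_aw_int (G : Set ℝ) (u : ℝ → ℝ) (L a ε : ℝ) (hL : 0 ≤ L) (ha : 0 ≤ a) (κ m n : ℕ) (hG : ∀ j, j ≤ 2 ^ m → sfPt (κ + m) (n * 2 ^ m + j) ∈ G)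
    (hlip : ∀ i ∈ G, ∀ j ∈ G, i < j → |u i - u j| ≤ L * (j - i) + a)
    (haff : ∀ j, j ≤ 2 ^ m → |u (sfPt (κ + m) (n * 2 ^ m + j)) - u (sfPt κ n) - (j : ℝ) / 2 ^ m * sfInc u κ n| ≤ ε / 2 ^ κ) :
    ∀ k ∈ G, sfPt κ n ≤ k → k ≤ sfPt κ (n + 1) →
      |u k - u (sfPt κ (n + 1)) - 2 ^ κ * sfInc u κ n * (k - sfPt κ (n + 1))| ≤ (ε + 2 * L / 2 ^ m) / 2 ^ κ + 2 * a := by
  intro k hk hAk hkB
  obtain ⟨P, hP⟩ : ∃ P : ℝ, P = 2 ^ κ := ⟨_, rfl⟩
  obtain ⟨Q, hQ⟩ : ∃ Q : ℝ, Q = 2 ^ m := ⟨_, rfl⟩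
  have hP0 : 0 < P := by rw [hP]; positivity
  have hQ0 : 0 < Q := by rw [hQ]; positivity
  have hQ1 : 1 ≤ Q := by rw [hQ]; exact one_le_pow₀ (by norm_num)
  have hPQ : 0 < P * Q := mul_pos hP0 hQ0
  have ept : ∀ j : ℕ, sfPt (κ + m) (n * 2 ^ m + j) = (n : ℝ) / P + (j : ℝ) / (P * Q) := by
    intro j
    unfold sfPt
    rw [pow_add, ← hP, ← hQ]
    push_cast
    rw [← hQ]
    field_simp
  have eA : sfPt κ n = (n : ℝ) / P := by unfold sfPt; rw [hP]
  have eB : sfPt κ (n + 1) = (n : ℝ) / P + 1 / P := by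
    unfold sfPt
    rw [hP]
    push_cast
    ring
  have eA' : sfPt (κ + m) (n * 2 ^ m + 0) = sfPt κ n := by
    rw [ept, eA]
    simp
  have eB' : sfPt (κ + m) (n * 2 ^ m + 2 ^ m) = sfPt κ (n + 1) := by
    rw [ept, eB]
    push_cast
    rw [← hQ]
    field_simp
  have hAG : sfPt κ n ∈ G := eA' ▸ hG 0 (Nat.zero_le _)
  have hBG : sfPt κ (n + 1) ∈ G := eB' ▸ hG (2 ^ m) le_rfl
  have hAB : sfPt κ n < sfPt κ (n + 1) := by
    rw [eA, eB]
    have : 0 < 1 / P := by positivity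
    linarith
  obtain ⟨j, hj⟩ : ∃ j : ℕ, j = ⌊(k - n / P) * (P * Q)⌋₊ := ⟨_, rfl⟩
  rw [eA] at hAk
  rw [eB] at hkB
  have hx0 : 0 ≤ (k - n / P) * (P * Q) := mul_nonneg (by linarith) hPQ.le
  have hj1 : (j : ℝ) ≤ (k - n / P) * (P * Q) := hj ▸ Nat.floor_le hx0
  have hj2 : (k - n / P) * (P * Q) < j + 1 := hj ▸ Nat.lt_floor_add_one _
  have hjle : j ≤ 2 ^ m := by
    have h1 : (k - n / P) * (P * Q) ≤ ((2 ^ m : ℕ) : ℝ) := by
      push_cast
      rw [← hQ]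
      calc (k - n / P) * (P * Q) ≤ (1 / P) * (P * Q) := mul_le_mul_of_nonneg_right (by linarith) hPQ.le
        _ = Q := by field_simp
    rw [hj]
    exact Nat.floor_le_of_le h1
  have hkj1 : (n : ℝ) / P + (j : ℝ) / (P * Q) ≤ k := by
    have : (j : ℝ) / (P * Q) ≤ k - n / P := by rwa [div_le_iff₀ hPQ]
    linarith
  have hkj2 : k - ((n : ℝ) / P + (j : ℝ) / (P * Q)) ≤ 1 / (P * Q) := by
    have : k - n / P < ((j : ℝ) + 1) / (P * Q) := by rwa [lt_div_iff₀ hPQ]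
    rw [add_div] at this
    linarith
  have c2 := haff j hjle
  have c3 : |sfInc u κ n| ≤ L / P + a := by
    have := hlip _ hAG _ hBG hAB
    unfold sfInc
    rw [abs_sub_comm]
    refine this.trans (le_of_eq ?_)
    rw [eA, eB]
    ring
  have c1 : |u k - u (sfPt (κ + m) (n * 2 ^ m + j))| ≤ L / (P * Q) + a := by
    rcases hkj1.lt_or_eq with hlt | heq
    · have := hlip _ (hG j hjle) _ hk (by rw [ept]; exact hlt)
      rw [abs_sub_comm]
      refine this.trans ?_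
      rw [ept]
      have : L * (k - ((n : ℝ) / P + (j : ℝ) / (P * Q))) ≤ L * (1 / (P * Q)) := mul_le_mul_of_nonneg_left hkj2 hL
      have e : L * (1 / (P * Q)) = L / (P * Q) := by ring
      linarith
    · rw [ept, heq, sub_self, abs_zero]
      positivity
  rw [← hP, ← hQ] at c2
  rw [← hP, ← hQ]
  obtain ⟨inc, hinc⟩ : ∃ x, x = sfInc u κ n := ⟨_, rfl⟩
  have hincB : u (sfPt κ (n + 1)) = u (sfPt κ n) + inc := by rw [hinc]; unfold sfInc; ring
  rw [← hinc] at c2 c3 ⊢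
  rw [hincB, eB]
  obtain ⟨uj, huj⟩ : ∃ x, x = u (sfPt (κ + m) (n * 2 ^ m + j)) := ⟨_, rfl⟩
  rw [← huj] at c1 c2
  have c4 : |P * inc * (((n : ℝ) / P + (j : ℝ) / (P * Q)) - k)| ≤ L / (P * Q) + a := by
    rw [abs_mul, abs_mul, abs_of_pos hP0]
    have h1 : |((n : ℝ) / P + (j : ℝ) / (P * Q)) - k| ≤ 1 / (P * Q) := by
      rw [abs_sub_comm, abs_of_nonneg (by linarith)]
      exact hkj2
    calc P * |inc| * |((n : ℝ) / P + (j : ℝ) / (P * Q)) - k| ≤ P * (L / P + a) * (1 / (P * Q)) :=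
          mul_le_mul (mul_le_mul_of_nonneg_left c3 hP0.le) h1 (abs_nonneg _) (by positivity)
      _ = L / (P * Q) + a / Q := by field_simp
      _ ≤ L / (P * Q) + a := by
          have : a / Q ≤ a := div_le_self ha hQ1
          linarith
  have e : u k - (u (sfPt κ n) + inc) - P * inc * (k - ((n : ℝ) / P + 1 / P))
      = (u k - uj) + (uj - u (sfPt κ n) - (j : ℝ) / Q * inc) + P * inc * (((n : ℝ) / P + (j : ℝ) / (P * Q)) - k) := by
    field_simp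
    ring
  rw [e]
  calc |(u k - uj) + (uj - u (sfPt κ n) - (j : ℝ) / Q * inc) + P * inc * (((n : ℝ) / P + (j : ℝ) / (P * Q)) - k)|
      ≤ |u k - uj| + |uj - u (sfPt κ n) - (j : ℝ) / Q * inc| + |P * inc * (((n : ℝ) / P + (j : ℝ) / (P * Q)) - k)| :=
        (abs_add_le _ _).trans (add_le_add_left (abs_add_le _ _) _)
    _ ≤ (L / (P * Q) + a) + ε / P + (L / (P * Q) + a) := add_le_add (add_le_add c1 c2) c4
    _ = (ε + 2 * L / Q) / P + 2 * a := by
        field_simp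
        ring

/-! ## 4. Exact slopes      (leaf L-256-SOFT-AW-ADJ, ~250 l.; REAL NUMBERS ONLY) -/

/-- **ADJ.**   `Jm`, `nm` = measured slopes of `-u`, `n`.   The relations hold up to `δ`; move the slopes by `≤ 2δ` to make them exact.
classical:  `J = Jm`;   `q = c2` | `min (nm + 2 Jm) 1 - δ` | `c1 + Jm`.
hybrid (`q = 2 J - 1/2`):   `J = (c2 + 1/2) / 2` | `min Jm (3/4 - δ)` | `c1 + 1/2`. -/
theorem sf_aw_adj (π0 : SfPar) (hpos : 0 < π0.c2 ∨ (π0.c2 = 0 ∧ 0 < π0.c1)) (L δ Jm nm : ℝ) (hδ : 0 < δ) (hδ1 : δ ≤ 1 / 2) (hJ : 0 ≤ Jm ∧ Jm ≤ L) (hn : |nm| ≤ L)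
    (h1 : 0 < π0.c2 → π0.c2 ≠ 1 → |nm + 2 * Jm - π0.c2| ≤ δ) (h2 : π0.c2 = 1 → nm + 2 * Jm ≤ 1 + δ) (h3 : π0.c2 = 0 → |nm + Jm - π0.c1| ≤ δ)
    (h4 : π0.hyb = true → |nm + 1 / 2| ≤ δ) :
    ∃ J q : ℝ, SfPar.Sl { π0 with J := J, q := q } (3 * L + 3) ∧ |J - Jm| ≤ 2 * δ ∧ |(q - 2 * J) - nm| ≤ 2 * δ := by
  obtain ⟨hJ0, hJL⟩ := hJ
  obtain ⟨hn1, hn2⟩ := abs_le.1 hn
  have hL0 : 0 ≤ L := hJ0.trans hJL
  by_cases hy : π0.hyb = true
  · -- hybrid
    obtain ⟨g1, g2⟩ := abs_le.1 (h4 hy)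
    rcases hpos with hc | ⟨hc0, hc1⟩
    · by_cases hc1 : π0.c2 = 1
      · -- `c2 = 1`
        have k2 := h2 hc1
        refine ⟨min Jm (3 / 4 - δ), 2 * min Jm (3 / 4 - δ) - 1 / 2, ⟨?_, ?_, ?_, ?_, ?_, ?_, ?_⟩, ?_, ?_⟩
        · exact le_min hJ0 (by linarith)
        · exact (min_le_left _ _).trans (by linarith)
        · show |2 * min Jm (3 / 4 - δ) - 1 / 2| ≤ 3 * L + 3
          have a1 : min Jm (3 / 4 - δ) ≤ Jm := min_le_left _ _
          have a2 : 0 ≤ min Jm (3 / 4 - δ) := le_min hJ0 (by linarith)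
          rw [abs_le]; constructor <;> linarith
        · intro _ hne; exact absurd hc1 hne
        · intro _
          show 2 * min Jm (3 / 4 - δ) - 1 / 2 ≤ 1
          have a1 : min Jm (3 / 4 - δ) ≤ 3 / 4 - δ := min_le_right _ _
          linarith
        · intro h0
          have h0' : π0.c2 = 0 := h0
          rw [hc1] at h0'; norm_num at h0'
        · intro _
          show 2 * min Jm (3 / 4 - δ) - 1 / 2 - 2 * min Jm (3 / 4 - δ) = -1 / 2
          ring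
        · rcases le_total Jm (3 / 4 - δ) with hle | hle
          · rw [min_eq_left hle, sub_self, abs_zero]; linarith
          · rw [min_eq_right hle, abs_le]; constructor <;> linarith
        · have e : 2 * min Jm (3 / 4 - δ) - 1 / 2 - 2 * min Jm (3 / 4 - δ) - nm = -(nm + 1 / 2) := by ring
          rw [e, abs_neg, abs_le]; constructor <;> linarith
      · -- `0 < c2 ≠ 1`
        obtain ⟨k1, k2⟩ := abs_le.1 (h1 hc hc1)
        refine ⟨(π0.c2 + 1 / 2) / 2, π0.c2, ⟨?_, ?_, ?_, ?_, ?_, ?_, ?_⟩, ?_, ?_⟩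
        · show 0 ≤ (π0.c2 + 1 / 2) / 2
          linarith
        · show (π0.c2 + 1 / 2) / 2 ≤ 3 * L + 3
          linarith
        · show |π0.c2| ≤ 3 * L + 3
          rw [abs_le]; constructor <;> linarith
        · intro _ _; rfl
        · intro h; exact absurd h hc1
        · intro h0
          have h0' : π0.c2 = 0 := h0
          rw [h0'] at hc; exact absurd hc (lt_irrefl _)
        · intro _
          show π0.c2 - 2 * ((π0.c2 + 1 / 2) / 2) = -1 / 2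
          ring
        · rw [abs_le]; constructor <;> linarith
        · rw [abs_le]; constructor <;> linarith
    · -- `c2 = 0 < c1`
      obtain ⟨k1, k2⟩ := abs_le.1 (h3 hc0)
      refine ⟨π0.c1 + 1 / 2, 2 * (π0.c1 + 1 / 2) - 1 / 2, ⟨?_, ?_, ?_, ?_, ?_, ?_, ?_⟩, ?_, ?_⟩
      · show 0 ≤ π0.c1 + 1 / 2
        linarith
      · show π0.c1 + 1 / 2 ≤ 3 * L + 3
        linarith
      · show |2 * (π0.c1 + 1 / 2) - 1 / 2| ≤ 3 * L + 3
        rw [abs_le]; constructor <;> linarith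
      · intro h
        have h' : 0 < π0.c2 := h
        rw [hc0] at h'; exact absurd h' (lt_irrefl _)
      · intro h
        have h' : π0.c2 = 1 := h
        rw [hc0] at h'; norm_num at h'
      · intro _
        show 2 * (π0.c1 + 1 / 2) - 1 / 2 = π0.c1 + (π0.c1 + 1 / 2)
        ring
      · intro _
        show 2 * (π0.c1 + 1 / 2) - 1 / 2 - 2 * (π0.c1 + 1 / 2) = -1 / 2
        ring
      · rw [abs_le]; constructor <;> linarith
      · rw [abs_le]; constructor <;> linarith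
  · -- classical
    rcases hpos with hc | ⟨hc0, hc1⟩
    · by_cases hc1 : π0.c2 = 1
      · have k2 := h2 hc1
        have a1 : min (nm + 2 * Jm) 1 ≤ 1 := min_le_right _ _
        have a2 : min (nm + 2 * Jm) 1 ≤ nm + 2 * Jm := min_le_left _ _
        have a3 : -L ≤ min (nm + 2 * Jm) 1 := le_min (by linarith) (by linarith)
        refine ⟨Jm, min (nm + 2 * Jm) 1 - δ, ⟨hJ0, ?_, ?_, ?_, ?_, ?_, ?_⟩, ?_, ?_⟩
        · show Jm ≤ 3 * L + 3
          linarith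
        · show |min (nm + 2 * Jm) 1 - δ| ≤ 3 * L + 3
          rw [abs_le]; constructor <;> linarith
        · intro _ hne; exact absurd hc1 hne
        · intro _
          show min (nm + 2 * Jm) 1 - δ ≤ 1
          linarith
        · intro h0
          have h0' : π0.c2 = 0 := h0
          rw [hc1] at h0'; norm_num at h0'
        · intro h; exact absurd h hy
        · rw [sub_self, abs_zero]; linarith
        · rcases le_total (nm + 2 * Jm) 1 with hle | hle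
          · rw [min_eq_left hle, abs_le]; constructor <;> linarith
          · rw [min_eq_right hle, abs_le]; constructor <;> linarith
      · obtain ⟨k1, k2⟩ := abs_le.1 (h1 hc hc1)
        refine ⟨Jm, π0.c2, ⟨hJ0, ?_, ?_, ?_, ?_, ?_, ?_⟩, ?_, ?_⟩
        · show Jm ≤ 3 * L + 3
          linarith
        · show |π0.c2| ≤ 3 * L + 3
          rw [abs_le]; constructor <;> linarith
        · intro _ _; rfl
        · intro h; exact absurd h hc1
        · intro h0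
          have h0' : π0.c2 = 0 := h0
          rw [h0'] at hc; exact absurd hc (lt_irrefl _)
        · intro h; exact absurd h hy
        · rw [sub_self, abs_zero]; linarith
        · rw [abs_le]; constructor <;> linarith
    · obtain ⟨k1, k2⟩ := abs_le.1 (h3 hc0)
      refine ⟨Jm, π0.c1 + Jm, ⟨hJ0, ?_, ?_, ?_, ?_, ?_, ?_⟩, ?_, ?_⟩
      · show Jm ≤ 3 * L + 3
        linarith
      · show |π0.c1 + Jm| ≤ 3 * L + 3
        rw [abs_le]; constructor <;> linarith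
      · intro h
        have h' : 0 < π0.c2 := h
        rw [hc0] at h'; exact absurd h' (lt_irrefl _)
      · intro h
        have h' : π0.c2 = 1 := h
        rw [hc0] at h'; norm_num at h'
      · intro _; rfl
      · intro h; exact absurd h hy
      · rw [sub_self, abs_zero]; linarith
      · rw [abs_le]; constructor <;> linarith

/-! ## 5. From exponents to `Wn`      (leaf L-256-SOFT-AW-WN, ~150 l.) -/

theorem sf_aw_wn_aux {s x y c e : ℝ} (h0 : 0 < s) (h1 : s < 1) (hx : 0 < x) (hy : 0 < y)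
    (h : |Real.logb s x - Real.logb s y - c| ≤ e) : y * s ^ (c + e) ≤ x ∧ x ≤ y * s ^ (c - e) := by
  have ex : s ^ Real.logb s x = x := Real.rpow_logb h0 h1.ne hx
  have ey : s ^ Real.logb s y = y := Real.rpow_logb h0 h1.ne hy
  obtain ⟨a1, a2⟩ := abs_le.1 h
  constructor
  · calc y * s ^ (c + e) = s ^ (Real.logb s y + (c + e)) := by rw [Real.rpow_add h0 (Real.logb s y), ey]
      _ ≤ s ^ Real.logb s x := Real.rpow_le_rpow_of_exponent_ge h0 h1.le (by linarith)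
      _ = x := ex
  · calc x = s ^ Real.logb s x := ex.symm
      _ ≤ s ^ (Real.logb s y + (c - e)) := Real.rpow_le_rpow_of_exponent_ge h0 h1.le (by linarith)
      _ = y * s ^ (c - e) := by rw [Real.rpow_add h0 (Real.logb s y), ey]

/-- **WN.**   (`w2 = f / r²`: exponent `nE - 2 uE`) -/
theorem sf_aw_wn (D : SfDoc) (π : SfPar) (C0 a : ℝ) (h : D.Core π C0 a) (A B J q e : ℝ) (hA : A ∈ D.G) (hB : B ∈ D.G) (hAB : A < B)
    (hu : ∀ k ∈ D.G, A ≤ k → k ≤ B → |D.uE k - D.uE B - J * (B - k)| ≤ e)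
    (hn : ∀ k ∈ D.G, A ≤ k → k ≤ B → |(D.nE k - 2 * D.uE k) - (D.nE B - 2 * D.uE B) - q * (k - B)| ≤ e) : D.Wn A B J q e := by
  have hw : ∀ k ∈ D.G, 0 < D.w2 k ∧ Real.logb D.s (D.w2 k) = D.nE k - 2 * D.uE k := by
    intro k hk
    obtain ⟨hr, hf⟩ := h.hw.2.2 k hk
    refine ⟨div_pos hf (pow_pos hr 2), ?_⟩
    unfold SfDoc.w2 SfDoc.nE SfDoc.uE
    rw [Real.logb_div hf.ne' (pow_pos hr 2).ne', Real.logb_pow]
    push_cast
    ring
  refine ⟨hA, hB, hAB, fun k hk h1 h2 => ?_, fun k hk h1 h2 => ?_⟩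
  · have hB0 := (h.hw.2.2 B hB).1
    obtain ⟨a1, a2⟩ := sf_aw_wn_aux h.hs.1 h.hs.2 (h.hw.2.2 k hk).1 hB0 (hu k hk h1 h2)
    exact ⟨(le_div_iff₀ hB0).2 (by rw [mul_comm]; exact a1), (div_le_iff₀ hB0).2 (by rw [mul_comm]; exact a2)⟩
  · obtain ⟨hk0, ek⟩ := hw k hk
    obtain ⟨hB0, eB⟩ := hw B hB
    obtain ⟨a1, a2⟩ := sf_aw_wn_aux h.hs.1 h.hs.2 hk0 hB0 (c := q * (k - B)) (e := e) (by rw [ek, eB]; exact hn k hk h1 h2)
    exact ⟨(le_div_iff₀ hB0).2 (by rw [mul_comm]; exact a1), (div_le_iff₀ hB0).2 (by rw [mul_comm]; exact a2)⟩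

/-- the finite-scale relations give `Valid` -/
theorem sf_aw_sl_valid (π π1 : SfPar) (L : ℝ) (hπ : π.Pd) (hs : π1.Same π) (hpos : 0 < π1.c2 ∨ (π1.c2 = 0 ∧ 0 < π1.c1)) (h : π1.Sl L) : π1.Valid := by
  obtain ⟨e1, e2, e3, e4, e5⟩ := hs
  obtain ⟨p1, p2, p3, p4, p5⟩ := hπ
  refine ⟨by rw [e1]; exact p1, by rw [e1, e2]; exact p2, by rw [e2, e3, e4]; exact p3, by rw [e3]; exact p4, by rw [e4]; exact p5, h.J0, ?_, h.pl⟩
  rcases hpos with h2 | ⟨h2, h1⟩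
  · by_cases h3 : π1.c2 = 1
    · rcases (h.st h3).lt_or_eq with h4 | h4
      · exact Or.inr (Or.inl ⟨h3, h4⟩)
      · exact Or.inl ⟨h2, by rw [h4, h3]⟩
    · exact Or.inl ⟨h2, h.eq h2 h3⟩
  · exact Or.inr (Or.inr ⟨h2, h1, h.lin h2⟩)

/-! ## 6. WIN -/

/-- dyadic points of a coarser level -/
theorem sf_aw_win_gate (G : Finset ℝ) (N : ℕ) (hG : ∀ n, n ≤ 2 ^ N → sfPt N n ∈ G) (κ : ℕ) (hκ : κ ≤ N) (x : ℕ) (hx : x ≤ 2 ^ κ) : sfPt κ x ∈ G := by
  obtain ⟨m, rfl⟩ := Nat.exists_eq_add_of_le hκ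
  rw [← sf_pt_mul κ m x]
  apply hG
  rw [pow_add]
  exact Nat.mul_le_mul_right _ hx

theorem sf_aw_win_pt (κ n : ℕ) : sfPt κ (n + 1) - sfPt κ n = 1 / 2 ^ κ := by
  unfold sfPt
  push_cast
  ring

/-- the last step of WIN, for one profile: chord slope `σ`, new slope `σ'` -/
theorem sf_aw_win_one {x E h σ σ' d δ : ℝ} (hx : |x - σ * d| ≤ E) (hd : |d| ≤ h) (hσ : |σ' - σ| ≤ 2 * δ) : |x - σ' * d| ≤ E + 2 * δ * h := by
  have h0 : 0 ≤ |d| := abs_nonneg d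
  have hδ : 0 ≤ 2 * δ := (abs_nonneg _).trans hσ
  have h1 : |(σ' - σ) * d| ≤ 2 * δ * h := by
    rw [abs_mul]
    exact mul_le_mul hσ hd h0 hδ
  have h2 : x - σ' * d = (x - σ * d) - (σ' - σ) * d := by ring
  rw [h2]
  exact (abs_sub _ _).trans (by linarith)

/-- scaling an increment estimate by `2^κ` -/
theorem sf_aw_win_sc {P x c t δ : ℝ} (hP : 0 < P) (hx : |x - c / P| ≤ 2 * t) (ht : 2 * t * P ≤ δ) : |P * x - c| ≤ δ := by
  have h1 : P * x - c = P * (x - c / P) := by field_simp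
  rw [h1, abs_mul, abs_of_pos hP]
  calc P * |x - c / P| ≤ P * (2 * t) := mul_le_mul_of_nonneg_left hx hP.le
    _ = 2 * t * P := by ring
    _ ≤ δ := ht

/-- **WIN** -/
theorem sf_aw_win (Ls c2 c1 : ℝ) (hyb : Bool) (hpos : 0 < c2 ∨ (c2 = 0 ∧ 0 < c1)) (ε : ℝ) (hε : 0 < ε) :
    ∃ (N : ℕ) (t0 : ℝ), 0 < t0 ∧ ∀ (D : SfDoc) (π π0 : SfPar) (C0 a t : ℝ), D.Good π Ls C0 a → 0 < a → a ≤ t0 → t ≤ t0 →
      π0.c2 = c2 → π0.c1 = c1 → π0.hyb = hyb → D.Out π0 t → (∀ n, n ≤ 2 ^ N → sfPt N n ∈ D.G) →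
      ∃ κ n : ℕ, κ ≤ N ∧ 2 ^ κ ≤ 2 * n ∧ n < 2 ^ κ ∧ ∃ J q : ℝ, SfPar.Sl { π0 with J := J, q := q } (sfAwL Ls) ∧
        D.Wn (sfPt κ n) (sfPt κ (n + 1)) J q (ε / 2 ^ κ) := by
  classical
  set L : ℝ := |Ls| + 1 with hL
  have hL0 : 0 ≤ L := by rw [hL]; positivity
  set δ : ℝ := min (ε / 24) (1 / 2) with hδ
  have hδ0 : 0 < δ := lt_min (by positivity) (by norm_num)
  have hδ1 : δ ≤ 1 / 2 := min_le_right _ _
  have hδε : δ ≤ ε / 24 := min_le_left _ _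
  set one : Bool := if c2 = 1 then true else false with hone
  obtain ⟨N, tS, htS, Hsel⟩ := sf_aw_sel L δ hL0 hδ0 one
  have hN1 : 1 ≤ N := by
    obtain ⟨κ, m, a, h1, h2, -⟩ := Hsel (fun _ => 0) (fun _ => 0)
      (fun a _ => by simp only [sfInc, sub_self, abs_zero]; exact ⟨by positivity, by positivity⟩)
      (fun _ => by simp only [mul_zero, sub_self]; linarith)
    omega
  have hPN : (0 : ℝ) < 2 ^ N := by positivity
  set t0 : ℝ := min tS (min (1 / 2 ^ N) (min (δ / (2 * 2 ^ N)) (ε / (16 * 2 ^ N)))) with ht0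
  have ht0p : 0 < t0 := lt_min htS (lt_min (by positivity) (lt_min (by positivity) (by positivity)))
  have b1 : t0 ≤ tS := min_le_left _ _
  have b2 : t0 ≤ 1 / 2 ^ N := (min_le_right _ _).trans (min_le_left _ _)
  have b3 : t0 ≤ δ / (2 * 2 ^ N) := (min_le_right _ _).trans ((min_le_right _ _).trans (min_le_left _ _))
  have b4 : t0 ≤ ε / (16 * 2 ^ N) := (min_le_right _ _).trans ((min_le_right _ _).trans (min_le_right _ _))
  refine ⟨N, t0, ht0p, ?_⟩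
  intro D π π0 C0 a t hg ha0 ha ht e2 e1 eh hO hG
  have hgate := sf_aw_win_gate D.G N hG
  have hlip := sf_aw_lip D π Ls C0 a hg
  have hshape := sf_aw_shape D π π0 C0 a t hg.1 hO
  obtain ⟨hu1, hn1⟩ := sf_aw_one D π C0 a hg.1
  -- Lipschitz with the constant `L`
  have hlipU : ∀ i ∈ (↑D.G : Set ℝ), ∀ j ∈ (↑D.G : Set ℝ), i < j → |D.uE i - D.uE j| ≤ L * (j - i) + a := by
    intro i hi j hj hij
    obtain ⟨l1, l2, -⟩ := hlip i j hi hj hij
    rw [abs_of_nonneg l1]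
    have : |Ls| * (j - i) ≤ L * (j - i) := mul_le_mul_of_nonneg_right (by rw [hL]; linarith) (by linarith)
    linarith
  have hlipN : ∀ i ∈ (↑D.G : Set ℝ), ∀ j ∈ (↑D.G : Set ℝ), i < j → |D.nE i - D.nE j| ≤ L * (j - i) + a := by
    intro i hi j hj hij
    obtain ⟨-, -, l3⟩ := hlip i j hi hj hij
    have : |Ls| * (j - i) ≤ L * (j - i) := mul_le_mul_of_nonneg_right (by rw [hL]; linarith) (by linarith)
    linarith
  -- increments of any level
  have hinc : ∀ κ, κ ≤ N → ∀ x, x < 2 ^ κ → sfPt κ x ∈ D.G ∧ sfPt κ (x + 1) ∈ D.G ∧ sfPt κ x < sfPt κ (x + 1) := by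
    intro κ hκ x hx
    refine ⟨hgate κ hκ x hx.le, hgate κ hκ (x + 1) hx, ?_⟩
    have := sf_aw_win_pt κ x
    have hp : (0 : ℝ) < 1 / 2 ^ κ := by positivity
    linarith
  have haN : a ≤ 1 / 2 ^ N := ha.trans b2
  obtain ⟨κ, m, n0, hκ1, hκm, hLm, hn2, hn0, haff, hslope⟩ := Hsel D.uE D.nE
    (by
      intro x hx
      obtain ⟨g1, g2, g3⟩ := hinc N le_rfl x hx
      have e := sf_aw_win_pt N x
      have l1 := hlipU _ g1 _ g2 g3
      have l2 := hlipN _ g1 _ g2 g3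
      rw [e] at l1 l2
      have hb : |Ls| * (1 / 2 ^ N) + a ≤ L / 2 ^ N := by
        rw [hL, add_div, mul_one_div]; linarith
      obtain ⟨k1, k2, k3⟩ := hlip _ _ g1 g2 g3
      rw [e] at k2 k3
      constructor
      · unfold sfInc
        rw [abs_sub_comm, abs_of_nonneg k1]
        exact k2.trans hb
      · unfold sfInc
        rw [abs_sub_comm]
        exact k3.trans hb)
    (by
      intro ho
      have hc2 : c2 = 1 := by
        by_contra hne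
        rw [hone, if_neg hne] at ho
        cases ho
      have hhalf : (1 / 2 : ℝ) ∈ D.G := by
        have := hgate 1 hN1 1 (by norm_num)
        unfold sfPt at this
        norm_num at this
        simpa using this
      have := (hshape (1 / 2) hhalf).1 (by rw [e2, hc2]; norm_num)
      rw [e2, hc2] at this
      rw [hu1, hn1]
      linarith)
  have hκN : κ ≤ N := by omega
  have hP : (0 : ℝ) < 2 ^ κ := by positivity
  have hPle : (2 : ℝ) ^ κ ≤ 2 ^ N := pow_le_pow_right₀ (by norm_num) hκN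
  obtain ⟨gA, gB, hAB⟩ := hinc κ hκN n0 hn0
  have eAB := sf_aw_win_pt κ n0
  set A : ℝ := sfPt κ n0 with hA
  set B : ℝ := sfPt κ (n0 + 1) with hB
  have hA2 : 1 / 2 ≤ A := by
    rw [hA]; unfold sfPt
    rw [le_div_iff₀ hP]
    have : ((2 ^ κ : ℕ) : ℝ) ≤ ((2 * n0 : ℕ) : ℝ) := Nat.cast_le.2 hn2
    push_cast at this
    linarith
  -- sub-mesh in the gates
  have hsub : ∀ j, j ≤ 2 ^ m → sfPt (κ + m) (n0 * 2 ^ m + j) ∈ (↑D.G : Set ℝ) := by
    intro j hj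
    apply hgate (κ + m) hκm
    calc n0 * 2 ^ m + j ≤ n0 * 2 ^ m + 2 ^ m := Nat.add_le_add_left hj _
      _ = (n0 + 1) * 2 ^ m := by ring
      _ ≤ 2 ^ κ * 2 ^ m := Nat.mul_le_mul_right _ hn0
      _ = 2 ^ (κ + m) := (pow_add 2 κ m).symm
  have iU := sf_aw_int (↑D.G) D.uE L a δ hL0 ha0.le κ m n0 hsub hlipU (fun j hj => haff false j hj)
  have iN := sf_aw_int (↑D.G) D.nE L a δ hL0 ha0.le κ m n0 hsub hlipN (fun j hj => haff true j hj)
  -- measured slopes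
  set Jm : ℝ := -(2 ^ κ * sfInc D.uE κ n0) with hJm
  set nm : ℝ := 2 ^ κ * sfInc D.nE κ n0 with hnm
  have eU : sfInc D.uE κ n0 = D.uE B - D.uE A := rfl
  have eN : sfInc D.nE κ n0 = D.nE B - D.nE A := rfl
  obtain ⟨k1, k2, k3⟩ := hlip A B gA gB hAB
  rw [eAB] at k2 k3
  have haP : a * 2 ^ κ ≤ 1 := by
    have : a * 2 ^ κ ≤ 1 / 2 ^ N * 2 ^ N := mul_le_mul haN hPle hP.le (by positivity)
    rwa [one_div_mul_cancel hPN.ne'] at this
  have hscale : ∀ y : ℝ, y ≤ |Ls| * (1 / 2 ^ κ) + a → 2 ^ κ * y ≤ L := by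
    intro y hy
    calc 2 ^ κ * y ≤ 2 ^ κ * (|Ls| * (1 / 2 ^ κ) + a) := mul_le_mul_of_nonneg_left hy hP.le
      _ = |Ls| + a * 2 ^ κ := by field_simp
      _ ≤ L := by rw [hL]; linarith
  have hJm0 : 0 ≤ Jm ∧ Jm ≤ L := by
    constructor
    · rw [hJm, eU]
      have : 0 ≤ 2 ^ κ * (D.uE A - D.uE B) := mul_nonneg hP.le k1
      linarith
    · have := hscale _ k2
      rw [hJm, eU]; linarith
  have hnmL : |nm| ≤ L := by
    rw [hnm, eN, abs_mul, abs_of_pos hP, abs_sub_comm]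
    exact hscale _ k3
  have htP : 2 * t * 2 ^ κ ≤ δ := by
    have h1 : t ≤ δ / (2 * 2 ^ N) := ht.trans b3
    rw [le_div_iff₀ (by positivity)] at h1
    by_cases htn : 0 ≤ t
    · have : t * 2 ^ κ ≤ t * 2 ^ N := mul_le_mul_of_nonneg_left hPle htn
      linarith
    · have : t * 2 ^ κ ≤ 0 := mul_nonpos_of_nonpos_of_nonneg (by linarith) hP.le
      linarith
  have sA := hshape A gA
  have sB := hshape B gB
  have hBA : B = A + 1 / 2 ^ κ := by linarith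
  obtain ⟨J, q, hSl, hJJ, hqq⟩ := sf_aw_adj π0 (by rw [e2, e1]; exact hpos) L δ Jm nm hδ0 hδ1 hJm0 hnmL
    (by
      intro p1 p2
      have a1 := sA.1 p1; have a2 := sA.2.1 p1 p2; have a3 := sB.1 p1; have a4 := sB.2.1 p1 p2
      have e : nm + 2 * Jm = 2 ^ κ * ((D.nE B - 2 * D.uE B) - (D.nE A - 2 * D.uE A)) := by rw [hnm, hJm, eU, eN]; ring
      rw [e]
      refine sf_aw_win_sc hP ?_ htP
      have e' : π0.c2 * (B - 1) = π0.c2 * (A - 1) + π0.c2 / 2 ^ κ := by rw [hBA]; ring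
      rw [abs_le]; constructor <;> linarith)
    (by
      intro p1
      have ho : one = true := by rw [hone, if_pos (e2 ▸ p1)]
      have := hslope ho
      have e : nm + 2 * Jm = 2 ^ κ * (sfInc D.nE κ n0 - 2 * sfInc D.uE κ n0) := by rw [hnm, hJm]; ring
      rw [e]
      calc 2 ^ κ * (sfInc D.nE κ n0 - 2 * sfInc D.uE κ n0) ≤ 2 ^ κ * ((1 + δ) / 2 ^ κ) := mul_le_mul_of_nonneg_left this hP.le
        _ = 1 + δ := by field_simp)
    (by
      intro p1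
      have a1 := abs_le.1 (sA.2.2.1 p1); have a2 := abs_le.1 (sB.2.2.1 p1)
      have e : nm + Jm = 2 ^ κ * ((D.nE B - D.uE B) - (D.nE A - D.uE A)) := by rw [hnm, hJm, eU, eN]; ring
      rw [e]
      refine sf_aw_win_sc hP ?_ htP
      have e' : π0.c1 * (B - 1) = π0.c1 * (A - 1) + π0.c1 / 2 ^ κ := by rw [hBA]; ring
      rw [abs_le]; constructor <;> linarith [a1.1, a1.2, a2.1, a2.2])
    (by
      intro p1
      have a1 := abs_le.1 (sA.2.2.2 p1 (by linarith)); have a2 := abs_le.1 (sB.2.2.2 p1 (by linarith))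
      have e : nm + 1 / 2 = 2 ^ κ * (D.nE B - D.nE A) - (-(1 / 2)) := by rw [hnm, eN]; ring
      rw [e]
      refine sf_aw_win_sc hP ?_ htP
      have e' : (1 - B) / 2 = (1 - A) / 2 + -(1 / 2) / 2 ^ κ := by rw [hBA]; ring
      rw [abs_le]; constructor <;> linarith [a1.1, a1.2, a2.1, a2.2])
  refine ⟨κ, n0, hκN, hn2, hn0, J, q, ?_, ?_⟩
  · have : sfAwL Ls = 3 * L + 3 := by rw [sfAwL, hL]
    rw [this]; exact hSl
  -- the error budget
  have hE : (δ + 2 * L / 2 ^ m) / 2 ^ κ + 2 * a ≤ 3 * δ / 2 ^ κ + 2 * a := by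
    have : δ + 2 * L / 2 ^ m ≤ 3 * δ := by
      have : 2 * L / 2 ^ m = 2 * (L / 2 ^ m) := by ring
      linarith
    have := div_le_div_of_nonneg_right this hP.le
    linarith
  have haε : a ≤ ε / 16 / 2 ^ κ := by
    have h1 : a ≤ ε / (16 * 2 ^ N) := ha.trans b4
    refine h1.trans ?_
    rw [div_div]
    exact div_le_div_of_nonneg_left hε.le (by positivity) (by linarith)
  have hδP : δ / 2 ^ κ ≤ ε / 24 / 2 ^ κ := div_le_div_of_nonneg_right hδε hP.le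
  have keyU : ∀ k ∈ D.G, A ≤ k → k ≤ B → |D.uE k - D.uE B - J * (B - k)| ≤ 5 * δ / 2 ^ κ + 2 * a := by
    intro k hk h1 h2
    have i1 := (iU k hk h1 h2).trans hE
    have e : 2 ^ κ * sfInc D.uE κ n0 * (k - B) = Jm * (B - k) := by rw [hJm]; ring
    rw [e] at i1
    have := sf_aw_win_one (h := 1 / 2 ^ κ) i1 (by rw [abs_of_nonneg (by linarith)]; linarith) hJJ
    refine this.trans (le_of_eq ?_)
    ring
  have keyN : ∀ k ∈ D.G, A ≤ k → k ≤ B → |D.nE k - D.nE B - (q - 2 * J) * (k - B)| ≤ 5 * δ / 2 ^ κ + 2 * a := by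
    intro k hk h1 h2
    have i1 := (iN k hk h1 h2).trans hE
    have := sf_aw_win_one (h := 1 / 2 ^ κ) i1 (by rw [abs_of_nonpos (by linarith)]; linarith) hqq
    refine this.trans (le_of_eq ?_)
    ring
  have hfin : 3 * (5 * δ / 2 ^ κ + 2 * a) ≤ ε / 2 ^ κ := by
    have e1 : 5 * δ / 2 ^ κ = 5 * (δ / 2 ^ κ) := by ring
    have e2 : ε / 24 / 2 ^ κ = ε / 2 ^ κ / 24 := by ring
    have e3 : ε / 16 / 2 ^ κ = ε / 2 ^ κ / 16 := by ring
    have hpos' : 0 < ε / 2 ^ κ := by positivity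
    rw [e1]; rw [e2] at hδP; rw [e3] at haε
    linarith
  have hnn : 0 ≤ 5 * δ / 2 ^ κ + 2 * a := by positivity
  refine sf_aw_wn D π C0 a hg.1 A B J q _ gA gB hAB ?_ ?_
  · intro k hk h1 h2
    exact (keyU k hk h1 h2).trans (by linarith)
  · intro k hk h1 h2
    have u1 := abs_le.1 (keyU k hk h1 h2)
    have n1 := abs_le.1 (keyN k hk h1 h2)
    have e : (D.nE k - 2 * D.uE k) - (D.nE B - 2 * D.uE B) - q * (k - B)
        = (D.nE k - D.nE B - (q - 2 * J) * (k - B)) - 2 * (D.uE k - D.uE B - J * (B - k)) := by ring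
    rw [e, abs_le]
    constructor <;> linarith [u1.1, u1.2, n1.1, n1.2]

/-! ## 7. Perturbation of the slopes      (leaf L-256-SOFT-AW-PERT, ~300 l.) -/

theorem sf_aw_pert_mul {x y δ i : ℝ} (h : |x - y| ≤ δ) (h0 : 0 ≤ i) (h1 : i ≤ 1) : |x * (i - 1) - y * (i - 1)| ≤ δ := by
  have hδ : 0 ≤ δ := (abs_nonneg _).trans h
  have e : x * (i - 1) - y * (i - 1) = (x - y) * (i - 1) := by ring
  rw [e, abs_mul]
  have h2 : |i - 1| ≤ 1 := by
    rw [abs_le]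
    constructor <;> linarith
  calc |x - y| * |i - 1| ≤ δ * 1 := mul_le_mul h h2 (abs_nonneg _) hδ
    _ = δ := mul_one _

theorem sf_aw_pert_min {a b a' b' δ : ℝ} (ha : |a' - a| ≤ δ) (hb : |b' - b| ≤ δ) : min a' b' - δ ≤ min a b := by
  rw [abs_le] at ha hb
  apply le_min
  · linarith [min_le_left a' b', ha.2]
  · linarith [min_le_right a' b', hb.2]

/-- **PERT.**   All exponents of `AffP` are `u, n, b2, b1` at depths of `[0,1]`: they move by `≤ 3δ`.   `eqK` for `π'`:  `c2 < 1`: `eqK` of `π1` (`heq`);   `c2 = 1`: `s |K| ≤ s^(-2a)` (`stK` of `π1` if `π1.q < 1`; `eqK` of `π1` and `s^(i+a) ≤ len i` if `π1.q = 1`), which gives `stK` of `π'`, and `eqK` of `π'` by `len i ≤ s^(i - a)`. -/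
theorem sf_aw_pert (D : SfDoc) (π : SfPar) (C0 a δ : ℝ) (hc : D.Core π C0 a) (ha : 0 ≤ a) (hδ : 0 ≤ δ) (π1 π' : SfPar) (h2 : π'.c2 = π1.c2) (h1 : π'.c1 = π1.c1)
    (hJ : |π'.J - π1.J| ≤ δ) (hq : |π'.q - π1.q| ≤ δ) (heq : 0 < π1.c2 → π1.c2 ≠ 1 → π1.q = π1.c2) (hst : π1.c2 = 1 → π1.q ≤ 1) (hA : D.AffP π1 a) :
    D.AffP π' (3 * a + 3 * δ) := by
  have hs := hc.hs
  have hG := hc.gate.2
  have hKK : π1.c2 = 1 → ∀ i ∈ D.G, ∀ ρ, D.s * |(D.lab i ρ).K| ≤ D.s ^ (-(2 * a)) := by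
    intro hc1 i hi ρ
    rcases (hst hc1).lt_or_eq with hlt | heq1
    · exact (hA.stK hc1 hlt i hi ρ).trans (sf_mono_aux_le hs (by linarith))
    · have k1 := hA.eqK (by rw [hc1]; norm_num) hc1.le (by rw [heq1, hc1]) i hi ρ
      have k2 := (hc.hlen.2 i hi).1
      have hb : π1.b2 i = i - 1 := by
        unfold SfPar.b2
        rw [heq1]
        ring
      rw [hb] at k1
      have hp : 0 < D.s ^ (i + a) := Real.rpow_pos_of_pos hs.1 _
      have k3 : D.s ^ (i + a) * |(D.lab i ρ).K| ≤ D.s ^ (i - 1 - a) := (mul_le_mul_of_nonneg_right k2 (abs_nonneg _)).trans k1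
      have k4 : D.s ^ (i + a) * (D.s * |(D.lab i ρ).K|) ≤ D.s ^ (i + a) * D.s ^ (-(2 * a)) := by
        have e1 : D.s ^ (i + a) * D.s ^ (-(2 * a)) = D.s * D.s ^ (i - 1 - a) := by
          have e2 : D.s * D.s ^ (i - 1 - a) = D.s ^ (1 : ℝ) * D.s ^ (i - 1 - a) := by rw [Real.rpow_one]
          rw [e2, ← Real.rpow_add hs.1, ← Real.rpow_add hs.1]
          congr 1
          ring
        rw [e1]
        calc D.s ^ (i + a) * (D.s * |(D.lab i ρ).K|) = D.s * (D.s ^ (i + a) * |(D.lab i ρ).K|) := by ring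
          _ ≤ D.s * D.s ^ (i - 1 - a) := mul_le_mul_of_nonneg_left k3 hs.1.le
      exact le_of_mul_le_mul_left k4 hp
  have hqJ : |(π'.q - π'.J) - (π1.q - π1.J)| ≤ 2 * δ := by
    rw [abs_le] at hJ hq ⊢
    constructor <;> linarith [hJ.1, hJ.2, hq.1, hq.2]
  have hq2J : |(π'.q - 2 * π'.J) - (π1.q - 2 * π1.J)| ≤ 3 * δ := by
    rw [abs_le] at hJ hq ⊢
    constructor <;> linarith [hJ.1, hJ.2, hq.1, hq.2]
  have du : ∀ i ∈ D.G, |π'.u i - π1.u i| ≤ δ := by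
    intro i hi
    have := sf_aw_pert_mul hJ (hG i hi).1 (hG i hi).2
    unfold SfPar.u
    rw [abs_le] at this ⊢
    constructor <;> linarith [this.1, this.2]
  have dn : ∀ i ∈ D.G, |π'.n i - π1.n i| ≤ 3 * δ := fun i hi => sf_aw_pert_mul hq2J (hG i hi).1 (hG i hi).2
  have db2 : ∀ i ∈ D.G, |π'.b2 i - π1.b2 i| ≤ δ := fun i hi => sf_aw_pert_mul hq (hG i hi).1 (hG i hi).2
  have db1 : ∀ i ∈ D.G, |π'.b1 i - π1.b1 i| ≤ 2 * δ := fun i hi => sf_aw_pert_mul hqJ (hG i hi).1 (hG i hi).2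
  refine ⟨?_, ?_, ?_, ?_, ?_, ?_, ?_⟩
  · intro i hi
    have d := abs_le.1 (du i hi)
    exact ⟨(sf_mono_aux_le hs (by linarith [d.1])).trans (hA.hr i hi).1, (hA.hr i hi).2.trans (sf_mono_aux_le hs (by linarith [d.2]))⟩
  · intro i hi
    have d := abs_le.1 (dn i hi)
    exact ⟨(sf_mono_aux_le hs (by linarith [d.1])).trans (hA.hf i hi).1, (hA.hf i hi).2.trans (sf_mono_aux_le hs (by linarith [d.2]))⟩
  · intro i hi j hj hij ρ ρ' hcn
    obtain ⟨c1, c2, c3⟩ := hA.cmpA i hi j hj hij ρ ρ' hcn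
    refine ⟨c1.trans (sf_mono_aux_le hs ?_), c2.trans (sf_mono_aux_le hs ?_), c3.trans (sf_mono_aux_le hs ?_)⟩
    · have := sf_aw_pert_min (db2 i hi) (db2 j hj)
      linarith
    · have e1 : |(π'.b2 i - i) - (π1.b2 i - i)| ≤ δ := by
        have e : (π'.b2 i - i) - (π1.b2 i - i) = π'.b2 i - π1.b2 i := by ring
        rw [e]
        exact db2 i hi
      have e2 : |(π'.b2 j - j) - (π1.b2 j - j)| ≤ δ := by
        have e : (π'.b2 j - j) - (π1.b2 j - j) = π'.b2 j - π1.b2 j := by ring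
        rw [e]
        exact db2 j hj
      have := sf_aw_pert_min e1 e2
      linarith
    · have := sf_aw_pert_min (db1 i hi) (db1 j hj)
      linarith
  · intro i hi ρ
    refine (hA.cmpB i hi ρ).trans (sf_mono_aux_le hs ?_)
    have e0 : |(0 : ℝ) - 0| ≤ δ := by simpa using hδ
    have m1 := sf_aw_pert_min (db2 i hi) e0
    have m1' : |min (π'.b2 i) 0 - min (π1.b2 i) 0| ≤ δ := by
      have m2 := sf_aw_pert_min (a := π'.b2 i) (b := 0) (a' := π1.b2 i) (b' := 0) (δ := δ) (by rw [abs_sub_comm]; exact db2 i hi) e0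
      rw [abs_le]
      constructor <;> linarith
    have e3 : |(-π'.c2) - (-π1.c2)| ≤ δ := by
      rw [h2]
      simpa using hδ
    have := sf_aw_pert_min e3 m1'
    linarith
  · intro p1 p2 p3 i hi ρ
    rw [h2] at p1 p2
    by_cases hc1 : π1.c2 = 1
    · have k1 := hKK hc1 i hi ρ
      have k2 := (hc.hlen.2 i hi).2
      have hq1 : π'.q = 1 := by rw [p3, h2, hc1]
      have hb : π'.b2 i = i - 1 := by
        unfold SfPar.b2
        rw [hq1]
        ring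
      rw [hb]
      have hK : |(D.lab i ρ).K| ≤ D.s ^ (-(2 * a) - 1) := by
        rw [Real.rpow_sub hs.1, Real.rpow_one, le_div_iff₀ hs.1, mul_comm]
        exact k1
      calc D.len i * |(D.lab i ρ).K| ≤ D.s ^ (i - a) * D.s ^ (-(2 * a) - 1) :=
            mul_le_mul k2 hK (abs_nonneg _) (Real.rpow_nonneg hs.1.le _)
        _ = D.s ^ (i - 1 - 3 * a) := by
            rw [← Real.rpow_add hs.1]
            congr 1
            ring
        _ ≤ D.s ^ (i - 1 - (3 * a + 3 * δ)) := sf_mono_aux_le hs (by linarith)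
    · refine (hA.eqK p1 p2 (heq p1 hc1) i hi ρ).trans (sf_mono_aux_le hs ?_)
      have d := abs_le.1 (db2 i hi)
      linarith [d.2]
  · intro p1 _ i hi ρ
    rw [h2] at p1
    exact (hKK p1 i hi ρ).trans (sf_mono_aux_le hs (by linarith))
  · intro p1
    rw [h2] at p1
    obtain ⟨l1, l2⟩ := hA.linP p1
    refine ⟨fun i hi j hj hij ρ ρ' hcn => (l1 i hi j hj hij ρ ρ' hcn).trans (sf_mono_aux_le hs ?_), fun ρ => (l2 ρ).trans (sf_mono_aux_le hs ?_)⟩
    · have d := abs_le.1 (db1 i hi)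
      linarith [d.2]
    · rw [h1]
      linarith

/-! ## 8. CMP -/

/-- what `AffP` says about the statistics: `|uE 0 - J| ≤ a`, `|nE 0 + (q - 2J)| ≤ a`      (leaf L-256-SOFT-AW-LIM, with `sf_aw_valid`; ~200 l.) -/
theorem sf_aw_stat (D : SfDoc) (π π1 : SfPar) (C0 a : ℝ) (hc : D.Core π C0 a) (h0 : (0 : ℝ) ∈ D.G) (hA : D.AffP π1 a) :
    |D.uE 0 - π1.J| ≤ a ∧ |D.nE 0 + (π1.q - 2 * π1.J)| ≤ a := by
  obtain ⟨hs0, hs1⟩ := hc.hs
  obtain ⟨hr0, hf0⟩ := hc.hw.2.2 0 h0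
  obtain ⟨r1, r2⟩ := hA.hr 0 h0
  obtain ⟨f1, f2⟩ := hA.hf 0 h0
  have eu : π1.u 0 = π1.J := by unfold SfPar.u; ring
  have en : π1.n 0 = -(π1.q - 2 * π1.J) := by unfold SfPar.n; ring
  rw [eu] at r1 r2
  rw [en] at f1 f2
  have a1 := (sf_aw_le_iff hs0 hs1 hr0).2.1 r1
  have a2 := (sf_aw_le_iff hs0 hs1 hr0).1.1 r2
  have b1 := (sf_aw_le_iff hs0 hs1 hf0).2.1 f1
  have b2 := (sf_aw_le_iff hs0 hs1 hf0).1.1 f2
  unfold SfDoc.uE SfDoc.nE
  constructor
  · rw [abs_le]; constructor <;> linarith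
  · rw [abs_le]; constructor <;> linarith

/-- the relations pass to the limit.   `zu`, `zn` = limits of `uE 0`, `nE 0`;   `J = zu`, `q = 2 zu - zn`. -/
theorem sf_aw_valid (π π0 : SfPar) (hπ : π.Pd) (hs : π0.Same π) (hpos : 0 < π0.c2 ∨ (π0.c2 = 0 ∧ 0 < π0.c1)) (L zu zn : ℝ)
    (h : ∀ a : ℝ, 0 < a → ∃ J q : ℝ, SfPar.Sl { π0 with J := J, q := q } L ∧ |zu - J| ≤ a ∧ |zn + (q - 2 * J)| ≤ a) :
    SfPar.Valid { π0 with J := zu, q := 2 * zu - zn } := by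
  obtain ⟨e1, e2, e3, e4, e5⟩ := hs
  obtain ⟨p1, p2, p3, p4, p5⟩ := hπ
  have hq : ∀ a : ℝ, 0 < a → ∃ J q : ℝ, SfPar.Sl { π0 with J := J, q := q } L ∧ |zu - J| ≤ a ∧ |zn + (q - 2 * J)| ≤ a ∧
      |(2 * zu - zn) - q| ≤ 3 * a := by
    intro a ha
    obtain ⟨J, q, hS, h1, h2⟩ := h a ha
    refine ⟨J, q, hS, h1, h2, ?_⟩
    rw [abs_le] at h1 h2 ⊢
    constructor <;> linarith [h1.1, h1.2, h2.1, h2.2]
  have zero_of : ∀ x c : ℝ, 0 < c → (∀ a : ℝ, 0 < a → |x| ≤ c * a) → x = 0 := by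
    intro x c hc hx
    by_contra hne
    have hpos' : 0 < |x| := abs_pos.2 hne
    have := hx (|x| / (2 * c)) (by positivity)
    have e : c * (|x| / (2 * c)) = |x| / 2 := by field_simp
    rw [e] at this
    linarith
  refine ⟨?_, ?_, ?_, ?_, ?_, ?_, ?_, ?_⟩
  · show 0 < π0.η ∧ π0.η < 1
    rw [e1]; exact p1
  · show π0.η / 2 < π0.Γ
    rw [e1, e2]; exact p2
  · show π0.Γ = π0.d + (1 - π0.p) / 2
    rw [e2, e3, e4]; exact p3
  · show 1 ≤ π0.p ∧ π0.p < 3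
    rw [e3]; exact p4
  · show 0 < π0.d ∧ π0.d ≤ 1
    rw [e4]; exact p5
  · show 0 ≤ zu
    refine le_of_forall_pos_le_add fun a ha => ?_
    obtain ⟨J, q, hS, h1, -⟩ := h a ha
    have hJ : 0 ≤ J := hS.J0
    rw [abs_le] at h1
    linarith [h1.1]
  · show (0 < π0.c2 ∧ 2 * zu - zn = π0.c2) ∨ (π0.c2 = 1 ∧ 2 * zu - zn < 1) ∨ (π0.c2 = 0 ∧ 0 < π0.c1 ∧ 2 * zu - zn = π0.c1 + zu)
    rcases hpos with h2 | ⟨h2, h1⟩
    · by_cases hc1 : π0.c2 = 1
      · have hle : 2 * zu - zn ≤ 1 := by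
          refine le_of_forall_pos_le_add fun a ha => ?_
          obtain ⟨J, q, hS, -, -, h3⟩ := hq (a / 3) (by positivity)
          have hq1 : q ≤ 1 := hS.st hc1
          rw [abs_le] at h3
          linarith [h3.2]
        rcases hle.lt_or_eq with hlt | heq
        · exact Or.inr (Or.inl ⟨hc1, hlt⟩)
        · exact Or.inl ⟨h2, by rw [heq, hc1]⟩
      · left
        refine ⟨h2, ?_⟩
        have : (2 * zu - zn) - π0.c2 = 0 := by
          refine zero_of _ 3 (by norm_num) fun a ha => ?_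
          obtain ⟨J, q, hS, -, -, h3⟩ := hq a ha
          have hq1 : q = π0.c2 := hS.eq h2 hc1
          rw [← hq1]; exact h3
        linarith
    · right; right
      refine ⟨h2, h1, ?_⟩
      have : (2 * zu - zn) - (π0.c1 + zu) = 0 := by
        refine zero_of _ 4 (by norm_num) fun a ha => ?_
        obtain ⟨J, q, hS, h4, -, h3⟩ := hq a ha
        have hq1 : q = π0.c1 + J := hS.lin h2
        rw [abs_le] at h3 h4 ⊢
        constructor <;> linarith [h3.1, h3.2, h4.1, h4.2]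
      linarith
  · show π0.hyb = true → (2 * zu - zn) - 2 * zu = -1 / 2
    intro hy
    have : zn - 1 / 2 = 0 := by
      refine zero_of _ 1 (by norm_num) fun a ha => ?_
      obtain ⟨J, q, hS, -, h2⟩ := h a ha
      have hq1 : q - 2 * J = -1 / 2 := hS.pl hy
      rw [hq1] at h2
      rw [one_mul]
      have e : zn - 1 / 2 = zn + -1 / 2 := by ring
      rw [e]; exact h2
    linarith

/-- `Gd` is monotone in the accuracy -/
theorem sf_aw_gd_mono (K : SfCls) (π : SfPar) (Ls C0 : ℝ) (hK : K.Cal π Ls) (c : K.Cfg) (a a' : ℝ) (ha : 0 < a) (haa : a ≤ a') (h : K.Gd π Ls C0 a c) :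
    K.Gd π Ls C0 a' c :=
  ⟨sf_good_mono _ π Ls C0 a a' ha haa h.1, hK.md_mono c a a' ha haa h.2⟩

/-- the class of `sf_aw_cmp` -/
def sfAwCl (K : SfCls) (π : SfPar) (Ls C0 L : ℝ) (π0 : SfPar) (F : Finset ℝ) (a : ℝ) (c : K.Cfg) : Prop :=
  0 < a ∧ (0 : ℝ) ∈ (K.doc c).G ∧ (∀ i ∈ F, 0 ≤ i → i ≤ 1 → i ∈ (K.doc c).G) ∧ K.Gd π Ls C0 (min a 1) c ∧
    ∃ J q : ℝ, SfPar.Sl { π0 with J := J, q := q } L ∧ (K.doc c).AffP { π0 with J := J, q := q } (min a 1)

/-- the two statistics -/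
noncomputable def sfAwSt (K : SfCls) (x : ℝ) (c : K.Cfg) : ℝ := open Classical in if x = 0 then (K.doc c).uE 0 else (K.doc c).nE 0

theorem sf_aw_cl_eqns_cite : True := by
  have := @sfAwCl.eq_1
  have := @sfAwSt.eq_1
  trivial

/-- what a member of the class close to `(zu, zn)` gives -/
theorem sf_aw_cl_close (K : SfCls) (π : SfPar) (Ls C0 L : ℝ) (π0 : SfPar) (F : Finset ℝ) (a zu zn : ℝ) (c : K.Cfg) (h : sfAwCl K π Ls C0 L π0 F a c)
    (h0 : |sfAwSt K 0 c - zu| ≤ a) (h1 : |sfAwSt K 1 c - zn| ≤ a) :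
    ∃ J q : ℝ, SfPar.Sl { π0 with J := J, q := q } L ∧ (K.doc c).AffP { π0 with J := J, q := q } (min a 1) ∧ |zu - J| ≤ 2 * a ∧ |zn + (q - 2 * J)| ≤ 2 * a := by
  obtain ⟨ha, g0, -, hg, J, q, hSl, hA⟩ := h
  obtain ⟨s1, s2⟩ := sf_aw_stat (K.doc c) π { π0 with J := J, q := q } C0 (min a 1) hg.1.1 g0 hA
  have e0 : sfAwSt K 0 c = (K.doc c).uE 0 := by unfold sfAwSt; rw [if_pos rfl]
  have e1 : sfAwSt K 1 c = (K.doc c).nE 0 := by unfold sfAwSt; rw [if_neg one_ne_zero]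
  rw [e0] at h0
  rw [e1] at h1
  have hm : min a 1 ≤ a := min_le_left _ _
  have s1' : |(K.doc c).uE 0 - J| ≤ min a 1 := s1
  have s2' : |(K.doc c).nE 0 + (q - 2 * J)| ≤ min a 1 := s2
  refine ⟨J, q, hSl, hA, ?_, ?_⟩
  · rw [abs_le] at h0 s1' ⊢
    constructor <;> linarith [h0.1, h0.2, s1'.1, s1'.2]
  · rw [abs_le] at h1 s2' ⊢
    constructor <;> linarith [h1.1, h1.2, s2'.1, s2'.2]

/-- **CMP** -/
theorem sf_aw_cmp (K : SfCls) (π : SfPar) (Ls C0 L : ℝ) (hK : K.Cal π Ls) (hπ : π.Pd) (π0 : SfPar) (hs : π0.Same π) (hpos : 0 < π0.c2 ∨ (π0.c2 = 0 ∧ 0 < π0.c1))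
    (hin : ∀ (F : Finset ℝ), (∀ i ∈ F, 0 ≤ i ∧ i ≤ 1) → ∀ a : ℝ, 0 < a → SfEx K.ob K.sc (fun c => (0 : ℝ) ∈ (K.doc c).G ∧ F ⊆ (K.doc c).G ∧ K.Gd π Ls C0 a c ∧
      ∃ J q : ℝ, SfPar.Sl { π0 with J := J, q := q } L ∧ (K.doc c).AffP { π0 with J := J, q := q } a)) :
    ∃ π' : SfPar, π'.Same π ∧ π'.Valid ∧ π'.c2 = π0.c2 ∧ π'.c1 = π0.c1 ∧
      ∀ (F : Finset ℝ), (∀ i ∈ F, 0 ≤ i ∧ i ≤ 1) → ∀ a : ℝ, 0 < a →
        SfEx K.ob K.sc (fun c => F ⊆ (K.doc c).G ∧ K.Gd π Ls C0 a c ∧ (K.doc c).AffP π' a) := by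
  classical
  obtain ⟨z, -, hz⟩ := sf_cmp (ob := K.ob) (sc := K.sc) (sfAwCl K π Ls C0 L π0)
    (by
      intro F F' a a' c hFF haa h
      obtain ⟨ha, g0, hF, hg, J, q, hSl, hA⟩ := h
      have hm0 : 0 < min a 1 := lt_min ha one_pos
      have hmm : min a 1 ≤ min a' 1 := min_le_min_right 1 haa
      exact ⟨lt_of_lt_of_le ha haa, g0, fun i hi => hF i (hFF hi), sf_aw_gd_mono K π Ls C0 hK c _ _ hm0 hmm hg, J, q, hSl,
        sf_affp_mono _ _ _ _ hg.1.1.hs hmm hA⟩)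
    (sfAwSt K) (fun _ => 3 * L + 1)
    (by
      intro F a c x _ h
      obtain ⟨ha, g0, -, hg, J, q, hSl, hA⟩ := h
      obtain ⟨s1, s2⟩ := sf_aw_stat (K.doc c) π { π0 with J := J, q := q } C0 (min a 1) hg.1.1 g0 hA
      have s1' : |(K.doc c).uE 0 - J| ≤ min a 1 := s1
      have s2' : |(K.doc c).nE 0 + (q - 2 * J)| ≤ min a 1 := s2
      have hm : min a 1 ≤ 1 := min_le_right _ _
      have j0 : 0 ≤ J := hSl.J0
      have j1 : J ≤ L := hSl.JL
      have q1 : |q| ≤ L := hSl.qL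
      rw [abs_le] at s1' s2' q1
      unfold sfAwSt
      split_ifs
      · rw [abs_le]; constructor <;> linarith [s1'.1, s1'.2]
      · rw [abs_le]; constructor <;> linarith [s2'.1, s2'.2, q1.1, q1.2])
    (by
      intro F a ha
      have hm0 : 0 < min a 1 := lt_min ha one_pos
      refine sf_ex_mono (fun c hc => ?_) (hin (F.filter (fun i => 0 ≤ i ∧ i ≤ 1)) (fun i hi => (Finset.mem_filter.1 hi).2) (min a 1) hm0)
      obtain ⟨g0, hF, hg, hJ⟩ := hc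
      exact ⟨ha, g0, fun i hi h0 h1 => hF (Finset.mem_filter.2 ⟨hi, h0, h1⟩), hg, hJ⟩)
  set zu : ℝ := z 0 with hzu
  set zn : ℝ := z 1 with hzn
  have hval : SfPar.Valid { π0 with J := zu, q := 2 * zu - zn } := by
    refine sf_aw_valid π π0 hπ hs hpos L zu zn (fun a ha => ?_)
    obtain ⟨S, hS⟩ := hz {0, 1} (a / 2) (by linarith)
    obtain ⟨c, -, -, hc, hq⟩ := hS 1 one_pos
    obtain ⟨J, q, hSl, -, c1, c2⟩ := sf_aw_cl_close K π Ls C0 L π0 _ (a / 2) zu zn c hc (hq 0 (by simp)) (hq 1 (by simp))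
    exact ⟨J, q, hSl, by linarith, by linarith⟩
  refine ⟨{ π0 with J := zu, q := 2 * zu - zn }, hs, hval, rfl, rfl, ?_⟩
  intro F hF a ha
  set a' : ℝ := min a 1 / 21 with ha'
  have hm0 : 0 < min a 1 := lt_min ha one_pos
  have ha'0 : 0 < a' := by rw [ha']; positivity
  have ha'a : 21 * a' ≤ a := by rw [ha']; linarith [min_le_left a 1]
  refine sf_ex_mono (fun c hc => ?_) (hz (insert 0 (insert 1 F)) a' ha'0)
  obtain ⟨hc, hq⟩ := hc
  obtain ⟨J, q, hSl, hA, c1, c2⟩ := sf_aw_cl_close K π Ls C0 L π0 _ a' zu zn c hc (hq 0 (by simp)) (hq 1 (by simp))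
  obtain ⟨-, g0, hFG, hg, -⟩ := hc
  have hmin0 : 0 < min a' 1 := lt_min ha'0 one_pos
  have hmin : min a' 1 ≤ a' := min_le_left _ _
  refine ⟨fun i hi => hFG i (by simp [hi]) (hF i hi).1 (hF i hi).2, sf_aw_gd_mono K π Ls C0 hK c _ _ hmin0 (by linarith) hg, ?_⟩
  have hp := sf_aw_pert (K.doc c) π C0 (min a' 1) (6 * a') hg.1.1 hmin0.le (by positivity) { π0 with J := J, q := q }
    { π0 with J := zu, q := 2 * zu - zn } rfl rfl (by
      show |zu - J| ≤ 6 * a'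
      linarith) (by
      show |2 * zu - zn - q| ≤ 6 * a'
      rw [abs_le] at c1 c2 ⊢
      constructor <;> linarith [c1.1, c1.2, c2.1, c2.2]) hSl.eq hSl.st hA
  exact sf_affp_mono _ _ _ _ hg.1.1.hs (by linarith) hp

/-! ## 9. Tools for the order of constants      (asked by helper263) -/

/-- the set of slopes with `Sl` -/
def sfAwK (π0 : SfPar) (L : ℝ) : Set (ℝ × ℝ) := {p | SfPar.Sl { π0 with J := p.1, q := p.2 } L}

theorem sf_aw_k_eqns_cite : True := by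
  have := @sfAwK.eq_1
  trivial

theorem sf_aw_k_closed_imp (P : Prop) (S : Set (ℝ × ℝ)) (hS : IsClosed S) : IsClosed {p : ℝ × ℝ | P → p ∈ S} := by
  by_cases h : P
  · simpa [h] using hS
  · simp [h]

/-- the set of slopes is compact -/
theorem sf_aw_k_compact (π0 : SfPar) (L : ℝ) : IsCompact (sfAwK π0 L) := by
  have hsub : sfAwK π0 L ⊆ Set.Icc (0 : ℝ) L ×ˢ Set.Icc (-L) L := by
    intro p hp
    have hp' : SfPar.Sl { π0 with J := p.1, q := p.2 } L := hp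
    exact ⟨⟨hp'.J0, hp'.JL⟩, abs_le.1 hp'.qL⟩
  have hcl : IsClosed (sfAwK π0 L) := by
    have e : sfAwK π0 L = {p : ℝ × ℝ | 0 ≤ p.1} ∩ {p : ℝ × ℝ | p.1 ≤ L} ∩ {p : ℝ × ℝ | |p.2| ≤ L} ∩
        {p : ℝ × ℝ | (0 < π0.c2 ∧ π0.c2 ≠ 1) → p ∈ {p : ℝ × ℝ | p.2 = π0.c2}} ∩ {p : ℝ × ℝ | π0.c2 = 1 → p ∈ {p : ℝ × ℝ | p.2 ≤ 1}} ∩
        {p : ℝ × ℝ | π0.c2 = 0 → p ∈ {p : ℝ × ℝ | p.2 = π0.c1 + p.1}} ∩ {p : ℝ × ℝ | π0.hyb = true → p ∈ {p : ℝ × ℝ | p.2 - 2 * p.1 = -1 / 2}} := by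
      ext p
      constructor
      · intro hp
        have hp' : SfPar.Sl { π0 with J := p.1, q := p.2 } L := hp
        exact ⟨⟨⟨⟨⟨⟨hp'.J0, hp'.JL⟩, hp'.qL⟩, fun h => hp'.eq h.1 h.2⟩, hp'.st⟩, hp'.lin⟩, hp'.pl⟩
      · rintro ⟨⟨⟨⟨⟨⟨h1, h2⟩, h3⟩, h4⟩, h5⟩, h6⟩, h7⟩
        exact ⟨h1, h2, h3, fun a b => h4 ⟨a, b⟩, h5, h6, h7⟩
    rw [e]
    refine ((((((isClosed_le continuous_const continuous_fst).inter (isClosed_le continuous_fst continuous_const)).inter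
      (isClosed_le continuous_snd.abs continuous_const)).inter (sf_aw_k_closed_imp _ _ (isClosed_eq continuous_snd continuous_const))).inter
      (sf_aw_k_closed_imp _ _ (isClosed_le continuous_snd continuous_const))).inter
      (sf_aw_k_closed_imp _ _ (isClosed_eq continuous_snd (continuous_const.add continuous_fst)))).inter
      (sf_aw_k_closed_imp _ _ (isClosed_eq (continuous_snd.sub (continuous_const.mul continuous_fst)) continuous_const))
  exact (isCompact_Icc.prod isCompact_Icc).of_isClosed_subset hcl hsub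

/-- **HEINE-BOREL**: radii `ρ J q > 0` on the slopes with `Sl`  ⟹  finitely many centres with `Sl`, every slope with `Sl` lies within the radius of one of the centres -/
theorem sf_aw_hb (π0 : SfPar) (L : ℝ) (ρ : ℝ → ℝ → ℝ) (hρ : ∀ J q : ℝ, SfPar.Sl { π0 with J := J, q := q } L → 0 < ρ J q) :
    ∃ T : Finset (ℝ × ℝ), (∀ p ∈ T, SfPar.Sl { π0 with J := p.1, q := p.2 } L) ∧
      ∀ J q : ℝ, SfPar.Sl { π0 with J := J, q := q } L → ∃ p ∈ T, |J - p.1| < ρ p.1 p.2 ∧ |q - p.2| < ρ p.1 p.2 := by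
  classical
  obtain ⟨T, hT, hcov⟩ := (sf_aw_k_compact π0 L).elim_nhds_subcover (fun p => Metric.ball p (if p ∈ sfAwK π0 L then ρ p.1 p.2 else 1))
    (fun p hp => by
      rw [if_pos hp]
      exact Metric.ball_mem_nhds p (hρ p.1 p.2 hp))
  refine ⟨T, hT, fun J q h => ?_⟩
  have hm : (J, q) ∈ sfAwK π0 L := h
  obtain ⟨p, hpT, hp⟩ := Set.mem_iUnion₂.1 (hcov hm)
  rw [if_pos (hT p hpT), Metric.mem_ball, Prod.dist_eq, max_lt_iff, Real.dist_eq, Real.dist_eq] at hp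
  exact ⟨p, hpT, hp.1, hp.2⟩

/-- a window for nearby slopes -/
theorem sf_aw_wn_pert (D : SfDoc) (hs : 0 < D.s ∧ D.s < 1) (A B J q e J' q' d : ℝ) (hJ : |J' - J| ≤ d) (hq : |q' - q| ≤ d) (h : D.Wn A B J q e) :
    D.Wn A B J' q' (e + d * (B - A)) := by
  have key : ∀ x x' y : ℝ, |x' - x| ≤ d → 0 ≤ y → y ≤ B - A → |x' * y - x * y| ≤ d * (B - A) := by
    intro x x' y hx h0 h1
    have hd : 0 ≤ d := (abs_nonneg _).trans hx
    have e1 : x' * y - x * y = (x' - x) * y := by ring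
    rw [e1, abs_mul, abs_of_nonneg h0]
    exact mul_le_mul hx h1 h0 hd
  refine ⟨h.gA, h.gB, h.hAB, fun k hk h1 h2 => ?_, fun k hk h1 h2 => ?_⟩
  · have c := abs_le.1 (key J J' (B - k) hJ (by linarith) (by linarith))
    obtain ⟨a1, a2⟩ := h.wr k hk h1 h2
    exact ⟨(sf_mc_anti hs.1 hs.2 (by linarith [c.1])).trans a1, a2.trans (sf_mc_anti hs.1 hs.2 (by linarith [c.2]))⟩
  · have c := abs_le.1 (key q q' (B - k) hq (by linarith) (by linarith))
    obtain ⟨a1, a2⟩ := h.w2 k hk h1 h2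
    exact ⟨(sf_mc_anti hs.1 hs.2 (by nlinarith [c.1, c.2])).trans a1, a2.trans (sf_mc_anti hs.1 hs.2 (by nlinarith [c.1, c.2]))⟩

end Claimed.Agent.R256
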