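import Claimed.Agent.R256.Soft.AfSz
import Claimed.Agent.R256.Soft.AfKit
import Claimed.Agent.R256.Soft.AfWContract

/-!
# Row 256 (S0496), unit SOFT, A7 AF, file 6: THE COVER (`GeHyp` for the bins of end rows, cost of the extracted piece) = EXIT X2 of P2      (architect helper229)      DOC LEVEL, paper free

Bins `D.AfBin π A B e`, `afUb`, `afSb`, `afFr` (`Soft/AfDefs.lean`), `e` = widening exponent.   Standing hypotheses `D.AfH π Ls C0 A B t`, `C t ≤ e`.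
ENTRY: `sf_af_sz` (every binned coordinate of a label on a chain is `≤ c ×` its width in the frame of the end row; size), `sf_af_sz_ray`, `sf_af_sz_curv`, `sf_af_sz_Pc` (`Soft/AfSz.lean`), `sf_af_time` (`Soft/AfLink.lean`),
`sf_af_fr_diff`, `sf_af_code_zero` (`Soft/AfFrame.lean`), `sf_af_count` (`Soft/AfKit.lean`).
EXIT: `sf_af_h_x2` (= `sf_af_x2` of `Soft/AfMain.lean`).      Every constant is a UNIVERSAL number chosen by the prover.
-/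

set_option autoImplicit false

namespace Claimed.Agent.R256

open Claimed.Agent.R255

/-- LEAF AF-H1 (~120 l.).   `Out` is monotone in the tolerance and sees only `c2, c1, hyb`.   PLAN: field by field; `sf_mc_anti`; in `chA` the bound `V` is positive (`k := i`: `0 < w2 i ≤ V`, `Core.hw`, `sf_mc_len_pos`), in `rowB`, `rowK`, `rowP`: `0 < s^(-c) ≤ V`;
`V * s^(-t) ≤ V * s^(-t')`. -/
theorem sf_af_h_out (D : SfDoc) (π π' π1 : SfPar) (C0 a t t' : ℝ) (hc : D.Core π1 C0 a) (htt : t ≤ t') (h2 : π'.c2 = π.c2) (h1 : π'.c1 = π.c1)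
    (hh : π'.hyb = π.hyb) (h : D.Out π t) : D.Out π' t' := by
  have hs := hc.hs
  have hm : D.s ^ (-t) ≤ D.s ^ (-t') := sf_mc_anti hs.1 hs.2 (by linarith)
  refine ⟨h.g0, ?_, sf_ab_chA_mono D π1 C0 a hc t t' htt h.chA, ?_, ?_, ?_, ?_, ?_, ?_, ?_⟩
  · intro ρ
    rw [h2, h1]
    exact ⟨((h.cost ρ).1).trans (sf_mc_anti hs.1 hs.2 (by linarith)),
      fun h0 => ((h.cost ρ).2 h0).trans (sf_mc_anti hs.1 hs.2 (by linarith))⟩
  · intro u hu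
    rw [h2]
    exact (sf_ab_row_mono D hs π.c2 t t' htt u).1 (h.rowB u hu)
  · rw [h2]
    intro h0 u hu V hV hV2
    exact (h.rowK h0 u hu V hV hV2).trans (mul_le_mul_of_nonneg_left hm ((Real.rpow_nonneg hs.1.le _).trans hV))
  · rw [h2, h1]
    intro h0 u hu
    exact (sf_ab_row_mono D hs π.c1 t t' htt u).2.2 (h.rowP h0 u hu)
  · rw [h2]
    intro h0 i hi
    exact (h.s1 h0 i hi).trans (sf_mc_anti hs.1 hs.2 (by linarith))
  · rw [h2]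
    intro h0 h01 i hi
    exact (sf_mc_anti hs.1 hs.2 (by linarith)).trans (h.s2 h0 h01 i hi)
  · rw [h2, h1]
    intro h0 i hi
    exact ⟨(sf_mc_anti hs.1 hs.2 (by linarith)).trans (h.s3 h0 i hi).1, (h.s3 h0 i hi).2.trans (sf_mc_anti hs.1 hs.2 (by linarith))⟩
  · rw [hh]
    intro h0 i hi hi4
    exact ⟨(sf_mc_anti hs.1 hs.2 (by linarith)).trans (h.pl h0 i hi hi4).1, (h.pl h0 i hi hi4).2.trans (sf_mc_anti hs.1 hs.2 (by linarith))⟩

/-- the standing hypotheses from the hypotheses of X2 -/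
theorem sf_af_h_mk (π π0 : SfPar) (Ls L : ℝ) (hπ : π.Pd) (hs : π0.Same π) (hpos : 0 < π0.c2 ∨ (π0.c2 = 0 ∧ 0 < π0.c1))
    (D : SfDoc) (C0 A B J q e a t : ℝ) (ha : 0 < a) (hae : a ≤ e) (hte : t ≤ e) (heh : e ≤ B - A) (hsm : D.s ^ e ≤ 1 / 2)
    (hg : D.Good π Ls C0 a) (hfb : D.Fb (6 * |C0| + 6 * |Ls| + 20)) (ho : D.Out π0 t) (hw : D.Wn A B J q e)
    (hsl : SfPar.Sl { π0 with J := J, q := q } L) : D.AfH { π0 with J := J, q := q } Ls C0 A B e := by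
  have hs' : SfPar.Same { π0 with J := J, q := q } π := hs
  have hg' := sf_good_mono D π Ls C0 a e ha hae hg
  exact ⟨sf_aw_sl_valid π _ L hπ hs' hpos hsl, ⟨sf_core_same D π _ C0 e hs' hg'.1, hg'.2⟩,
    sf_af_h_out D π0 _ π C0 a t e hg.1 hte rfl rfl rfl ho, hw, hfb, ha.trans_le hae, heh, hsm⟩

/-- the widths are nonnegative -/
theorem sf_af_h_wd0 (D : SfDoc) (π : SfPar) (A B e T0 : ℝ) (hs : 0 < D.s) (m : Fin 8) : 0 < (D.afU π A B e T0).wd m ∨ (D.afU π A B e T0).wd m = 0 := by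
  have hp : ∀ y : ℝ, 0 < D.s ^ y := fun y => Real.rpow_pos_of_pos hs y
  fin_cases m
  · exact Or.inl one_pos
  · exact Or.inl one_pos
  · exact Or.inl one_pos
  · show 0 < (if 1 ≤ π.c2 then D.s ^ (-(π.c2 * (B - A) + e)) else 0) ∨ (if 1 ≤ π.c2 then D.s ^ (-(π.c2 * (B - A) + e)) else 0) = 0
    split_ifs
    · exact Or.inl (hp _)
    · exact Or.inr rfl
  · show 0 < (if 0 < π.c2 then D.s ^ (-(π.c2 * (B - A) + 2 * e)) else 0) ∨ (if 0 < π.c2 then D.s ^ (-(π.c2 * (B - A) + 2 * e)) else 0) = 0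
    split_ifs
    · exact Or.inl (hp _)
    · exact Or.inr rfl
  · show 0 < (if 0 < π.c2 then D.s ^ (-(max 1 π.c2 * (B - A) + 3 * e)) else D.s ^ (-(π.c1 * (B - A) + 3 * e))) ∨ _
    split_ifs
    · exact Or.inl (hp _)
    · exact Or.inl (hp _)
  · exact Or.inl (hp _)
  · exact Or.inl (hp _)

/-- LEAF AF-H2 (~60 l.).   The root time of a bin is determined by the depth and the time of any label on a chain.   PLAN: `sf_af_time` gives `sfMcAncT D A B (T B v) = T A ρ`, `T A ρ ≤ T u`, `T u + len u.1 ≤ T A ρ + len A`; `sf_mc_anc_eq` (with `i := A`, `j := u.1`;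
`u.1 ∈ D.G` from `AfCh`: `u = ⟨B, v⟩` or the second alternative). -/
theorem sf_af_h_t0 (π : SfPar) (Ls : ℝ) (D : SfDoc) (C0 A B t : ℝ) (h : D.AfH π Ls C0 A B t) (v : D.Row B) (u : D.Rw) (hu : D.AfCh A B u v)
    (ρ : D.Row A) (hρ : D.Conn A B ρ v) : sfMcAncT D A B (D.T B v) = sfMcAncT D A u.1 (D.lab u.1 u.2).T := by
  obtain ⟨h1, h2, h3, -, -⟩ := sf_af_time π Ls D C0 A B t h v u hu ρ hρ
  have hug : u.1 ∈ D.G := by
    rcases hu with rfl | ⟨hu1, -⟩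
    · exact h.wn.gB
    · exact hu1
  rw [h1]
  exact (sf_mc_anc_eq D π C0 t h.good.1 A u.1 h.wn.gA hug _ ρ h2 h3).symm

/-- LEAF AF-H3 (~200 l.).   **A label lies on chains to a BOUNDED number of bins.**   PLAN: `⟨C, c, ..⟩ := sf_af_sz`, `M := ⌈2 c⌉₊`, `N0 := (M + 1)^8`; `sf_af_count 8 M S (fun m b => b.1.2 m)`.
 Two bins `b, b' ∈ S` (witnesses `u v ρ`, `u' v' ρ'`): `b.1.1 = b'.1.1 =: T0` by `sf_af_h_t0` twice (`u.1 = k = u'.1`, `lab u = lam = lab u'`; `b.1 = afKey v`, `(afKey v).1 = sfMcAncT D A B (T B v)`).      `hinj`: `Subtype.ext`, `Prod.ext`, `funext`.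
 `hcl`: `U := D.afU π A B e T0`; `afFv v = U.of b.1.2` (unfold `afFv`, `afFk`), `sf_af_fr_diff U (sf_af_u_pos ..) b.1.2 b'.1.2 lam m`: `co - co' = -(wd m (n m - n' m))`;
   `0 < wd m`: both `|co| ≤ c wd m` (`sf_af_sz`), so `|n m - n' m| ≤ 2 c ≤ M` (`Nat.le_ceil`, cast to `ℝ`: `Int.cast_abs`, `Int.cast_le`);      `wd m = 0` (`sf_af_h_wd0`): both codes vanish (`sf_af_code_zero`; `b.1.2 = U.code (lab B v)`). -/
theorem sf_af_h_cnt : ∃ C N0 : ℝ, 0 < C ∧ ∀ (π : SfPar) (Ls : ℝ) (D : SfDoc) (C0 A B t e : ℝ), D.AfH π Ls C0 A B t → C * t ≤ e → ∀ (k : ℝ) (lam : SfTest),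
    (({b | ∃ (u : D.Rw) (v : D.Row B), u.1 = k ∧ D.lab u.1 u.2 = lam ∧ D.afKey π A B e v = b.1 ∧ (∃ ρ : D.Row A, D.Conn A B ρ v) ∧ D.AfCh A B u v} :
      Set (D.AfBin π A B e)).ncard : ℝ) ≤ N0 := by
  obtain ⟨C, c, hC, hc, Hs⟩ := sf_af_sz
  refine ⟨C, ((⌈2 * c⌉₊ + 1) ^ 8 : ℕ), hC, ?_⟩
  intro π Ls D C0 A B t e h hCe k lam
  have hs0 := h.good.1.hs.1
  -- root times
  have hT : ∀ b : D.AfBin π A B e, (∃ (u : D.Rw) (v : D.Row B), u.1 = k ∧ D.lab u.1 u.2 = lam ∧ D.afKey π A B e v = b.1 ∧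
      (∃ ρ : D.Row A, D.Conn A B ρ v) ∧ D.AfCh A B u v) → b.1.1 = sfMcAncT D A k lam.T := by
    rintro b ⟨u, v, h1, h2, h3, ⟨ρ, h4⟩, h5⟩
    have := sf_af_h_t0 π Ls D C0 A B t h v u h5 ρ h4
    rw [h2, h1] at this
    rw [← h3]
    exact this
  have key := sf_af_count 8 ⌈2 * c⌉₊ {b : D.AfBin π A B e | ∃ (u : D.Rw) (v : D.Row B), u.1 = k ∧ D.lab u.1 u.2 = lam ∧ D.afKey π A B e v = b.1 ∧
      (∃ ρ : D.Row A, D.Conn A B ρ v) ∧ D.AfCh A B u v} (fun m b => b.1.2 m) ?_ ?_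
  · exact Nat.cast_le.2 key.2
  · intro b hb b' hb' hm
    exact Subtype.ext (Prod.ext ((hT b hb).trans (hT b' hb').symm) (funext hm))
  · intro b hb b' hb' m hm
    have t1 := hT b hb
    have t2 := hT b' hb'
    obtain ⟨u, v, h1, h2, h3, -, h5⟩ := hb
    obtain ⟨u', v', h1', h2', h3', -, h5'⟩ := hb'
    set U := D.afU π A B e (sfMcAncT D A k lam.T) with hU
    have hUp : U.Pos := sf_af_u_pos π Ls D C0 A B t e _ h
    have f1 : D.afFv π A B e v = U.of b.1.2 := by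
      unfold SfDoc.afFv SfDoc.afFk
      rw [h3, t1]
    have f2 : D.afFv π A B e v' = U.of b'.1.2 := by
      unfold SfDoc.afFv SfDoc.afFk
      rw [h3', t2]
    have g1 : D.afU π A B e (D.afKey π A B e v).1 = U := by rw [h3, t1]
    have g2 : D.afU π A B e (D.afKey π A B e v').1 = U := by rw [h3', t2]
    have s1 := (Hs π Ls D C0 A B t e h hCe v u h5).1 m
    have s2 := (Hs π Ls D C0 A B t e h hCe v' u' h5').1 m
    rw [g1, f1, h2] at s1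
    rw [g2, f2, h2'] at s2
    have hd := sf_af_fr_diff U hUp b.1.2 b'.1.2 lam m hm
    rcases sf_af_h_wd0 D π A B e (sfMcAncT D A k lam.T) hs0 m with hw | hw
    · have a1 := s1 hw
      have a2 := s2 hw
      have hw' : 0 < U.wd m := hw
      have a3 : U.wd m * |((b.1.2 m : ℤ) : ℝ) - ((b'.1.2 m : ℤ) : ℝ)| ≤ U.wd m * (2 * c) := by
        have : |U.wd m * (((b.1.2 m : ℤ) : ℝ) - ((b'.1.2 m : ℤ) : ℝ))| ≤ 2 * (c * U.wd m) := by
          rw [← abs_neg, ← hd]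
          have := abs_sub (sfAfCo ((U.of b.1.2).tst lam) m) (sfAfCo ((U.of b'.1.2).tst lam) m)
          linarith
        rw [abs_mul, abs_of_pos hw'] at this
        linarith
      have a4 : |((b.1.2 m : ℤ) : ℝ) - ((b'.1.2 m : ℤ) : ℝ)| ≤ 2 * c := le_of_mul_le_mul_left a3 hw'
      have a5 : |((b.1.2 m : ℤ) : ℝ) - ((b'.1.2 m : ℤ) : ℝ)| ≤ ((⌈2 * c⌉₊ : ℕ) : ℝ) := a4.trans (Nat.le_ceil _)
      have a6 : ((|b.1.2 m - b'.1.2 m| : ℤ) : ℝ) ≤ (((⌈2 * c⌉₊ : ℕ) : ℤ) : ℝ) := by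
        push_cast
        exact a5
      exact Int.cast_le.1 a6
    · have c1 : b.1.2 m = 0 := by
        have : b.1.2 = U.code (D.lab B v) := by
          rw [← h3, ← g1]
          rfl
        rw [this]
        exact sf_af_code_zero U _ m hw
      have c2 : b'.1.2 m = 0 := by
        have : b'.1.2 = U.code (D.lab B v') := by
          rw [← h3', ← g2]
          rfl
        rw [this]
        exact sf_af_code_zero U _ m hw
      show |b.1.2 m - b'.1.2 m| ≤ _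
      rw [c1, c2]
      simp

/-- LEAF AF-H4 (~100 l.).   **Mass of the marked end rows.**   PLAN: `U ρ' := ¬ ∃ ρ, Conn A B ρ ρ'`, `S := fun _ => False`: `D.Pred A B U S`; `Core.sp`: `pr U ≤ s^(-t) * (pr S)^(2/3) + s^(1/t) = s^(1/t)` (`pr (fun _ => False) = 0`, `Real.zero_rpow`);
`t ≤ 1` (`th`, gates in `[0,1]`), so `t ≤ 1/t`, `s^(1/t) ≤ s^t ≤ 1/2`; a row with a predecessor lies in the bin `⟨afKey ρ', ρ', rfl⟩`; `pr U + pr Uᶜ = 1` (see how `sf_ab_sp_ex`, `Soft/AAbContract.lean`, does it; `ent_pr_*` of `R255/Ent`). -/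
theorem sf_af_h_mass (π : SfPar) (Ls : ℝ) (D : SfDoc) (C0 A B t e : ℝ) (h : D.AfH π Ls C0 A B t) :
    1 / 2 ≤ (D.P B).pr (fun ρ' => ∃ b, D.afUb π A B e b ⟨B, ρ'⟩) := by
  have hc : D.Core π C0 t := h.good.1
  have hs := hc.hs
  have ht0 := h.t0
  have hA := (hc.gate.2 A h.wn.gA).1
  have hB := (hc.gate.2 B h.wn.gB).2
  have ht1 : t ≤ 1 := by have := h.th; linarith
  have hsp := hc.sp A h.wn.gA B h.wn.gB h.wn.hAB (fun ρ' => ¬ ∃ ρ, D.Conn A B ρ ρ') (fun _ => False)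
    (fun ρ' hU ρ hcn => hU ⟨ρ, hcn⟩)
  rw [ent_pr_false, Real.zero_rpow (by norm_num), mul_zero, zero_add, ent_pr_not] at hsp
  have h1 : t ≤ 1 / t := by
    rw [le_div_iff₀ ht0]
    nlinarith
  have h2 : D.s ^ (1 / t) ≤ D.s ^ t := Real.rpow_le_rpow_of_exponent_ge hs.1 hs.2.le h1
  have h3 : (D.P B).pr (fun ρ' => ∃ ρ, D.Conn A B ρ ρ') ≤ (D.P B).pr (fun ρ' => ∃ b, D.afUb π A B e b ⟨B, ρ'⟩) := by
    refine ent_pr_mono _ fun ρ' _ hρ => ?_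
    exact ⟨⟨D.afKey π A B e ρ', ρ', rfl⟩, ρ', rfl, rfl, hρ⟩
  have := h.sm
  linarith

/-- LEAF AF-H5 (~150 l.).   **Costs of an end row in its own frame.**   PLAN: `sf_af_sz_curv`, `sf_af_sz_Pc` with `u := ⟨B, v⟩` (`AfCh`: `Or.inl rfl`); `len B / len A ≤ 1` (`sf_af_len_le`);
 `1 ≤ c2`: `2 W.be + 2 W.K ≤ 4 s^(-(c2 h + 2e)) ≤ s^(-(c2 h + 3e))` (`4 ≤ s^(-e)`: `s^t ≤ 1/2`, take `C ≥ 2`);   `0 < c2 < 1`: `2 W.be + s^(-e)`;   `c2 = 0`: `s^(-e)`;      `c2 = 0`: `|Q.Pc| ≤ 2 W.al = 2 s^(-(c1 h + 3e))`. -/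
theorem sf_af_h_end : ∃ C : ℝ, 0 < C ∧ ∀ (π : SfPar) (Ls : ℝ) (D : SfDoc) (C0 A B t e : ℝ), D.AfH π Ls C0 A B t → C * t ≤ e →
    ∀ (v : D.Row B) (Q : SfTest), Q = (D.afFv π A B e v).tst (D.lab B v) →
    |Q.be| + D.len B / D.len A * |Q.K| ≤ D.s ^ (-(π.c2 * (B - A) + 3 * e)) ∧ (π.c2 = 0 → |Q.Pc| ≤ D.s ^ (-(π.c1 * (B - A) + 4 * e))) := by
  obtain ⟨C1, hC1, Hcv⟩ := sf_af_sz_curv
  obtain ⟨C3, hC3, HPc⟩ := sf_af_sz_Pc
  refine ⟨C1 + C3 + 2, by linarith, fun π Ls D C0 A B t e h he v Q hQ => ?_⟩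
  have hs := h.good.1.hs
  have ht := h.t0
  have e1 : C1 * t ≤ e := by nlinarith
  have e3 : C3 * t ≤ e := by nlinarith
  have e2 : 2 * t ≤ e := by nlinarith
  have he0 : 0 < e := by linarith
  have hh : 0 < B - A := by linarith [h.wn.hAB]
  have hu : D.AfCh A B ⟨B, v⟩ v := Or.inl rfl
  obtain ⟨Ha, Hb, Hc, Hd⟩ := Hcv π Ls D C0 A B t e h e1 v ⟨B, v⟩ hu Q hQ
  obtain ⟨Hp, -⟩ := HPc π Ls D C0 A B t e h e3 v ⟨B, v⟩ hu Q hQ
  have pos : ∀ x : ℝ, 0 < D.s ^ x := fun x => Real.rpow_pos_of_pos hs.1 x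
  have lA := sf_mc_len_pos D π C0 t h.good.1 A h.wn.gA
  have lB := sf_mc_len_pos D π C0 t h.good.1 B h.wn.gB
  have l1 : D.len B / D.len A ≤ 1 := by
    rw [div_le_one lA]
    exact sf_af_len_le D π C0 t h.good.1 ht A B h.wn.gA h.wn.gB h.wn.hAB
  have h2e : 2 ≤ D.s ^ (-e) := sf_af_sz_two hs h.sm (by linarith)
  have h4e : 4 ≤ D.s ^ (-e) := by
    have h2 : 2 ≤ D.s ^ (-t) := sf_af_sz_two hs h.sm le_rfl
    have h3 : D.s ^ (-t) * D.s ^ (-t) ≤ D.s ^ (-e) := by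
      rw [← Real.rpow_add hs.1]
      exact sf_mc_anti hs.1 hs.2 (by linarith)
    nlinarith
  have b5 : D.s ^ (-(π.c2 * (B - A) + 3 * e)) = D.s ^ (-e) * D.s ^ (-(π.c2 * (B - A) + 2 * e)) := by
    rw [← Real.rpow_add hs.1]
    congr 1
    ring
  have b6 : 4 * D.s ^ (-(π.c2 * (B - A) + 2 * e)) ≤ D.s ^ (-(π.c2 * (B - A) + 3 * e)) := by
    rw [b5]
    exact mul_le_mul_of_nonneg_right h4e (pos _).le
  constructor
  · rcases lt_trichotomy π.c2 0 with hneg | h0 | h0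
    · exfalso
      rcases h.val.fam with ⟨g, _⟩ | ⟨g, _⟩ | ⟨g, _⟩ <;> linarith
    · have hd := Hd h0
      simp only [sub_self, mul_zero, zero_sub] at hd
      exact hd.trans (sf_mc_anti hs.1 hs.2 (by rw [h0]; linarith))
    · have hb := Hb h0
      simp only [sfAfWd, if_pos h0] at hb
      have hch : 0 ≤ π.c2 * (B - A) := mul_nonneg h0.le hh.le
      rcases le_or_gt 1 π.c2 with h1 | h1
      · have ha := Ha h1
        simp only [sfAfWd, if_pos h1] at ha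
        have x1 : D.len B / D.len A * |Q.K| ≤ 1 * |Q.K| := mul_le_mul_of_nonneg_right l1 (abs_nonneg _)
        have x2 : D.s ^ (-(π.c2 * (B - A) + e)) ≤ D.s ^ (-(π.c2 * (B - A) + 2 * e)) := sf_mc_anti hs.1 hs.2 (by linarith)
        linarith
      · have hc := Hc h0 h1
        simp only [sub_self, mul_zero, zero_sub] at hc
        have x2 : D.s ^ (-e) ≤ D.s ^ (-(π.c2 * (B - A) + 2 * e)) := sf_mc_anti hs.1 hs.2 (by linarith)
        linarith [pos (-(π.c2 * (B - A) + 2 * e))]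
  · intro h0
    simp only [sfAfWd, if_neg (show ¬ 0 < π.c2 by rw [h0]; exact lt_irrefl _)] at Hp
    exact sf_af_sz_abs hs h2e Hp (by linarith)

/-- LEAF AF-H6 (~200 l.).   **Terminal cost of the extracted piece.**   PLAN (model: `sf_cv_out`, `Soft/ACov.lean`).   `ρ : D'.Row 1`; `hend ⟨1, ρ⟩ rfl` gives `v` with `em ⟨1,ρ⟩ = ⟨B, v⟩`, `afKey v = b.1`, so `afFr b = afFv v`;
 `D'.r 1 = D'.f 1 = 1` (`Sub.hr`, `Sub.hf`, `A + 1 * (B - A) = B`), `D'.lab 1 ρ = Q := (afFv v).tst (lab B v)` with widths `1` (`Sub.hlab`, `own`), `D'.s = len B / len A` (`Sub.hs`; `(afFr b).L = len A` by `rfl`);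
 `sfR2 Q sfZero D'.s = |Q.be| + D'.s |Q.K|`, `sfR1 Q sfZero = |Q.Pc|` (unfold; `sfZero.beAt _ = 0`, `sfZero.PdAt _ _ _ = 0`);   `sf_af_h_end`.
 Exponents: `0 < D'.s ≤ s^(h - 2t)` (`Core.hlen`), so `s^(-((h - 2t)(c + x))) ≤ D'.s^(-(c + x))` for `c + x ≥ 0` (`Real.rpow_le_rpow_of_exponent_nonpos`, `Real.rpow_mul`), and `c h + 4e ≤ (h - 2t)(c + x)` by `hx` (`c = c2 ≥ 0`, resp. `c = c1 > 0`: `val.fam`). -/
theorem sf_af_h_cost : ∃ C : ℝ, 0 < C ∧ ∀ (π : SfPar) (Ls : ℝ) (D : SfDoc) (C0 A B t e x : ℝ), D.AfH π Ls C0 A B t → C * t ≤ e → 0 ≤ x →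
    4 * e + 2 * t * (π.c2 + |π.c1| + x) ≤ x * (B - A) →
    ∀ (b : D.AfBin π A B e) (D' : SfDoc) (Gk : Finset ℝ) (t' : ℝ) (em : D'.Rw → D.Rw), D'.Sub D A B (D.afFr π A B e b) Gk t' em →
    (∀ u : D'.Rw, u.1 = 1 → D.afUb π A B e b (em u)) → (1 : ℝ) ∈ D'.G → D'.Cost π x := by
  obtain ⟨C, hC, H⟩ := sf_af_h_end
  refine ⟨C, hC, ?_⟩
  intro π Ls D C0 A B t e x h hCe hx0 hx b D' Gk t' em hsub hend h1 ρ
  obtain ⟨v, he, hkey, -⟩ := hend ⟨1, ρ⟩ rfl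
  have hcore := h.good.1
  have hs := hcore.hs
  have gA := h.wn.gA
  have gB := h.wn.gB
  have ht0 := h.t0
  have he0 : 0 ≤ e := (mul_pos hC ht0).le.trans hCe
  have hwB := hcore.hw.2.2 B gB
  have hlA := sf_mc_len_pos D π C0 t hcore A gA
  have hlB := sf_mc_len_pos D π C0 t hcore B gB
  have hown := hcore.own B gB v
  have hfr : D.afFr π A B e b = D.afFv π A B e v := by
    unfold SfDoc.afFr SfDoc.afFv
    rw [hkey]
  have eAB : A + 1 * (B - A) = B := by ring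
  have hr1 : D'.r 1 = 1 := by
    rw [hsub.hr 1 h1, eAB]; exact div_self hwB.1.ne'
  have hf1 : D'.f 1 = 1 := by
    rw [(hsub.hf 1 h1).2.2 one_pos, eAB]; exact div_self hwB.2.ne'
  have hlab := hsub.hlab ⟨1, ρ⟩ h1
  rw [he] at hlab
  have e1 : ((D.afFr π A B e b).tst (D.lab B v)).r = 1 := by
    show (D.lab B v).r / D.r B = 1
    rw [hown.1]; exact div_self hwB.1.ne'
  have e2 : ((D.afFr π A B e b).tst (D.lab B v)).f = 1 := by
    show (D.lab B v).f / D.f B = 1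
    rw [hown.2.1]; exact div_self hwB.2.ne'
  have hlab' : D'.lab 1 ρ = (D.afFr π A B e b).tst (D.lab B v) := by
    refine hlab.trans ?_
    have w : ∀ (Q : SfTest) (a b : ℝ), Q.r = a → Q.f = b → ({ Q with r := a, f := b } : SfTest) = Q := by
      intro Q a b ha hb
      subst ha
      subst hb
      rfl
    exact w _ _ _ (e1.trans hr1.symm) (e2.trans hf1.symm)
  have hs' : D'.s = D.len B / D.len A := hsub.hs
  obtain ⟨E1, E2⟩ := H π Ls D C0 A B t e h hCe v _ (congrArg (fun φ : SfFrame => φ.tst (D.lab B v)) hfr)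
  -- the scale of the piece
  have hσ0 : 0 < D'.s := by rw [hs']; exact div_pos hlB hlA
  have hσ : D'.s ≤ D.s ^ (B - A - 2 * t) := by
    rw [hs', div_le_iff₀ hlA]
    have a1 := (hcore.hlen.2 B gB).2
    have a2 := (hcore.hlen.2 A gA).1
    have a3 : D.s ^ (B - t) = D.s ^ (B - A - 2 * t) * D.s ^ (A + t) := by
      rw [← Real.rpow_add hs.1]
      congr 1
      ring
    calc D.len B ≤ D.s ^ (B - t) := a1
      _ = D.s ^ (B - A - 2 * t) * D.s ^ (A + t) := a3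
      _ ≤ D.s ^ (B - A - 2 * t) * D.len A := mul_le_mul_of_nonneg_left a2 (Real.rpow_nonneg hs.1.le _)
  have num : ∀ w y : ℝ, 0 ≤ y → w ≤ (B - A - 2 * t) * y → D.s ^ (-w) ≤ D'.s ^ (-y) := by
    intro w y hy hw
    calc D.s ^ (-w) ≤ D.s ^ (-((B - A - 2 * t) * y)) := sf_mc_anti hs.1 hs.2 (neg_le_neg hw)
      _ = (D.s ^ (B - A - 2 * t)) ^ (-y) := by
        rw [← Real.rpow_mul hs.1.le]
        congr 1
        ring
      _ ≤ D'.s ^ (-y) := Real.rpow_le_rpow_of_nonpos hσ0 hσ (neg_nonpos.2 hy)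
  have hc2 : 0 ≤ π.c2 := by
    rcases h.val.fam with f | f | f
    · exact f.1.le
    · rw [f.1]; exact zero_le_one
    · rw [f.1]
  have hac1 := abs_nonneg π.c1
  rw [hlab']
  constructor
  · have r2 : sfR2 ((D.afFr π A B e b).tst (D.lab B v)) sfZero D'.s
        = |((D.afFr π A B e b).tst (D.lab B v)).be| + D.len B / D.len A * |((D.afFr π A B e b).tst (D.lab B v)).K| := by
      unfold sfR2
      rw [e1, e2, hs']
      simp [sfZero, SfTest.beAt]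
    rw [r2]
    refine E1.trans (num _ _ (add_nonneg hc2 hx0) ?_)
    nlinarith only [hx, he0, ht0, hac1, mul_nonneg ht0.le hac1]
  · intro hc20
    have hc1 : 0 < π.c1 := by
      rcases h.val.fam with f | f | f
      · exact absurd hc20 f.1.ne'
      · rw [f.1] at hc20; exact absurd hc20 one_ne_zero
      · exact f.2.1
    have r1 : sfR1 ((D.afFr π A B e b).tst (D.lab B v)) sfZero = |((D.afFr π A B e b).tst (D.lab B v)).Pc| := by
      unfold sfR1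
      rw [e1, e2]
      simp [sfZero, SfTest.PdAt, SfTest.beAt]
    rw [r1]
    refine (E2 hc20).trans (num _ _ (add_nonneg hc1.le hx0) ?_)
    rw [hc20, abs_of_pos hc1] at hx
    nlinarith only [hx, he0, ht0]

/-- the bins are finite -/
theorem sf_af_h_fin (D : SfDoc) (π : SfPar) (A B e : ℝ) : Finite (D.AfBin π A B e) := Set.finite_range _

/-- the frame of a bin is the frame of any of its end rows -/
theorem sf_af_h_fr_eq (D : SfDoc) (π : SfPar) (A B e : ℝ) (b : D.AfBin π A B e) (v : D.Row B) (hv : D.afKey π A B e v = b.1) :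
    D.afFr π A B e b = D.afFv π A B e v := by
  unfold SfDoc.afFr SfDoc.afFv
  rw [hv]

/-- a row of the cover lies on a chain -/
theorem sf_af_h_ch (D : SfDoc) (A B : ℝ) (u : D.Rw) (v : D.Row B) (hG : u.1 ∈ D.G) (hA : A ≤ u.1)
    (h : u = (⟨B, v⟩ : D.Rw) ∨ (u.1 < B ∧ D.Conn u.1 B u.2 v)) : D.AfCh A B u v := by
  rcases h with h | ⟨h1, h2⟩
  · exact Or.inl h
  · exact Or.inr ⟨hG, hA, h1, h2⟩

/-- **the hypotheses of GE** -/
theorem sf_af_h_ge : ∃ C N0 : ℝ, 0 < C ∧ ∀ (π : SfPar) (Ls : ℝ) (D : SfDoc) (C0 A B t e aG C1 : ℝ), D.AfH π Ls C0 A B t → C * t ≤ e →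
    N0 ≤ D.s ^ (-(aG * (B - A))) → D.s ^ (aG * (B - A)) ≤ 1 / 2 → (sfAfC1 π - 1) * (B - A) + 7 * e ≤ C1 * (B - A) →
    ∀ Gk : Finset ℝ, B ∈ Gk → (∀ k ∈ Gk, k ∈ D.G ∧ A ≤ k ∧ k ≤ B) →
    SfCls.GeHyp D A B Gk (D.AfBin π A B e) (D.afSb π A B e) (D.afUb π A B e) (D.afFr π A B e) aG C1 := by
  obtain ⟨Ca, N0, hCa, Hc⟩ := sf_af_h_cnt
  obtain ⟨Cb, c, hCb, -, Hs⟩ := sf_af_sz
  obtain ⟨Cc, hCc, Hr⟩ := sf_af_sz_ray
  refine ⟨max Ca (max Cb Cc), N0, lt_max_of_lt_left hCa, ?_⟩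
  intro π Ls D C0 A B t e aG C1 h hCe hN hM hC1 Gk hB hGk
  have ht := h.t0
  have hs := h.good.1.hs
  have ea : Ca * t ≤ e := (mul_le_mul_of_nonneg_right (le_max_left _ _) ht.le).trans hCe
  have eb : Cb * t ≤ e := (mul_le_mul_of_nonneg_right ((le_max_left _ _).trans (le_max_right _ _)) ht.le).trans hCe
  have ec : Cc * t ≤ e := (mul_le_mul_of_nonneg_right ((le_max_right _ _).trans (le_max_right _ _)) ht.le).trans hCe
  have he0 : 0 ≤ e := (mul_pos hCa ht).le.trans ea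
  have gA := h.wn.gA
  have gB := h.wn.gB
  have hAB := h.wn.hAB
  refine ⟨gA, gB, ⟨hB, hGk⟩, ?_, ?_, ?_, ?_, ?_, ?_, ?_, ?_, ?_, ?_, ?_⟩
  · -- ub_dep
    rintro b u ⟨ρ', rfl, -, -⟩
    rfl
  · -- ub_disj
    rintro b b' u ⟨ρ', rfl, h1, -⟩ ⟨ρ'', h2, h3, -⟩
    have : ρ' = ρ'' := eq_of_heq (Sigma.mk.inj h2).2
    subst this
    exact Subtype.ext (h1.symm.trans h3)
  · -- ub_mass
    exact hM.trans (sf_af_h_mass π Ls D C0 A B t e h)
  · -- sb_dep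
    rintro b u ⟨ρ, ρ', rfl, -, -⟩
    rfl
  · -- sb_time
    rintro b u ⟨ρ, ρ', rfl, h1, h2⟩
    have e1 := sf_mc_anc_conn D π C0 t h.good.1 A B gA gB hAB ρ ρ' h2
    have e2 : (D.afFr π A B e b).T0 = b.1.1 := rfl
    rw [e2, ← h1]
    exact e1.symm
  · -- sb_pred
    rintro b ⟨k, ρ⟩ v ⟨ρ', rfl, h1, -⟩ hk hc
    have hk' : k = A := hk
    subst hk'
    exact ⟨ρ, ρ', rfl, h1, hc⟩
  · -- sb_ovl
    intro u
    refine le_trans ?_ ((Hc π Ls D C0 A B t e h ea A (D.lab u.1 u.2)).trans hN)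
    have hfin : Finite (D.AfBin π A B e) := sf_af_h_fin D π A B e
    refine Nat.cast_le.2 (Set.ncard_le_ncard ?_ (Set.toFinite _))
    rintro b ⟨ρ, ρ', rfl, h1, h2⟩
    exact ⟨⟨A, ρ⟩, ρ', rfl, rfl, h1, ⟨ρ, h2⟩, Or.inr ⟨gA, le_rfl, hAB, h2⟩⟩
  · -- lb_ovl
    intro k hk lam
    refine le_trans ?_ ((Hc π Ls D C0 A B t e h ea k lam).trans hN)
    have hfin : Finite (D.AfBin π A B e) := sf_af_h_fin D π A B e
    refine Nat.cast_le.2 (Set.ncard_le_ncard ?_ (Set.toFinite _))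
    rintro b ⟨u, v, h1, h2, ⟨ρ', rfl, h3, h4⟩, h5⟩
    obtain ⟨g1, g2, -⟩ := hGk k hk
    exact ⟨u, ρ', h1, h2, h3, h4, sf_af_h_ch D A B u ρ' (h1 ▸ g1) (h1 ▸ g2) h5⟩
  · -- fr
    intro b
    exact ⟨rfl, rfl, rfl⟩
  · -- fr_ray
    rintro b u ⟨ρ, ρ', rfl, h1, h2⟩
    rw [sf_af_h_fr_eq D π A B e b ρ' h1]
    exact (Hr π Ls D C0 A B t e h ec ρ' ρ h2).trans (sf_mc_anti hs.1 hs.2 (by linarith))
  · -- fr_lab
    rintro b u v ⟨ρ', rfl, h1, -⟩ hu h5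
    obtain ⟨g1, g2, -⟩ := hGk u.1 hu
    rw [sf_af_h_fr_eq D π A B e b ρ' h1]
    exact ((Hs π Ls D C0 A B t e h eb ρ' u (sf_af_h_ch D A B u ρ' g1 g2 h5)).2).trans (sf_mc_anti hs.1 hs.2 (by linarith))

/-- small scales -/
theorem sf_af_h_small (δ κ : ℝ) (hδ : 0 < δ) (hδ1 : δ ≤ 1) (hκ : 0 < κ) : ∃ s1 : ℝ, 0 < s1 ∧ ∀ s x : ℝ, 0 < s → s < s1 → κ ≤ x → s ^ x ≤ δ := by
  refine ⟨δ ^ (1 / κ), Real.rpow_pos_of_pos hδ _, fun s x hs hlt hx => ?_⟩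
  have h1 : δ ^ (1 / κ) ≤ 1 := Real.rpow_le_one hδ.le hδ1 (by positivity)
  have hs1 : s ≤ 1 := hlt.le.trans h1
  calc s ^ x ≤ s ^ κ := Real.rpow_le_rpow_of_exponent_ge hs hs1 hx
    _ ≤ (δ ^ (1 / κ)) ^ κ := Real.rpow_le_rpow hs.le hlt.le hκ.le
    _ = δ := by rw [← Real.rpow_mul hδ.le, one_div, inv_mul_cancel₀ hκ.ne', Real.rpow_one]

/-- **X2** -/
theorem sf_af_h_x2 (π π0 : SfPar) (Ls L : ℝ) (hπ : π.Pd) (hs : π0.Same π) (hpos : 0 < π0.c2 ∨ (π0.c2 = 0 ∧ 0 < π0.c1)) :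
    ∃ C1 Cc : ℝ, 0 < Cc ∧ ∀ aG hm C0 : ℝ, 0 < aG → 0 < hm → ∃ N s1 : ℝ, 0 < s1 ∧
      ∀ (D : SfDoc) (A B J q e a t : ℝ), D.s < s1 → hm ≤ e → 0 < a → a ≤ e → t ≤ e → 4 * e ≤ B - A →
        D.Good π Ls C0 a → D.Fb N → D.Out π0 t → D.Wn A B J q e → SfPar.Sl { π0 with J := J, q := q } L →
        ∀ Gk : Finset ℝ, B ∈ Gk → (∀ k ∈ Gk, k ∈ D.G ∧ A ≤ k ∧ k ≤ B) →
        ∃ (ι : Type) (_ : Finite ι) (Sb Ub : ι → D.Rw → Prop) (φ : ι → SfFrame),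
          SfCls.GeHyp D A B Gk ι Sb Ub φ aG C1 ∧
          ∀ (b : ι) (D' : SfDoc) (t' : ℝ) (em : D'.Rw → D.Rw), D'.Sub D A B (φ b) Gk t' em →
            (∀ u : D'.Rw, u.1 = 1 → Ub b (em u)) → (1 : ℝ) ∈ D'.G → D'.Cost π0 (Cc * (e / (B - A))) := by
  obtain ⟨Ca, N0, hCa, Hg⟩ := sf_af_h_ge
  obtain ⟨Cb, hCb, Hc⟩ := sf_af_h_cost
  have hc2 : 0 ≤ π0.c2 := by
    rcases hpos with h | ⟨h, -⟩
    · exact h.le
    · exact h.ge
  have hCw : 0 < max Ca Cb := lt_max_of_lt_left hCa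
  refine ⟨1 + π0.c2 + |π0.c1| + 3 * L + 7 * max Ca Cb, 8 * max Ca Cb + 4 * (π0.c2 + |π0.c1|), by positivity, ?_⟩
  intro aG hm C0 haG hhm
  obtain ⟨s1, hs1, Hs⟩ := sf_af_h_small (min (1 / 2) (1 / max N0 1)) (min hm (aG * hm))
    (lt_min (by norm_num) (by positivity)) ((min_le_left _ _).trans (by norm_num)) (lt_min hhm (mul_pos haG hhm))
  refine ⟨6 * |C0| + 6 * |Ls| + 20, s1, hs1, ?_⟩
  intro D A B J q e a t hDs hme ha hae hte h4e hg hfb ho hw hsl Gk hB hGk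
  have hs0 := hg.1.hs.1
  have he : 0 < e := hhm.trans_le hme
  have hh : 0 < B - A := by linarith
  have heh : e ≤ B - A := by linarith
  have hsm : D.s ^ e ≤ 1 / 2 := (Hs D.s e hs0 hDs ((min_le_left _ _).trans hme)).trans (min_le_left _ _)
  have hk : min hm (aG * hm) ≤ aG * (B - A) :=
    (min_le_right _ _).trans (mul_le_mul_of_nonneg_left (hme.trans heh) haG.le)
  have hM := Hs D.s (aG * (B - A)) hs0 hDs hk
  have hM1 : D.s ^ (aG * (B - A)) ≤ 1 / 2 := hM.trans (min_le_left _ _)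
  have hN : N0 ≤ D.s ^ (-(aG * (B - A))) := by
    have h1 : D.s ^ (aG * (B - A)) ≤ 1 / max N0 1 := hM.trans (min_le_right _ _)
    have h2 : 0 < D.s ^ (aG * (B - A)) := Real.rpow_pos_of_pos hs0 _
    have h3 : (0 : ℝ) < max N0 1 := lt_max_of_lt_right one_pos
    rw [Real.rpow_neg hs0.le]
    refine (le_max_left N0 1).trans ?_
    rw [le_inv_comm₀ h3 h2]
    rw [one_div] at h1
    exact h1
  have H := sf_af_h_mk π π0 Ls L hπ hs hpos D C0 A B J q e a t ha hae hte heh hsm hg hfb ho hw hsl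
  have hJ0 : 0 ≤ J := hsl.J0
  have hJL : J ≤ L := hsl.JL
  have hqL : |q| ≤ L := hsl.qL
  have hC1 : (sfAfC1 { π0 with J := J, q := q } - 1) * (B - A) + 7 * (max Ca Cb * e)
      ≤ (1 + π0.c2 + |π0.c1| + 3 * L + 7 * max Ca Cb) * (B - A) := by
    have e1 : sfAfC1 { π0 with J := J, q := q } - 1 = 1 + π0.c2 + |π0.c1| + |q| + 2 * J := by
      unfold sfAfC1
      ring
    rw [e1]
    have e2 : (1 + π0.c2 + |π0.c1| + |q| + 2 * J) * (B - A) ≤ (1 + π0.c2 + |π0.c1| + 3 * L) * (B - A) :=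
      mul_le_mul_of_nonneg_right (by linarith) hh.le
    have e3 : max Ca Cb * e ≤ max Ca Cb * (B - A) := mul_le_mul_of_nonneg_left heh hCw.le
    nlinarith
  refine ⟨D.AfBin { π0 with J := J, q := q } A B (max Ca Cb * e), sf_af_h_fin _ _ _ _ _, D.afSb _ A B _, D.afUb _ A B _, D.afFr _ A B _,
    Hg _ Ls D C0 A B e (max Ca Cb * e) aG _ H (mul_le_mul_of_nonneg_right (le_max_left _ _) he.le) hN hM1 hC1 Gk hB hGk, ?_⟩
  intro b D' t' em hsub hend h1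
  have hx0 : 0 ≤ (8 * max Ca Cb + 4 * (π0.c2 + |π0.c1|)) * (e / (B - A)) := by positivity
  refine Hc _ Ls D C0 A B e (max Ca Cb * e) _ H (mul_le_mul_of_nonneg_right (le_max_right _ _) he.le) hx0 ?_ b D' Gk t' em hsub hend h1
  show 4 * (max Ca Cb * e) + 2 * e * (π0.c2 + |π0.c1| + (8 * max Ca Cb + 4 * (π0.c2 + |π0.c1|)) * (e / (B - A)))
    ≤ (8 * max Ca Cb + 4 * (π0.c2 + |π0.c1|)) * (e / (B - A)) * (B - A)
  have e1 : e / (B - A) * (B - A) = e := div_mul_cancel₀ _ hh.ne'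
  have e2 : e / (B - A) ≤ 1 / 4 := by
    rw [div_le_iff₀ hh]
    linarith
  have e3 : 0 ≤ e / (B - A) := by positivity
  set Cc := 8 * max Ca Cb + 4 * (π0.c2 + |π0.c1|) with hCc
  have hCc0 : 0 ≤ Cc := by positivity
  have e4 : Cc * (e / (B - A)) * (B - A) = Cc * e := by rw [mul_assoc, e1]
  rw [e4]
  have e5 : Cc * (e / (B - A)) ≤ Cc * (1 / 4) := mul_le_mul_of_nonneg_left e2 hCc0
  have e6 : 2 * e * (Cc * (e / (B - A))) ≤ 2 * e * (Cc * (1 / 4)) := mul_le_mul_of_nonneg_left e5 (by positivity)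
  have e7 : 4 * (max Ca Cb * e) + 2 * e * (π0.c2 + |π0.c1|) = Cc * e / 2 := by rw [hCc]; ring
  nlinarith

end Claimed.Agent.R256
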