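import Claimed.Agent.R256.Soft.AfFrame
import Claimed.Agent.R256.Soft.AAbContract
import Claimed.Agent.R256.Soft.AMinSize

/-!
# Row 256 (S0496), unit SOFT, A7 AF, file 4: THE LINK (labels on a chain to an end row, in any frame with the units of the window)      (typed by helper10; owner of P2 since 23:15Z: helper229)      DOC LEVEL, paper free

Standing hypotheses `D.AfH π Ls C0 A B t` (`Soft/AfDefs.lean`): `Good`, `Out` (helper55: (A) `chA`, (B) `rowB`, `rowK`, shape `s1 s2 s3`), window `Wn A B J q t`, base errors `Fb`, `0 < t ≤ B - A`, `s^t ≤ 1/2`.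
Notation: `s = D.s`, `h = B - A`, natural units `(L, r0, F0) = (len A, r B, f B)`, `w2 B = f B / r B²`, `w1 B = f B / r B`; for a gate `l ∈ [A,B]`:
  `r l / r B = s^(J (B-l) ± t)` (and `≤ 1`),  `w2 l / w2 B = s^(q (l-B) ± t)`,  `f l / f B = s^((q-2J)(l-B) ± 3t)`,  `w1 l / w1 B = s^((q-J)(l-B) ± 2t)`,  `len l / len A = s^((l-A) ± 2t)`.
EVERY statement is `∃ C > 0, ∀ π Ls D ..`: THE PROVER CHOOSES `C`, a UNIVERSAL NUMBER (the slopes `(J, q)` vary with the configuration; all losses are `s^(-k t)` with numerical `k`);  numerical constants: `c ≤ 2^k ≤ s^(-k t)`.   A linear function on `[i,j]` is minimal at an end point.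
Families (`π.Valid.fam`): EQ `0 < c2 = q`;  ST `c2 = 1, q < 1`;  LIN `c2 = 0 < c1, q = c1 + J`.   So `max q 0 ≤ c2` and `max 1 q ≤ max 1 c2` if `c2 > 0`.
-/

set_option autoImplicit false

namespace Claimed.Agent.R256

open Claimed.Agent.R255

/-- a frame with the units of the window -/
def SfDoc.AfUn (D : SfDoc) (A B : ℝ) (φ : SfFrame) : Prop := φ.L = D.len A ∧ φ.r0 = D.r B ∧ φ.F0 = D.f B

theorem sf_af_link_eqns_cite : True := by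
  have := @SfDoc.AfUn.eq_1
  trivial

/-! ### comparisons in natural units -/

/-- a linear function on `[i,j]` is minimal at an end point -/
theorem sf_af_ncmp_min (a c i j k x y z : ℝ) (hik : i ≤ k) (hkj : k ≤ j) (hx : x = a * i + c) (hy : y = a * j + c) (hz : z = a * k + c) :
    min x y ≤ z := by
  rcases le_total 0 a with ha | ha
  · refine (min_le_left _ _).trans ?_
    rw [hx, hz]
    nlinarith
  · refine (min_le_right _ _).trans ?_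
    rw [hy, hz]
    nlinarith

/-- `x ≤ W s^e s^(-t)` gives `x / W ≤ s^(e - t)` -/
theorem sf_af_ncmp_div {s W x e e' t : ℝ} (hs : 0 < s) (hW : 0 < W) (h : x ≤ W * s ^ e * s ^ (-t)) (he : e' = e - t) : x / W ≤ s ^ e' := by
  rw [div_le_iff₀ hW, he, sub_eq_add_neg, Real.rpow_add hs]
  linarith

/-- LEAF AF-L1 (~250 l.).   **(A) in natural units**, for a pair of gates of the window.   PLAN: `sf_frame_cmp` (covariance; `(φ.tst Q).T = (Q.T - T0)/L`, `(φ.tst Q).beAt (φ.tst Q).T = (φ.tst Q).be`) turns the three left sides into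
`|..| / w2 B`, `|..| * len A / w2 B`, `|..| / w1 B`;  `out.chA.be/K/P` with `V := w2 B * s^(min .. - t)`, `V := w2 B / len A * s^(min .. - 4t)`, `V := w1 B * s^(min .. - 2t)` (`wn.w2`, `wn.wr`, `good.1.hlen`). -/
theorem sf_af_ncmp : ∃ C : ℝ, 0 < C ∧ ∀ (π : SfPar) (Ls : ℝ) (D : SfDoc) (C0 A B t : ℝ), D.AfH π Ls C0 A B t →
    ∀ φ : SfFrame, D.AfUn A B φ → ∀ i ∈ D.G, ∀ j ∈ D.G, A ≤ i → i < j → j ≤ B → ∀ ρ ρ', D.Conn i j ρ ρ' →
    |(φ.tst (D.lab i ρ)).beAt (φ.tst (D.lab j ρ')).T - (φ.tst (D.lab j ρ')).be| ≤ D.s ^ (min (π.q * (i - B)) (π.q * (j - B)) - C * t) ∧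
    |(φ.tst (D.lab i ρ)).K - (φ.tst (D.lab j ρ')).K| ≤ D.s ^ (min (π.q * (i - B) - (i - A)) (π.q * (j - B) - (j - A)) - C * t) ∧
    |(φ.tst (D.lab i ρ)).Pd (φ.ray (D.ray i ρ)) - (φ.tst (D.lab j ρ')).Pd (φ.ray (D.ray i ρ))|
      ≤ D.s ^ (min ((π.q - π.J) * (i - B)) ((π.q - π.J) * (j - B)) - C * t) := by
  refine ⟨4, by norm_num, ?_⟩
  intro π Ls D C0 A B t h φ hφ i hi j hj hAi hij hjB ρ ρ' hc
  obtain ⟨hs0, hs1⟩ := h.good.1.hs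
  obtain ⟨hL, hr0, hF0⟩ := hφ
  have ht := h.t0
  have hlA := sf_mc_len_pos D π C0 t h.good.1 A h.wn.gA
  obtain ⟨hrB, hfB⟩ := h.good.1.hw.2.2 B h.wn.gB
  have hpos : φ.Pos := ⟨by rw [hL]; exact hlA, by rw [hr0]; exact hrB, by rw [hF0]; exact hfB⟩
  have hW2 : 0 < D.w2 B := div_pos hfB (pow_pos hrB 2)
  have hW1 : 0 < D.w1 B := div_pos hfB hrB
  obtain ⟨e1, e2, e3⟩ := sf_frame_cmp φ hpos (D.lab i ρ) (D.lab j ρ') (D.ray i ρ) (D.lab j ρ').T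
  have b1 : (φ.tst (D.lab j ρ')).beAt (((D.lab j ρ').T - φ.T0) / φ.L) = (φ.tst (D.lab j ρ')).be := by
    simp only [SfTest.beAt, SfFrame.tst]
    ring
  have b2 : (D.lab j ρ').beAt (D.lab j ρ').T = (D.lab j ρ').be := by
    simp only [SfTest.beAt]
    ring
  rw [b1, b2] at e1
  have anti : ∀ {x y : ℝ}, x ≤ y → D.s ^ y ≤ D.s ^ x := fun hxy => sf_mc_anti hs0 hs1 hxy
  -- the widths in the window
  have w2k : ∀ k ∈ D.G, i ≤ k → k ≤ j → D.w2 k ≤ D.w2 B * D.s ^ (π.q * (k - B) - t) := by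
    intro k hk hik hkj
    have := (h.wn.w2 k hk (hAi.trans hik) (hkj.trans hjB)).2
    rw [div_le_iff₀ hW2] at this
    linarith
  have rk : ∀ k ∈ D.G, i ≤ k → k ≤ j → D.r k ≤ D.r B * D.s ^ (π.J * (B - k) - t) := by
    intro k hk hik hkj
    have := (h.wn.wr k hk (hAi.trans hik) (hkj.trans hjB)).2
    rw [div_le_iff₀ hrB] at this
    linarith
  refine ⟨?_, ?_, ?_⟩
  · show |(φ.tst (D.lab i ρ)).beAt (((D.lab j ρ').T - φ.T0) / φ.L) - (φ.tst (D.lab j ρ')).be| ≤ _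
    rw [e1, hr0, hF0]
    have k1 := h.out.chA.be i hi j hj hij ρ ρ' hc (D.w2 B * D.s ^ (min (π.q * (i - B)) (π.q * (j - B)) - t)) (fun k hk hik hkj =>
      (w2k k hk hik hkj).trans (mul_le_mul_of_nonneg_left (anti (by
        have := sf_af_ncmp_min π.q (-(π.q * B)) i j k (π.q * (i - B)) (π.q * (j - B)) (π.q * (k - B)) hik hkj (by ring) (by ring) (by ring)
        linarith)) hW2.le))
    have e : ((D.lab i ρ).beAt (D.lab j ρ').T - (D.lab j ρ').be) * D.r B ^ 2 / D.f B = ((D.lab i ρ).beAt (D.lab j ρ').T - (D.lab j ρ').be) / D.w2 B := by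
      unfold SfDoc.w2
      field_simp
    rw [e, abs_div, abs_of_pos hW2]
    exact (sf_af_ncmp_div hs0 hW2 k1 rfl).trans (anti (by linarith))
  · rw [e2, hL, hr0, hF0]
    have k1 := h.out.chA.K i hi j hj hij ρ ρ' hc (D.w2 B * D.s ^ (min (π.q * (i - B) - (i - A)) (π.q * (j - B) - (j - A)) - A - 2 * t)) (fun k hk hik hkj => by
      have hlk := sf_mc_len_pos D π C0 t h.good.1 k hk
      have hl1 := (h.good.1.hlen.2 k hk).1
      rw [div_le_iff₀ hlk]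
      refine (w2k k hk hik hkj).trans ?_
      rw [mul_assoc]
      refine mul_le_mul_of_nonneg_left ?_ hW2.le
      have hm := sf_af_ncmp_min (π.q - 1) (-(π.q * B) + A) i j k (π.q * (i - B) - (i - A)) (π.q * (j - B) - (j - A)) (π.q * (k - B) - (k - A)) hik hkj
        (by ring) (by ring) (by ring)
      calc D.s ^ (π.q * (k - B) - t) = D.s ^ (π.q * (k - B) - (k - A) - A - 2 * t) * D.s ^ (k + t) := by
            rw [← Real.rpow_add hs0]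
            congr 1
            ring
        _ ≤ D.s ^ (min (π.q * (i - B) - (i - A)) (π.q * (j - B) - (j - A)) - A - 2 * t) * D.len k :=
            mul_le_mul (anti (by linarith)) hl1 (by positivity) (by positivity))
    have e : ((D.lab i ρ).K - (D.lab j ρ').K) * D.len A * D.r B ^ 2 / D.f B = ((D.lab i ρ).K - (D.lab j ρ').K) / D.w2 B * D.len A := by
      unfold SfDoc.w2
      field_simp
    rw [e, abs_mul, abs_div, abs_of_pos hW2, abs_of_pos hlA]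
    have k2 := sf_af_ncmp_div hs0 hW2 k1 rfl
    have hl2 := (h.good.1.hlen.2 A h.wn.gA).2
    calc |(D.lab i ρ).K - (D.lab j ρ').K| / D.w2 B * D.len A
        ≤ D.s ^ (min (π.q * (i - B) - (i - A)) (π.q * (j - B) - (j - A)) - A - 2 * t - t) * D.s ^ (A - t) :=
          mul_le_mul k2 hl2 hlA.le (by positivity)
      _ = D.s ^ (min (π.q * (i - B) - (i - A)) (π.q * (j - B) - (j - A)) - 4 * t) := by
          rw [← Real.rpow_add hs0]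
          congr 1
          ring
  · rw [e3, hr0, hF0]
    have k1 := h.out.chA.P i hi j hj hij ρ ρ' hc (D.w1 B * D.s ^ (min ((π.q - π.J) * (i - B)) ((π.q - π.J) * (j - B)) - 2 * t)) (fun k hk hik hkj => by
      obtain ⟨hrk, hfk⟩ := h.good.1.hw.2.2 k hk
      have e : D.w1 k = D.w2 k * D.r k := by
        unfold SfDoc.w1 SfDoc.w2
        field_simp
      have e' : D.w1 B = D.w2 B * D.r B := by
        unfold SfDoc.w1 SfDoc.w2
        field_simp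
      have hm := sf_af_ncmp_min (π.q - π.J) (-((π.q - π.J) * B)) i j k ((π.q - π.J) * (i - B)) ((π.q - π.J) * (j - B)) ((π.q - π.J) * (k - B)) hik hkj
        (by ring) (by ring) (by ring)
      rw [e, e']
      calc D.w2 k * D.r k ≤ (D.w2 B * D.s ^ (π.q * (k - B) - t)) * (D.r B * D.s ^ (π.J * (B - k) - t)) :=
            mul_le_mul (w2k k hk hik hkj) (rk k hk hik hkj) hrk.le (by positivity)
        _ = D.w2 B * D.r B * D.s ^ ((π.q - π.J) * (k - B) - 2 * t) := by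
            have : D.s ^ ((π.q - π.J) * (k - B) - 2 * t) = D.s ^ (π.q * (k - B) - t) * D.s ^ (π.J * (B - k) - t) := by
              rw [← Real.rpow_add hs0]
              congr 1
              ring
            rw [this]
            ring
        _ ≤ D.w2 B * D.r B * D.s ^ (min ((π.q - π.J) * (i - B)) ((π.q - π.J) * (j - B)) - 2 * t) :=
            mul_le_mul_of_nonneg_left (anti (by linarith)) (by positivity))
    have e : ((D.lab i ρ).Pd (D.ray i ρ) - (D.lab j ρ').Pd (D.ray i ρ)) * D.r B / D.f B = ((D.lab i ρ).Pd (D.ray i ρ) - (D.lab j ρ').Pd (D.ray i ρ)) / D.w1 B := by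
      unfold SfDoc.w1
      field_simp
    rw [e, abs_div, abs_of_pos hW1]
    exact (sf_af_ncmp_div hs0 hW1 k1 rfl).trans (anti (by linarith))

/-- LEAF AF-L2 (~150 l.).   `0 < c2 < 1`: `ℓ_l |K_l| ≤ s^(b_2(l))`.   PLAN: `out.rowK` with `V := s^(-c2 - (1-c2) l - 2t)` (`out.s1`, `hlen`: `w2 k / len k ≤ s^(c2 (k-1) - k - 2t)`, decreasing exponent in `k ≤ l`);
`len l ≤ s^(l-t)`;  `out.s2` at `B`: `s^(c2 (B-1) + t) ≤ w2 B`. -/
theorem sf_af_nK : ∃ C : ℝ, 0 < C ∧ ∀ (π : SfPar) (Ls : ℝ) (D : SfDoc) (C0 A B t : ℝ), D.AfH π Ls C0 A B t → 0 < π.c2 → π.c2 < 1 →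
    ∀ l ∈ D.G, A ≤ l → l ≤ B → ∀ ρ, D.len l * |(D.lab l ρ).K| ≤ D.w2 B * D.s ^ (π.c2 * (l - B) - C * t) := by
  refine ⟨5, by norm_num, fun π Ls D C0 A B t h hc0 hc1 l hl _ _ ρ => ?_⟩
  have hcore := h.good.1
  obtain ⟨hs0, hs1⟩ := hcore.hs
  have ht := h.t0
  have pos : ∀ x : ℝ, 0 < D.s ^ x := fun x => Real.rpow_pos_of_pos hs0 x
  have hl01 := hcore.gate.2 l hl
  obtain ⟨V, hV⟩ : ∃ V, V = D.s ^ (-π.c2 - (1 - π.c2) * l - 2 * t) := ⟨_, rfl⟩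
  have hV1 : D.s ^ (-π.c2) ≤ V := by
    rw [hV]
    refine sf_mc_anti hs0 hs1 ?_
    have : 0 ≤ (1 - π.c2) * l := mul_nonneg (by linarith) hl01.1
    linarith
  have hV2 : ∀ k ∈ D.G, k ≤ l → D.w2 k / D.len k ≤ V := by
    intro k hk hkl
    have a1 := h.out.s1 hc0 k hk
    have a2 := (hcore.hlen.2 k hk).1
    have a3 : D.w2 k / D.len k ≤ D.s ^ (π.c2 * (k - 1) - t) / D.s ^ (k + t) := div_le_div₀ (pos _).le a1 (pos _) a2
    rw [← Real.rpow_sub hs0] at a3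
    refine a3.trans ?_
    rw [hV]
    refine sf_mc_anti hs0 hs1 ?_
    have : (1 - π.c2) * k ≤ (1 - π.c2) * l := mul_le_mul_of_nonneg_left hkl (by linarith)
    linarith
  have b1 := h.out.rowK hc0 ⟨l, ρ⟩ hl V hV1 hV2
  have b2 := (hcore.hlen.2 l hl).2
  have b3 := h.out.s2 hc0 hc1.ne B h.wn.gB
  have b4 : D.len l * |(D.lab l ρ).K| ≤ D.s ^ (l - t) * (V * D.s ^ (-t)) :=
    mul_le_mul b2 b1 (abs_nonneg _) (pos _).le
  have b5 : D.s ^ (l - t) * (V * D.s ^ (-t)) = D.s ^ (π.c2 * (B - 1) + t) * D.s ^ (π.c2 * (l - B) - 5 * t) := by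
    rw [hV, ← Real.rpow_add hs0, ← Real.rpow_add hs0, ← Real.rpow_add hs0]
    congr 1
    ring
  rw [b5] at b4
  exact b4.trans (mul_le_mul_of_nonneg_right b3 (pos _).le)

/-- LEAF AF-L3 (~150 l.).   `c2 = 0`: (B) reads `|β_l| + ℓ_l |K_l| ≤ s^(b_2(l))`.   PLAN: for gates `k ≥ l`: `w2 k = w1 k / r k ≤ s^(c1 (k-1) - t) / r l ≤ w2 l * s^(-2t)` (`out.s3`, `Mat.wr`: `r l ≤ r k`, `c1 > 0`); `k = 1`: `1 ≤ w2 l * s^(-2t)`;
`out.rowB` with `V := w2 l * s^(-2t)`;  `wn.w2`. -/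
theorem sf_af_nB : ∃ C : ℝ, 0 < C ∧ ∀ (π : SfPar) (Ls : ℝ) (D : SfDoc) (C0 A B t : ℝ), D.AfH π Ls C0 A B t → π.c2 = 0 →
    ∀ l ∈ D.G, A ≤ l → l ≤ B → ∀ ρ, D.cv ⟨l, ρ⟩ ≤ D.w2 B * D.s ^ (π.q * (l - B) - C * t) := by
  refine ⟨4, by norm_num, fun π Ls D C0 A B t h hc l hl hAl hlB ρ => ?_⟩
  have hcore := h.good.1
  obtain ⟨hs0, hs1⟩ := hcore.hs
  have ht := h.t0
  have pos : ∀ x : ℝ, 0 < D.s ^ x := fun x => Real.rpow_pos_of_pos hs0 x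
  have hl01 := hcore.gate.2 l hl
  have hc1 : 0 < π.c1 := by
    rcases h.val.fam with h1 | h1 | h1
    · exact absurd hc h1.1.ne'
    · rw [hc] at h1; exact absurd h1.1 (by norm_num)
    · exact h1.2.1
  have hrl := (hcore.hw.2.2 l hl).1
  have hfl := (hcore.hw.2.2 l hl).2
  have hrB := (hcore.hw.2.2 B h.wn.gB).1
  have hfB := (hcore.hw.2.2 B h.wn.gB).2
  have hw2B : 0 < D.w2 B := by unfold SfDoc.w2; positivity
  -- later gates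
  have key : ∀ k ∈ D.G, l ≤ k → D.w2 k ≤ D.w2 l * D.s ^ (-(2 * t)) := by
    intro k hk hlk
    have hrk := (hcore.hw.2.2 k hk).1
    have a1 := (h.out.s3 hc k hk).2
    have a2 := (h.out.s3 hc l hl).1
    have a3 : D.w1 k ≤ D.w1 l * D.s ^ (-(2 * t)) := by
      have c1 : D.s ^ (π.c1 * (k - 1) - t) ≤ D.s ^ (π.c1 * (l - 1) + t) * D.s ^ (-(2 * t)) := by
        rw [← Real.rpow_add hs0]
        refine sf_mc_anti hs0 hs1 ?_
        have : π.c1 * l ≤ π.c1 * k := mul_le_mul_of_nonneg_left hlk hc1.le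
        linarith
      exact a1.trans (c1.trans (mul_le_mul_of_nonneg_right a2 (pos _).le))
    have a4 : D.r l ≤ D.r k := by
      rcases hlk.lt_or_eq with hlt | heq
      · have := (h.good.2.wr l hl k hk hlt).2.1
        rwa [div_le_one hrk] at this
      · rw [heq]
    have e1 : D.w2 k = D.w1 k / D.r k := by unfold SfDoc.w2 SfDoc.w1; field_simp
    have e2 : D.w2 l * D.s ^ (-(2 * t)) = D.w1 l * D.s ^ (-(2 * t)) / D.r l := by unfold SfDoc.w2 SfDoc.w1; field_simp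
    rw [e1, e2]
    have hw1l : 0 ≤ D.w1 l * D.s ^ (-(2 * t)) := by
      have := pos (-(2 * t))
      unfold SfDoc.w1; positivity
    exact div_le_div₀ hw1l a3 hrl a4
  have hV1 : D.s ^ (-π.c2) ≤ D.w2 l * D.s ^ (-(2 * t)) := by
    have := key 1 hcore.gate.1 hl01.2
    have e : D.w2 1 = 1 := by unfold SfDoc.w2; rw [hcore.hw.1, hcore.hw.2.1]; norm_num
    rw [e] at this
    rw [hc, neg_zero, Real.rpow_zero]
    exact this
  have b1 := h.out.rowB ⟨l, ρ⟩ hl (D.w2 l * D.s ^ (-(2 * t))) hV1 key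
  have b2 := (h.wn.w2 l hl hAl hlB).2
  rw [div_le_iff₀ hw2B] at b2
  have b3 : D.w2 l * D.s ^ (-(2 * t)) * D.s ^ (-t) ≤ D.s ^ (π.q * (l - B) - t) * D.w2 B * D.s ^ (-(2 * t)) * D.s ^ (-t) :=
    mul_le_mul_of_nonneg_right (mul_le_mul_of_nonneg_right b2 (pos _).le) (pos _).le
  have b4 : D.s ^ (π.q * (l - B) - t) * D.w2 B * D.s ^ (-(2 * t)) * D.s ^ (-t) = D.w2 B * D.s ^ (π.q * (l - B) - 4 * t) := by
    have : D.s ^ (π.q * (l - B) - 4 * t) = D.s ^ (π.q * (l - B) - t) * D.s ^ (-(2 * t)) * D.s ^ (-t) := by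
      rw [← Real.rpow_add hs0, ← Real.rpow_add hs0]
      congr 1
      ring
    rw [this]
    ring
  rw [b4] at b3
  exact b1.trans b3

/-- widths in the window, against the gate `B` -/
theorem sf_af_nP_w (π : SfPar) (Ls : ℝ) (D : SfDoc) (C0 A B t : ℝ) (h : D.AfH π Ls C0 A B t) (k : ℝ) (hk : k ∈ D.G) (hAk : A ≤ k) (hkB : k ≤ B) :
    0 < D.r k ∧ 0 < D.w2 B ∧ 0 < D.w1 B ∧ D.w2 B * D.r B = D.w1 B ∧ D.r k ≤ D.r B * D.s ^ (π.J * (B - k) - t) ∧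
      D.w1 k ≤ D.w1 B * D.s ^ ((π.q - π.J) * (k - B) - 2 * t) := by
  have hc := h.good.1
  obtain ⟨hs0, -⟩ := hc.hs
  obtain ⟨hrk, hfk⟩ := hc.hw.2.2 k hk
  obtain ⟨hrB, hfB⟩ := hc.hw.2.2 B h.wn.gB
  have hw2B : 0 < D.w2 B := div_pos hfB (pow_pos hrB 2)
  have hw1B : 0 < D.w1 B := div_pos hfB hrB
  have e1 : D.w2 B * D.r B = D.w1 B := by
    unfold SfDoc.w2 SfDoc.w1
    field_simp
  have e2 : D.w2 k * D.r k = D.w1 k := by
    unfold SfDoc.w2 SfDoc.w1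
    field_simp
  have a1 : D.r k ≤ D.r B * D.s ^ (π.J * (B - k) - t) := by
    have := (h.wn.wr k hk hAk hkB).2
    rw [div_le_iff₀ hrB] at this
    linarith
  have a2 : D.w2 k ≤ D.w2 B * D.s ^ (π.q * (k - B) - t) := by
    have := (h.wn.w2 k hk hAk hkB).2
    rw [div_le_iff₀ hw2B] at this
    linarith
  refine ⟨hrk, hw2B, hw1B, e1, a1, ?_⟩
  rw [← e2, ← e1]
  calc D.w2 k * D.r k ≤ (D.w2 B * D.s ^ (π.q * (k - B) - t)) * (D.r B * D.s ^ (π.J * (B - k) - t)) :=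
        mul_le_mul a2 a1 hrk.le (mul_pos hw2B (Real.rpow_pos_of_pos hs0 _)).le
    _ = D.w2 B * D.r B * (D.s ^ (π.q * (k - B) - t) * D.s ^ (π.J * (B - k) - t)) := by ring
    _ = D.w2 B * D.r B * D.s ^ ((π.q - π.J) * (k - B) - 2 * t) := by
        rw [← Real.rpow_add hs0]
        congr 2
        ring

/-- the centre derivative against the derivative at a ray of the (enlarged) base part -/
theorem sf_af_nP_own (Q : SfTest) (z : SfRay) (l a : ℝ) (h1 : |z.X - Q.x| ≤ a * Q.r) (h2 : |z.Bt Q.T - Q.b| ≤ a * (l * Q.r)) :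
    |Q.Pc - Q.Pd z| ≤ 2 * a * (Q.r * (|Q.be| + l * |Q.K|)) := by
  have e : Q.Pc - Q.Pd z = -(2 * (Q.be * (z.X - Q.x))) + 2 * (Q.K * (z.Bt Q.T - Q.b)) := by
    simp only [SfTest.Pc, SfTest.Pd]
    ring
  have b1 : |Q.be * (z.X - Q.x)| ≤ |Q.be| * (a * Q.r) := by
    rw [abs_mul]
    exact mul_le_mul_of_nonneg_left h1 (abs_nonneg _)
  have b2 : |Q.K * (z.Bt Q.T - Q.b)| ≤ |Q.K| * (a * (l * Q.r)) := by
    rw [abs_mul]
    exact mul_le_mul_of_nonneg_left h2 (abs_nonneg _)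
  obtain ⟨p1, p2⟩ := abs_le.1 b1
  obtain ⟨q1, q2⟩ := abs_le.1 b2
  rw [e]
  refine abs_le.2 ⟨?_, ?_⟩ <;> nlinarith

/-- two rays with close base parts -/
theorem sf_af_nP_close (z z' : SfRay) (δ T : ℝ) (h : z.bdist z' ≤ δ) (hT0 : 0 ≤ T) (hT1 : T ≤ 1) :
    |z.X - z'.X| ≤ δ ∧ |z.Bt T - z'.Bt T| ≤ 2 * δ := by
  have h1 : |z.X - z'.X| ≤ δ := (le_max_left _ _).trans h
  have h2 : |z.B - z'.B| ≤ δ := ((le_max_left _ _).trans (le_max_right _ _)).trans h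
  refine ⟨h1, ?_⟩
  obtain ⟨p1, p2⟩ := abs_le.1 h1
  obtain ⟨q1, q2⟩ := abs_le.1 h2
  simp only [SfRay.Bt]
  refine abs_le.2 ⟨?_, ?_⟩ <;> nlinarith

/-- `r_l cv_l` in natural units -/
theorem sf_af_nP_rcv (π : SfPar) (Ls : ℝ) (D : SfDoc) (C0 A B t C' : ℝ) (h : D.AfH π Ls C0 A B t) (hq : π.q = π.c1 + π.J) (hc1 : 0 < π.c1)
    (i l : ℝ) (hl : l ∈ D.G) (hAl : A ≤ l) (hlB : l ≤ B) (hil : i ≤ l) (ρ : D.Row l)
    (hB : D.cv ⟨l, ρ⟩ ≤ D.w2 B * D.s ^ (π.q * (l - B) - C' * t)) :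
    D.r l * D.cv ⟨l, ρ⟩ ≤ D.w1 B * D.s ^ (π.c1 * (i - B) - (C' + 1) * t) := by
  have hc := h.good.1
  obtain ⟨hs0, hs1⟩ := hc.hs
  obtain ⟨hrl, hw2B, hw1B, e1, a1, -⟩ := sf_af_nP_w π Ls D C0 A B t h l hl hAl hlB
  have hcv : 0 ≤ D.cv ⟨l, ρ⟩ := by
    unfold SfDoc.cv
    have := sf_mc_len_pos D π C0 t hc l hl
    positivity
  obtain ⟨hrB, -⟩ := hc.hw.2.2 B h.wn.gB
  calc D.r l * D.cv ⟨l, ρ⟩ ≤ (D.r B * D.s ^ (π.J * (B - l) - t)) * (D.w2 B * D.s ^ (π.q * (l - B) - C' * t)) :=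
        mul_le_mul a1 hB hcv (mul_pos hrB (Real.rpow_pos_of_pos hs0 _)).le
    _ = D.w2 B * D.r B * (D.s ^ (π.J * (B - l) - t) * D.s ^ (π.q * (l - B) - C' * t)) := by ring
    _ = D.w1 B * D.s ^ (π.c1 * (l - B) - (C' + 1) * t) := by
        rw [← Real.rpow_add hs0, e1, hq]
        congr 2
        ring
    _ ≤ D.w1 B * D.s ^ (π.c1 * (i - B) - (C' + 1) * t) := by
        refine mul_le_mul_of_nonneg_left (sf_mc_anti hs0 hs1 ?_) hw1B.le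
        nlinarith

/-- LEAF AF-L4 (~300 l.).   `c2 = 0`: centre derivatives of connected labels.   PLAN (`z = ray i ρ`): `Pc_i - Pd_i z = 2 β_i (x_i - X) - 2 K_i (b_i - B_{T_i})`, `≤ 2 r_i cv_i` (`own`);  `|Pd_i z - Pd_j z|` by `out.chA.P` with `V := w1 B * s^(c1 (i-B) - 2t)`;
`Pd_j z - Pc_j`: `z` is `s^N`-close (base) to `ray j ρ'` which lies in `lab j ρ'`, so `|X - x_j| ≤ 2 r_j`, `|B_{T_j} - b_j| ≤ 2 len j * r_j` (`fb`, widths `≥ s^(|Ls|+t)`: `sf_mc_width`), `≤ 4 r_j cv_j`;  `sf_af_nB`, `wn.wr`, `q - J = c1 > 0`, `w2 B * r B = w1 B`. -/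
theorem sf_af_nP : ∃ C : ℝ, 0 < C ∧ ∀ (π : SfPar) (Ls : ℝ) (D : SfDoc) (C0 A B t : ℝ), D.AfH π Ls C0 A B t → π.c2 = 0 →
    ∀ i ∈ D.G, ∀ j ∈ D.G, A ≤ i → i < j → j ≤ B → ∀ ρ ρ', D.Conn i j ρ ρ' →
    |(D.lab i ρ).Pc - (D.lab j ρ').Pc| ≤ D.w1 B * D.s ^ (π.c1 * (i - B) - C * t) := by
  obtain ⟨C', hC', HB⟩ := sf_af_nB
  refine ⟨C' + 6, by linarith, ?_⟩
  intro π Ls D C0 A B t h hc2 i hi j hj hAi hij hjB ρ ρ' hcon
  have hc := h.good.1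
  obtain ⟨hs0, hs1⟩ := hc.hs
  have ht := h.t0
  obtain ⟨hc1, hq⟩ : 0 < π.c1 ∧ π.q = π.c1 + π.J := by
    rcases h.val.fam with ⟨h1, _⟩ | ⟨h1, _⟩ | ⟨_, h2, h3⟩
    · rw [hc2] at h1
      exact absurd h1 (lt_irrefl _)
    · rw [hc2] at h1
      exact absurd h1 (by norm_num)
    · exact ⟨h2, h3⟩
  have hp : ∀ y : ℝ, 0 < D.s ^ y := fun y => Real.rpow_pos_of_pos hs0 y
  obtain ⟨-, -, hw1B, -, -, -⟩ := sf_af_nP_w π Ls D C0 A B t h i hi hAi (by linarith)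
  have hA01 := hc.gate.2 A h.wn.gA
  have hB01 := hc.gate.2 B h.wn.gB
  have hj01 := hc.gate.2 j hj
  have ht1 : t ≤ 1 := by linarith [h.th]
  -- own
  obtain ⟨ri, -, mi, -, -⟩ := hc.own i hi ρ
  obtain ⟨rj, -, mj, Tj0, Tj1⟩ := hc.own j hj ρ'
  have hlj := sf_mc_len_pos D π C0 t hc j hj
  -- (a)
  have T1 : |(D.lab i ρ).Pc - (D.lab i ρ).Pd (D.ray i ρ)| ≤ 2 * (D.w1 B * D.s ^ (π.c1 * (i - B) - (C' + 1) * t)) := by
    have a1 := sf_af_nP_own (D.lab i ρ) (D.ray i ρ) (D.len i) 1 (by rw [one_mul]; exact mi.1) (by rw [one_mul]; exact mi.2.1)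
    have a2 := sf_af_nP_rcv π Ls D C0 A B t C' h hq hc1 i i hi hAi (by linarith) le_rfl ρ (HB π Ls D C0 A B t h hc2 i hi hAi (by linarith) ρ)
    rw [ri] at a1
    have a3 : D.r i * (|(D.lab i ρ).be| + D.len i * |(D.lab i ρ).K|) = D.r i * D.cv ⟨i, ρ⟩ := rfl
    rw [a3] at a1
    linarith
  -- (b)
  have T2 : |(D.lab i ρ).Pd (D.ray i ρ) - (D.lab j ρ').Pd (D.ray i ρ)| ≤ D.w1 B * D.s ^ (π.c1 * (i - B) - 3 * t) := by
    have a1 := h.out.chA.P i hi j hj hij ρ ρ' hcon (D.w1 B * D.s ^ (π.c1 * (i - B) - 2 * t)) (by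
      intro k hk hik hkj
      obtain ⟨-, -, -, -, -, b1⟩ := sf_af_nP_w π Ls D C0 A B t h k hk (by linarith) (by linarith)
      refine b1.trans (mul_le_mul_of_nonneg_left (sf_mc_anti hs0 hs1 ?_) hw1B.le)
      rw [hq]
      nlinarith)
    refine a1.trans (le_of_eq ?_)
    rw [mul_assoc, ← Real.rpow_add hs0]
    congr 2
    ring
  -- (c)
  have T3 : |(D.lab j ρ').Pc - (D.lab j ρ').Pd (D.ray i ρ)| ≤ 4 * (D.w1 B * D.s ^ (π.c1 * (i - B) - (C' + 1) * t)) := by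
    obtain ⟨c1, c2⟩ := sf_af_nP_close (D.ray i ρ) (D.ray j ρ') _ (D.lab j ρ').T (h.fb i hi j hj hij ρ ρ' hcon) Tj0 (by
      have : D.T j ρ' = (D.lab j ρ').T := rfl
      linarith)
    obtain ⟨wj, -, -, -⟩ := sf_mc_width D π Ls C0 t ht h.good j hj
    have lj := (hc.hlen.2 j hj).1
    have hC0 : 0 ≤ |C0| := abs_nonneg _
    have hLs : 0 ≤ |Ls| := abs_nonneg _
    have d1 : D.s ^ (6 * |C0| + 6 * |Ls| + 20) ≤ D.r j := (sf_mc_anti hs0 hs1 (by linarith)).trans wj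
    have d2 : 2 * D.s ^ (6 * |C0| + 6 * |Ls| + 20) ≤ D.len j * D.r j := by
      have e1 : (2 : ℝ) ≤ D.s ^ (-t) := by
        rw [Real.rpow_neg hs0.le]
        rw [le_inv_comm₀ (by norm_num) (hp t)]
        have := h.sm
        norm_num at this ⊢
        linarith
      calc 2 * D.s ^ (6 * |C0| + 6 * |Ls| + 20) ≤ D.s ^ (-t) * D.s ^ (6 * |C0| + 6 * |Ls| + 20) :=
            mul_le_mul_of_nonneg_right e1 (hp _).le
        _ = D.s ^ (-t + (6 * |C0| + 6 * |Ls| + 20)) := (Real.rpow_add hs0 _ _).symm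
        _ ≤ D.s ^ ((j + t) + (|Ls| + t)) := sf_mc_anti hs0 hs1 (by linarith [hj01.2])
        _ = D.s ^ (j + t) * D.s ^ (|Ls| + t) := Real.rpow_add hs0 _ _
        _ ≤ D.len j * D.r j := mul_le_mul lj wj (hp _).le hlj.le
    have g1 : |(D.ray i ρ).X - (D.lab j ρ').x| ≤ 2 * (D.lab j ρ').r := by
      have := abs_sub_le (D.ray i ρ).X (D.ray j ρ').X (D.lab j ρ').x
      have m1 := mj.1
      rw [rj] at m1 ⊢
      linarith
    have g2 : |(D.ray i ρ).Bt (D.lab j ρ').T - (D.lab j ρ').b| ≤ 2 * (D.len j * (D.lab j ρ').r) := by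
      have := abs_sub_le ((D.ray i ρ).Bt (D.lab j ρ').T) ((D.ray j ρ').Bt (D.lab j ρ').T) (D.lab j ρ').b
      have m1 := mj.2.1
      rw [rj] at m1 ⊢
      linarith
    have a1 := sf_af_nP_own (D.lab j ρ') (D.ray i ρ) (D.len j) 2 g1 g2
    have a2 := sf_af_nP_rcv π Ls D C0 A B t C' h hq hc1 i j hj (by linarith) hjB hij.le ρ' (HB π Ls D C0 A B t h hc2 j hj (by linarith) hjB ρ')
    rw [rj] at a1
    have a3 : D.r j * (|(D.lab j ρ').be| + D.len j * |(D.lab j ρ').K|) = D.r j * D.cv ⟨j, ρ'⟩ := rfl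
    rw [a3] at a1
    linarith
  -- sum
  have S1 : |(D.lab i ρ).Pc - (D.lab j ρ').Pc| ≤ 6 * (D.w1 B * D.s ^ (π.c1 * (i - B) - (C' + 1) * t)) + D.w1 B * D.s ^ (π.c1 * (i - B) - 3 * t) := by
    have e : (D.lab i ρ).Pc - (D.lab j ρ').Pc = ((D.lab i ρ).Pc - (D.lab i ρ).Pd (D.ray i ρ))
        + ((D.lab i ρ).Pd (D.ray i ρ) - (D.lab j ρ').Pd (D.ray i ρ)) - ((D.lab j ρ').Pc - (D.lab j ρ').Pd (D.ray i ρ)) := by ring
    obtain ⟨p1, p2⟩ := abs_le.1 T1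
    obtain ⟨q1, q2⟩ := abs_le.1 T2
    obtain ⟨r1, r2⟩ := abs_le.1 T3
    rw [e]
    exact abs_le.2 ⟨by linarith, by linarith⟩
  refine S1.trans ?_
  have k1 : D.s ^ (π.c1 * (i - B) - (C' + 1) * t) ≤ D.s ^ (π.c1 * (i - B) - (C' + 3) * t) := sf_mc_anti hs0 hs1 (by nlinarith)
  have k2 : D.s ^ (π.c1 * (i - B) - 3 * t) ≤ D.s ^ (π.c1 * (i - B) - (C' + 3) * t) := sf_mc_anti hs0 hs1 (by nlinarith)
  have k3 : (8 : ℝ) ≤ D.s ^ (-(3 * t)) := by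
    have e1 : D.s ^ (-(3 * t)) = ((D.s ^ t)⁻¹) ^ 3 := by
      rw [← Real.rpow_neg hs0.le, ← Real.rpow_natCast, ← Real.rpow_mul hs0.le]
      congr 1
      push_cast
      ring
    rw [e1]
    have e2 : (2 : ℝ) ≤ (D.s ^ t)⁻¹ := by
      rw [le_inv_comm₀ (by norm_num) (hp t)]
      have := h.sm
      norm_num at this ⊢
      linarith
    calc (8 : ℝ) = 2 ^ 3 := by norm_num
      _ ≤ _ := pow_le_pow_left₀ (by norm_num) e2 3
  have k4 : D.s ^ (π.c1 * (i - B) - (C' + 6) * t) = D.s ^ (-(3 * t)) * D.s ^ (π.c1 * (i - B) - (C' + 3) * t) := by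
    rw [← Real.rpow_add hs0]
    congr 1
    ring
  rw [k4]
  have k5 := hp (π.c1 * (i - B) - (C' + 3) * t)
  have k6 : 8 * D.s ^ (π.c1 * (i - B) - (C' + 3) * t) ≤ D.s ^ (-(3 * t)) * D.s ^ (π.c1 * (i - B) - (C' + 3) * t) :=
    mul_le_mul_of_nonneg_right k3 k5.le
  have k7 : 6 * D.s ^ (π.c1 * (i - B) - (C' + 1) * t) + D.s ^ (π.c1 * (i - B) - 3 * t)
      ≤ D.s ^ (-(3 * t)) * D.s ^ (π.c1 * (i - B) - (C' + 3) * t) := by linarith
  calc 6 * (D.w1 B * D.s ^ (π.c1 * (i - B) - (C' + 1) * t)) + D.w1 B * D.s ^ (π.c1 * (i - B) - 3 * t)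
      = D.w1 B * (6 * D.s ^ (π.c1 * (i - B) - (C' + 1) * t) + D.s ^ (π.c1 * (i - B) - 3 * t)) := by ring
    _ ≤ _ := mul_le_mul_of_nonneg_left k7 hw1B.le

/-- LEAF AF-L5 (~150 l.).   Times on a chain to an end row which has a predecessor at the gate `A`.   PLAN: `sf_mc_anc_conn` gives `T0 = T_A ρ`; `u = v`: `Core.base A B`;  `u.1 = A`: `sf_mc_anc_conn` again;  `A < u.1 < B`: `Core.split` gives `ρ''` at the gate `u.1` between `ρ` and `v`;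
both intervals of the gate `u.1` contain the interval of `v`, so `T u = T ρ''` by `Core.grid`; `Core.base A u.1`. -/
theorem sf_af_time (π : SfPar) (Ls : ℝ) (D : SfDoc) (C0 A B t : ℝ) (h : D.AfH π Ls C0 A B t) (v : D.Row B) (u : D.Rw) (hu : D.AfCh A B u v)
    (ρ : D.Row A) (hρ : D.Conn A B ρ v) :
    sfMcAncT D A B (D.T B v) = D.T A ρ ∧ D.T A ρ ≤ D.T u.1 u.2 ∧ D.T u.1 u.2 + D.len u.1 ≤ D.T A ρ + D.len A ∧
      D.T u.1 u.2 ≤ D.T B v ∧ D.T B v + D.len B ≤ D.T u.1 u.2 + D.len u.1 := by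
  have hc := h.good.1
  have gA := h.wn.gA
  have gB := h.wn.gB
  have hAB := h.wn.hAB
  have h1 := sf_mc_anc_conn D π C0 t hc A B gA gB hAB ρ v hρ
  have b0 := hc.base A gA B gB hAB ρ v hρ
  have hlB := sf_mc_len_pos D π C0 t hc B gB
  refine ⟨h1, ?_⟩
  rcases hu with rfl | ⟨hu1, hAu, huB, hcon⟩
  · exact ⟨b0.1, b0.2.1, le_rfl, le_rfl⟩
  · obtain ⟨k, ρ2⟩ := u
    have bu := hc.base k hu1 B gB huB ρ2 v hcon
    rcases eq_or_lt_of_le hAu with rfl | hAk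
    · have h2 := sf_mc_anc_conn D π C0 t hc _ B gA gB hAB ρ2 v hcon
      have e : D.T _ ρ2 = D.T _ ρ := by rw [← h2, ← h1]
      refine ⟨e.ge, ?_, bu.1, bu.2.1⟩
      show D.T _ ρ2 + _ ≤ _
      rw [e]
    · obtain ⟨ρ'', c1, c2⟩ := hc.split A gA k hu1 B gB hAk huB ρ v hρ
      have b1 := hc.base k hu1 B gB huB ρ'' v c2
      have b2 := hc.base A gA k hu1 hAk ρ ρ'' c1
      have e : D.T k ρ2 = D.T k ρ'' := by
        by_contra hne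
        have hg := hc.grid k hu1 ρ2 ρ'' hne
        have : |D.T k ρ2 - D.T k ρ''| < D.len k := by
          rw [abs_lt]
          constructor <;> linarith [bu.1, bu.2.1, b1.1, b1.2.1]
        linarith
      refine ⟨?_, ?_, bu.1, bu.2.1⟩
      · show D.T A ρ ≤ D.T k ρ2
        rw [e]; exact b2.1
      · show D.T k ρ2 + D.len k ≤ _
        rw [e]; exact b2.2.1

/-- LEAF AF-L6a (~100 l.).   Negligible errors against the units.   PLAN: `t ≤ B - A ≤ 1` (`th`, `gate`), `64 = 2^6 ≤ s^(-6t) ≤ s^(-6)` (`sm`); `Real.rpow_add`, `← Real.rpow_natCast`;  `sf_mc_width` (`s^(|Ls|+t) ≤ r l, f l`), `hlen` (`s^(l+t) ≤ len l`, `l ≤ 1`). -/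
theorem sf_af_tiny (π : SfPar) (Ls : ℝ) (D : SfDoc) (C0 A B t : ℝ) (h : D.AfH π Ls C0 A B t) :
    64 * (D.s ^ (-|C0|)) ^ 3 * D.s ^ (6 * |C0| + 6 * |Ls| + 20) ≤ D.s ^ (3 * |Ls| + 8) ∧
    ∀ l ∈ D.G, D.s ^ (3 * |Ls| + 8) ≤ D.r l ∧ D.s ^ (3 * |Ls| + 8) ≤ D.len l * D.r l ∧ D.s ^ (3 * |Ls| + 8) ≤ D.len l * D.r l ^ 2 ∧
      D.s ^ (3 * |Ls| + 8) ≤ D.f l ∧ D.s ^ (3 * |Ls| + 8) ≤ D.len l * D.f l := by
  have hc := h.good.1
  obtain ⟨hs0, hs1⟩ := hc.hs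
  have ht := h.t0
  have hA01 := hc.gate.2 A h.wn.gA
  have hB01 := hc.gate.2 B h.wn.gB
  have ht1 : t ≤ 1 := by linarith [h.th]
  have hC0 : 0 ≤ |C0| := abs_nonneg _
  have hLs : 0 ≤ |Ls| := abs_nonneg _
  have hp : ∀ y : ℝ, 0 < D.s ^ y := fun y => Real.rpow_pos_of_pos hs0 y
  refine ⟨?_, fun l hl => ?_⟩
  · have k3 : (64 : ℝ) ≤ D.s ^ (-(6 * t)) := by
      have e1 : D.s ^ (-(6 * t)) = ((D.s ^ t)⁻¹) ^ 6 := by
        rw [← Real.rpow_neg hs0.le, ← Real.rpow_natCast, ← Real.rpow_mul hs0.le]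
        congr 1
        push_cast
        ring
      rw [e1]
      have e2 : (2 : ℝ) ≤ (D.s ^ t)⁻¹ := by
        rw [le_inv_comm₀ (by norm_num) (hp t)]
        have := h.sm
        norm_num at this ⊢
        linarith
      calc (64 : ℝ) = 2 ^ 6 := by norm_num
        _ ≤ _ := pow_le_pow_left₀ (by norm_num) e2 6
    have e3 : (D.s ^ (-|C0|)) ^ 3 = D.s ^ (-(3 * |C0|)) := by
      rw [← Real.rpow_natCast, ← Real.rpow_mul hs0.le]
      congr 1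
      push_cast
      ring
    rw [e3]
    calc 64 * D.s ^ (-(3 * |C0|)) * D.s ^ (6 * |C0| + 6 * |Ls| + 20)
        ≤ D.s ^ (-(6 * t)) * D.s ^ (-(3 * |C0|)) * D.s ^ (6 * |C0| + 6 * |Ls| + 20) :=
          mul_le_mul_of_nonneg_right (mul_le_mul_of_nonneg_right k3 (hp _).le) (hp _).le
      _ = D.s ^ (-(6 * t) + -(3 * |C0|) + (6 * |C0| + 6 * |Ls| + 20)) := by
          rw [Real.rpow_add hs0 (-(6 * t) + -(3 * |C0|)), Real.rpow_add hs0 (-(6 * t))]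
      _ ≤ D.s ^ (3 * |Ls| + 8) := sf_mc_anti hs0 hs1 (by linarith)
  · obtain ⟨wr, -, wf, -⟩ := sf_mc_width D π Ls C0 t ht h.good l hl
    have ll := (hc.hlen.2 l hl).1
    have hl01 := hc.gate.2 l hl
    have hlen := sf_mc_len_pos D π C0 t hc l hl
    have hr : 0 < D.r l := lt_of_lt_of_le (hp _) wr
    have hf : 0 < D.f l := lt_of_lt_of_le (hp _) wf
    refine ⟨(sf_mc_anti hs0 hs1 (by linarith)).trans wr, ?_, ?_, (sf_mc_anti hs0 hs1 (by linarith)).trans wf, ?_⟩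
    · calc D.s ^ (3 * |Ls| + 8) ≤ D.s ^ ((l + t) + (|Ls| + t)) := sf_mc_anti hs0 hs1 (by linarith [hl01.2])
        _ = D.s ^ (l + t) * D.s ^ (|Ls| + t) := Real.rpow_add hs0 _ _
        _ ≤ D.len l * D.r l := mul_le_mul ll wr (hp _).le hlen.le
    · calc D.s ^ (3 * |Ls| + 8) ≤ D.s ^ ((l + t) + ((|Ls| + t) + (|Ls| + t))) := sf_mc_anti hs0 hs1 (by linarith [hl01.2])
        _ = D.s ^ (l + t) * (D.s ^ (|Ls| + t) * D.s ^ (|Ls| + t)) := by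
            rw [Real.rpow_add hs0 (l + t), Real.rpow_add hs0 (|Ls| + t)]
        _ ≤ D.len l * (D.r l * D.r l) := mul_le_mul ll (mul_le_mul wr wr (hp _).le hr.le) (mul_pos (hp _) (hp _)).le hlen.le
        _ = D.len l * D.r l ^ 2 := by ring
    · calc D.s ^ (3 * |Ls| + 8) ≤ D.s ^ ((l + t) + (|Ls| + t)) := sf_mc_anti hs0 hs1 (by linarith [hl01.2])
        _ = D.s ^ (l + t) * D.s ^ (|Ls| + t) := Real.rpow_add hs0 _ _
        _ ≤ D.len l * D.f l := mul_le_mul ll wf (hp _).le hlen.le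

/-- product of two bounds -/
theorem sf_af_lk_mul {a b A B : ℝ} (h1 : |a| ≤ A) (h2 : |b| ≤ B) : |a * b| ≤ A * B := by
  rw [abs_mul]
  exact mul_le_mul h1 h2 (abs_nonneg _) ((abs_nonneg _).trans h1)

/-- **perturbation of the ray** in one test (copy of `nm_cn_pert`, in terms of the two parts of the shear) -/
theorem sf_af_lk_pert (Q : SfTest) (z0 z : SfRay) (S ε δN δD : ℝ) (hT : 0 ≤ Q.T ∧ Q.T ≤ 1) (hS : 1 ≤ S) (hQ : Q.size ≤ S) (hz0 : z0.size ≤ S)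
    (hz : z.size ≤ S) (hε : 0 ≤ ε) (hb : z.bdist z0 ≤ ε) (hN : |z.N - z0.N| ≤ δN) (hD : |z.Dt Q.T - z0.Dt Q.T| ≤ δD) :
    |z.X - Q.x| ≤ |z0.X - Q.x| + ε ∧ |z.Bt Q.T - Q.b| ≤ |z0.Bt Q.T - Q.b| + 2 * ε ∧
    |z.Yt Q.T - Q.y - 2 * Q.x * (z.Bt Q.T - Q.b)| ≤ |z0.Yt Q.T - Q.y - 2 * Q.x * (z0.Bt Q.T - Q.b)| + 7 * S * ε ∧
      |z.N - Q.shA z| ≤ |z0.N - Q.shA z0| + δN + 14 * S ^ 2 * ε ∧
      |z.Dt Q.T - Q.shS Q.T z| ≤ |z0.Dt Q.T - Q.shS Q.T z0| + δD + 14 * S ^ 2 * ε := by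
  simp only [SfTest.size, max_le_iff] at hQ
  simp only [SfRay.size, max_le_iff] at hz0 hz
  simp only [SfRay.bdist, max_le_iff] at hb
  obtain ⟨qx, qb, qy, qc, qd, qal, qbe, qK⟩ := hQ
  obtain ⟨aX, aB, aY, aN, aD⟩ := hz0
  obtain ⟨bX, bB, bY, bN, bD⟩ := hz
  obtain ⟨dX, dB, dY⟩ := hb
  have hTa : |Q.T| ≤ 1 := by
    rw [abs_of_nonneg hT.1]
    exact hT.2
  have hSε : S * ε ≤ S ^ 2 * ε := by
    have : S * 1 ≤ S * S := mul_le_mul_of_nonneg_left hS (by linarith)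
    nlinarith
  have hε1 : ε ≤ S * ε := by nlinarith
  -- the elementary differences
  have e1 : |Q.T * (z.X - z0.X)| ≤ 1 * ε := sf_af_lk_mul hTa dX
  have hBt : |z.Bt Q.T - z0.Bt Q.T| ≤ 2 * ε := by
    have : z.Bt Q.T - z0.Bt Q.T = (z.B - z0.B) + Q.T * (z.X - z0.X) := by
      unfold SfRay.Bt
      ring
    rw [this]
    exact (abs_add_le _ _).trans (by linarith)
  have hXs : |z.X + z0.X| ≤ 2 * S := (abs_add_le _ _).trans (by linarith)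
  have hX2 : |z.X ^ 2 - z0.X ^ 2| ≤ ε * (2 * S) := by
    have : z.X ^ 2 - z0.X ^ 2 = (z.X - z0.X) * (z.X + z0.X) := by ring
    rw [this]
    exact sf_af_lk_mul dX hXs
  have e2 : |Q.T * (z.X ^ 2 - z0.X ^ 2)| ≤ 1 * (ε * (2 * S)) := sf_af_lk_mul hTa hX2
  have hYt : |z.Yt Q.T - z0.Yt Q.T| ≤ ε + 2 * S * ε := by
    have : z.Yt Q.T - z0.Yt Q.T = (z.Y - z0.Y) + Q.T * (z.X ^ 2 - z0.X ^ 2) := by
      unfold SfRay.Yt
      ring
    rw [this]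
    exact (abs_add_le _ _).trans (by linarith)
  have hB1 : |z.Bt Q.T| ≤ 2 * S := by
    unfold SfRay.Bt
    have := sf_af_lk_mul hTa bX
    exact (abs_add_le _ _).trans (by linarith)
  have hB0 : |z0.Bt Q.T| ≤ 2 * S := by
    unfold SfRay.Bt
    have := sf_af_lk_mul hTa aX
    exact (abs_add_le _ _).trans (by linarith)
  have hXB : |z.X * z.Bt Q.T - z0.X * z0.Bt Q.T| ≤ 4 * S * ε := by
    have : z.X * z.Bt Q.T - z0.X * z0.Bt Q.T = (z.X - z0.X) * z.Bt Q.T + z0.X * (z.Bt Q.T - z0.Bt Q.T) := by ring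
    rw [this]
    have h1 := sf_af_lk_mul dX hB1
    have h2 := sf_af_lk_mul aX hBt
    exact (abs_add_le _ _).trans (by linarith)
  have hBs : |z.Bt Q.T + z0.Bt Q.T| ≤ 4 * S := (abs_add_le _ _).trans (by linarith)
  have hB2 : |z.Bt Q.T ^ 2 - z0.Bt Q.T ^ 2| ≤ 2 * ε * (4 * S) := by
    have : z.Bt Q.T ^ 2 - z0.Bt Q.T ^ 2 = (z.Bt Q.T - z0.Bt Q.T) * (z.Bt Q.T + z0.Bt Q.T) := by ring
    rw [this]
    exact sf_af_lk_mul hBt hBs
  refine ⟨?_, ?_, ?_, ?_, ?_⟩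
  · have : z.X - Q.x = (z0.X - Q.x) + (z.X - z0.X) := by ring
    rw [this]
    exact (abs_add_le _ _).trans (by linarith)
  · have : z.Bt Q.T - Q.b = (z0.Bt Q.T - Q.b) + (z.Bt Q.T - z0.Bt Q.T) := by ring
    rw [this]
    exact (abs_add_le _ _).trans (by linarith)
  · have : z.Yt Q.T - Q.y - 2 * Q.x * (z.Bt Q.T - Q.b) = (z0.Yt Q.T - Q.y - 2 * Q.x * (z0.Bt Q.T - Q.b))
        + ((z.Yt Q.T - z0.Yt Q.T) - 2 * (Q.x * (z.Bt Q.T - z0.Bt Q.T))) := by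
      ring
    rw [this]
    have h1 := sf_af_lk_mul qx hBt
    have h2 := abs_sub (z.Yt Q.T - z0.Yt Q.T) (2 * (Q.x * (z.Bt Q.T - z0.Bt Q.T)))
    have h3 : |2 * (Q.x * (z.Bt Q.T - z0.Bt Q.T))| = 2 * |Q.x * (z.Bt Q.T - z0.Bt Q.T)| := by
      rw [abs_mul, abs_two]
    exact (abs_add_le _ _).trans (by linarith)
  · have : z.N - Q.shA z = (z0.N - Q.shA z0) + ((z.N - z0.N) - Q.al * (z.X - z0.X) - Q.be * (z.X ^ 2 - z0.X ^ 2)
        - Q.K * (z.Yt Q.T - z0.Yt Q.T) + 2 * (Q.K * (z.X * z.Bt Q.T - z0.X * z0.Bt Q.T))) := by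
      unfold SfTest.shA
      ring
    rw [this]
    have h1 := sf_af_lk_mul qal dX
    have h2 := sf_af_lk_mul qbe hX2
    have h3 := sf_af_lk_mul qK hYt
    have h4 := sf_af_lk_mul qK hXB
    have h5 : |2 * (Q.K * (z.X * z.Bt Q.T - z0.X * z0.Bt Q.T))| = 2 * |Q.K * (z.X * z.Bt Q.T - z0.X * z0.Bt Q.T)| := by
      rw [abs_mul, abs_two]
    have g1 := abs_add_le ((z.N - z0.N) - Q.al * (z.X - z0.X) - Q.be * (z.X ^ 2 - z0.X ^ 2)
        - Q.K * (z.Yt Q.T - z0.Yt Q.T)) (2 * (Q.K * (z.X * z.Bt Q.T - z0.X * z0.Bt Q.T)))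
    have g2 := abs_sub ((z.N - z0.N) - Q.al * (z.X - z0.X) - Q.be * (z.X ^ 2 - z0.X ^ 2)) (Q.K * (z.Yt Q.T - z0.Yt Q.T))
    have g3 := abs_sub ((z.N - z0.N) - Q.al * (z.X - z0.X)) (Q.be * (z.X ^ 2 - z0.X ^ 2))
    have g4 := abs_sub (z.N - z0.N) (Q.al * (z.X - z0.X))
    refine (abs_add_le _ _).trans ?_
    have k1 : S * (ε * (2 * S)) = 2 * (S ^ 2 * ε) := by ring
    have k2 : S * (ε + 2 * S * ε) = S * ε + 2 * (S ^ 2 * ε) := by ring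
    have k3 : S * (4 * S * ε) = 4 * (S ^ 2 * ε) := by ring
    linarith
  · have : z.Dt Q.T - Q.shS Q.T z = (z0.Dt Q.T - Q.shS Q.T z0) + ((z.Dt Q.T - z0.Dt Q.T) - Q.al * (z.Bt Q.T - z0.Bt Q.T) - Q.be * (z.Yt Q.T - z0.Yt Q.T)
        + Q.K * (z.Bt Q.T ^ 2 - z0.Bt Q.T ^ 2)) := by
      unfold SfTest.shS SfTest.beAt
      ring
    rw [this]
    have h1 := sf_af_lk_mul qal hBt
    have h2 := sf_af_lk_mul qbe hYt
    have h3 := sf_af_lk_mul qK hB2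
    have g1 := abs_add_le ((z.Dt Q.T - z0.Dt Q.T) - Q.al * (z.Bt Q.T - z0.Bt Q.T) - Q.be * (z.Yt Q.T - z0.Yt Q.T))
      (Q.K * (z.Bt Q.T ^ 2 - z0.Bt Q.T ^ 2))
    have g2 := abs_sub ((z.Dt Q.T - z0.Dt Q.T) - Q.al * (z.Bt Q.T - z0.Bt Q.T)) (Q.be * (z.Yt Q.T - z0.Yt Q.T))
    have g3 := abs_sub (z.Dt Q.T - z0.Dt Q.T) (Q.al * (z.Bt Q.T - z0.Bt Q.T))
    refine (abs_add_le _ _).trans ?_
    have k2 : S * (ε + 2 * S * ε) = S * ε + 2 * (S ^ 2 * ε) := by ring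
    have k3 : S * (2 * ε * (4 * S)) = 8 * (S ^ 2 * ε) := by ring
    linarith

/-- the scale of a window -/
theorem sf_af_lk_scale {D : SfDoc} {π : SfPar} {Ls C0 A B t : ℝ} (h : D.AfH π Ls C0 A B t) :
    0 < D.s ∧ D.s < 1 ∧ D.s ≤ 1 / 2 ∧ t ≤ 1 ∧ 0 ≤ A ∧ B ≤ 1 ∧ 2 ≤ D.s ^ (-t) := by
  have hs := h.good.1.hs
  have hA := (h.good.1.gate.2 A h.wn.gA).1
  have hB := (h.good.1.gate.2 B h.wn.gB).2
  have ht1 : t ≤ 1 := by linarith [h.th]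
  have h2 : D.s ≤ 1 / 2 := by
    have := sf_mc_anti hs.1 hs.2 ht1
    rw [Real.rpow_one] at this
    exact this.trans h.sm
  refine ⟨hs.1, hs.2, h2, ht1, hA, hB, ?_⟩
  rw [Real.rpow_neg hs.1.le]
  have hp : 0 < D.s ^ t := Real.rpow_pos_of_pos hs.1 _
  rw [le_inv_comm₀ (by norm_num) hp]
  have := h.sm
  norm_num at this ⊢
  exact this

/-- the negligible terms -/
theorem sf_af_lk_tiny {s c L : ℝ} (h0 : 0 < s) (h2 : s ≤ 1 / 2) (hc : 0 ≤ c) (hL : 0 ≤ L) :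
    14 * (s ^ (-c)) ^ 2 * s ^ (6 * c + 6 * L + 20) ≤ s ^ (2 * L + 4) := by
  have h1 : s < 1 := by linarith
  have e1 : (s ^ (-c)) ^ 2 * s ^ (6 * c + 6 * L + 20) = s ^ (4 : ℕ) * s ^ (4 * c + 6 * L + 16) := by
    rw [← Real.rpow_natCast, ← Real.rpow_natCast, ← Real.rpow_mul h0.le, ← Real.rpow_add h0, ← Real.rpow_add h0]
    congr 1
    push_cast
    ring
  have e2 : s ^ (4 : ℕ) ≤ (1 / 2) ^ (4 : ℕ) := pow_le_pow_left₀ h0.le h2 4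
  have e3 : s ^ (4 * c + 6 * L + 16) ≤ s ^ (2 * L + 4) := sf_mc_anti h0 h1 (by linarith)
  have p : 0 < s ^ (4 * c + 6 * L + 16) := Real.rpow_pos_of_pos h0 _
  calc 14 * (s ^ (-c)) ^ 2 * s ^ (6 * c + 6 * L + 20) = 14 * (s ^ (4 : ℕ) * s ^ (4 * c + 6 * L + 16)) := by rw [← e1]; ring
    _ ≤ 14 * ((1 / 2) ^ (4 : ℕ) * s ^ (4 * c + 6 * L + 16)) := by
        have := mul_le_mul_of_nonneg_right e2 p.le
        linarith
    _ ≤ s ^ (4 * c + 6 * L + 16) := by norm_num; linarith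
    _ ≤ s ^ (2 * L + 4) := e3

/-- the widths beat the negligible terms -/
theorem sf_af_lk_low {s L r f l : ℝ} (h0 : 0 < s) (h1 : s < 1) (hL : 0 ≤ L) (hr : s ^ (L + 1) ≤ r) (hf : s ^ (L + 1) ≤ f) (hl : s ^ (2 : ℝ) ≤ l) :
    s ^ (2 * L + 4) ≤ r ∧ s ^ (2 * L + 4) ≤ l * r ∧ s ^ (2 * L + 4) ≤ l * r ^ 2 ∧ s ^ (2 * L + 4) ≤ f ∧ s ^ (2 * L + 4) ≤ l * f := by
  have p1 : 0 < s ^ (L + 1) := Real.rpow_pos_of_pos h0 _
  have p2 : 0 < s ^ (2 : ℝ) := Real.rpow_pos_of_pos h0 _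
  have a1 : s ^ (2 * L + 4) ≤ s ^ (L + 1) := sf_mc_anti h0 h1 (by linarith)
  have a2 : s ^ (2 * L + 4) ≤ s ^ (2 : ℝ) * s ^ (L + 1) := by
    rw [← Real.rpow_add h0]
    exact sf_mc_anti h0 h1 (by linarith)
  have a3 : s ^ (2 * L + 4) = s ^ (2 : ℝ) * (s ^ (L + 1)) ^ 2 := by
    rw [← Real.rpow_natCast (s ^ (L + 1)), ← Real.rpow_mul h0.le, ← Real.rpow_add h0]
    congr 1
    push_cast
    ring
  refine ⟨a1.trans hr, a2.trans (mul_le_mul hl hr p1.le (p2.le.trans hl)), ?_, a1.trans hf, a2.trans (mul_le_mul hl hf p1.le (p2.le.trans hl))⟩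
  rw [a3]
  exact mul_le_mul hl (pow_le_pow_left₀ p1.le hr 2) (by positivity) (p2.le.trans hl)

/-- **the link in the original coordinates** -/
theorem sf_af_lk_orig {D : SfDoc} {π : SfPar} {Ls C0 A B t : ℝ} (h : D.AfH π Ls C0 A B t) {l : ℝ} (hl : l ∈ D.G) (hlB : l < B)
    (ρ : D.Row l) (v : D.Row B) (hc : D.Conn l B ρ v) :
    (|(D.ray l ρ).X - (D.lab B v).x| ≤ 2 * D.r B ∧ |(D.ray l ρ).Bt (D.lab B v).T - (D.lab B v).b| ≤ 2 * (D.len B * D.r B) ∧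
      |(D.ray l ρ).Yt (D.lab B v).T - (D.lab B v).y - 2 * (D.lab B v).x * ((D.ray l ρ).Bt (D.lab B v).T - (D.lab B v).b)| ≤ 2 * (D.len B * D.r B ^ 2)) ∧
    |(D.lab l ρ).shA (D.ray l ρ) - (D.lab B v).shA (D.ray l ρ)| ≤ D.f l + (2 + D.s ^ (-t)) * D.f B ∧
    |(D.lab l ρ).shS (D.lab B v).T (D.ray l ρ) - (D.lab B v).shS (D.lab B v).T (D.ray l ρ)|
      ≤ (2 + D.s ^ (-t)) * (D.len l * D.f l) + 2 * (D.len B * D.f B) := by
  obtain ⟨h0, h1, h2, ht1, hA0, hB1, hs2⟩ := sf_af_lk_scale h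
  have hco := h.good.1
  have hB := h.wn.gB
  have hLs : 0 ≤ |Ls| := abs_nonneg _
  have hC : 0 ≤ |C0| := abs_nonneg _
  -- sizes
  have hSS : D.s ^ (-C0) ≤ D.s ^ (-|C0|) := sf_mc_anti h0 h1 (neg_le_neg (le_abs_self C0))
  have hS1 : 1 ≤ D.s ^ (-|C0|) := by
    have := sf_mc_anti h0 h1 (show -|C0| ≤ 0 by linarith)
    rwa [Real.rpow_zero] at this
  -- widths
  obtain ⟨wr, -, wf, -⟩ := sf_mc_width D π Ls C0 t h.t0 h.good B hB
  have wr' : D.s ^ (|Ls| + 1) ≤ D.r B := (sf_mc_anti h0 h1 (by linarith)).trans wr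
  have wf' : D.s ^ (|Ls| + 1) ≤ D.f B := (sf_mc_anti h0 h1 (by linarith)).trans wf
  have wl' : D.s ^ (2 : ℝ) ≤ D.len B := (sf_mc_anti h0 h1 (by linarith)).trans (hco.hlen.2 B hB).1
  obtain ⟨t1, t2, t3, t4, t5⟩ := sf_af_lk_low h0 h1 hLs wr' wf' wl'
  have tiny := sf_af_lk_tiny h0 h2 hC hLs
  -- own
  obtain ⟨or, of, om, oT0, oT1⟩ := hco.own B hB v
  obtain ⟨pr, pf, pm, pT0, pT1⟩ := hco.own l hl ρ
  have hlenB := sf_mc_len_pos D π C0 t hco B hB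
  have hlenl := sf_mc_len_pos D π C0 t hco l hl
  have hfl : 0 < D.f l := (hco.hw.2.2 l hl).2
  have hfB : 0 < D.f B := (hco.hw.2.2 B hB).2
  have eT : D.T B v = (D.lab B v).T := rfl
  have eTl : D.T l ρ = (D.lab l ρ).T := rfl
  obtain ⟨bt1, bt2, -, -⟩ := hco.base l hl B hB hlB ρ v hc
  rw [eT] at oT0 oT1 bt1 bt2
  rw [eTl] at pT0 pT1 bt1 bt2
  rw [sf_af_mem_iff, or, of] at om
  rw [sf_af_mem_iff, pr, pf] at pm
  obtain ⟨o1, o2, o3, o4, o5⟩ := om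
  obtain ⟨-, -, -, p4, p5⟩ := pm
  -- normal drift
  have hst : 0 < D.s ^ (-t) := Real.rpow_pos_of_pos h0 _
  have hnorm : |(D.ray l ρ).N - (D.ray B v).N| ≤ D.s ^ (-t) * D.f B ∧
      |(D.ray l ρ).Dt (D.lab B v).T - (D.ray B v).Dt (D.lab B v).T| ≤ D.s ^ (-t) * (D.len l * D.f l) := by
    cases hh : π.hyb with
    | false =>
      rw [hco.normC hh l hl B hB hlB ρ v hc]
      simp only [sub_self, abs_zero]
      exact ⟨by positivity, by positivity⟩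
    | true =>
      obtain ⟨n1, n2⟩ := hco.normH hh l hl B hB hlB ρ v hc
      rw [eT] at n2
      exact ⟨by rwa [abs_sub_comm], by rwa [abs_sub_comm]⟩
  have hε : 0 ≤ D.s ^ (6 * |C0| + 6 * |Ls| + 20) := (Real.rpow_pos_of_pos h0 _).le
  obtain ⟨q1, q2, q3, q4, q5⟩ := sf_af_lk_pert (D.lab B v) (D.ray B v) (D.ray l ρ) (D.s ^ (-|C0|)) (D.s ^ (6 * |C0| + 6 * |Ls| + 20))
    (D.s ^ (-t) * D.f B) (D.s ^ (-t) * (D.len l * D.f l)) ⟨oT0, by linarith⟩ hS1 ((hco.bdd B hB v).2.trans hSS) ((hco.bdd B hB v).1.trans hSS)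
    ((hco.bdd l hl ρ).1.trans hSS) hε (h.fb l hl B hB hlB ρ v hc) hnorm.1 hnorm.2
  -- the negligible terms
  obtain ⟨S, hS⟩ : ∃ S, S = D.s ^ (-|C0|) := ⟨_, rfl⟩
  obtain ⟨ε, hεd⟩ : ∃ ε, ε = D.s ^ (6 * |C0| + 6 * |Ls| + 20) := ⟨_, rfl⟩
  obtain ⟨τ, hτ⟩ : ∃ τ, τ = D.s ^ (2 * |Ls| + 4) := ⟨_, rfl⟩
  rw [← hεd] at q1 q2
  rw [← hS, ← hεd] at q3 q4 q5 tiny
  rw [← hεd] at hε
  rw [← hS] at hS1
  rw [← hτ] at tiny t1 t2 t3 t4 t5
  have u2 : S * ε ≤ S ^ 2 * ε := by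
    have : S ≤ S ^ 2 := by rw [sq]; exact le_mul_of_one_le_left (by linarith) hS1
    exact mul_le_mul_of_nonneg_right this hε
  have u1 : ε ≤ S * ε := le_mul_of_one_le_left hε hS1
  have n1 : ε ≤ τ := by linarith
  have n2 : 2 * ε ≤ τ := by linarith
  have n3 : 7 * S * ε ≤ τ := by linarith
  refine ⟨⟨by linarith, by linarith, by linarith⟩, ?_, ?_⟩
  · have e : (D.lab l ρ).shA (D.ray l ρ) - (D.lab B v).shA (D.ray l ρ)
        = ((D.ray l ρ).N - (D.lab B v).shA (D.ray l ρ)) - ((D.ray l ρ).N - (D.lab l ρ).shA (D.ray l ρ)) := by ring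
    rw [e]
    refine (abs_sub _ _).trans ?_
    linarith
  · have ev := sf_af_shS_evol (D.lab l ρ) (D.ray l ρ) (D.lab l ρ).T (D.lab B v).T
    have hdt : |(D.lab B v).T - (D.lab l ρ).T| ≤ D.len l := by
      rw [abs_le]
      constructor <;> linarith
    have m1 := sf_af_lk_mul hdt p4
    have m2 : |(D.ray l ρ).Dt (D.lab B v).T - (D.lab l ρ).shS (D.lab B v).T (D.ray l ρ)| ≤ 2 * (D.len l * D.f l) := by
      rw [ev]
      refine (abs_add_le _ _).trans ?_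
      linarith
    have e : (D.lab l ρ).shS (D.lab B v).T (D.ray l ρ) - (D.lab B v).shS (D.lab B v).T (D.ray l ρ)
        = ((D.ray l ρ).Dt (D.lab B v).T - (D.lab B v).shS (D.lab B v).T (D.ray l ρ))
          - ((D.ray l ρ).Dt (D.lab B v).T - (D.lab l ρ).shS (D.lab B v).T (D.ray l ρ)) := by ring
    rw [e]
    refine (abs_sub _ _).trans ?_
    linarith

/-- ratios of widths and lengths in the window -/
theorem sf_af_lk_ratio {D : SfDoc} {π : SfPar} {Ls C0 A B t : ℝ} (h : D.AfH π Ls C0 A B t) {l : ℝ} (hl : l ∈ D.G) (hAl : A ≤ l) (hlB : l ≤ B) :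
    D.f l / D.f B ≤ D.s ^ ((π.q - 2 * π.J) * (l - B)) * (D.s ^ (-t)) ^ 3 ∧ D.len l / D.len A ≤ (D.s ^ (-t)) ^ 2 := by
  obtain ⟨h0, h1, -, -, -, -, -⟩ := sf_af_lk_scale h
  have hco := h.good.1
  have hA := h.wn.gA
  have hB := h.wn.gB
  have hrl : 0 < D.r l := (hco.hw.2.2 l hl).1
  have hrB : 0 < D.r B := (hco.hw.2.2 B hB).1
  have hfB : 0 < D.f B := (hco.hw.2.2 B hB).2
  have hfl : 0 < D.f l := (hco.hw.2.2 l hl).2
  have hlenA := sf_mc_len_pos D π C0 t hco A hA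
  constructor
  · have w2 := (h.wn.w2 l hl hAl hlB).2
    have wr := (h.wn.wr l hl hAl hlB).2
    have e : D.f l / D.f B = D.w2 l / D.w2 B * (D.r l / D.r B) ^ 2 := by
      unfold SfDoc.w2
      field_simp
    have p1 : 0 ≤ D.r l / D.r B := (div_pos hrl hrB).le
    have p2 : 0 < D.s ^ (π.q * (l - B) - t) := Real.rpow_pos_of_pos h0 _
    rw [e]
    calc D.w2 l / D.w2 B * (D.r l / D.r B) ^ 2 ≤ D.s ^ (π.q * (l - B) - t) * (D.s ^ (π.J * (B - l) - t)) ^ 2 :=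
          mul_le_mul w2 (pow_le_pow_left₀ p1 wr 2) (by positivity) p2.le
      _ = D.s ^ ((π.q - 2 * π.J) * (l - B)) * (D.s ^ (-t)) ^ 3 := by
          rw [← Real.rpow_natCast, ← Real.rpow_natCast, ← Real.rpow_mul h0.le, ← Real.rpow_mul h0.le, ← Real.rpow_add h0, ← Real.rpow_add h0]
          congr 1
          push_cast
          ring
  · have l1 := (hco.hlen.2 l hl).2
    have l2 := (hco.hlen.2 A hA).1
    have p : 0 < D.s ^ (A + t) := Real.rpow_pos_of_pos h0 _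
    calc D.len l / D.len A ≤ D.s ^ (l - t) / D.s ^ (A + t) := div_le_div₀ (Real.rpow_pos_of_pos h0 _).le l1 p l2
      _ = D.s ^ (l - A - 2 * t) := by
          rw [← Real.rpow_sub h0]
          congr 1
          ring
      _ ≤ D.s ^ (-t * 2) := sf_mc_anti h0 h1 (by linarith)
      _ = (D.s ^ (-t)) ^ 2 := by
          rw [← Real.rpow_natCast, ← Real.rpow_mul h0.le]
          norm_num

/-- absorption of the numerical constants -/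
theorem sf_af_lk_poly {a M x y y2 : ℝ} (ha : 2 ≤ a) (hM : 1 ≤ M) (hx : 0 ≤ x) (hx' : x ≤ M * a ^ 3) (hy : 0 ≤ y) (hy' : y ≤ a ^ 2) (hy2 : y2 ≤ a ^ 2) :
    x + (2 + a) ≤ M * a ^ 8 ∧ (2 + a) * (y * x) + 2 * y2 ≤ M * a ^ 8 := by
  have a1 : 1 ≤ a := by linarith
  have a0 : 0 ≤ a := by linarith
  have hM0 : 0 ≤ M := by linarith
  have k13 : a ≤ a ^ 3 := by
    have := pow_le_pow_right₀ a1 (show 1 ≤ 3 by norm_num)
    rwa [pow_one] at this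
  have k26 : a ^ 2 ≤ a ^ 6 := pow_le_pow_right₀ a1 (by norm_num)
  have k3 : a ^ 3 ≤ M * a ^ 3 := le_mul_of_one_le_left (by positivity) hM
  have k6 : a ^ 6 ≤ M * a ^ 6 := le_mul_of_one_le_left (by positivity) hM
  have k5 : (32 : ℝ) ≤ a ^ 5 := by
    have := pow_le_pow_left₀ (by norm_num : (0 : ℝ) ≤ 2) ha 5
    norm_num at this
    exact this
  have k2 : (4 : ℝ) ≤ a ^ 2 := by
    have := pow_le_pow_left₀ (by norm_num : (0 : ℝ) ≤ 2) ha 2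
    norm_num at this
    exact this
  have p3 : 0 ≤ M * a ^ 3 := by positivity
  have p6 : 0 ≤ M * a ^ 6 := by positivity
  constructor
  · have e : M * a ^ 8 = M * a ^ 3 * a ^ 5 := by ring
    have := mul_le_mul_of_nonneg_left k5 p3
    rw [e]
    linarith
  · have e : M * a ^ 8 = M * a ^ 6 * a ^ 2 := by ring
    have h4 := mul_le_mul_of_nonneg_left k2 p6
    have m1 : y * x ≤ a ^ 2 * (M * a ^ 3) := mul_le_mul hy' hx' hx (by positivity)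
    have m2 : (2 + a) * (y * x) ≤ (2 * a) * (a ^ 2 * (M * a ^ 3)) := mul_le_mul (by linarith) m1 (mul_nonneg hy hx) (by positivity)
    have e2 : (2 * a) * (a ^ 2 * (M * a ^ 3)) = 2 * (M * a ^ 6) := by ring
    rw [e]
    linarith

/-- division of a bound by a positive unit -/
theorem sf_af_lk_div {a b c : ℝ} (hc : 0 < c) (h : |a| ≤ b) : |a / c| ≤ b / c := by
  rw [abs_div, abs_of_pos hc]
  exact div_le_div_of_nonneg_right h hc.le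

/-- the diagonal link -/
theorem sf_af_lk_diag (P : SfTest) (z : SfRay) (lQ a2 aK a1 aA aS : ℝ) (hm : P.Mem lQ z) (hl : 0 ≤ lQ) (h2 : 0 ≤ a2) (hK : 0 ≤ aK) (h1 : 0 ≤ a1)
    (hA : 0 ≤ aA) (hS : 0 ≤ aS) : SfLk P P z lQ lQ a2 aK a1 aA aS := by
  obtain ⟨m1, m2, m3, -, -⟩ := hm
  have n1 := (abs_nonneg _).trans m1
  have n2 := (abs_nonneg _).trans m2
  have n3 := (abs_nonneg _).trans m3
  refine ⟨⟨m1, m2, m3⟩, ⟨by linarith, by linarith, by linarith⟩, ⟨le_rfl, le_rfl⟩, hl, ?_, ?_, ?_, ?_, ?_⟩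
  · have : P.beAt P.T - P.be = 0 := by simp only [SfTest.beAt]; ring
    rw [this, abs_zero]; exact h2
  · rw [sub_self, abs_zero]; exact hK
  · rw [sub_self, abs_zero]; exact h1
  · rw [sub_self, abs_zero]; exact hA
  · rw [sub_self, abs_zero]; exact hS

/-! helpers of the link (helper171): products, sizes, perturbation of a ray, transport of a link to a frame -/

theorem sf_af_link_mul {a b A' B' : ℝ} (ha : |a| ≤ A') (hb : |b| ≤ B') : |a * b| ≤ A' * B' := by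
  rw [abs_mul]
  exact mul_le_mul ha hb (abs_nonneg _) ((abs_nonneg _).trans ha)

theorem sf_af_link_rsz {z : SfRay} {M : ℝ} (h : z.size ≤ M) : |z.X| ≤ M ∧ |z.B| ≤ M ∧ |z.Y| ≤ M := by
  unfold SfRay.size at h
  simp only [max_le_iff] at h
  exact ⟨h.1, h.2.1, h.2.2.1⟩

theorem sf_af_link_tsz {Q : SfTest} {M : ℝ} (h : Q.size ≤ M) : |Q.x| ≤ M ∧ |Q.al| ≤ M ∧ |Q.be| ≤ M ∧ |Q.K| ≤ M := by
  unfold SfTest.size at h
  simp only [max_le_iff] at h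
  exact ⟨h.1, h.2.2.2.2.2.1, h.2.2.2.2.2.2.1, h.2.2.2.2.2.2.2⟩

/-- two rays with close base parts, polynomial sizes -/
theorem sf_af_link_pert (Q : SfTest) (z z' : SfRay) (M ε t : ℝ) (hM : 1 ≤ M) (hz : z.size ≤ M) (hz' : z'.size ≤ M) (hQ : Q.size ≤ M)
    (hd : z.bdist z' ≤ ε) (hT : 0 ≤ Q.T ∧ Q.T ≤ 1) (ht : 0 ≤ t ∧ t ≤ 1) :
    |z.X - z'.X| ≤ ε ∧ |z.Bt t - z'.Bt t| ≤ 2 * ε ∧ |z.Yt t - z'.Yt t| ≤ 3 * (M * ε) ∧
      |Q.shA z - Q.shA z'| ≤ 14 * (M ^ 2 * ε) ∧ |Q.shS t z - Q.shS t z'| ≤ 16 * (M ^ 2 * ε) := by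
  unfold SfRay.bdist at hd
  simp only [max_le_iff] at hd
  obtain ⟨dX, dB, dY⟩ := hd
  obtain ⟨zX, zB, -⟩ := sf_af_link_rsz hz
  obtain ⟨zX', zB', -⟩ := sf_af_link_rsz hz'
  obtain ⟨-, qa, qb, qK⟩ := sf_af_link_tsz hQ
  have hε : 0 ≤ ε := (abs_nonneg _).trans dX
  have hM0 : 0 ≤ M := by linarith
  have hMε : ε ≤ M * ε := by nlinarith
  have hM2ε : M * ε ≤ M ^ 2 * ε := by nlinarith [mul_nonneg hM0 hε]
  have hS : |z.X + z'.X| ≤ 2 * M := (abs_add_le _ _).trans (by linarith)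
  have hBt : ∀ τ : ℝ, 0 ≤ τ → τ ≤ 1 → |z.Bt τ - z'.Bt τ| ≤ 2 * ε := by
    intro τ h0 h1
    have e : z.Bt τ - z'.Bt τ = (z.B - z'.B) + τ * (z.X - z'.X) := by
      simp only [SfRay.Bt]; ring
    rw [e]
    refine (abs_add_le _ _).trans ?_
    have := sf_af_link_mul (a := τ) (b := z.X - z'.X) (A' := 1) (by rw [abs_of_nonneg h0]; exact h1) dX
    linarith
  have hYt : ∀ τ : ℝ, 0 ≤ τ → τ ≤ 1 → |z.Yt τ - z'.Yt τ| ≤ 3 * (M * ε) := by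
    intro τ h0 h1
    have e : z.Yt τ - z'.Yt τ = (z.Y - z'.Y) + τ * ((z.X - z'.X) * (z.X + z'.X)) := by
      simp only [SfRay.Yt]; ring
    rw [e]
    refine (abs_add_le _ _).trans ?_
    have := sf_af_link_mul (a := τ) (A' := 1) (by rw [abs_of_nonneg h0]; exact h1) (sf_af_link_mul dX hS)
    nlinarith
  have hBb : ∀ (w : SfRay), |w.X| ≤ M → |w.B| ≤ M → ∀ τ : ℝ, 0 ≤ τ → τ ≤ 1 → |w.Bt τ| ≤ 2 * M := by
    intro w wX wB τ h0 h1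
    unfold SfRay.Bt
    refine (abs_add_le _ _).trans ?_
    have := sf_af_link_mul (a := τ) (A' := 1) (by rw [abs_of_nonneg h0]; exact h1) wX
    linarith
  refine ⟨dX, hBt t ht.1 ht.2, hYt t ht.1 ht.2, ?_, ?_⟩
  · have e : Q.shA z - Q.shA z' = Q.al * (z.X - z'.X) + Q.be * ((z.X - z'.X) * (z.X + z'.X))
        + Q.K * ((z.Yt Q.T - z'.Yt Q.T) - 2 * ((z.X - z'.X) * z.Bt Q.T + z'.X * (z.Bt Q.T - z'.Bt Q.T))) := by
      simp only [SfTest.shA]; ring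
    rw [e]
    have t1 := sf_af_link_mul qa dX
    have t2 := sf_af_link_mul qb (sf_af_link_mul dX hS)
    have t3 : |(z.Yt Q.T - z'.Yt Q.T) - 2 * ((z.X - z'.X) * z.Bt Q.T + z'.X * (z.Bt Q.T - z'.Bt Q.T))| ≤ 3 * (M * ε) + 2 * (ε * (2 * M) + M * (2 * ε)) := by
      refine (abs_sub _ _).trans ?_
      rw [abs_mul, abs_two]
      have u1 := sf_af_link_mul dX (hBb z zX zB Q.T hT.1 hT.2)
      have u2 := sf_af_link_mul zX' (hBt Q.T hT.1 hT.2)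
      have u3 := abs_add_le ((z.X - z'.X) * z.Bt Q.T) (z'.X * (z.Bt Q.T - z'.Bt Q.T))
      have u4 := hYt Q.T hT.1 hT.2
      linarith
    have t4 := sf_af_link_mul qK t3
    have t5 := abs_add_three (Q.al * (z.X - z'.X)) (Q.be * ((z.X - z'.X) * (z.X + z'.X)))
      (Q.K * ((z.Yt Q.T - z'.Yt Q.T) - 2 * ((z.X - z'.X) * z.Bt Q.T + z'.X * (z.Bt Q.T - z'.Bt Q.T))))
    refine t5.trans ?_
    have e2 : M * ε + M * (ε * (2 * M)) + M * (3 * (M * ε) + 2 * (ε * (2 * M) + M * (2 * ε))) = M * ε + 13 * (M ^ 2 * ε) := by ring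
    linarith
  · have e : Q.shS t z - Q.shS t z' = Q.al * (z.Bt t - z'.Bt t) + Q.beAt t * (z.Yt t - z'.Yt t)
        + (-Q.K) * ((z.Bt t - z'.Bt t) * (z.Bt t + z'.Bt t)) := by
      simp only [SfTest.shS]; ring
    rw [e]
    have hb : |Q.beAt t| ≤ 2 * M := by
      unfold SfTest.beAt
      refine (abs_add_le _ _).trans ?_
      have : |t - Q.T| ≤ 1 := by
        rw [abs_le]
        constructor <;> linarith [ht.1, ht.2, hT.1, hT.2]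
      have := sf_af_link_mul this qK
      linarith
    have hs2 : |z.Bt t + z'.Bt t| ≤ 4 * M := by
      refine (abs_add_le _ _).trans ?_
      have := hBb z zX zB t ht.1 ht.2
      have := hBb z' zX' zB' t ht.1 ht.2
      linarith
    have t1 := sf_af_link_mul qa (hBt t ht.1 ht.2)
    have t2 := sf_af_link_mul hb (hYt t ht.1 ht.2)
    have t3 := sf_af_link_mul (a := -Q.K) (A' := M) (by rw [abs_neg]; exact qK) (sf_af_link_mul (hBt t ht.1 ht.2) hs2)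
    refine (abs_add_three _ _ _).trans ?_
    have e2 : M * (2 * ε) + 2 * M * (3 * (M * ε)) + M * (2 * ε * (4 * M)) = 2 * (M * ε) + 14 * (M ^ 2 * ε) := by ring
    linarith

/-- transport of a link to a frame -/
theorem sf_af_link_tr (φ : SfFrame) (hφ : φ.Pos) (P Q : SfTest) (z : SfRay) (lP lQ a2 aK a1 aA aS : ℝ) (h1 : P.Mem lP z)
    (h2 : |z.X - Q.x| ≤ 2 * Q.r ∧ |z.Bt Q.T - Q.b| ≤ 2 * (lQ * Q.r) ∧ |z.Yt Q.T - Q.y - 2 * Q.x * (z.Bt Q.T - Q.b)| ≤ 2 * (lQ * Q.r ^ 2))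
    (h3 : P.T ≤ Q.T ∧ Q.T + lQ ≤ P.T + lP) (h4 : 0 ≤ lQ)
    (c2 : |(φ.tst P).beAt (φ.tst Q).T - (φ.tst Q).be| ≤ a2) (cK : |(φ.tst P).K - (φ.tst Q).K| ≤ aK)
    (c1 : |(φ.tst P).Pd (φ.ray z) - (φ.tst Q).Pd (φ.ray z)| ≤ a1)
    (cA : |P.shA z - Q.shA z| ≤ φ.F0 * aA) (cS : |P.shS Q.T z - Q.shS Q.T z| ≤ φ.L * φ.F0 * aS) :
    SfLk (φ.tst P) (φ.tst Q) (φ.ray z) (lP / φ.L) (lQ / φ.L) a2 aK a1 aA aS := by
  have hm := (sf_frame_mem φ hφ P lP z).2 h1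
  obtain ⟨e1, e2, e3, -, -⟩ := sf_frame_aux_five φ hφ Q z
  obtain ⟨hL, hr, hF⟩ := hφ
  have hφ' : φ.Pos := ⟨hL, hr, hF⟩
  refine ⟨⟨hm.1, hm.2.1, hm.2.2.1⟩, ⟨?_, ?_, ?_⟩, ⟨?_, ?_⟩, div_nonneg h4 hL.le, c2, cK, c1, ?_, ?_⟩
  · rw [e1, abs_div, abs_of_pos hr]
    show _ ≤ 2 * (Q.r / φ.r0)
    rw [div_le_iff₀ hr]
    have : 2 * (Q.r / φ.r0) * φ.r0 = 2 * Q.r := by field_simp
    rw [this]
    exact h2.1
  · rw [e2, abs_div, abs_of_pos (mul_pos hL hr)]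
    show _ ≤ 2 * (lQ / φ.L * (Q.r / φ.r0))
    rw [div_le_iff₀ (mul_pos hL hr)]
    have : 2 * (lQ / φ.L * (Q.r / φ.r0)) * (φ.L * φ.r0) = 2 * (lQ * Q.r) := by field_simp
    rw [this]
    exact h2.2.1
  · rw [e3, abs_div, abs_of_pos (mul_pos hL (pow_pos hr 2))]
    show _ ≤ 2 * (lQ / φ.L * (Q.r / φ.r0) ^ 2)
    rw [div_le_iff₀ (mul_pos hL (pow_pos hr 2))]
    have : 2 * (lQ / φ.L * (Q.r / φ.r0) ^ 2) * (φ.L * φ.r0 ^ 2) = 2 * (lQ * Q.r ^ 2) := by field_simp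
    rw [this]
    exact h2.2.2
  · show (P.T - φ.T0) / φ.L ≤ (Q.T - φ.T0) / φ.L
    exact div_le_div_of_nonneg_right (by linarith [h3.1]) hL.le
  · show (Q.T - φ.T0) / φ.L + lQ / φ.L ≤ (P.T - φ.T0) / φ.L + lP / φ.L
    rw [← add_div, ← add_div]
    exact div_le_div_of_nonneg_right (by linarith [h3.2]) hL.le
  · rw [sf_af_fr_shA φ hφ', sf_af_fr_shA φ hφ', ← sub_div, abs_div, abs_of_pos hF, div_le_iff₀ hF]
    have : P.shA z - φ.sg.shA z - (Q.shA z - φ.sg.shA z) = P.shA z - Q.shA z := by ring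
    rw [this]
    linarith
  · show |(φ.tst P).shS ((Q.T - φ.T0) / φ.L) (φ.ray z) - (φ.tst Q).shS ((Q.T - φ.T0) / φ.L) (φ.ray z)| ≤ aS
    rw [sf_af_fr_shS φ hφ', sf_af_fr_shS φ hφ', ← sub_div, abs_div, abs_of_pos (mul_pos hL hF), div_le_iff₀ (mul_pos hL hF)]
    have : P.shS Q.T z - φ.sg.shS Q.T z - (Q.shS Q.T z - φ.sg.shS Q.T z) = P.shS Q.T z - Q.shS Q.T z := by ring
    rw [this]
    linarith

/-- LEAF AF-L6b (~200 l.).   **Base part of the link, original coordinates**: the ray of the earlier row lies, with slack `2`, in the base part of the end label.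
PLAN (`z = ray l ρ`, `zv = ray B v`, `Q = lab B v`, `η = s^N`, `Z = s^(-|C0|) ≥ 1`): `own` of `v` at `zv` (`Q.r = r B`);  `fb`: `|X - Xv|, |B - Bv|, |Y - Yv| ≤ η` (`SfRay.bdist` = max);  `bdd`: all coordinates of `z, zv, Q` are `≤ Z` (`sf_mc_ray_coord`, `sf_mc_tst_coord`), `0 ≤ Q.T ≤ 1` (`own`);
`|Bt - Bvt| ≤ 2η`, `|Yt - Yvt| ≤ η + 2Zη`, the third expression changes by `≤ 7 Z η`;  `sf_af_tiny`. -/
theorem sf_af_lk_base (π : SfPar) (Ls : ℝ) (D : SfDoc) (C0 A B t : ℝ) (h : D.AfH π Ls C0 A B t) (l : ℝ) (hl : l ∈ D.G) (hlB : l < B)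
    (ρ : D.Row l) (v : D.Row B) (hc : D.Conn l B ρ v) :
    |(D.ray l ρ).X - (D.lab B v).x| ≤ 2 * D.r B ∧ |(D.ray l ρ).Bt (D.lab B v).T - (D.lab B v).b| ≤ 2 * (D.len B * D.r B) ∧
    |(D.ray l ρ).Yt (D.lab B v).T - (D.lab B v).y - 2 * (D.lab B v).x * ((D.ray l ρ).Bt (D.lab B v).T - (D.lab B v).b)| ≤ 2 * (D.len B * D.r B ^ 2) := by
  exact (sf_af_lk_orig h hl hlB ρ v hc).1

/-- LEAF AF-L6c (~250 l.).   **Velocity parts of the two shears at the ray of the earlier row, original coordinates.**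
PLAN: `|shA_u z - shA_v z| ≤ |shA_u z - N_u| + |N_u - N_v| + |N_v - shA_v zv| + |shA_v zv - shA_v z| ≤ f_l + s^-t f_B + f_B + 14 Z² η` (`sf_af_mem_iff` for the two `own`; `π.hyb = true`: `normH`; `π.hyb = false`: `normC`, `z = zv`);
`shA Q z = c + al X + be X² + K (Yt T - 2 X Bt T)`: `|X² - Xv²| ≤ 2Zη`, `|X Bt - Xv Bvt| ≤ 4Zη`;  `sf_af_tiny`: `14 Z² η ≤ f B`;  `1 ≤ s^-t`. -/
theorem sf_af_lk_A (π : SfPar) (Ls : ℝ) (D : SfDoc) (C0 A B t : ℝ) (h : D.AfH π Ls C0 A B t) (l : ℝ) (hl : l ∈ D.G) (hlB : l < B)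
    (ρ : D.Row l) (v : D.Row B) (hc : D.Conn l B ρ v) :
    |(D.lab l ρ).shA (D.ray l ρ) - (D.lab B v).shA (D.ray l ρ)| ≤ D.f l + 3 * D.s ^ (-t) * D.f B := by
  obtain ⟨-, -, -, -, -, -, hs2⟩ := sf_af_lk_scale h
  have hfB : 0 < D.f B := (h.good.1.hw.2.2 B h.wn.gB).2
  refine (sf_af_lk_orig h hl hlB ρ v hc).2.1.trans ?_
  have : (2 + D.s ^ (-t)) * D.f B ≤ 3 * D.s ^ (-t) * D.f B := mul_le_mul_of_nonneg_right (by linarith) hfB.le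
  linarith

/-- LEAF AF-L6d (~250 l.).   **Position parts of the two shears at the time of the end row, original coordinates.**
PLAN: `|D^u_{T_v} - shS_u T_v z| ≤ |D^u_{T_u} - shS_u T_u z| + |T_v - T_u| |N_u - shA_u z| ≤ 2 len l * f_l` (`sf_af_shS_evol`, `sf_af_mem_iff`, `0 ≤ T_v - T_u ≤ len l`: `Core.base`);  `|D^u_{T_v} - D^v_{T_v}| ≤ s^-t len l * f_l` (`normH`; `normC`: `0`);
`|D^v_{T_v} - shS_v T_v zv| ≤ len B * f_B` (`own`);  `|shS_v T_v zv - shS_v T_v z| ≤ 13 Z² η ≤ len B * f_B` (`sf_af_tiny`). -/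
theorem sf_af_lk_S (π : SfPar) (Ls : ℝ) (D : SfDoc) (C0 A B t : ℝ) (h : D.AfH π Ls C0 A B t) (l : ℝ) (hl : l ∈ D.G) (hlB : l < B)
    (ρ : D.Row l) (v : D.Row B) (hc : D.Conn l B ρ v) :
    |(D.lab l ρ).shS (D.lab B v).T (D.ray l ρ) - (D.lab B v).shS (D.lab B v).T (D.ray l ρ)|
      ≤ 3 * D.s ^ (-t) * (D.len l * D.f l) + 2 * (D.len B * D.f B) := by
  obtain ⟨-, -, -, -, -, -, hs2⟩ := sf_af_lk_scale h
  have hfl : 0 < D.f l := (h.good.1.hw.2.2 l hl).2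
  have hlenl := sf_mc_len_pos D π C0 t h.good.1 l hl
  refine (sf_af_lk_orig h hl hlB ρ v hc).2.2.trans ?_
  have : (2 + D.s ^ (-t)) * (D.len l * D.f l) ≤ 3 * D.s ^ (-t) * (D.len l * D.f l) :=
    mul_le_mul_of_nonneg_right (by linarith) (mul_pos hlenl hfl).le
  linarith

/-- LEAF AF-L6 (~250 l., glue).   **THE LINK**: a label on a chain to `v`, the label of `v` and the ray of the earlier row, in ANY frame with the units of the window.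
PLAN.  Transport `own`, `sf_af_lk_base`, `sf_af_lk_A`, `sf_af_lk_S` by the exact identities `sf_frame_aux_five`, `sf_af_fr_shA`, `sf_af_fr_shS` (the shear of the frame cancels in all differences; `(φ.tst Q).T = (Q.T - T0)/L`); `c2, cK, c1` = `sf_af_ncmp` with `j = B`.
 `bP` = `own` of `u` (`(φ.tst R).r = r l / r B`).   `tm` = `Core.base`, divided by `len A`.
 `cA`: `(f l + 3 s^-t f B) / f B`, `f l / f B = (w2 l / w2 B) (r l / r B)² ≤ s^((q-2J)(l-B) - 3t)` (`wn`).      `cS`: divide by `len A * f B`; `len l / len A ≤ s^(-2t)`, `len B / len A ≤ s^(-2t)` (`hlen`).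
 `u = ⟨B, v⟩`: `P = Q`, all differences vanish, `bQ` from `bP`. -/
theorem sf_af_link : ∃ C : ℝ, 0 < C ∧ ∀ (π : SfPar) (Ls : ℝ) (D : SfDoc) (C0 A B t : ℝ), D.AfH π Ls C0 A B t →
    ∀ φ : SfFrame, D.AfUn A B φ → ∀ (v : D.Row B) (u : D.Rw), D.AfCh A B u v →
    SfLk (φ.tst (D.lab u.1 u.2)) (φ.tst (D.lab B v)) (φ.ray (D.ray u.1 u.2)) (D.len u.1 / D.len A) (D.len B / D.len A)
      (D.s ^ (min (π.q * (u.1 - B)) 0 - C * t)) (D.s ^ (min (π.q * (u.1 - B) - (u.1 - A)) (-(B - A)) - C * t))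
      (D.s ^ (min ((π.q - π.J) * (u.1 - B)) 0 - C * t)) (D.s ^ (min ((π.q - 2 * π.J) * (u.1 - B)) 0 - C * t))
      (D.s ^ (min ((π.q - 2 * π.J) * (u.1 - B)) 0 - C * t)) := by
  obtain ⟨C1, hC1, hn⟩ := sf_af_ncmp
  refine ⟨C1 + 8, by linarith, ?_⟩
  intro π Ls D C0 A B t h φ hφ v u hu
  obtain ⟨h0, h1, h2, ht1, hA0, hB1, hs2⟩ := sf_af_lk_scale h
  have hco := h.good.1
  have hA := h.wn.gA
  have hB := h.wn.gB
  have ht := h.t0
  have hun := hφ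
  obtain ⟨eL, er, eF⟩ := hφ
  have hlenA := sf_mc_len_pos D π C0 t hco A hA
  have hlenB := sf_mc_len_pos D π C0 t hco B hB
  have hrB : 0 < D.r B := (hco.hw.2.2 B hB).1
  have hfB : 0 < D.f B := (hco.hw.2.2 B hB).2
  have hpos : φ.Pos := ⟨by rw [eL]; exact hlenA, by rw [er]; exact hrB, by rw [eF]; exact hfB⟩
  have hpw : ∀ x : ℝ, 0 ≤ D.s ^ x := fun x => (Real.rpow_pos_of_pos h0 x).le
  rcases hu with rfl | ⟨hl, hAl, hlB, hc⟩
  · have om := (hco.own B hB v).2.2.1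
    have om' := (sf_frame_mem φ hpos (D.lab B v) (D.len B) (D.ray B v)).2 om
    rw [eL] at om'
    exact sf_af_lk_diag _ _ _ _ _ _ _ _ om' (div_pos hlenB hlenA).le (hpw _) (hpw _) (hpw _) (hpw _) (hpw _)
  · obtain ⟨l, ρ⟩ := u
    change l ∈ D.G at hl
    change A ≤ l at hAl
    change l < B at hlB
    change D.Conn l B ρ v at hc
    change SfLk (φ.tst (D.lab l ρ)) (φ.tst (D.lab B v)) (φ.ray (D.ray l ρ)) (D.len l / D.len A) (D.len B / D.len A)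
      (D.s ^ (min (π.q * (l - B)) 0 - (C1 + 8) * t)) (D.s ^ (min (π.q * (l - B) - (l - A)) (-(B - A)) - (C1 + 8) * t))
      (D.s ^ (min ((π.q - π.J) * (l - B)) 0 - (C1 + 8) * t)) (D.s ^ (min ((π.q - 2 * π.J) * (l - B)) 0 - (C1 + 8) * t))
      (D.s ^ (min ((π.q - 2 * π.J) * (l - B)) 0 - (C1 + 8) * t))
    have hlenl := sf_mc_len_pos D π C0 t hco l hl
    have hfl : 0 < D.f l := (hco.hw.2.2 l hl).2
    obtain ⟨⟨o1, o2, o3⟩, oA, oS⟩ := sf_af_lk_orig h hl hlB ρ v hc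
    obtain ⟨n1, n2, n3⟩ := hn π Ls D C0 A B t h φ hun l hl B hB hAl hlB le_rfl ρ v hc
    obtain ⟨f1, f2, f3, -, -⟩ := sf_frame_aux_five φ hpos (D.lab B v) (D.ray l ρ)
    obtain ⟨bt1, bt2, -, -⟩ := hco.base l hl B hB hlB ρ v hc
    have eT : D.T B v = (D.lab B v).T := rfl
    have eTl : D.T l ρ = (D.lab l ρ).T := rfl
    rw [eT, eTl] at bt1 bt2
    have pm := (hco.own l hl ρ).2.2.1
    have pm' := (sf_frame_mem φ hpos (D.lab l ρ) (D.len l) (D.ray l ρ)).2 pm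
    rw [eL] at pm'
    have orB : (D.lab B v).r = D.r B := (hco.own B hB v).1
    have h8 : 0 ≤ 8 * t := by linarith
    have hC1t : 0 ≤ C1 * t := (mul_pos hC1 ht).le
    have e8 : (C1 + 8) * t = C1 * t + 8 * t := by ring
    obtain ⟨ra1, ra2⟩ := sf_af_lk_ratio h hl hAl hlB.le
    obtain ⟨-, ra3⟩ := sf_af_lk_ratio h hB h.wn.hAB.le le_rfl
    -- the two normal comparisons
    have hM1 : 1 ≤ D.s ^ (min ((π.q - 2 * π.J) * (l - B)) 0) := by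
      have := sf_mc_anti h0 h1 (min_le_right ((π.q - 2 * π.J) * (l - B)) 0)
      rwa [Real.rpow_zero] at this
    have hMe : D.s ^ ((π.q - 2 * π.J) * (l - B)) ≤ D.s ^ (min ((π.q - 2 * π.J) * (l - B)) 0) := sf_mc_anti h0 h1 (min_le_left _ _)
    have ra1' : D.f l / D.f B ≤ D.s ^ (min ((π.q - 2 * π.J) * (l - B)) 0) * (D.s ^ (-t)) ^ 3 :=
      ra1.trans (mul_le_mul_of_nonneg_right hMe (by positivity))
    obtain ⟨y1, y2⟩ := sf_af_lk_poly hs2 hM1 (div_pos hfl hfB).le ra1' (div_pos hlenl hlenA).le ra2 ra3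
    have eM : D.s ^ (min ((π.q - 2 * π.J) * (l - B)) 0) * (D.s ^ (-t)) ^ 8 = D.s ^ (min ((π.q - 2 * π.J) * (l - B)) 0 - 8 * t) := by
      rw [← Real.rpow_natCast, ← Real.rpow_mul h0.le, ← Real.rpow_add h0]
      congr 1
      push_cast
      ring
    have hC8 : D.s ^ (min ((π.q - 2 * π.J) * (l - B)) 0 - 8 * t) ≤ D.s ^ (min ((π.q - 2 * π.J) * (l - B)) 0 - (C1 + 8) * t) :=
      sf_mc_anti h0 h1 (by rw [e8]; linarith)
    rw [eM] at y1 y2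
    refine ⟨⟨pm'.1, pm'.2.1, pm'.2.2.1⟩, ⟨?_, ?_, ?_⟩, ⟨?_, ?_⟩, (div_pos hlenB hlenA).le, ?_, ?_, ?_, ?_, ?_⟩
    · rw [f1]
      have := sf_af_lk_div hpos.2.1 o1
      have e : 2 * (φ.tst (D.lab B v)).r = 2 * D.r B / φ.r0 := by
        show 2 * ((D.lab B v).r / φ.r0) = _
        rw [orB]; ring
      rw [e]; exact this
    · rw [f2]
      have := sf_af_lk_div (mul_pos hpos.1 hpos.2.1) o2
      have e : 2 * (D.len B / D.len A * (φ.tst (D.lab B v)).r) = 2 * (D.len B * D.r B) / (φ.L * φ.r0) := by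
        show 2 * (D.len B / D.len A * ((D.lab B v).r / φ.r0)) = _
        rw [orB, eL]
        have := hlenA.ne'
        have := hpos.2.1.ne'
        field_simp
      rw [e]; exact this
    · rw [f3]
      have := sf_af_lk_div (mul_pos hpos.1 (pow_pos hpos.2.1 2)) o3
      have e : 2 * (D.len B / D.len A * (φ.tst (D.lab B v)).r ^ 2) = 2 * (D.len B * D.r B ^ 2) / (φ.L * φ.r0 ^ 2) := by
        show 2 * (D.len B / D.len A * ((D.lab B v).r / φ.r0) ^ 2) = _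
        rw [orB, eL]
        have := hlenA.ne'
        have := hpos.2.1.ne'
        field_simp
      rw [e]; exact this
    · show ((D.lab l ρ).T - φ.T0) / φ.L ≤ ((D.lab B v).T - φ.T0) / φ.L
      exact div_le_div_of_nonneg_right (by linarith) hpos.1.le
    · show ((D.lab B v).T - φ.T0) / φ.L + D.len B / D.len A ≤ ((D.lab l ρ).T - φ.T0) / φ.L + D.len l / D.len A
      rw [← eL, ← add_div, ← add_div]
      exact div_le_div_of_nonneg_right (by linarith) hpos.1.le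
    · refine n1.trans (sf_mc_anti h0 h1 ?_)
      have e : π.q * (B - B) = 0 := by ring
      rw [e, e8]
      linarith
    · refine n2.trans (sf_mc_anti h0 h1 ?_)
      have e : π.q * (B - B) - (B - A) = -(B - A) := by ring
      rw [e, e8]
      linarith
    · refine n3.trans (sf_mc_anti h0 h1 ?_)
      have e : (π.q - π.J) * (B - B) = 0 := by ring
      rw [e, e8]
      linarith
    · rw [sf_af_fr_shA φ hpos, sf_af_fr_shA φ hpos]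
      have e : ((D.lab l ρ).shA (D.ray l ρ) - φ.sg.shA (D.ray l ρ)) / φ.F0 - ((D.lab B v).shA (D.ray l ρ) - φ.sg.shA (D.ray l ρ)) / φ.F0
          = ((D.lab l ρ).shA (D.ray l ρ) - (D.lab B v).shA (D.ray l ρ)) / φ.F0 := by ring
      rw [e]
      refine (sf_af_lk_div hpos.2.2 oA).trans ?_
      have e2 : (D.f l + (2 + D.s ^ (-t)) * D.f B) / φ.F0 = D.f l / D.f B + (2 + D.s ^ (-t)) := by
        rw [eF]
        have := hfB.ne'
        field_simp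
      rw [e2]
      exact y1.trans hC8
    · have g1 := sf_af_fr_shS φ hpos (D.lab l ρ) (D.ray l ρ) (D.lab B v).T
      have g2 := sf_af_fr_shS φ hpos (D.lab B v) (D.ray l ρ) (D.lab B v).T
      have eQT : (φ.tst (D.lab B v)).T = ((D.lab B v).T - φ.T0) / φ.L := rfl
      rw [eQT, g1, g2]
      have e : ((D.lab l ρ).shS (D.lab B v).T (D.ray l ρ) - φ.sg.shS (D.lab B v).T (D.ray l ρ)) / (φ.L * φ.F0)
          - ((D.lab B v).shS (D.lab B v).T (D.ray l ρ) - φ.sg.shS (D.lab B v).T (D.ray l ρ)) / (φ.L * φ.F0)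
          = ((D.lab l ρ).shS (D.lab B v).T (D.ray l ρ) - (D.lab B v).shS (D.lab B v).T (D.ray l ρ)) / (φ.L * φ.F0) := by ring
      rw [e]
      refine (sf_af_lk_div (mul_pos hpos.1 hpos.2.2) oS).trans ?_
      have e2 : ((2 + D.s ^ (-t)) * (D.len l * D.f l) + 2 * (D.len B * D.f B)) / (φ.L * φ.F0)
          = (2 + D.s ^ (-t)) * (D.len l / D.len A * (D.f l / D.f B)) + 2 * (D.len B / D.len A) := by
        rw [eF, eL]
        have := hfB.ne'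
        have := hlenA.ne'
        field_simp
      rw [e2]
      exact y2.trans hC8

/-! ### algebra of a link (no configuration) -/

/-- product of two bounds -/
theorem sf_af_tr_base_mul {a b A B : ℝ} (h1 : |a| ≤ A) (h2 : |b| ≤ B) : |a * b| ≤ A * B := by
  rw [abs_mul]
  exact mul_le_mul h1 h2 (abs_nonneg _) ((abs_nonneg _).trans h1)

/-- from the centre of one test to the ray and to the centre of the other test (real algebra) -/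
theorem sf_af_tr_base_gen (x1 b1 y1 x2 b2 y2 X B1 Y1 B2 Y2 τ Λ m : ℝ) (hΛ : 1 ≤ Λ) (hm : 1 ≤ m) (hτ : |τ| ≤ Λ)
    (eB : B2 = B1 + τ * X) (eY : Y2 = Y1 + τ * X ^ 2)
    (p1 : |X - x1| ≤ 2) (p2 : |B1 - b1| ≤ 2 * Λ) (p3 : |Y1 - y1 - 2 * x1 * (B1 - b1)| ≤ 2 * Λ)
    (q1 : |X - x2| ≤ 2) (q2 : |B2 - b2| ≤ 2 * Λ) (q3 : |Y2 - y2 - 2 * x2 * (B2 - b2)| ≤ 2 * Λ)
    (hx : |x1| ≤ m) (hb : |b1| ≤ m) (hy : |y1| ≤ m) :
    |x1| ≤ 100 * Λ ^ 2 * m ^ 2 ∧ |b1| ≤ 100 * Λ ^ 2 * m ^ 2 ∧ |y1| ≤ 100 * Λ ^ 2 * m ^ 2 ∧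
    |x2| ≤ 100 * Λ ^ 2 * m ^ 2 ∧ |b2| ≤ 100 * Λ ^ 2 * m ^ 2 ∧ |y2| ≤ 100 * Λ ^ 2 * m ^ 2 ∧
    |X| ≤ 100 * Λ ^ 2 * m ^ 2 ∧ |B1| ≤ 100 * Λ ^ 2 * m ^ 2 ∧ |Y1| ≤ 100 * Λ ^ 2 * m ^ 2 ∧
    |B2| ≤ 100 * Λ ^ 2 * m ^ 2 ∧ |Y2| ≤ 100 * Λ ^ 2 * m ^ 2 := by
  obtain ⟨u, hu⟩ : ∃ u, u = Λ ^ 2 * m ^ 2 := ⟨_, rfl⟩
  have e100 : 100 * Λ ^ 2 * m ^ 2 = 100 * u := by rw [hu]; ring
  rw [e100]
  -- monomials
  have hΛ0 : 0 ≤ Λ := by linarith
  have hm0 : 0 ≤ m := by linarith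
  have u4 : Λ * m ^ 2 ≤ u := by
    rw [hu]
    have : Λ * m ^ 2 ≤ Λ ^ 2 * m ^ 2 := mul_le_mul_of_nonneg_right (by nlinarith) (by positivity)
    exact this
  have u3 : Λ * m ≤ Λ * m ^ 2 := mul_le_mul_of_nonneg_left (by nlinarith) hΛ0
  have u2 : Λ ≤ Λ * m := le_mul_of_one_le_right hΛ0 hm
  have u1 : m ≤ Λ * m := le_mul_of_one_le_left hm0 hΛ
  -- the ray from the first test
  obtain ⟨x1a, x1b⟩ := abs_le.1 hx
  obtain ⟨b1a, b1b⟩ := abs_le.1 hb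
  obtain ⟨y1a, y1b⟩ := abs_le.1 hy
  obtain ⟨p1a, p1b⟩ := abs_le.1 p1
  obtain ⟨p2a, p2b⟩ := abs_le.1 p2
  obtain ⟨p3a, p3b⟩ := abs_le.1 p3
  obtain ⟨q1a, q1b⟩ := abs_le.1 q1
  obtain ⟨q2a, q2b⟩ := abs_le.1 q2
  obtain ⟨q3a, q3b⟩ := abs_le.1 q3
  have hX : |X| ≤ m + 2 := abs_le.2 ⟨by linarith, by linarith⟩
  have hB1 : |B1| ≤ m + 2 * Λ := abs_le.2 ⟨by linarith, by linarith⟩
  obtain ⟨r1a, r1b⟩ := abs_le.1 (sf_af_tr_base_mul hx p2)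
  have hY1 : |Y1| ≤ m + 4 * (Λ * m) + 2 * Λ := abs_le.2 ⟨by linarith, by linarith⟩
  -- time shift
  obtain ⟨s1a, s1b⟩ := abs_le.1 (sf_af_tr_base_mul hτ hX)
  have hX2 : |X ^ 2| ≤ (m + 2) ^ 2 := by
    rw [abs_pow]
    exact pow_le_pow_left₀ (abs_nonneg _) hX 2
  obtain ⟨s2a, s2b⟩ := abs_le.1 (sf_af_tr_base_mul hτ hX2)
  have f1 : Λ * (m + 2) = Λ * m + 2 * Λ := by ring
  have f2 : Λ * (m + 2) ^ 2 = Λ * m ^ 2 + 4 * (Λ * m) + 4 * Λ := by ring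
  rw [f1] at s1a s1b
  rw [f2] at s2a s2b
  obtain ⟨B1a, B1b⟩ := abs_le.1 hB1
  obtain ⟨Y1a, Y1b⟩ := abs_le.1 hY1
  obtain ⟨Xa, Xb⟩ := abs_le.1 hX
  have hB2 : |B2| ≤ m + 4 * Λ + Λ * m := by
    rw [eB]
    exact abs_le.2 ⟨by linarith, by linarith⟩
  have hY2 : |Y2| ≤ m + 8 * (Λ * m) + 6 * Λ + Λ * m ^ 2 := by
    rw [eY]
    exact abs_le.2 ⟨by linarith, by linarith⟩
  obtain ⟨B2a, B2b⟩ := abs_le.1 hB2
  obtain ⟨Y2a, Y2b⟩ := abs_le.1 hY2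
  -- the second test
  have hx2 : |x2| ≤ m + 4 := abs_le.2 ⟨by linarith, by linarith⟩
  have hb2 : |b2| ≤ m + 6 * Λ + Λ * m := abs_le.2 ⟨by linarith, by linarith⟩
  obtain ⟨t1a, t1b⟩ := abs_le.1 (sf_af_tr_base_mul hx2 q2)
  have f3 : (m + 4) * (2 * Λ) = 2 * (Λ * m) + 8 * Λ := by ring
  rw [f3] at t1a t1b
  have hy2 : |y2| ≤ m + 12 * (Λ * m) + 24 * Λ + Λ * m ^ 2 := abs_le.2 ⟨by linarith, by linarith⟩
  refine ⟨by linarith, by linarith, by linarith, by linarith, by linarith, by linarith, by linarith, by linarith, by linarith, by linarith, by linarith⟩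

/-- LEAF AF-T1 (~250 l., real algebra only).   Base parts: bounds for the centre of ONE of the two tests give bounds for everything.   PLAN: from `Q`: `|X| ≤ m + 2`, `|B_{Q.T}| ≤ m + 2Λ`, `|Y_{Q.T}| ≤ m + 4 m Λ + 2Λ`; time shift `|B_t - B_t'| ≤ |t-t'| |X|`, `|Y_t - Y_t'| ≤ |t-t'| X²`,
`|Q.T - P.T| ≤ lP ≤ Λ`, `lQ ≤ lP`; then the centre of `P` from `bP`.   From `P`: symmetric.   `c = 100` is plenty. -/
theorem sf_af_tr_base : ∃ c : ℝ, 0 < c ∧ ∀ (P Q : SfTest) (z : SfRay) (lP lQ a2 aK a1 aA aS Λ m : ℝ), SfLk P Q z lP lQ a2 aK a1 aA aS →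
    1 ≤ Λ → 1 ≤ m → lP ≤ Λ → P.r ≤ 1 → Q.r ≤ 1 →
    ((|Q.x| ≤ m ∧ |Q.b| ≤ m ∧ |Q.y| ≤ m) ∨ (|P.x| ≤ m ∧ |P.b| ≤ m ∧ |P.y| ≤ m)) →
    |P.x| ≤ c * Λ ^ 2 * m ^ 2 ∧ |P.b| ≤ c * Λ ^ 2 * m ^ 2 ∧ |P.y| ≤ c * Λ ^ 2 * m ^ 2 ∧
    |Q.x| ≤ c * Λ ^ 2 * m ^ 2 ∧ |Q.b| ≤ c * Λ ^ 2 * m ^ 2 ∧ |Q.y| ≤ c * Λ ^ 2 * m ^ 2 ∧
    |z.X| ≤ c * Λ ^ 2 * m ^ 2 ∧ |z.Bt Q.T| ≤ c * Λ ^ 2 * m ^ 2 ∧ |z.Yt Q.T| ≤ c * Λ ^ 2 * m ^ 2 ∧
    |z.Bt P.T| ≤ c * Λ ^ 2 * m ^ 2 ∧ |z.Yt P.T| ≤ c * Λ ^ 2 * m ^ 2 := by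
  refine ⟨100, by norm_num, ?_⟩
  intro P Q z lP lQ a2 aK a1 aA aS Λ m h hΛ hm hlP hPr hQr hc
  obtain ⟨p1, p2, p3⟩ := h.bP
  obtain ⟨q1, q2, q3⟩ := h.bQ
  obtain ⟨t1, t2⟩ := h.tm
  have hlq := h.lq
  have hPr0 : 0 ≤ P.r := (abs_nonneg _).trans p1
  have hQr0 : 0 ≤ Q.r := by
    have := (abs_nonneg _).trans q1
    linarith
  have hlP0 : 0 ≤ lP := by linarith
  have hlQ : lQ ≤ Λ := by linarith
  have hΛ0 : 0 ≤ Λ := by linarith
  have hτ : |Q.T - P.T| ≤ Λ := abs_le.2 ⟨by linarith, by linarith⟩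
  have hτ' : |-(Q.T - P.T)| ≤ Λ := by rw [abs_neg]; exact hτ
  have P1 : |z.X - P.x| ≤ 2 := by linarith
  have P2 : |z.Bt P.T - P.b| ≤ 2 * Λ := by
    have : lP * P.r ≤ Λ * 1 := mul_le_mul hlP hPr hPr0 hΛ0
    linarith
  have P3 : |z.Yt P.T - P.y - 2 * P.x * (z.Bt P.T - P.b)| ≤ 2 * Λ := by
    have : lP * P.r ^ 2 ≤ Λ * 1 := mul_le_mul hlP (pow_le_one₀ hPr0 hPr) (by positivity) hΛ0
    linarith
  have Q1 : |z.X - Q.x| ≤ 2 := by linarith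
  have Q2 : |z.Bt Q.T - Q.b| ≤ 2 * Λ := by
    have : lQ * Q.r ≤ Λ * 1 := mul_le_mul hlQ hQr hQr0 hΛ0
    linarith
  have Q3 : |z.Yt Q.T - Q.y - 2 * Q.x * (z.Bt Q.T - Q.b)| ≤ 2 * Λ := by
    have : lQ * Q.r ^ 2 ≤ Λ * 1 := mul_le_mul hlQ (pow_le_one₀ hQr0 hQr) (by positivity) hΛ0
    linarith
  rcases hc with ⟨hx, hb, hy⟩ | ⟨hx, hb, hy⟩
  · obtain ⟨g1, g2, g3, g4, g5, g6, g7, g8, g9, g10, g11⟩ := sf_af_tr_base_gen Q.x Q.b Q.y P.x P.b P.y z.X (z.Bt Q.T) (z.Yt Q.T) (z.Bt P.T) (z.Yt P.T)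
      (-(Q.T - P.T)) Λ m hΛ hm hτ' (by simp only [SfRay.Bt]; ring) (by simp only [SfRay.Yt]; ring) Q1 Q2 Q3 P1 P2 P3 hx hb hy
    exact ⟨g4, g5, g6, g1, g2, g3, g7, g8, g9, g10, g11⟩
  · obtain ⟨g1, g2, g3, g4, g5, g6, g7, g8, g9, g10, g11⟩ := sf_af_tr_base_gen P.x P.b P.y Q.x Q.b Q.y z.X (z.Bt P.T) (z.Yt P.T) (z.Bt Q.T) (z.Yt Q.T)
      (Q.T - P.T) Λ m hΛ hm hτ (by simp only [SfRay.Bt]; ring) (by simp only [SfRay.Yt]; ring) P1 P2 P3 Q1 Q2 Q3 hx hb hy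
    exact ⟨g1, g2, g3, g4, g5, g6, g7, g10, g11, g8, g9⟩

/-- product of two bounds -/
theorem sf_af_tr_shear_mul {a b A B : ℝ} (h1 : |a| ≤ A) (h2 : |b| ≤ B) : |a * b| ≤ A * B := by
  rw [abs_mul]
  exact mul_le_mul h1 h2 (abs_nonneg _) ((abs_nonneg _).trans h1)

/-- LEAF AF-T2 (~150 l., real algebra only).   Shear parts.   PLAN: read both shears at the time `Q.T` (`sf_af_Pd_at`, `sf_af_shA_at`, `SfTest.shS`):
`(P.Pd - Q.Pd) z = (P.al - Q.al) + 2 (P.beAt Q.T - Q.be) X - 2 (P.K - Q.K) B_{Q.T}`,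
`(P.shA - Q.shA) z = (P.c - Q.c) + (P.al - Q.al) X + (P.beAt Q.T - Q.be) X² + (P.K - Q.K) (Y_{Q.T} - 2 X B_{Q.T})`,
`(P.shS Q.T - Q.shS Q.T) z = (P.d + (Q.T - P.T) P.c - Q.d) + (P.al - Q.al) B_{Q.T} + (P.beAt Q.T - Q.be) Y_{Q.T} - (P.K - Q.K) B_{Q.T}²`;   triangle inequality. -/
theorem sf_af_tr_shear (P Q : SfTest) (z : SfRay) (lP lQ a2 aK a1 aA aS Xh Bh Yh : ℝ) (h : SfLk P Q z lP lQ a2 aK a1 aA aS)
    (hX : |z.X| ≤ Xh) (hB : |z.Bt Q.T| ≤ Bh) (hY : |z.Yt Q.T| ≤ Yh) :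
    |P.be + (Q.T - P.T) * P.K - Q.be| ≤ a2 ∧
    |P.al - Q.al| ≤ a1 + 2 * a2 * Xh + 2 * aK * Bh ∧
    |P.c - Q.c| ≤ aA + (a1 + 2 * a2 * Xh + 2 * aK * Bh) * Xh + a2 * Xh ^ 2 + aK * (Yh + 2 * Xh * Bh) ∧
    |P.d + (Q.T - P.T) * P.c - Q.d| ≤ aS + (a1 + 2 * a2 * Xh + 2 * aK * Bh) * Bh + a2 * Yh + aK * Bh ^ 2 := by
  obtain ⟨db, hdb⟩ : ∃ db, db = P.be + (Q.T - P.T) * P.K - Q.be := ⟨_, rfl⟩
  obtain ⟨dK, hdK⟩ : ∃ dK, dK = P.K - Q.K := ⟨_, rfl⟩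
  obtain ⟨da, hda⟩ : ∃ da, da = P.al - Q.al := ⟨_, rfl⟩
  have b2 : |db| ≤ a2 := by
    have := h.c2
    rw [hdb]
    simpa only [SfTest.beAt] using this
  have bK : |dK| ≤ aK := by rw [hdK]; exact h.cK
  have e1 : da = (P.Pd z - Q.Pd z) - 2 * (db * z.X) + 2 * (dK * z.Bt Q.T) := by
    rw [sf_af_Pd_at P z Q.T, sf_af_Pd_at Q z Q.T, hda, hdb, hdK]
    simp only [SfTest.beAt]
    ring
  have m1 := sf_af_tr_shear_mul b2 hX
  have m2 := sf_af_tr_shear_mul bK hB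
  have ba : |da| ≤ a1 + 2 * a2 * Xh + 2 * aK * Bh := by
    obtain ⟨p1, p2⟩ := abs_le.1 h.c1
    obtain ⟨q1, q2⟩ := abs_le.1 m1
    obtain ⟨r1, r2⟩ := abs_le.1 m2
    rw [e1]
    exact abs_le.2 ⟨by linarith, by linarith⟩
  have hX2 : |z.X ^ 2| ≤ Xh ^ 2 := by
    rw [abs_pow]
    exact pow_le_pow_left₀ (abs_nonneg _) hX 2
  have hB2 : |z.Bt Q.T ^ 2| ≤ Bh ^ 2 := by
    rw [abs_pow]
    exact pow_le_pow_left₀ (abs_nonneg _) hB 2
  have hXB := sf_af_tr_shear_mul hX hB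
  have hYX : |z.Yt Q.T - 2 * z.X * z.Bt Q.T| ≤ Yh + 2 * Xh * Bh := by
    obtain ⟨p1, p2⟩ := abs_le.1 hY
    obtain ⟨q1, q2⟩ := abs_le.1 hXB
    exact abs_le.2 ⟨by linarith, by linarith⟩
  refine ⟨hdb ▸ b2, hda ▸ ba, ?_, ?_⟩
  · have e2 : P.c - Q.c = (P.shA z - Q.shA z) - da * z.X - db * z.X ^ 2 - dK * (z.Yt Q.T - 2 * z.X * z.Bt Q.T) := by
      rw [sf_af_shA_at P z Q.T, sf_af_shA_at Q z Q.T, hda, hdb, hdK]
      simp only [SfTest.beAt]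
      ring
    obtain ⟨p1, p2⟩ := abs_le.1 h.cA
    obtain ⟨q1, q2⟩ := abs_le.1 (sf_af_tr_shear_mul ba hX)
    obtain ⟨r1, r2⟩ := abs_le.1 (sf_af_tr_shear_mul b2 hX2)
    obtain ⟨s1, s2⟩ := abs_le.1 (sf_af_tr_shear_mul bK hYX)
    rw [e2]
    exact abs_le.2 ⟨by linarith, by linarith⟩
  · have e3 : P.d + (Q.T - P.T) * P.c - Q.d = (P.shS Q.T z - Q.shS Q.T z) - da * z.Bt Q.T - db * z.Yt Q.T + dK * z.Bt Q.T ^ 2 := by
      rw [hda, hdb, hdK]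
      simp only [SfTest.shS, SfTest.beAt]
      ring
    obtain ⟨p1, p2⟩ := abs_le.1 h.cS
    obtain ⟨q1, q2⟩ := abs_le.1 (sf_af_tr_shear_mul ba hB)
    obtain ⟨r1, r2⟩ := abs_le.1 (sf_af_tr_shear_mul b2 hY)
    obtain ⟨s1, s2⟩ := abs_le.1 (sf_af_tr_shear_mul bK hB2)
    rw [e3]
    exact abs_le.2 ⟨by linarith, by linarith⟩

end Claimed.Agent.R256
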