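import Claimed.Agent.R256.Soft.AfTAff

/-!
# Row 256 (S0496), unit SOFT, A7 AF, block AF-TR, file 3: THE PATTERN LEVEL EXIT      (co-architect helper149)      prefix `sf_at_`      no sorry in this file

`sf_at_op` = the same as an operation `K.Op` (with `K.Rst c' c`).      `sf_at_exit`:   `∀ t > 0, ∃ e0 > 0, ∀ G0` (`0 ∈ G0`, `e0`-fine) `∀ R` (a predicate on families which fixes `c2` and the linear relation) `∃ a > 0, ∀ C0`,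
   `SfEx (G = G0 ∧ Gd C0 a c ∧ ∃ π', R π' ∧ Cost π' e0 ∧ Wd π'.J π'.q e0)  ⟹  SfEx (G = G0 ∧ Gd C0 t c ∧ ∃ π', R π' ∧ AffP π' t)`.
The tolerance `e0` of the terminal costs and of the widths is chosen BEFORE the mesh; only the accuracy `a` of `Gd` depends on the mesh (it is the target accuracy `t'` of GE).   The support constant `C0` is kept (RES keeps it).
The family `π'` may depend on the configuration (`R := (· = π0)` gives the version with a fixed family).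
PIPELINE:  CLEAN `RowB (c2 + e0)` → CLEAN `RowK (c2 + e0)` (`sf_ab_clean`, helper55) → `Fm` at small scales → `sf_at_aff`.
-/

set_option autoImplicit false

namespace Claimed.Agent.R256

open Claimed.Agent.R255

section

variable (K : SfCls) (π : SfPar) (Ls : ℝ)

/-- the terminal curvature from `Cost`, at a worse tolerance -/
theorem sf_at_cost_cv (D : SfDoc) (π π' : SfPar) (C0 a e : ℝ) (ha : 0 ≤ a) (h : D.Core π C0 a) (hC : D.Cost π' e) (ρ : D.Row 1) :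
    D.cv ⟨1, ρ⟩ ≤ D.s ^ (-((π'.c2 + e) + a)) := by
  rw [← (sf_ab_cost D π C0 a h ρ).1]
  exact (hC ρ).1.trans (sf_mono_aux_le h.hs (by linarith))

/-- **EXIT of AF-TR, as an operation** -/
theorem sf_at_op (hπ : π.Pd) (hK : K.Cal π Ls) (c2 : ℝ) (h2 : 0 ≤ c2) (t : ℝ) (ht : 0 < t) :
    ∃ e0 : ℝ, 0 < e0 ∧ ∀ G0 : Finset ℝ, (0 : ℝ) ∈ G0 → (∀ i ∈ G0, i < 1 → ∃ j ∈ G0, i < j ∧ j ≤ i + e0) →
      ∃ a : ℝ, 0 < a ∧ ∀ C0 : ℝ,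
        K.Op (fun c' c => K.Rst c' c ∧ (K.doc c').G = G0 ∧ K.Gd π Ls C0 t c' ∧
            ∀ π' : SfPar, π'.c2 = c2 → (c2 = 0 → π'.q = π'.c1 + π'.J ∧ 0 ≤ π'.c1) → (K.doc c).Cost π' e0 → (K.doc c).Wd π'.J π'.q e0 → (K.doc c').AffP π' t)
          (fun c => (K.doc c).G = G0 ∧ K.Gd π Ls C0 a c ∧ ∃ π' : SfPar, π'.c2 = c2 ∧ (K.doc c).Cost π' e0) := by
  obtain ⟨eF, heF, HF⟩ := sf_at_aff Ls c2 t h2 ht
  obtain ⟨eK, heK, HK⟩ := sf_ab_K_ne Ls eF heF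
  have htB : 0 < min eF eK := lt_min heF heK
  obtain ⟨eB, heB, HB⟩ := sf_ab_B_ne Ls (min eF eK) htB
  have he0 : 0 < min eF (min eK eB) := lt_min heF (lt_min heK heB)
  refine ⟨min eF (min eK eB), he0, fun G0 h0G hfine => ?_⟩
  generalize hdef : min eF (min eK eB) = e0 at he0 hfine
  have b1 : e0 ≤ eF := hdef ▸ min_le_left _ _
  have b2 : e0 ≤ eK := hdef ▸ (min_le_right _ _).trans (min_le_left _ _)
  have b3 : e0 ≤ eB := hdef ▸ (min_le_right _ _).trans (min_le_right _ _)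
  by_cases hG0 : ∀ i ∈ G0, 0 ≤ i
  swap
  · exact ⟨1, one_pos, fun C0 => sf_ab_op_false K (fun c hc => hG0 (fun i hi => (hc.2.1.1.1.gate.2 i (hc.1 ▸ hi)).1))⟩
  obtain ⟨h, hh, hgap⟩ := sf_sh_gap G0 hG0
  have hd0 : 0 < π.d := hπ.2.2.2.2.1
  have has : 0 < min t (min e0 (π.d * h / 8)) := lt_min ht (lt_min he0 (by positivity))
  generalize hasdef : min t (min e0 (π.d * h / 8)) = as at has
  have hast : as ≤ t := hasdef ▸ min_le_left _ _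
  have hase : as ≤ e0 := hasdef ▸ (min_le_right _ _).trans (min_le_left _ _)
  have hasd : 8 * as ≤ π.d * h := by
    have : as ≤ π.d * h / 8 := hasdef ▸ (min_le_right _ _).trans (min_le_right _ _)
    linarith
  have hFm := sf_ab_fm_all K π Ls hK G0 h0G e0 h as has hh hfine hgap hasd
  -- inheritance
  have inhC : ∀ c' c : K.Cfg, K.Rst c' c → (K.doc c).G = G0 → (1 : ℝ) ∈ G0 → ∀ π' : SfPar, (K.doc c).Cost π' e0 → (K.doc c).Wd π'.J π'.q e0 →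
      (K.doc c').Cost π' e0 ∧ (K.doc c').Wd π'.J π'.q e0 := by
    rintro c' c ⟨e, he, -, -⟩ hG h1 π' hC hW
    exact ⟨sf_ab_eqv_cost he (hG ▸ h1) π' e0 hC, sf_at_eqv_wd he _ _ _ hW⟩
  have inh1 : ∀ c' c : K.Cfg, K.Rst c' c → ((K.doc c).G = G0 ∧ (1 : ℝ) ∈ G0 ∧ ∃ π' : SfPar, π'.c2 = c2 ∧ (K.doc c).Cost π' e0) →
      ((K.doc c').G = G0 ∧ (1 : ℝ) ∈ G0 ∧ ∃ π' : SfPar, π'.c2 = c2 ∧ (K.doc c').Cost π' e0) := by
    rintro c' c ⟨e, he, -, -⟩ ⟨hG, h1, π', hRπ, hC⟩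
    exact ⟨he.hG.trans hG, h1, π', hRπ, sf_ab_eqv_cost he (hG ▸ h1) π' e0 hC⟩
  have inh2 : ∀ c' c : K.Cfg, K.Rst c' c → (K.doc c).G = G0 → (∀ u : (K.doc c).Rw, u.1 ∈ G0 → (K.doc c).RowB (c2 + e0) (min eF eK) u) →
      ∀ u : (K.doc c').Rw, u.1 ∈ G0 → (K.doc c').RowB (c2 + e0) (min eF eK) u := by
    rintro c' c ⟨e, he, -, -⟩ hG hΨ u hu
    exact (sf_ab_eqv_rowB he _ _ u (hG ▸ hu)).2 (hΨ (e u) (by rw [he.dep u]; exact hu))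
  -- second cleaning
  obtain ⟨a2, ha2, C2⟩ := sf_ab_clean K π Ls hK G0 h hh hgap (fun D u => D.RowK (c2 + e0) eF u)
    (fun c => ((K.doc c).G = G0 ∧ (1 : ℝ) ∈ G0 ∧ ∃ π' : SfPar, π'.c2 = c2 ∧ (K.doc c).Cost π' e0) ∧
      ∀ u : (K.doc c).Rw, u.1 ∈ G0 → (K.doc c).RowB (c2 + e0) (min eF eK) u)
    (fun D' D e he u hu => sf_ab_eqv_rowK he _ _ u hu)
    (fun c' c hr hΨ => ⟨inh1 c' c hr hΨ.1, inh2 c' c hr hΨ.1.1 hΨ.2⟩)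
    as has (fun C0 => sf_all_mono (fun c hc hG hg hΨ i hi =>
      HK _ π C0 as e0 h (c2 + e0) _ (hc hG hg) (hase.trans b2) b2 (min_le_right _ _) (fun ρ => hΨ.2 ⟨0, ρ⟩ h0G) i (hG ▸ hi)) (hFm C0)) as has
  -- first cleaning
  obtain ⟨a3, ha3, C1⟩ := sf_ab_clean K π Ls hK G0 h hh hgap (fun D u => D.RowB (c2 + e0) (min eF eK) u)
    (fun c => (K.doc c).G = G0 ∧ (1 : ℝ) ∈ G0 ∧ ∃ π' : SfPar, π'.c2 = c2 ∧ (K.doc c).Cost π' e0)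
    (fun D' D e he u hu => sf_ab_eqv_rowB he _ _ u hu) inh1
    as has (fun C0 => sf_all_mono (fun c hc hG hg hΨ i hi => by
      obtain ⟨-, -, π', hRπ, hC⟩ := hΨ
      refine HB _ π C0 as e0 h (c2 + e0) (hc hG hg) (hase.trans b3) b3 (by linarith) (fun ρ => ?_) i (hG ▸ hi)
      have := sf_at_cost_cv _ π π' C0 as e0 has.le hg.1.1 hC ρ
      rwa [hRπ] at this) (hFm C0)) a2 ha2
  refine ⟨a3, ha3, fun C0 => ?_⟩
  refine sf_ab_op_mono K (A := fun c => (K.doc c).G = G0 ∧ K.Gd π Ls C0 a3 c ∧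
      ((K.doc c).G = G0 ∧ (1 : ℝ) ∈ G0 ∧ ∃ π' : SfPar, π'.c2 = c2 ∧ (K.doc c).Cost π' e0))
    (fun c hc => ⟨hc.1, hc.2.1, hc.1, hc.1 ▸ hc.2.1.1.1.gate.1, hc.2.2⟩) (fun c'' c hc hR' => ?_)
    (sf_ab_op_out_all K (sf_ab_op_comp K (C1 C0) (C2 C0) (fun c' c hc hR' => ?_)) (hFm C0))
  · obtain ⟨⟨c', ⟨g1, g2, g3⟩, k1, -, k3⟩, hfm⟩ := hR'
    have h1G : (1 : ℝ) ∈ G0 := hc.1 ▸ hc.2.1.1.1.gate.1
    have h1 := inh1 c' c k1 ⟨hc.1, h1G, hc.2.2⟩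
    have h2' := inh1 c'' c' g1 h1
    have hB := inh2 c'' c' g1 h1.1 k3
    refine ⟨sf_ab_rst_trans K g1 k1, h2'.1, sf_gd_mono K π Ls hK.md_mono C0 _ _ has hast c'' g2, fun π' hR1 hR2 hC hW => ?_⟩
    obtain ⟨hC1, hW1⟩ := inhC c' c k1 hc.1 h1G π' hC hW
    obtain ⟨hC2, hW2⟩ := inhC c'' c' g1 h1.1 h1G π' hC1 hW1
    exact HF _ π π' C0 as e0 h e0 _ _ (hfm h2'.1 g2) (hase.trans b1) b1 he0.le b1 (min_le_left _ _) le_rfl hR1 hR2 hW2 hC2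
      (fun u hu => hB u (h2'.1 ▸ hu)) (fun u hu => g3 u (h2'.1 ▸ hu))
  · obtain ⟨k1, k2, k3⟩ := hR'
    have h1 := inh1 c' c k1 hc.2.2
    exact ⟨h1.1, k2, h1, k3⟩

/-- **EXIT of AF-TR, EXIST pattern** -/
theorem sf_at_exit (hπ : π.Pd) (hK : K.Cal π Ls) (c2 : ℝ) (h2 : 0 ≤ c2) (t : ℝ) (ht : 0 < t) :
    ∃ e0 : ℝ, 0 < e0 ∧ ∀ G0 : Finset ℝ, (0 : ℝ) ∈ G0 → (∀ i ∈ G0, i < 1 → ∃ j ∈ G0, i < j ∧ j ≤ i + e0) →
      ∀ R : SfPar → Prop, (∀ π', R π' → π'.c2 = c2 ∧ (c2 = 0 → π'.q = π'.c1 + π'.J ∧ 0 ≤ π'.c1)) →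
      ∃ a : ℝ, 0 < a ∧ ∀ C0 : ℝ,
        SfEx K.ob K.sc (fun c => (K.doc c).G = G0 ∧ K.Gd π Ls C0 a c ∧ ∃ π', R π' ∧ (K.doc c).Cost π' e0 ∧ (K.doc c).Wd π'.J π'.q e0) →
        SfEx K.ob K.sc (fun c => (K.doc c).G = G0 ∧ K.Gd π Ls C0 t c ∧ ∃ π', R π' ∧ (K.doc c).AffP π' t) := by
  obtain ⟨e0, he0, H⟩ := sf_at_op K π Ls hπ hK c2 h2 t ht
  refine ⟨e0, he0, fun G0 h0G hfine R hR => ?_⟩
  obtain ⟨a, ha, H⟩ := H G0 h0G hfine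
  refine ⟨a, ha, fun C0 hex => sf_ex_mono ?_ (sf_ab_ex_op K hex (sf_ab_op_mono K ?_ (fun _ _ _ h => h) (H C0)))⟩
  · rintro c' ⟨c, ⟨-, -, π', hRπ, hC, hW⟩, -, hG, hg, hA⟩
    exact ⟨hG, hg, π', hRπ, hA π' (hR π' hRπ).1 (hR π' hRπ).2 hC hW⟩
  · rintro c ⟨hG, hg, π', hRπ, hC, -⟩
    exact ⟨hG, hg, π', (hR π' hRπ).1, hC⟩

end

end Claimed.Agent.R256
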