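import Claimed.Agent.R256.Soft.AfTKit

/-!
# Row 256 (S0496), unit SOFT, A7 AF, block AF-TR, file 4: THE WIDTHS OF THE EXTRACTED PIECE      (co-architect helper149)      prefix `sf_at_`      no sorry in this file

`sf_at_wd`:   `D'.Sub D A B φ Gk t' em` + `φ.L = len A` + `D.Wn A B J q e`  ⟹  `D'.Wd J q e'`   as soon as   `3 e + 2 a (Λ + e' + t') + (B - A) t' ≤ (B - A) e'`   (`|J|, |q - 2 J| ≤ Λ`; `a` = accuracy of the outer `Core`).
`sf_at_sc`:   `D'.s = s^((B - A) ± 2 a)`;   `sf_at_aux_pw`: conversion of the powers of the two scales.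
-/

set_option autoImplicit false

namespace Claimed.Agent.R256

open Claimed.Agent.R255

/-- conversion of powers: `s' = s^(h ± b)` -/
theorem sf_at_aux_pw {s s' h b : ℝ} (hs : 0 < s ∧ s < 1) (h1 : s ^ (h + b) ≤ s') (h2 : s' ≤ s ^ (h - b)) (x : ℝ) :
    s ^ (h * x + b * |x|) ≤ s' ^ x ∧ s' ^ x ≤ s ^ (h * x - b * |x|) := by
  have hp : ∀ y : ℝ, 0 < s ^ y := fun y => Real.rpow_pos_of_pos hs.1 y
  have hs' : 0 < s' := lt_of_lt_of_le (hp _) h1
  rcases le_total 0 x with hx | hx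
  · rw [abs_of_nonneg hx]
    constructor
    · have := Real.rpow_le_rpow (hp _).le h1 hx
      rw [← Real.rpow_mul hs.1.le] at this
      refine le_trans (le_of_eq ?_) this
      congr 1; ring
    · have := Real.rpow_le_rpow hs'.le h2 hx
      rw [← Real.rpow_mul hs.1.le] at this
      refine le_trans this (le_of_eq ?_)
      congr 1; ring
  · rw [abs_of_nonpos hx]
    constructor
    · have := Real.rpow_le_rpow_of_nonpos hs' h2 hx
      rw [← Real.rpow_mul hs.1.le] at this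
      refine le_trans (le_of_eq ?_) this
      congr 1; ring
    · have := Real.rpow_le_rpow_of_nonpos (hp _) h1 hx
      rw [← Real.rpow_mul hs.1.le] at this
      refine le_trans this (le_of_eq ?_)
      congr 1; ring

/-- the scale of the extracted piece -/
theorem sf_at_sc (D' D : SfDoc) (π : SfPar) (C0 a : ℝ) (hco : D.Core π C0 a) (A B t' : ℝ) (hA : A ∈ D.G) (hB : B ∈ D.G) (φ : SfFrame) (Gk : Finset ℝ)
    (em : D'.Rw → D.Rw) (hsub : D'.Sub D A B φ Gk t' em) (hL : φ.L = D.len A) :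
    D.s ^ ((B - A) + 2 * a) ≤ D'.s ∧ D'.s ≤ D.s ^ ((B - A) - 2 * a) := by
  have hs := hco.hs
  have hp : ∀ y : ℝ, 0 < D.s ^ y := fun y => Real.rpow_pos_of_pos hs.1 y
  have hlA : 0 < D.len A := lt_of_lt_of_le (hp _) (hco.hlen.2 A hA).1
  obtain ⟨l1, l2⟩ := sf_ab_len D π C0 a hco A B hA hB
  rw [hsub.hs, hL]
  constructor
  · rw [le_div_iff₀ hlA]
    linarith
  · rw [div_le_iff₀ hlA]
    linarith

/-- **the widths of the extracted piece** -/
theorem sf_at_wd (D' D : SfDoc) (π : SfPar) (C0 a : ℝ) (hco : D.Core π C0 a) (ha : 0 ≤ a) (A B J q e t' : ℝ) (φ : SfFrame) (Gk : Finset ℝ)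
    (em : D'.Rw → D.Rw) (hsub : D'.Sub D A B φ Gk t' em) (hL : φ.L = D.len A) (hW : D.Wn A B J q e) (hG' : ∀ k' ∈ D'.G, 0 ≤ k' ∧ k' ≤ 1)
    (Λ e' : ℝ) (hJ : |J| ≤ Λ) (hq : |q - 2 * J| ≤ Λ) (he : 0 ≤ e) (ht' : 0 ≤ t') (he' : 0 ≤ e')
    (hsm : 3 * e + 2 * a * (Λ + e' + t') + (B - A) * t' ≤ (B - A) * e') : D'.Wd J q e' := by
  have hs := hco.hs
  have hp : ∀ y : ℝ, 0 < D.s ^ y := fun y => Real.rpow_pos_of_pos hs.1 y
  have hh : 0 < B - A := by linarith [hW.hAB]
  obtain ⟨s1, s2⟩ := sf_at_sc D' D π C0 a hco A B t' hW.gA hW.gB φ Gk em hsub hL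
  have hs' : 0 < D'.s := lt_of_lt_of_le (hp _) s1
  have pw := fun x => sf_at_aux_pw hs s1 s2 x
  have hΛ : 0 ≤ Λ := (abs_nonneg _).trans hJ
  -- the gate of `D` below a gate of `D'`
  have hk : ∀ k' ∈ D'.G, A + k' * (B - A) ∈ D.G ∧ A ≤ A + k' * (B - A) ∧ A + k' * (B - A) ≤ B := fun k' hk' => by
    obtain ⟨g0, g1⟩ := hG' k' hk'
    refine ⟨hsub.gate k' hk', ?_, ?_⟩ <;> nlinarith
  have habs : ∀ (m k' : ℝ), 0 ≤ k' → k' ≤ 1 → |m| ≤ Λ → |m * (1 - k')| ≤ Λ := fun m k' g0 g1 hm => by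
    rw [abs_mul, abs_of_nonneg (by linarith : 0 ≤ 1 - k')]
    nlinarith [abs_nonneg m]
  refine ⟨fun k' hk' => ?_, fun k' hk' => ?_⟩
  · obtain ⟨gk, gA, gB⟩ := hk k' hk'
    obtain ⟨g0, g1⟩ := hG' k' hk'
    obtain ⟨w1, w2⟩ := hW.wr _ gk gA gB
    rw [hsub.hr k' hk']
    have hx := habs J k' g0 g1 hJ
    constructor
    · refine (pw _).2.trans ((sf_mono_aux_le hs ?_).trans w1)
      have h1 : |J * (1 - k') + e'| ≤ Λ + e' := (abs_add_le _ _).trans (by rw [abs_of_nonneg he']; linarith)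
      have h2 : 2 * a * |J * (1 - k') + e'| ≤ 2 * a * (Λ + e' + t') := mul_le_mul_of_nonneg_left (by linarith) (by linarith)
      have h3 : 0 ≤ (B - A) * t' := by positivity
      nlinarith
    · refine w2.trans ((sf_mono_aux_le hs ?_).trans (pw _).1)
      have h1 : |J * (1 - k') - e'| ≤ Λ + e' := (abs_sub _ _).trans (by rw [abs_of_nonneg he']; linarith)
      have h2 : 2 * a * |J * (1 - k') - e'| ≤ 2 * a * (Λ + e' + t') := mul_le_mul_of_nonneg_left (by linarith) (by linarith)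
      have h3 : 0 ≤ (B - A) * t' := by positivity
      nlinarith
  · obtain ⟨gk, gA, gB⟩ := hk k' hk'
    obtain ⟨g0, g1⟩ := hG' k' hk'
    obtain ⟨w1, w2⟩ := hW.wr _ gk gA gB
    obtain ⟨v1, v2⟩ := hW.w2 _ gk gA gB
    obtain ⟨f1, f2, -⟩ := hsub.hf k' hk'
    obtain ⟨k, hkdef⟩ : ∃ k, k = A + k' * (B - A) := ⟨_, rfl⟩
    rw [← hkdef] at gk gA gB w1 w2 v1 v2 f1 f2
    have hrk := (hco.hw.2.2 k gk).1
    have hfk := (hco.hw.2.2 k gk).2
    have hrB := (hco.hw.2.2 B hW.gB).1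
    have hfB := (hco.hw.2.2 B hW.gB).2
    have eF : D.f k / D.f B = (D.w2 k / D.w2 B) * (D.r k / D.r B) ^ 2 := by
      unfold SfDoc.w2
      field_simp
    have sq : ∀ y : ℝ, (D.s ^ y) ^ 2 = D.s ^ (2 * y) := fun y => by
      rw [← Real.rpow_natCast, ← Real.rpow_mul hs.1.le]; congr 1; push_cast; ring
    have hrr : 0 < D.r k / D.r B := div_pos hrk hrB
    have F1 : D.s ^ ((q - 2 * J) * (k - B) + 3 * e) ≤ D.f k / D.f B := by
      rw [eF]
      have h1 : D.s ^ (2 * (J * (B - k) + e)) ≤ (D.r k / D.r B) ^ 2 := by rw [← sq]; exact pow_le_pow_left₀ (hp _).le w1 2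
      refine le_trans (le_of_eq ?_) (mul_le_mul v1 h1 (hp _).le ((hp _).le.trans v1))
      rw [← Real.rpow_add hs.1]; congr 1; ring
    have F2 : D.f k / D.f B ≤ D.s ^ ((q - 2 * J) * (k - B) - 3 * e) := by
      rw [eF]
      have h1 : (D.r k / D.r B) ^ 2 ≤ D.s ^ (2 * (J * (B - k) - e)) := by rw [← sq]; exact pow_le_pow_left₀ hrr.le w2 2
      refine le_trans (mul_le_mul v2 h1 (by positivity) (hp _).le) (le_of_eq ?_)
      rw [← Real.rpow_add hs.1]; congr 1; ring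
    have hkB : k - B = (k' - 1) * (B - A) := by rw [hkdef]; ring
    have hx : |(q - 2 * J) * (k' - 1)| ≤ Λ := by
      have := habs (q - 2 * J) k' g0 g1 hq
      rwa [show (q - 2 * J) * (1 - k') = -((q - 2 * J) * (k' - 1)) by ring, abs_neg] at this
    constructor
    · refine ((pw _).2.trans ((sf_mono_aux_le hs ?_).trans F1)).trans f1
      have h1 : |(q - 2 * J) * (k' - 1) + e'| ≤ Λ + e' := (abs_add_le _ _).trans (by rw [abs_of_nonneg he']; linarith)
      have h2 : 2 * a * |(q - 2 * J) * (k' - 1) + e'| ≤ 2 * a * (Λ + e' + t') := mul_le_mul_of_nonneg_left (by linarith) (by linarith)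
      have h3 : 0 ≤ (B - A) * t' := by positivity
      rw [hkB]
      nlinarith
    · have hp' : ∀ y : ℝ, 0 < D'.s ^ y := fun y => Real.rpow_pos_of_pos hs' y
      have h0 : D.s ^ ((q - 2 * J) * (k - B) - 3 * e) ≤ D'.s ^ ((q - 2 * J) * (k' - 1) - e' + t') := by
        refine (sf_mono_aux_le hs ?_).trans (pw _).1
        have h1 : |(q - 2 * J) * (k' - 1) - e' + t'| ≤ Λ + e' + t' := by
          refine (abs_add_le _ _).trans ?_
          rw [abs_of_nonneg ht']
          have := (abs_sub ((q - 2 * J) * (k' - 1)) e')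
          rw [abs_of_nonneg he'] at this
          linarith
        have h2 : 2 * a * |(q - 2 * J) * (k' - 1) - e' + t'| ≤ 2 * a * (Λ + e' + t') := mul_le_mul_of_nonneg_left h1 (by linarith)
        rw [hkB]
        nlinarith
      refine f2.trans ((mul_le_mul_of_nonneg_left (F2.trans h0) (hp' _).le).trans (le_of_eq ?_))
      rw [← Real.rpow_add hs']; congr 1; ring

end Claimed.Agent.R256
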