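import Claimed.Agent.R256.Soft.AfDefs
import Claimed.Agent.R256.Soft.AfWContract
import Claimed.Agent.R256.Soft.AOut
import Claimed.Agent.R256.Soft.AfTExit
import Claimed.Agent.R256.Soft.AfTSub

/-!
# Row 256 (S0496), unit SOFT, A7 AF, file 6: ASSEMBLY      (architect helper10; P1 helper17, P2 helper229, P3 helper149)

`sf_af_main` = Prop. cyl:affine in the form `F ⊆ G`, from
* `sf_sh_out` (helper55): outer configurations `Out π0 t1` on a GIVEN mesh, accuracy chosen after the mesh;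
* `sf_aw_win` (helper17): a dyadic window `[A,B] ⊆ [1/2,1]` of a level `κ ≤ N` with slopes `(J,q)`, `Sl`, `Wn A B J q (ε (B-A))`;
* **X2** `sf_af_h_x2` (`Soft/AfHyp.lean`, P2, helper229), DOC LEVEL: the cover of the window by bins of END rows: `GeHyp` with UNIFORM `C1` at ANY relative accuracy `aG` (bins WIDENED by `s^(-C e)`: overlaps `O(1)`), and terminal `Cost π0 (Cc e / (B-A))` of every extracted piece;
* GE (`Cal.ge`) with `Gk` = ALL gates of the window;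
* **X3b** `sf_af_x3b`, DOC LEVEL: `Sub` + `Wn` ⟹ affine widths `Aw J q e0` of the piece;
* **X3** `sf_af_x3` (P3, helper149): an OPERATION on the piece: CLEAN (`RowB`, `RowK`, `RowP` at the cost `c2 + e0`) + (A) ⟹ `AffP`;
* `sf_aw_cmp` (helper17): compactness in `(J,q)`.
ORDER OF CONSTANTS:  `C1, Cc` | target `(F, t)` | `e0` (X3) | `ε` (X3b, `Cc ε ≤ e0`) | `N, t0` (WIN) | `t1 ≤ ε 2^-N` | `μ` (OUT) | mesh `M` ⊇ dyadic level, images of `F` in ALL windows | per window: `G0`, `a3` (X3), `t' = min a3 a1`, `aG` (GE) |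
 `a_out = min` over the finitely many windows | `C0_out` | pigeonhole on the window (`sf_ex_finset`) | `N_f, s1` (X2) | GE | X3.
`hfin` = `Cal.fin` (asked from helper19): base errors `≤ s^N` at small scales.
-/

set_option autoImplicit false

namespace Claimed.Agent.R256

open Claimed.Agent.R255

namespace SfDoc

/-- affine widths on `[0,1]` up to `s^(± e)` -/
structure Aw (D : SfDoc) (J q e : ℝ) : Prop where
  hr : ∀ i ∈ D.G, D.s ^ (J * (1 - i) + e) ≤ D.r i ∧ D.r i ≤ D.s ^ (J * (1 - i) - e)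
  hf : ∀ i ∈ D.G, D.s ^ ((q - 2 * J) * (i - 1) + e) ≤ D.f i ∧ D.f i ≤ D.s ^ ((q - 2 * J) * (i - 1) - e)

/-- ALL gates of the window -/
noncomputable def afGk (D : SfDoc) (A B : ℝ) : Finset ℝ := D.G.filter (fun k => A ≤ k ∧ k ≤ B)

end SfDoc

theorem sf_af_main_eqns_cite : True := by
  have := @SfDoc.afGk.eq_1
  trivial

/-! ## the exits of P2, P3 -/

/-- **X3b** (leaf L-256-AF-X3B, ~200 l.).   DOC LEVEL.   `h = B - A`, `D'.s = len B / len A ∈ [s^(h + 2a), s^(h - 2a)]` (`Core.hlen`, `Sub.hs`), so `D'.s^x ≤ s^(h x - 2 a |x|)`, `s^(h x + 2 a |x|) ≤ D'.s^x`.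
`k = A + k' h`:  `D'.r k' = r_k / r_B ∈ s^(h J (1-k') ± e)` (`Wn.wr`);   `f_k / f_B = (w2_k / w2_B) (r_k / r_B)² ∈ s^(h (q - 2J)(k'-1) ± 3e)`;  at `k' = 0` a further factor `D'.s^(-t')`.
Choice: `ε = e0 / 12`, `a1 = min (e0 / 4) (e0 / (8 (3 L + e0 + 1)))`. -/
theorem sf_af_x3b (L e0 : ℝ) (he0 : 0 < e0) : ∃ ε a1 : ℝ, 0 < ε ∧ 0 < a1 ∧
    ∀ (D D' : SfDoc) (π : SfPar) (Ls C0 a A B J q e t' : ℝ) (φ : SfFrame) (Gk : Finset ℝ) (em : D'.Rw → D.Rw),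
      D.Good π Ls C0 a → 0 < a → a ≤ a1 * (B - A) → D.Wn A B J q e → e ≤ ε * (B - A) → 0 ≤ J → J ≤ L → |q| ≤ L → 0 ≤ t' → t' ≤ a1 →
      φ.L = D.len A → D'.Sub D A B φ Gk t' em → (∀ k' ∈ D'.G, 0 ≤ k' ∧ k' ≤ 1) → D'.Aw J q e0 := by
  have hL := abs_nonneg L
  have hden : 0 < 8 * (3 * |L| + e0 + 1) := by positivity
  have ha1 : 0 < min (e0 / 4) (min 1 (e0 / (8 * (3 * |L| + e0 + 1)))) := lt_min (by positivity) (lt_min one_pos (by positivity))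
  refine ⟨e0 / 12, _, by positivity, ha1, fun D D' π Ls C0 a A B J q e t' φ Gk em hg ha haa hW hee hJ0 hJL hqL ht0 ht1 hφ hsub hG' => ?_⟩
  generalize hdef : min (e0 / 4) (min 1 (e0 / (8 * (3 * |L| + e0 + 1)))) = a1 at ha1 haa ht1
  have b1 : a1 ≤ e0 / 4 := hdef ▸ min_le_left _ _
  have b2 : a1 ≤ 1 := hdef ▸ (min_le_right _ _).trans (min_le_left _ _)
  have b3 : a1 ≤ e0 / (8 * (3 * |L| + e0 + 1)) := hdef ▸ (min_le_right _ _).trans (min_le_right _ _)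
  have b4 : a1 * (8 * (3 * |L| + e0 + 1)) ≤ e0 := (le_div_iff₀ hden).1 b3
  have hs := hg.1.hs
  have hh : 0 < B - A := by linarith [hW.hAB]
  have hLL : L ≤ |L| := le_abs_self L
  -- the tolerance of a window is nonnegative
  have he : 0 ≤ e := by
    have h1 := (hW.wr B hW.gB hW.hAB.le le_rfl).1
    have hrB := (hg.1.hw.2.2 B hW.gB).1
    rw [div_self hrB.ne', sub_self, mul_zero, zero_add] at h1
    by_contra hneg
    have h2 : (1 : ℝ) < D.s ^ e := Real.one_lt_rpow_of_pos_of_lt_one_of_neg hs.1 hs.2 (not_le.1 hneg)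
    linarith
  have hW' := sf_at_wd D' D π C0 a hg.1 ha.le A B J q e t' φ Gk em hsub hφ hW hG' (3 * |L|) e0
    (by rw [abs_of_nonneg hJ0]; linarith)
    (by
      have h1 := abs_sub q (2 * J)
      rw [abs_mul, abs_of_nonneg hJ0, abs_of_pos (by norm_num : (0 : ℝ) < 2)] at h1
      linarith) he ht0 he0.le ?_
  · exact ⟨hW'.hr, hW'.hf⟩
  · have c1 : 3 * e ≤ (B - A) * (e0 / 4) := by nlinarith
    have c2 : 2 * a * (3 * |L| + e0 + t') ≤ (B - A) * (e0 / 4) := by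
      have h1 : 3 * |L| + e0 + t' ≤ 3 * |L| + e0 + 1 := by linarith
      have h2 : 2 * a * (3 * |L| + e0 + t') ≤ 2 * (a1 * (B - A)) * (3 * |L| + e0 + 1) :=
        mul_le_mul (by linarith) h1 (by positivity) (by positivity)
      nlinarith
    have c3 : (B - A) * t' ≤ (B - A) * (e0 / 4) := mul_le_mul_of_nonneg_left (by linarith) hh.le
    nlinarith

/-- **X3** (P3 OUT; OWNER helper149).   An OPERATION on the extracted piece.   `e0` (cost and width tolerance, fineness of the mesh) is chosen BEFORE the mesh; only the accuracy `a3` depends on the mesh. -/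
theorem sf_af_x3 (K : SfCls) (π : SfPar) (Ls : ℝ) (hπ : π.Pd) (hK : K.Cal π Ls) (π0 : SfPar) (hs : π0.Same π)
    (hpos : 0 < π0.c2 ∨ (π0.c2 = 0 ∧ 0 < π0.c1)) (L t : ℝ) (ht : 0 < t) :
    ∃ e0 : ℝ, 0 < e0 ∧ ∀ G0 : Finset ℝ, (∀ i ∈ G0, 0 ≤ i ∧ i ≤ 1) → (0 : ℝ) ∈ G0 → (1 : ℝ) ∈ G0 → (∀ i ∈ G0, i < 1 → ∃ j ∈ G0, i < j ∧ j ≤ i + e0) →
      ∃ a3 : ℝ, 0 < a3 ∧ ∀ C0 : ℝ,
        K.Op (fun c' c => (K.doc c').G = G0 ∧ K.Gd π Ls C0 t c' ∧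
            ∀ J q : ℝ, SfPar.Sl { π0 with J := J, q := q } L → (K.doc c).Aw J q e0 → (K.doc c').AffP { π0 with J := J, q := q } t)
          (fun c => (K.doc c).G = G0 ∧ K.Gd π Ls C0 a3 c ∧ (K.doc c).Cost π0 e0) := by
  have h2 : 0 ≤ π0.c2 := by
    rcases hpos with h | h
    · exact h.le
    · exact h.1.ge
  obtain ⟨e0, he0, H⟩ := sf_at_op K π Ls hπ hK π0.c2 h2 t ht
  refine ⟨e0, he0, fun G0 _ h0G _ hfine => ?_⟩
  obtain ⟨a3, ha3, H⟩ := H G0 h0G hfine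
  refine ⟨a3, ha3, fun C0 => sf_ab_op_mono K (fun c hc => ⟨hc.1, hc.2.1, π0, rfl, hc.2.2⟩) (fun c' c hc hR => ?_) (H C0)⟩
  obtain ⟨-, hG, hg, hA⟩ := hR
  refine ⟨hG, hg, fun J q hSl hAw => hA { π0 with J := J, q := q } rfl (fun h0 => ⟨hSl.lin h0, ?_⟩) hc.2.2 ⟨hAw.hr, hAw.hf⟩⟩
  rcases hpos with h | h
  · exact absurd h0 h.ne'
  · exact h.2.le

/-! ## the mesh -/

theorem sf_af_mesh_step (N' : ℕ) (i : ℝ) (h0 : 0 ≤ i) (h1 : i < 1) : ∃ x : ℕ, x ≤ 2 ^ N' ∧ i < sfPt N' x ∧ sfPt N' x ≤ i + 1 / 2 ^ N' := by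
  have hP : (0 : ℝ) < 2 ^ N' := by positivity
  have ha : 0 ≤ i * 2 ^ N' := by positivity
  refine ⟨⌊i * 2 ^ N'⌋₊ + 1, ?_, ?_, ?_⟩
  · have : ⌊i * 2 ^ N'⌋₊ < 2 ^ N' := by
      rw [Nat.floor_lt ha]
      push_cast
      nlinarith
    omega
  · unfold sfPt
    rw [lt_div_iff₀ hP]
    push_cast
    exact Nat.lt_floor_add_one _
  · unfold sfPt
    rw [div_le_iff₀ hP, add_mul, one_div, inv_mul_cancel₀ hP.ne']
    push_cast
    linarith [Nat.floor_le ha]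

theorem sf_af_mesh_dy (κ N' n : ℕ) (hκ : κ ≤ N') (hn : n ≤ 2 ^ κ) : ∃ x : ℕ, x ≤ 2 ^ N' ∧ sfPt N' x = sfPt κ n := by
  refine ⟨n * 2 ^ (N' - κ), ?_, ?_⟩
  · calc n * 2 ^ (N' - κ) ≤ 2 ^ κ * 2 ^ (N' - κ) := Nat.mul_le_mul_right _ hn
      _ = 2 ^ N' := by rw [← pow_add, Nat.add_sub_of_le hκ]
  · have := sf_pt_mul κ (N' - κ) n
    rwa [Nat.add_sub_of_le hκ] at this

theorem sf_af_mesh_win (M F : Finset ℝ) (A B P e0 : ℝ) (hP : 0 < P) (hBA : B - A = 1 / P) (hAM : A ∈ M) (hBM : B ∈ M)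
    (hF : ∀ i ∈ F, 0 ≤ i ∧ i ≤ 1) (hFM : ∀ i ∈ F, A + i / P ∈ M)
    (hstep : ∀ k ∈ M, k < B → ∃ j ∈ M, k < j ∧ j ≤ k + e0 / P ∧ j ≤ B) :
    ∃ G0 : Finset ℝ, (∀ i ∈ G0, 0 ≤ i ∧ i ≤ 1) ∧ (0 : ℝ) ∈ G0 ∧ (1 : ℝ) ∈ G0 ∧ F ⊆ G0 ∧
        (∀ i ∈ G0, i < 1 → ∃ j ∈ G0, i < j ∧ j ≤ i + e0) ∧
        ∀ k' : ℝ, k' ∈ G0 ↔ A + k' * (B - A) ∈ M.filter (fun k => A ≤ k ∧ k ≤ B) := by
  classical
  have hB' : B = A + 1 / P := by linarith
  have hiff : ∀ k' : ℝ, k' ∈ (M.filter (fun k => A ≤ k ∧ k ≤ B)).image (fun k => (k - A) * P) ↔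
      A + k' * (B - A) ∈ M.filter (fun k => A ≤ k ∧ k ≤ B) := by
    intro k'
    rw [Finset.mem_image]
    constructor
    · rintro ⟨k, hk, rfl⟩
      have e : A + (k - A) * P * (B - A) = k := by
        rw [hBA, mul_assoc, mul_one_div, div_self hP.ne', mul_one]; ring
      rw [e]; exact hk
    · intro hk
      refine ⟨_, hk, ?_⟩
      rw [hBA, add_sub_cancel_left, mul_assoc, one_div, inv_mul_cancel₀ hP.ne', mul_one]
  have hmem : ∀ k' : ℝ, k' ∈ (M.filter (fun k => A ≤ k ∧ k ≤ B)).image (fun k => (k - A) * P) ↔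
      A + k' / P ∈ M ∧ 0 ≤ k' ∧ k' ≤ 1 := by
    intro k'
    rw [hiff, Finset.mem_filter, hBA, mul_one_div]
    have e1 : A ≤ A + k' / P ↔ 0 ≤ k' := by
      rw [le_add_iff_nonneg_right]
      constructor
      · intro h
        have := mul_nonneg h hP.le
        rwa [div_mul_cancel₀ _ hP.ne'] at this
      · intro h; exact div_nonneg h hP.le
    have e2 : A + k' / P ≤ B ↔ k' ≤ 1 := by
      rw [hB', add_le_add_iff_left, div_le_div_iff_of_pos_right hP]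
    rw [e1, e2]
  refine ⟨_, fun i hi => ((hmem i).1 hi).2, (hmem 0).2 ⟨by simpa using hAM, le_rfl, zero_le_one⟩,
    (hmem 1).2 ⟨by rw [← hB']; exact hBM, zero_le_one, le_rfl⟩,
    fun i hi => (hmem i).2 ⟨hFM i hi, hF i hi⟩, ?_, hiff⟩
  intro k' hk' hk1
  obtain ⟨m1, m2, m3⟩ := (hmem k').1 hk'
  have hkB : A + k' / P < B := by
    rw [hB', add_lt_add_iff_left, div_lt_div_iff_of_pos_right hP]; exact hk1
  obtain ⟨j, hjM, hj1, hj2, hj3⟩ := hstep _ m1 hkB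
  have hk0 : 0 ≤ k' / P := div_nonneg m2 hP.le
  refine ⟨(j - A) * P, (hmem _).2 ⟨?_, ?_, ?_⟩, ?_, ?_⟩
  · have e : A + (j - A) * P / P = j := by rw [mul_div_cancel_right₀ _ hP.ne']; ring
    rw [e]; exact hjM
  · exact mul_nonneg (by linarith) hP.le
  · have : (j - A) * P ≤ (1 / P) * P := mul_le_mul_of_nonneg_right (by linarith) hP.le
    rwa [one_div, inv_mul_cancel₀ hP.ne'] at this
  · have : k' / P * P < (j - A) * P := mul_lt_mul_of_pos_right (by linarith) hP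
    rwa [div_mul_cancel₀ _ hP.ne'] at this
  · have : (j - A) * P ≤ (k' / P + e0 / P) * P := mul_le_mul_of_nonneg_right (by linarith) hP.le
    rwa [add_mul, div_mul_cancel₀ _ hP.ne', div_mul_cancel₀ _ hP.ne'] at this

theorem sf_af_mesh_core (N N' : ℕ) (hNN : N ≤ N') (μ e0 : ℝ) (hμ' : 1 / 2 ^ N' ≤ μ) (he' : (1 : ℝ) / 2 ^ N' ≤ e0 / 2 ^ N) (he0 : 0 < e0) (F : Finset ℝ)
    (hF : ∀ i ∈ F, 0 ≤ i ∧ i ≤ 1) (M : Finset ℝ) (hM01 : ∀ i ∈ M, 0 ≤ i ∧ i ≤ 1) (hM1 : ∀ x : ℕ, x ≤ 2 ^ N' → sfPt N' x ∈ M)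
    (hM2 : ∀ κ n : ℕ, κ ≤ N → n < 2 ^ κ → ∀ i ∈ F, sfPt κ n + i / 2 ^ κ ∈ M) :
    (∀ i ∈ M, 0 ≤ i ∧ i ≤ 1) ∧ (0 : ℝ) ∈ M ∧ (∀ i ∈ insert 1 M, i < 1 → ∃ j ∈ insert 1 M, i < j ∧ j ≤ i + μ) ∧
      (∀ n, n ≤ 2 ^ N → sfPt N n ∈ insert 1 M) ∧
      ∀ κ n : ℕ, ∃ G0 : Finset ℝ, κ ≤ N → n < 2 ^ κ → (∀ i ∈ G0, 0 ≤ i ∧ i ≤ 1) ∧ (0 : ℝ) ∈ G0 ∧ (1 : ℝ) ∈ G0 ∧ F ⊆ G0 ∧
        (∀ i ∈ G0, i < 1 → ∃ j ∈ G0, i < j ∧ j ≤ i + e0) ∧
        ∀ k' : ℝ, k' ∈ G0 ↔ sfPt κ n + k' * (sfPt κ (n + 1) - sfPt κ n) ∈ (insert 1 M).filter (fun k => sfPt κ n ≤ k ∧ k ≤ sfPt κ (n + 1)) := by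
  classical
  have hdy : ∀ κ n : ℕ, κ ≤ N' → n ≤ 2 ^ κ → sfPt κ n ∈ M := by
    intro κ n hκ hn
    obtain ⟨x, hx, e⟩ := sf_af_mesh_dy κ N' n hκ hn
    rw [← e]; exact hM1 x hx
  have h1M : (1 : ℝ) ∈ M := by
    have := hM1 (2 ^ N') le_rfl
    have e : sfPt N' (2 ^ N') = 1 := by
      unfold sfPt; push_cast; exact div_self (by positivity)
    rwa [e] at this
  rw [Finset.insert_eq_of_mem h1M]
  refine ⟨hM01, ?_, ?_, fun n hn => hdy N n hNN hn, fun κ n => ?_⟩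
  · have := hM1 0 (Nat.zero_le _)
    have e : sfPt N' 0 = 0 := by unfold sfPt; simp
    rwa [e] at this
  · intro i hi hi1
    obtain ⟨x, hx, h1, h2⟩ := sf_af_mesh_step N' i (hM01 i hi).1 hi1
    exact ⟨_, hM1 x hx, h1, by linarith⟩
  · by_cases hc : κ ≤ N ∧ n < 2 ^ κ
    · obtain ⟨hκ, hn⟩ := hc
      have hP : (0 : ℝ) < 2 ^ κ := by positivity
      have hBA : sfPt κ (n + 1) - sfPt κ n = 1 / 2 ^ κ := by
        unfold sfPt; push_cast; ring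
      have hBM : sfPt κ (n + 1) ∈ M := hdy κ (n + 1) (hκ.trans hNN) hn
      have hePk : (1 : ℝ) / 2 ^ N' ≤ e0 / 2 ^ κ :=
        he'.trans (div_le_div_of_nonneg_left he0.le hP (pow_le_pow_right₀ (by norm_num) hκ))
      obtain ⟨G0, hG0⟩ := sf_af_mesh_win M F (sfPt κ n) (sfPt κ (n + 1)) (2 ^ κ) e0 hP hBA (hdy κ n (hκ.trans hNN) hn.le) hBM hF
        (hM2 κ n hκ hn) (by
          intro k hk hkB
          obtain ⟨x, hx, h1, h2⟩ := sf_af_mesh_step N' k (hM01 k hk).1 (hkB.trans_le (hM01 _ hBM).2)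
          by_cases hc : sfPt N' x ≤ sfPt κ (n + 1)
          · exact ⟨_, hM1 x hx, h1, by linarith, hc⟩
          · push Not at hc
            exact ⟨_, hBM, hkB, by linarith, le_rfl⟩)
      exact ⟨G0, fun _ _ => hG0⟩
    · exact ⟨∅, fun h1 h2 => absurd ⟨h1, h2⟩ hc⟩

/-- **MESH** (leaf L-256-AF-MESH, ~250 l.; MATHLIB + `sfPt` ONLY).   `N' ≥ N` with `2^-N' ≤ min μ (e0 2^-N)`;
`M = {sfPt N' x | x ≤ 2^N'} ∪ ⋃_{κ ≤ N, n < 2^κ} {sfPt κ n + i / 2^κ | i ∈ F}`;   `G0 κ n` = image of `(insert 1 M) ∩ [A,B]` under `k ↦ (k - A) 2^κ`. -/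
theorem sf_af_mesh (N : ℕ) (μ e0 : ℝ) (hμ : 0 < μ) (he0 : 0 < e0) (F : Finset ℝ) (hF : ∀ i ∈ F, 0 ≤ i ∧ i ≤ 1) :
    ∃ M : Finset ℝ, (∀ i ∈ M, 0 ≤ i ∧ i ≤ 1) ∧ (0 : ℝ) ∈ M ∧ (∀ i ∈ insert 1 M, i < 1 → ∃ j ∈ insert 1 M, i < j ∧ j ≤ i + μ) ∧
      (∀ n, n ≤ 2 ^ N → sfPt N n ∈ insert 1 M) ∧
      ∀ κ n : ℕ, ∃ G0 : Finset ℝ, κ ≤ N → n < 2 ^ κ → (∀ i ∈ G0, 0 ≤ i ∧ i ≤ 1) ∧ (0 : ℝ) ∈ G0 ∧ (1 : ℝ) ∈ G0 ∧ F ⊆ G0 ∧
        (∀ i ∈ G0, i < 1 → ∃ j ∈ G0, i < j ∧ j ≤ i + e0) ∧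
        ∀ k' : ℝ, k' ∈ G0 ↔ sfPt κ n + k' * (sfPt κ (n + 1) - sfPt κ n) ∈ (insert 1 M).filter (fun k => sfPt κ n ≤ k ∧ k ≤ sfPt κ (n + 1)) := by
  classical
  have hε : 0 < min μ (e0 / 2 ^ N) := lt_min hμ (by positivity)
  obtain ⟨n0, hn0⟩ := exists_pow_lt_of_lt_one hε (by norm_num : (1 / 2 : ℝ) < 1)
  obtain ⟨N', hN'⟩ : ∃ N', N' = max N n0 := ⟨_, rfl⟩
  have hNN : N ≤ N' := hN' ▸ le_max_left _ _
  have hsm : (1 : ℝ) / 2 ^ N' ≤ min μ (e0 / 2 ^ N) := by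
    have h1 : (1 / 2 : ℝ) ^ N' ≤ (1 / 2 : ℝ) ^ n0 := pow_le_pow_of_le_one (by norm_num) (by norm_num) (hN' ▸ le_max_right _ _)
    have e : (1 : ℝ) / 2 ^ N' = (1 / 2 : ℝ) ^ N' := by rw [one_div_pow]
    rw [e]; exact h1.trans hn0.le
  refine ⟨(Finset.range (2 ^ N' + 1)).image (sfPt N') ∪
      (Finset.range (N + 1)).biUnion (fun κ => (Finset.range (2 ^ κ)).biUnion fun n => F.image fun i => sfPt κ n + i / 2 ^ κ),
    sf_af_mesh_core N N' hNN μ e0 (hsm.trans (min_le_left _ _)) (hsm.trans (min_le_right _ _)) he0 F hF _ ?_ ?_ ?_⟩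
  · intro k hk
    rw [Finset.mem_union] at hk
    rcases hk with hk | hk
    · obtain ⟨x, hx, rfl⟩ := Finset.mem_image.1 hk
      have hx' : x ≤ 2 ^ N' := Nat.lt_succ_iff.1 (Finset.mem_range.1 hx)
      unfold sfPt
      refine ⟨by positivity, ?_⟩
      rw [div_le_one (by positivity)]
      exact_mod_cast hx'
    · simp only [Finset.mem_biUnion, Finset.mem_range, Finset.mem_image] at hk
      obtain ⟨κ, _, n, hn, i, hi, rfl⟩ := hk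
      obtain ⟨i0, i1⟩ := hF i hi
      have hP : (0 : ℝ) < 2 ^ κ := by positivity
      unfold sfPt
      refine ⟨by positivity, ?_⟩
      rw [← add_div, div_le_one hP]
      have : ((n : ℝ) + 1) ≤ 2 ^ κ := by exact_mod_cast hn
      linarith
  · intro x hx
    exact Finset.mem_union_left _ (Finset.mem_image_of_mem _ (Finset.mem_range.2 (Nat.lt_succ_iff.2 hx)))
  · intro κ n hκ hn i hi
    refine Finset.mem_union_right _ ?_
    simp only [Finset.mem_biUnion, Finset.mem_range, Finset.mem_image]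
    exact ⟨κ, Nat.lt_succ_iff.2 hκ, n, hn, i, hi, rfl⟩

/-- a positive lower bound of finitely many positive numbers -/
theorem sf_af_fin_min {ι : Type*} (I : Finset ι) (f : ι → ℝ) (hf : ∀ i ∈ I, 0 < f i) : ∃ m : ℝ, 0 < m ∧ ∀ i ∈ I, m ≤ f i := by
  classical
  induction I using Finset.induction_on with
  | empty => exact ⟨1, one_pos, fun i hi => absurd hi (Finset.notMem_empty i)⟩
  | insert a I' _ ih =>
    obtain ⟨m, hm, H⟩ := ih (fun i hi => hf i (Finset.mem_insert_of_mem hi))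
    refine ⟨min m (f a), lt_min hm (hf a (Finset.mem_insert_self _ _)), fun i hi => ?_⟩
    rcases Finset.mem_insert.1 hi with rfl | hi
    · exact min_le_right _ _
    · exact (min_le_left _ _).trans (H i hi)

end Claimed.Agent.R256
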