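import Claimed.Agent.R256.Soft.AfLink

/-!
# Row 256 (S0496), unit SOFT, A7 AF, file 5: THE KEY ESTIMATE (labels on a chain, in the frame of the end row)      (architect helper229, after helper10)      DOC LEVEL, paper free

Standing hypotheses `D.AfH π Ls C0 A B t` (`Soft/AfDefs.lean`) and `C t ≤ e`, `e` = the WIDENING exponent of the bins (`sfAfWd π s h e`):
  `W.K = s^(-(c2 h + e))` (`1 ≤ c2`),  `W.be = s^(-(c2 h + 2e))` (`0 < c2`),  `W.al = s^(-(max 1 c2 h + 3e))` (`0 < c2`) resp. `s^(-(c1 h + 3e))` (`c2 = 0`),  `W.c = s^(-((1+|q|+2J) h + 4e))`,  `W.d = s^(-(.. + 5e))`,   `h = B - A`.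
GOAL: in the frame `D.afFv π A B e v` of the end row `v`, every BINNED coordinate of a label on a chain to `v` is `≤ c ×` its width with a CONSTANT `c` (no `s^(-C t)`): then a label meets a bounded number of bins (`Soft/AfHyp.lean`).
MECHANISM.  `Q` = the label of `v` in its own frame: `0 ≤ co m < wd m` (`sf_af_fr_self`).   `P` = the label of `u`.   `sf_af_link` + `sf_af_tr_shear`: the DIFFERENCES `P.K - Q.K`, `P.al - Q.al`, `P.c - Q.c` are bounded by the comparisons `a2, aK, a1, aA, aS ≤ s^(-(.. h + C' t))`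
and the base coordinates (`≤ c`, since `len l ≤ len A`);  `β` sees `lP |P.K|`, `P_c` sees `|β|, |K|`, `d` sees `lP |P.c|`: one more factor `s^(-e) ≥ s^(-C t) ≥ 2^C` absorbs the previous width and all numerical constants.
EVERY statement is `∃ C > 0 (∃ c > 0), ∀ π Ls D ..`: THE PROVER CHOOSES the UNIVERSAL NUMBERS `C`, `c` (the slopes `(J,q)` vary with the configuration).
Families (`π.Valid.fam`): EQ `0 < c2 = q`;  ST `c2 = 1, q < 1`;  LIN `c2 = 0 < c1, q = c1 + J`.   So `max q 0 ≤ c2` and `max 1 q ≤ max 1 c2` if `c2 > 0`;  `J ≥ 0`.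
TOOLS: `sf_mc_anti` (`x ≤ y → s^y ≤ s^x`), `Real.rpow_add`, `h.sm : s^t ≤ 1/2` (so `2^k ≤ s^(-k t)`), `h.th : t ≤ B - A`.
-/

set_option autoImplicit false

namespace Claimed.Agent.R256

open Claimed.Agent.R255

/-- LEAF AF-S0 (~60 l.).   Lengths decrease along the gates.   PLAN: `sf_ab_sp_ex` gives a connected pair `ρ, ρ'`; `Core.base`: `T_i ≤ T_j`, `T_j + len j ≤ T_i + len i`. -/
theorem sf_af_len_le (D : SfDoc) (π : SfPar) (C0 t : ℝ) (h : D.Core π C0 t) (ht : 0 < t) (i j : ℝ) (hi : i ∈ D.G) (hj : j ∈ D.G) (hij : i < j) :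
    D.len j ≤ D.len i := by
  obtain ⟨ρ, ρ', hc⟩ := sf_ab_sp_ex D π C0 t h ht i j hi hj hij
  obtain ⟨b1, b2, -, -⟩ := h.base i hi j hj hij ρ ρ' hc
  linarith

/-- the frame of an end row has the units of the window -/
theorem sf_af_fv_un (D : SfDoc) (π : SfPar) (A B e : ℝ) (v : D.Row B) : D.AfUn A B (D.afFv π A B e v) := ⟨rfl, rfl, rfl⟩

/-- the units of the window are positive -/
theorem sf_af_u_pos (π : SfPar) (Ls : ℝ) (D : SfDoc) (C0 A B t e T0 : ℝ) (h : D.AfH π Ls C0 A B t) : (D.afU π A B e T0).Pos :=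
  ⟨sf_mc_len_pos D π C0 t h.good.1 A h.wn.gA, (h.good.1.hw.2.2 B h.wn.gB).1, (h.good.1.hw.2.2 B h.wn.gB).2⟩

/-- basic facts on a chain of the window -/
theorem sf_af_sz_setup (π : SfPar) (Ls : ℝ) (D : SfDoc) (C0 A B t : ℝ) (h : D.AfH π Ls C0 A B t) (v : D.Row B) (u : D.Rw)
    (hu : D.AfCh A B u v) :
    u.1 ∈ D.G ∧ A ≤ u.1 ∧ u.1 ≤ B ∧ 0 < D.len u.1 ∧ 0 < D.len A ∧ D.len u.1 / D.len A ≤ 1 ∧
      D.r u.1 / D.r B ≤ 1 ∧ 0 < D.r B ∧ 0 < D.f B := by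
  have hG : u.1 ∈ D.G ∧ A ≤ u.1 ∧ u.1 ≤ B := by
    rcases hu with rfl | ⟨h1, h2, h3, -⟩
    · exact ⟨h.wn.gB, h.wn.hAB.le, le_rfl⟩
    · exact ⟨h1, h2, h3.le⟩
  obtain ⟨g, hA, hB⟩ := hG
  have lu := sf_mc_len_pos D π C0 t h.good.1 u.1 g
  have lA := sf_mc_len_pos D π C0 t h.good.1 A h.wn.gA
  have wB := h.good.1.hw.2.2 B h.wn.gB
  refine ⟨g, hA, hB, lu, lA, ?_, ?_, wB.1, wB.2⟩
  · rw [div_le_one lA]
    rcases hA.lt_or_eq with hlt | heq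
    · exact sf_af_len_le D π C0 t h.good.1 h.t0 A u.1 h.wn.gA g hlt
    · rw [heq]
  · rcases hB.lt_or_eq with hlt | heq
    · exact (h.good.2.wr u.1 g B h.wn.gB hlt).2.1
    · rw [heq, div_self wB.1.ne']

/-- LEAF AF-S1 (~200 l.).   Base coordinates: bounded by a CONSTANT.   PLAN: `sf_af_fr_self` (`m = 0, 1, 2`, `wd m = 1`: the centre of `Q` lies in `[0,1)³`; `sf_af_u_pos`), `sf_af_link` (with `sf_af_fv_un`), `sf_af_tr_base` with `m = 1`, `Λ = 1`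
(`lP = len l / len A ≤ 1`: `sf_af_len_le`, or `l = A`;  `P.r = r l / r B ≤ 1`: `own`, `sf_ab_lip`;  `Q.r = 1`). -/
theorem sf_af_sz_base : ∃ c : ℝ, 1 ≤ c ∧ ∀ (π : SfPar) (Ls : ℝ) (D : SfDoc) (C0 A B t e : ℝ), D.AfH π Ls C0 A B t →
    ∀ (v : D.Row B) (u : D.Rw), D.AfCh A B u v → ∀ (P Q : SfTest) (z : SfRay), P = (D.afFv π A B e v).tst (D.lab u.1 u.2) →
    Q = (D.afFv π A B e v).tst (D.lab B v) → z = (D.afFv π A B e v).ray (D.ray u.1 u.2) →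
    |P.x| ≤ c ∧ |P.b| ≤ c ∧ |P.y| ≤ c ∧ |Q.x| ≤ c ∧ |Q.b| ≤ c ∧ |Q.y| ≤ c ∧ |z.X| ≤ c ∧
    |z.Bt Q.T| ≤ c ∧ |z.Yt Q.T| ≤ c ∧ |z.Bt P.T| ≤ c ∧ |z.Yt P.T| ≤ c ∧ D.len u.1 / D.len A ≤ 1 ∧ |Q.T - P.T| ≤ D.len u.1 / D.len A := by
  obtain ⟨Cl, hCl, hlink⟩ := sf_af_link
  obtain ⟨c, hc, hbase⟩ := sf_af_tr_base
  refine ⟨max 1 c, le_max_left _ _, fun π Ls D C0 A B t e h v u hu P Q z hP hQ hz => ?_⟩
  obtain ⟨g, hA, hB, lu, lA, l1, r1, rB, fB⟩ := sf_af_sz_setup π Ls D C0 A B t h v u hu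
  have lk := hlink π Ls D C0 A B t h _ (sf_af_fv_un D π A B e v) v u hu
  rw [← hP, ← hQ, ← hz] at lk
  have hU := sf_af_u_pos π Ls D C0 A B t e (D.afKey π A B e v).1 h
  have hPr : P.r ≤ 1 := by
    rw [hP]
    show (D.lab u.1 u.2).r / D.r B ≤ 1
    rw [(h.good.1.own u.1 g u.2).1]
    exact r1
  have hQr : Q.r ≤ 1 := by
    rw [hQ]
    show (D.lab B v).r / D.r B ≤ 1
    rw [(h.good.1.own B h.wn.gB v).1, div_self rB.ne']
  have s0 := sf_af_fr_self _ hU (D.lab B v) 0 (by show (0 : ℝ) < 1; norm_num)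
  have s1 := sf_af_fr_self _ hU (D.lab B v) 1 (by show (0 : ℝ) < 1; norm_num)
  have s2 := sf_af_fr_self _ hU (D.lab B v) 2 (by show (0 : ℝ) < 1; norm_num)
  have q0 : 0 ≤ Q.x ∧ Q.x < 1 := by rw [hQ]; exact s0
  have q1 : 0 ≤ Q.b ∧ Q.b < 1 := by rw [hQ]; exact s1
  have q2 : 0 ≤ Q.y ∧ Q.y < 1 := by rw [hQ]; exact s2
  have key := hbase P Q z _ _ _ _ _ _ _ 1 1 lk le_rfl le_rfl l1 hPr hQr
    (Or.inl ⟨abs_le.2 ⟨by linarith [q0.1], q0.2.le⟩, abs_le.2 ⟨by linarith [q1.1], q1.2.le⟩, abs_le.2 ⟨by linarith [q2.1], q2.2.le⟩⟩)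
  have hb : c * 1 ^ 2 * 1 ^ 2 ≤ max 1 c := by
    rw [one_pow, mul_one, mul_one]
    exact le_max_right _ _
  have hT : |Q.T - P.T| ≤ D.len u.1 / D.len A := by
    have h1 := lk.tm
    have h2 := lk.lq
    rw [abs_of_nonneg (by linarith)]
    linarith
  obtain ⟨k1, k2, k3, k4, k5, k6, k7, k8, k9, k10, k11⟩ := key
  exact ⟨k1.trans hb, k2.trans hb, k3.trans hb, k4.trans hb, k5.trans hb, k6.trans hb, k7.trans hb, k8.trans hb, k9.trans hb,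
    k10.trans hb, k11.trans hb, l1, hT⟩

/-- `K` in the frame of an end row when `K` is not binned -/
theorem sf_af_sz_K0 (π : SfPar) (D : SfDoc) (A B e : ℝ) (v : D.Row B) (R : SfTest) (hK : (sfAfWd π D.s (B - A) e).K = 0) :
    ((D.afFv π A B e v).tst R).K = R.K * D.len A * D.r B ^ 2 / D.f B := by
  simp only [SfDoc.afFv, SfDoc.afFk, SfAfU.of, SfAfU.fr, SfFrame.tst, SfDoc.afU]
  rw [hK]
  ring

/-- `β` in the frame of an end row when neither `K` nor `β` is binned -/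
theorem sf_af_sz_be0 (π : SfPar) (D : SfDoc) (A B e : ℝ) (v : D.Row B) (R : SfTest) (hK : (sfAfWd π D.s (B - A) e).K = 0)
    (hb : (sfAfWd π D.s (B - A) e).be = 0) :
    ((D.afFv π A B e v).tst R).be = R.be * D.r B ^ 2 / D.f B := by
  simp only [SfDoc.afFv, SfDoc.afFk, SfAfU.of, SfAfU.fr, SfFrame.tst, SfDoc.afU, SfTest.beAt]
  rw [hK, hb]
  ring

/-- `q ≤ c2` in the curved families -/
theorem sf_af_sz_q (π : SfPar) (hv : π.Valid) (h0 : 0 < π.c2) : π.q ≤ π.c2 := by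
  rcases hv.fam with ⟨-, h⟩ | ⟨h1, h2⟩ | ⟨h1, -⟩
  · exact h.le
  · rw [h1]; exact h2.le
  · rw [h1] at h0; exact absurd h0 (lt_irrefl _)

/-- LEAF AF-S2 (~400 l.; may be cut by families).   Curvature coordinates.   `lP = len l / len A ≤ 1`, `W = sfAfWd π s h e`.   PLAN.
 `1 ≤ c2`: `0 ≤ Q.K < W.K` (`sf_af_fr_self`, `m = 3`), `|P.K - Q.K| ≤ aK ≤ s^(-(max 1 q h + C' t)) ≤ W.K` (`sf_af_link`; `max 1 q ≤ c2`; `C' t ≤ e`).
 `0 < c2`: `0 ≤ Q.be < W.be` (`m = 4`), `|P.be - Q.be| ≤ a2 + lP |P.K|` (`sf_af_tr_shear`, `|Q.T - P.T| ≤ lP`), `a2 ≤ s^(-(c2 h + C' t))`, and `lP |P.K| ≤ 2 W.K` if `1 ≤ c2`, third line if `c2 < 1`;  `3 s^(-(c2 h + e)) ≤ s^(-(c2 h + 2e))` as `4 ≤ s^(-e)`.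
 `0 < c2 < 1`: `K` is not binned (`W.K = 0`: the shear of the frame has `K = 0`), `P.K = K_l * len A / w2 B`: `sf_af_nK`.      `c2 = 0`: neither `K` nor `β` is binned: `P.be = β_l / w2 B`, `sf_af_nB`. -/
theorem sf_af_sz_curv : ∃ C : ℝ, 0 < C ∧ ∀ (π : SfPar) (Ls : ℝ) (D : SfDoc) (C0 A B t e : ℝ), D.AfH π Ls C0 A B t → C * t ≤ e →
    ∀ (v : D.Row B) (u : D.Rw), D.AfCh A B u v → ∀ P : SfTest, P = (D.afFv π A B e v).tst (D.lab u.1 u.2) →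
    (1 ≤ π.c2 → |P.K| ≤ 2 * (sfAfWd π D.s (B - A) e).K) ∧
    (0 < π.c2 → |P.be| ≤ 2 * (sfAfWd π D.s (B - A) e).be) ∧
    (0 < π.c2 → π.c2 < 1 → D.len u.1 / D.len A * |P.K| ≤ D.s ^ (π.c2 * (u.1 - B) - e)) ∧
    (π.c2 = 0 → |P.be| + D.len u.1 / D.len A * |P.K| ≤ D.s ^ (π.q * (u.1 - B) - e)) := by
  obtain ⟨Cl, hCl, hlink⟩ := sf_af_link
  obtain ⟨CK, hCK, hnK⟩ := sf_af_nK
  obtain ⟨CB, hCB, hnB⟩ := sf_af_nB
  refine ⟨Cl + CK + CB + 2, by linarith, fun π Ls D C0 A B t e h he v u hu P hP => ?_⟩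
  have hs := h.good.1.hs
  have ht := h.t0
  have el : Cl * t ≤ e := by nlinarith
  have eK : CK * t ≤ e := by nlinarith
  have eB : CB * t ≤ e := by nlinarith
  have e2 : 2 * t ≤ e := by nlinarith
  obtain ⟨g, hA, hB, lu, lA, l1, r1, rB, fB⟩ := sf_af_sz_setup π Ls D C0 A B t h v u hu
  have lk := hlink π Ls D C0 A B t h _ (sf_af_fv_un D π A B e v) v u hu
  rw [← hP] at lk
  obtain ⟨Q, hQ⟩ : ∃ Q, Q = (D.afFv π A B e v).tst (D.lab B v) := ⟨_, rfl⟩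
  rw [← hQ] at lk
  have hU := sf_af_u_pos π Ls D C0 A B t e (D.afKey π A B e v).1 h
  have w2B : 0 < D.w2 B := div_pos fB (pow_pos rB 2)
  have hlP0 : 0 ≤ D.len u.1 / D.len A := (div_pos lu lA).le
  have pos : ∀ x : ℝ, 0 < D.s ^ x := fun x => Real.rpow_pos_of_pos hs.1 x
  -- the third line
  have L3 : 0 < π.c2 → π.c2 < 1 → D.len u.1 / D.len A * |P.K| ≤ D.s ^ (π.c2 * (u.1 - B) - e) := by
    intro h0 h1
    have hK : (sfAfWd π D.s (B - A) e).K = 0 := by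
      simp only [sfAfWd]
      rw [if_neg (not_le.2 h1)]
    have e' : D.len u.1 / D.len A * |P.K| = D.len u.1 * |(D.lab u.1 u.2).K| / D.w2 B := by
      rw [hP, sf_af_sz_K0 π D A B e v _ hK, abs_div, abs_mul, abs_mul, abs_of_pos lA, abs_of_pos (pow_pos rB 2), abs_of_pos fB]
      unfold SfDoc.w2
      field_simp
    rw [e', div_le_iff₀ w2B]
    have x1 := hnK π Ls D C0 A B t h h0 h1 u.1 g hA hB u.2
    have x2 : D.w2 B * D.s ^ (π.c2 * (u.1 - B) - CK * t) ≤ D.w2 B * D.s ^ (π.c2 * (u.1 - B) - e) :=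
      mul_le_mul_of_nonneg_left (sf_mc_anti hs.1 hs.2 (by linarith)) w2B.le
    linarith
  -- the first line
  have L1 : 1 ≤ π.c2 → |P.K| ≤ 2 * D.s ^ (-(π.c2 * (B - A) + e)) := by
    intro h1
    have hq := sf_af_sz_q π h.val (by linarith)
    have hwd : (D.afU π A B e (D.afKey π A B e v).1).wd 3 = D.s ^ (-(π.c2 * (B - A) + e)) := by
      show (sfAfWd π D.s (B - A) e).K = _
      simp only [sfAfWd]
      rw [if_pos h1]
    have s3 := sf_af_fr_self _ hU (D.lab B v) 3 (by rw [hwd]; exact pos _)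
    rw [hwd] at s3
    have q3 : 0 ≤ Q.K ∧ Q.K < D.s ^ (-(π.c2 * (B - A) + e)) := by rw [hQ]; exact s3
    have b2 : |P.K - Q.K| ≤ D.s ^ (-(π.c2 * (B - A) + e)) := by
      refine lk.cK.trans (sf_mc_anti hs.1 hs.2 ?_)
      have m1 : -(π.c2 * (B - A)) ≤ π.q * (u.1 - B) - (u.1 - A) := by nlinarith
      have m2 : -(π.c2 * (B - A)) ≤ -(B - A) := by nlinarith
      have := le_min m1 m2
      linarith
    have b3 := abs_sub_abs_le_abs_sub P.K Q.K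
    rw [abs_of_nonneg q3.1] at b3
    linarith [q3.2]
  have hT : |Q.T - P.T| ≤ D.len u.1 / D.len A := by
    have h1 := lk.tm
    have h2 := lk.lq
    rw [abs_of_nonneg (by linarith)]
    linarith
  have h4e : 4 ≤ D.s ^ (-e) := by
    have h2 : 2 ≤ D.s ^ (-t) := by
      have hp := pos t
      rw [Real.rpow_neg hs.1.le, ← one_div, le_div_iff₀ hp]
      linarith [h.sm]
    have h3 : D.s ^ (-t) * D.s ^ (-t) ≤ D.s ^ (-e) := by
      rw [← Real.rpow_add hs.1]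
      exact sf_mc_anti hs.1 hs.2 (by linarith)
    nlinarith
  -- the second line
  have L2 : 0 < π.c2 → |P.be| ≤ 2 * D.s ^ (-(π.c2 * (B - A) + 2 * e)) := by
    intro h0
    have hq := sf_af_sz_q π h.val h0
    have hwd : (D.afU π A B e (D.afKey π A B e v).1).wd 4 = D.s ^ (-(π.c2 * (B - A) + 2 * e)) := by
      show (sfAfWd π D.s (B - A) e).be = _
      simp only [sfAfWd]
      rw [if_pos h0]
    have s4 := sf_af_fr_self _ hU (D.lab B v) 4 (by rw [hwd]; exact pos _)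
    rw [hwd] at s4
    have q4 : 0 ≤ Q.be ∧ Q.be < D.s ^ (-(π.c2 * (B - A) + 2 * e)) := by rw [hQ]; exact s4
    have b2 : |P.beAt Q.T - Q.be| ≤ D.s ^ (-(π.c2 * (B - A) + e)) := by
      refine lk.c2.trans (sf_mc_anti hs.1 hs.2 ?_)
      have m1 : -(π.c2 * (B - A)) ≤ π.q * (u.1 - B) := by nlinarith
      have m2 : -(π.c2 * (B - A)) ≤ 0 := by nlinarith
      have := le_min m1 m2
      linarith
    have b3 : D.len u.1 / D.len A * |P.K| ≤ 2 * D.s ^ (-(π.c2 * (B - A) + e)) := by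
      rcases le_or_gt 1 π.c2 with h1 | h1
      · calc D.len u.1 / D.len A * |P.K| ≤ 1 * |P.K| := mul_le_mul_of_nonneg_right l1 (abs_nonneg _)
          _ = |P.K| := one_mul _
          _ ≤ _ := L1 h1
      · have x1 : D.s ^ (π.c2 * (u.1 - B) - e) ≤ D.s ^ (-(π.c2 * (B - A) + e)) := sf_mc_anti hs.1 hs.2 (by nlinarith)
        linarith [L3 h0 h1, pos (-(π.c2 * (B - A) + e))]
    have b5 : D.s ^ (-(π.c2 * (B - A) + 2 * e)) = D.s ^ (-e) * D.s ^ (-(π.c2 * (B - A) + e)) := by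
      rw [← Real.rpow_add hs.1]
      congr 1
      ring
    have b6 : 4 * D.s ^ (-(π.c2 * (B - A) + e)) ≤ D.s ^ (-(π.c2 * (B - A) + 2 * e)) := by
      rw [b5]
      exact mul_le_mul_of_nonneg_right h4e (pos _).le
    have e' : P.be = (P.beAt Q.T - Q.be) + Q.be - (Q.T - P.T) * P.K := by
      simp only [SfTest.beAt]; ring
    have y1 : |(Q.T - P.T) * P.K| ≤ D.len u.1 / D.len A * |P.K| := by
      rw [abs_mul]
      exact mul_le_mul_of_nonneg_right hT (abs_nonneg _)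
    have y2 : |Q.be| = Q.be := abs_of_nonneg q4.1
    calc |P.be| = |(P.beAt Q.T - Q.be) + Q.be - (Q.T - P.T) * P.K| := by rw [← e']
      _ ≤ |(P.beAt Q.T - Q.be) + Q.be| + |(Q.T - P.T) * P.K| := abs_sub _ _
      _ ≤ |P.beAt Q.T - Q.be| + |Q.be| + |(Q.T - P.T) * P.K| := by linarith [abs_add_le (P.beAt Q.T - Q.be) Q.be]
      _ ≤ _ := by linarith [q4.2, pos (-(π.c2 * (B - A) + e))]
  refine ⟨fun h1 => ?_, fun h0 => ?_, L3, fun h0 => ?_⟩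
  · simp only [sfAfWd]
    rw [if_pos h1]
    exact L1 h1
  · simp only [sfAfWd]
    rw [if_pos h0]
    exact L2 h0
  have hK : (sfAfWd π D.s (B - A) e).K = 0 := by
    simp only [sfAfWd]
    rw [if_neg (by rw [h0]; norm_num)]
  have hb : (sfAfWd π D.s (B - A) e).be = 0 := by
    simp only [sfAfWd]
    rw [if_neg (by rw [h0]; norm_num)]
  have e' : |P.be| + D.len u.1 / D.len A * |P.K| = D.cv ⟨u.1, u.2⟩ / D.w2 B := by
    rw [hP, sf_af_sz_K0 π D A B e v _ hK, sf_af_sz_be0 π D A B e v _ hK hb, abs_div, abs_div, abs_mul, abs_mul, abs_mul, abs_of_pos lA,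
      abs_of_pos (pow_pos rB 2), abs_of_pos fB]
    unfold SfDoc.w2 SfDoc.cv
    field_simp
  rw [e', div_le_iff₀ w2B]
  have x1 := hnB π Ls D C0 A B t h h0 u.1 g hA hB u.2
  have x2 : D.w2 B * D.s ^ (π.q * (u.1 - B) - CB * t) ≤ D.w2 B * D.s ^ (π.q * (u.1 - B) - e) :=
    mul_le_mul_of_nonneg_left (sf_mc_anti hs.1 hs.2 (by linarith)) w2B.le
  linarith

/-- `2 ≤ s^(-e)` as soon as `t ≤ e` -/
theorem sf_af_sz_two {s t e : ℝ} (hs : 0 < s ∧ s < 1) (hsm : s ^ t ≤ 1 / 2) (hte : t ≤ e) : 2 ≤ s ^ (-e) := by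
  have h1 : s ^ e ≤ 1 / 2 := (sf_mc_anti hs.1 hs.2 hte).trans hsm
  have hp : 0 < s ^ e := Real.rpow_pos_of_pos hs.1 _
  rw [Real.rpow_neg hs.1.le, ← one_div, le_div_iff₀ hp]
  linarith

/-- a factor `2` is absorbed by one more `s^(-e)`, and the exponent is enlarged -/
theorem sf_af_sz_abs {s x y e X : ℝ} (hs : 0 < s ∧ s < 1) (h2 : 2 ≤ s ^ (-e)) (hX : X ≤ 2 * s ^ (-x)) (hxy : x + e ≤ y) : X ≤ s ^ (-y) := by
  have hp : 0 < s ^ (-x) := Real.rpow_pos_of_pos hs.1 _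
  have h1 : 2 * s ^ (-x) ≤ s ^ (-e) * s ^ (-x) := mul_le_mul_of_nonneg_right h2 hp.le
  rw [← Real.rpow_add hs.1] at h1
  exact hX.trans (h1.trans (sf_mc_anti hs.1 hs.2 (by linarith)))

/-- LEAF AF-S3 (~150 l.).   Crude form of `sf_af_sz_curv`, all families (`len A / len l ≤ s^(-(l-A) - 2t)`: `sf_ab_len`;  `0 ≤ l - A ≤ h`, `|q (l-B)| ≤ |q| h`;  `2 ≤ s^(-e)`). -/
theorem sf_af_sz_curv' : ∃ C : ℝ, 0 < C ∧ ∀ (π : SfPar) (Ls : ℝ) (D : SfDoc) (C0 A B t e : ℝ), D.AfH π Ls C0 A B t → C * t ≤ e →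
    ∀ (v : D.Row B) (u : D.Rw), D.AfCh A B u v → ∀ P : SfTest, P = (D.afFv π A B e v).tst (D.lab u.1 u.2) →
    |P.K| ≤ D.s ^ (-((1 + π.c2 + |π.q|) * (B - A) + 2 * e)) ∧ |P.be| ≤ D.s ^ (-((1 + π.c2 + |π.q|) * (B - A) + 3 * e)) := by
  obtain ⟨C1, hC1, H⟩ := sf_af_sz_curv
  refine ⟨max C1 2, lt_of_lt_of_le hC1 (le_max_left _ _), ?_⟩
  intro π Ls D C0 A B t e h he v u hu P hP
  have hc := h.good.1
  have hs := hc.hs
  have ht := h.t0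
  have he1 : C1 * t ≤ e := (mul_le_mul_of_nonneg_right (le_max_left _ _) ht.le).trans he
  have he2 : 2 * t ≤ e := (mul_le_mul_of_nonneg_right (le_max_right _ _) ht.le).trans he
  obtain ⟨Ha, Hb, Hc, Hd⟩ := H π Ls D C0 A B t e h he1 v u hu P hP
  have hh : 0 < B - A := by linarith [h.wn.hAB]
  have hl : u.1 ∈ D.G ∧ A ≤ u.1 ∧ u.1 ≤ B := by
    rcases hu with rfl | ⟨h1, h2, h3, _⟩
    · exact ⟨h.wn.gB, h.wn.hAB.le, le_rfl⟩
    · exact ⟨h1, h2, h3.le⟩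
  have h2e : 2 ≤ D.s ^ (-e) := sf_af_sz_two hs h.sm (by linarith)
  have hlen := (sf_ab_len D π C0 t hc A u.1 h.wn.gA hl.1).2
  have hlA := sf_mc_len_pos D π C0 t hc A h.wn.gA
  have hq0 := abs_nonneg π.q
  have hK : ∀ x, D.len u.1 / D.len A * |P.K| ≤ D.s ^ x → |P.K| ≤ D.s ^ (x - ((u.1 - A) + 2 * t)) := by
    intro x hx
    have h1 : D.s ^ ((u.1 - A) + 2 * t) ≤ D.len u.1 / D.len A := by
      rw [le_div_iff₀ hlA, mul_comm]
      exact hlen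
    have h2 : D.s ^ ((u.1 - A) + 2 * t) * |P.K| ≤ D.s ^ x := (mul_le_mul_of_nonneg_right h1 (abs_nonneg _)).trans hx
    rw [Real.rpow_sub hs.1, le_div_iff₀ (Real.rpow_pos_of_pos hs.1 _), mul_comm]
    exact h2
  have hq1 : -(|π.q| * (B - A)) ≤ π.q * (u.1 - B) := by
    have h1 := neg_abs_le (π.q * (u.1 - B))
    rw [abs_mul] at h1
    have h2 : |u.1 - B| ≤ B - A := by
      rw [abs_le]
      constructor <;> linarith [hl.2.1, hl.2.2]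
    have h3 := mul_le_mul_of_nonneg_left h2 hq0
    linarith
  have hqh : 0 ≤ |π.q| * (B - A) := mul_nonneg hq0 hh.le
  by_cases h1 : 1 ≤ π.c2
  · have ha := Ha h1
    have hb := Hb (by linarith)
    simp only [sfAfWd, if_pos h1] at ha
    simp only [sfAfWd, if_pos (show 0 < π.c2 by linarith)] at hb
    exact ⟨sf_af_sz_abs hs h2e ha (by nlinarith), sf_af_sz_abs hs h2e hb (by nlinarith)⟩
  · by_cases h0 : 0 < π.c2
    · have hb := Hb h0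
      simp only [sfAfWd, if_pos h0] at hb
      refine ⟨(hK _ (Hc h0 (by linarith))).trans (sf_mc_anti hs.1 hs.2 ?_), sf_af_sz_abs hs h2e hb (by nlinarith)⟩
      have h3 : π.c2 * (B - u.1) ≤ π.c2 * (B - A) := mul_le_mul_of_nonneg_left (by linarith [hl.2.1]) h0.le
      nlinarith [hl.2.2]
    · have hc2 : π.c2 = 0 := by
        rcases h.val.fam with ⟨g, _⟩ | ⟨g, _⟩ | ⟨g, _⟩
        · exact absurd g h0
        · exact absurd (by rw [g]) h1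
        · exact g
      have hd := Hd hc2
      have hlP : 0 ≤ D.len u.1 / D.len A * |P.K| :=
        mul_nonneg (div_nonneg (sf_mc_len_pos D π C0 t hc u.1 hl.1).le hlA.le) (abs_nonneg _)
      refine ⟨(hK _ ((le_add_of_nonneg_left (abs_nonneg _)).trans hd)).trans (sf_mc_anti hs.1 hs.2 ?_),
        ((le_add_of_nonneg_right hlP).trans hd).trans (sf_mc_anti hs.1 hs.2 ?_)⟩
      · rw [hc2]
        nlinarith [hl.2.2]
      · rw [hc2]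
        nlinarith

/-- numerical constants are absorbed by `s^t ≤ 1/2` -/
theorem sf_af_Pc_num (c : ℝ) : ∃ k : ℝ, 0 < k ∧ ∀ s t : ℝ, 0 < s → s ^ t ≤ 1 / 2 → c ≤ s ^ (-(k * t)) := by
  obtain ⟨n, hn⟩ := pow_unbounded_of_one_lt c (one_lt_two : (1 : ℝ) < 2)
  refine ⟨(n + 1 : ℕ), by positivity, fun s t hs h => ?_⟩
  have e : s ^ (-(((n + 1 : ℕ) : ℝ) * t)) = ((s ^ t) ^ (n + 1))⁻¹ := by
    rw [Real.rpow_neg hs.le, mul_comm, Real.rpow_mul hs.le, Real.rpow_natCast]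
  rw [e]
  have h0 : 0 < s ^ t := Real.rpow_pos_of_pos hs _
  have h1 : (s ^ t) ^ (n + 1) ≤ (1 / 2 : ℝ) ^ (n + 1) := pow_le_pow_left₀ h0.le h _
  have h2 : ((1 / 2 : ℝ) ^ (n + 1))⁻¹ ≤ ((s ^ t) ^ (n + 1))⁻¹ := inv_anti₀ (by positivity) h1
  have h3 : ((1 / 2 : ℝ) ^ (n + 1))⁻¹ = 2 ^ (n + 1) := by
    rw [one_div, inv_pow, inv_inv]
  have h4 : (2 : ℝ) ^ n ≤ 2 ^ (n + 1) := pow_le_pow_right₀ (by norm_num) (Nat.le_succ n)
  linarith

/-- the three exponents of the link against `max 1 c2 * h` -/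
theorem sf_af_Pc_exp (q J M A B l e τ : ℝ) (hq : q ≤ M) (hM : 1 ≤ M) (hJ : 0 ≤ J) (hAl : A ≤ l) (hlB : l ≤ B) (hτ : τ ≤ 2 * e) :
    -(M * (B - A) + 2 * e) ≤ min (q * (l - B)) 0 - τ ∧ -(M * (B - A) + 2 * e) ≤ min (q * (l - B) - (l - A)) (-(B - A)) - τ ∧
      -(M * (B - A) + 2 * e) ≤ min ((q - J) * (l - B)) 0 - τ := by
  have f1 : 0 ≤ (M - q) * (B - l) := mul_nonneg (by linarith) (by linarith)
  have f2 : 0 ≤ (M - 1) * (l - A) := mul_nonneg (by linarith) (by linarith)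
  have f3 : 0 ≤ M * (l - A) := mul_nonneg (by linarith) (by linarith)
  have f4 : 0 ≤ J * (B - l) := mul_nonneg hJ (by linarith)
  have f5 : 0 ≤ (M - 1) * (B - A) := mul_nonneg (by linarith) (by linarith)
  have f6 : 0 ≤ M * (B - A) := mul_nonneg (by linarith) (by linarith)
  refine ⟨?_, ?_, ?_⟩
  · have : -(M * (B - A)) ≤ min (q * (l - B)) 0 := le_min (by linarith) (by linarith)
    linarith
  · have : -(M * (B - A)) ≤ min (q * (l - B) - (l - A)) (-(B - A)) := le_min (by linarith) (by linarith)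
    linarith
  · have : -(M * (B - A)) ≤ min ((q - J) * (l - B)) 0 := le_min (by linarith) (by linarith)
    linarith

/-- division by a length ratio -/
theorem sf_af_Pc_K (s lam K a b : ℝ) (hs : 0 < s) (h1 : s ^ a ≤ lam) (h2 : lam * |K| ≤ s ^ b) : |K| ≤ s ^ (b - a) := by
  have h0 : 0 < s ^ a := Real.rpow_pos_of_pos hs _
  have h3 : s ^ a * |K| ≤ s ^ b := (mul_le_mul_of_nonneg_right h1 (abs_nonneg _)).trans h2
  rw [Real.rpow_sub hs, le_div_iff₀ h0]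
  linarith

/-- the sum of the errors of the centre derivative -/
theorem sf_af_Pc_sum (Pal Pbe PK Px Pb Qal Qbe QK Qx Qb c X g W : ℝ) (hc : 1 ≤ c) (hX : 0 ≤ X) (hg : 21 * c ≤ g) (hW : W = X * g)
    (hal : |Pal - Qal| ≤ X + 2 * X * c + 2 * X * c) (h1 : |Pbe| ≤ 2 * X) (h2 : |PK| ≤ 2 * X) (h3 : |Qbe| ≤ 2 * X) (h4 : |QK| ≤ 2 * X)
    (h5 : |Px| ≤ c) (h6 : |Pb| ≤ c) (h7 : |Qx| ≤ c) (h8 : |Qb| ≤ c) (hQ0 : 0 ≤ Qal + 2 * Qbe * Qx - 2 * QK * Qb)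
    (hQ1 : Qal + 2 * Qbe * Qx - 2 * QK * Qb < W) : |Pal + 2 * Pbe * Px - 2 * PK * Pb| ≤ 2 * W := by
  obtain ⟨a1, a2⟩ := abs_le.1 hal
  obtain ⟨b1, b2⟩ := abs_le.1 (sf_af_tr_shear_mul h1 h5)
  obtain ⟨c1, c2⟩ := abs_le.1 (sf_af_tr_shear_mul h2 h6)
  obtain ⟨d1, d2⟩ := abs_le.1 (sf_af_tr_shear_mul h3 h7)
  obtain ⟨e1, e2⟩ := abs_le.1 (sf_af_tr_shear_mul h4 h8)
  have k1 : X * (21 * c) ≤ X * g := mul_le_mul_of_nonneg_left hg hX
  have k2 : X * 1 ≤ X * c := mul_le_mul_of_nonneg_left hc hX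
  rw [hW] at hQ1 ⊢
  exact abs_le.2 ⟨by linarith, by linarith⟩

/-- from the centre derivative back to `α` -/
theorem sf_af_Pc_al (Pal Pbe PK Px Pb c Y g W : ℝ) (hc : 1 ≤ c) (hY : 0 ≤ Y) (hg : 21 * c ≤ g)
    (hP : |Pal + 2 * Pbe * Px - 2 * PK * Pb| ≤ 2 * W) (hW : W ≤ Y) (h1 : |Pbe| ≤ Y) (h2 : |PK| ≤ Y) (h5 : |Px| ≤ c) (h6 : |Pb| ≤ c) :
    |Pal| ≤ Y * g := by
  obtain ⟨a1, a2⟩ := abs_le.1 hP
  obtain ⟨b1, b2⟩ := abs_le.1 (sf_af_tr_shear_mul h1 h5)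
  obtain ⟨c1, c2⟩ := abs_le.1 (sf_af_tr_shear_mul h2 h6)
  have k1 : Y * (21 * c) ≤ Y * g := mul_le_mul_of_nonneg_left hg hY
  have k2 : Y * 1 ≤ Y * c := mul_le_mul_of_nonneg_left hc hY
  exact abs_le.2 ⟨by linarith, by linarith⟩

/-- `c2 = 0`: the shear of the frame of an end row has no curvature -/
theorem sf_af_Pc_lin (D : SfDoc) (π : SfPar) (A B e : ℝ) (v : D.Row B) (hc : π.c2 = 0) (hpos : 0 < D.len A ∧ 0 < D.r B ∧ 0 < D.f B)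
    (R R' : SfTest) :
    ((D.afFv π A B e v).tst R).Pc - ((D.afFv π A B e v).tst R').Pc = (R.Pc - R'.Pc) / D.w1 B := by
  have hφ : (D.afFv π A B e v).Pos := hpos
  have hK : (D.afFv π A B e v).sg.K = 0 := by
    simp [SfDoc.afFv, SfDoc.afFk, SfAfU.of, SfAfU.fr, SfDoc.afU, sfAfWd, hc]
  have hb : (D.afFv π A B e v).sg.be = 0 := by
    simp [SfDoc.afFv, SfDoc.afFk, SfAfU.of, SfAfU.fr, SfDoc.afU, sfAfWd, hc]
  have hr : (D.afFv π A B e v).r0 = D.r B := rfl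
  have hF : (D.afFv π A B e v).F0 = D.f B := rfl
  rw [sf_af_fr_Pc _ hφ, sf_af_fr_Pc _ hφ]
  simp only [SfTest.PdAt, SfTest.beAt, hK, hb, hr, hF, SfDoc.w1]
  obtain ⟨-, h2, h3⟩ := hpos
  field_simp
  ring

/-- the label of the end row in its own frame -/
theorem sf_af_Pc_self (π : SfPar) (Ls : ℝ) (D : SfDoc) (C0 A B t e : ℝ) (h : D.AfH π Ls C0 A B t) (v : D.Row B) :
    0 < (sfAfWd π D.s (B - A) e).al ∧ 0 ≤ ((D.afFv π A B e v).tst (D.lab B v)).Pc ∧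
      ((D.afFv π A B e v).tst (D.lab B v)).Pc < (sfAfWd π D.s (B - A) e).al := by
  have hs0 := h.good.1.hs.1
  have hW : 0 < (sfAfWd π D.s (B - A) e).al := by
    simp only [sfAfWd]
    split_ifs <;> exact Real.rpow_pos_of_pos hs0 _
  exact ⟨hW, sf_af_fr_self (D.afU π A B e (sfMcAncT D A B (D.T B v))) (sf_af_u_pos π Ls D C0 A B t e _ h) (D.lab B v) 5 hW⟩

/-- the case `c2 = 0` -/
theorem sf_af_Pc_zero : ∃ C : ℝ, 0 < C ∧ ∀ (π : SfPar) (Ls : ℝ) (D : SfDoc) (C0 A B t e : ℝ), D.AfH π Ls C0 A B t → C * t ≤ e → π.c2 = 0 →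
    ∀ (v : D.Row B) (u : D.Rw), D.AfCh A B u v →
    |((D.afFv π A B e v).tst (D.lab u.1 u.2)).Pc| ≤ 2 * (sfAfWd π D.s (B - A) e).al := by
  obtain ⟨CP, hCP, HP⟩ := sf_af_nP
  refine ⟨CP, hCP, ?_⟩
  intro π Ls D C0 A B t e h hCe hc2 v u hu
  have hcore := h.good.1
  obtain ⟨hs0, hs1⟩ := hcore.hs
  have ht := h.t0
  obtain ⟨hW, hQ0, hQ1⟩ := sf_af_Pc_self π Ls D C0 A B t e h v
  have he : 0 ≤ e := le_trans (by positivity) hCe
  rcases hu with rfl | ⟨hg, hA, hB, hconn⟩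
  · rw [abs_of_nonneg hQ0]
    linarith
  · have hc1 : 0 < π.c1 := by
      rcases h.val.fam with ⟨a, -⟩ | ⟨a, -⟩ | ⟨-, a, -⟩
      · linarith
      · linarith
      · exact a
    have hpos : 0 < D.len A ∧ 0 < D.r B ∧ 0 < D.f B := sf_af_u_pos π Ls D C0 A B t e 0 h
    have hw1 : 0 < D.w1 B := div_pos hpos.2.2 hpos.2.1
    have k1 := HP π Ls D C0 A B t h hc2 u.1 hg B h.wn.gB hA hB le_rfl u.2 v hconn
    have k2 := sf_af_Pc_lin D π A B e v hc2 hpos (D.lab u.1 u.2) (D.lab B v)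
    have k3 : |((D.afFv π A B e v).tst (D.lab u.1 u.2)).Pc - ((D.afFv π A B e v).tst (D.lab B v)).Pc| ≤ D.s ^ (π.c1 * (u.1 - B) - CP * t) := by
      rw [k2, abs_div, abs_of_pos hw1, div_le_iff₀ hw1]
      linarith
    have eW : (sfAfWd π D.s (B - A) e).al = D.s ^ (-(π.c1 * (B - A) + 3 * e)) := by
      simp [sfAfWd, hc2]
    have k4 : D.s ^ (π.c1 * (u.1 - B) - CP * t) ≤ (sfAfWd π D.s (B - A) e).al := by
      rw [eW]
      refine sf_mc_anti hs0 hs1 ?_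
      have : 0 ≤ π.c1 * (u.1 - A) := mul_nonneg hc1.le (by linarith)
      linarith
    obtain ⟨p1, p2⟩ := abs_le.1 (k3.trans k4)
    exact abs_le.2 ⟨by linarith, by linarith⟩

/-- `0 < c2`: the coordinate `K` against `max 1 c2` -/
theorem sf_af_Pc_Kb (π : SfPar) (Ls : ℝ) (D : SfDoc) (C0 A B t e l K : ℝ) (h : D.AfH π Ls C0 A B t) (he : 2 * t ≤ e) (hc2 : 0 < π.c2)
    (hg : l ∈ D.G) (hlB : l ≤ B) (h1 : 1 ≤ π.c2 → |K| ≤ 2 * (sfAfWd π D.s (B - A) e).K)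
    (h2 : 0 < π.c2 → π.c2 < 1 → D.len l / D.len A * |K| ≤ D.s ^ (π.c2 * (l - B) - e)) :
    |K| ≤ 2 * D.s ^ (-(max 1 π.c2 * (B - A) + 2 * e)) := by
  have hcore := h.good.1
  obtain ⟨hs0, hs1⟩ := hcore.hs
  have ht := h.t0
  have he0 : 0 ≤ e := by linarith
  by_cases hc : 1 ≤ π.c2
  · have eW : (sfAfWd π D.s (B - A) e).K = D.s ^ (-(π.c2 * (B - A) + e)) := by simp [sfAfWd, hc]
    have k1 := h1 hc
    rw [eW] at k1
    rw [max_eq_right hc]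
    have k2 : D.s ^ (-(π.c2 * (B - A) + e)) ≤ D.s ^ (-(π.c2 * (B - A) + 2 * e)) := sf_mc_anti hs0 hs1 (by linarith)
    linarith
  · push Not at hc
    rw [max_eq_left hc.le]
    have hA0 : 0 < D.len A := sf_mc_len_pos D π C0 t hcore A h.wn.gA
    have k1 : D.s ^ ((l - A) + 2 * t) ≤ D.len l / D.len A := by
      rw [le_div_iff₀ hA0]
      have := (sf_ab_len D π C0 t hcore A l h.wn.gA hg).2
      linarith
    have k2 := sf_af_Pc_K D.s _ K _ _ hs0 k1 (h2 hc2 hc)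
    have k3 : D.s ^ (π.c2 * (l - B) - e - ((l - A) + 2 * t)) ≤ D.s ^ (-(1 * (B - A) + 2 * e)) := by
      refine sf_mc_anti hs0 hs1 ?_
      have : 0 ≤ (1 - π.c2) * (B - l) := mul_nonneg (by linarith) (by linarith)
      linarith
    have k4 : 0 < D.s ^ (-(1 * (B - A) + 2 * e)) := Real.rpow_pos_of_pos hs0 _
    linarith

/-- the case `0 < c2` -/
theorem sf_af_Pc_pos : ∃ C : ℝ, 0 < C ∧ ∀ (π : SfPar) (Ls : ℝ) (D : SfDoc) (C0 A B t e : ℝ), D.AfH π Ls C0 A B t → C * t ≤ e → 0 < π.c2 →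
    ∀ (v : D.Row B) (u : D.Rw), D.AfCh A B u v →
    |((D.afFv π A B e v).tst (D.lab u.1 u.2)).Pc| ≤ 2 * (sfAfWd π D.s (B - A) e).al := by
  obtain ⟨c, hc1, Hb⟩ := sf_af_sz_base
  obtain ⟨Cc, hCc, Hc⟩ := sf_af_sz_curv
  obtain ⟨CL, hCL, HL⟩ := sf_af_link
  obtain ⟨k, hk, Hk⟩ := sf_af_Pc_num (21 * c)
  refine ⟨Cc + CL + k + 2, by positivity, ?_⟩
  intro π Ls D C0 A B t e h hCe hc2 v u hu
  have hcore := h.good.1
  obtain ⟨hs0, hs1⟩ := hcore.hs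
  have ht := h.t0
  have p1 : 0 < Cc * t := mul_pos hCc ht
  have p2 : 0 < CL * t := mul_pos hCL ht
  have p3 : 0 < k * t := mul_pos hk ht
  have e0 : Cc * t + CL * t + k * t + 2 * t ≤ e := by linarith
  have hAB : 0 ≤ B - A := by linarith [h.th]
  obtain ⟨hW, hQ0, hQ1⟩ := sf_af_Pc_self π Ls D C0 A B t e h v
  have hl : u.1 ∈ D.G ∧ A ≤ u.1 ∧ u.1 ≤ B := by
    rcases hu with rfl | ⟨a, b, c, -⟩
    · exact ⟨h.wn.gB, h.wn.hAB.le, le_rfl⟩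
    · exact ⟨a, b, c.le⟩
  obtain ⟨hg, hAl, hlB⟩ := hl
  obtain ⟨P, hP⟩ : ∃ P, P = (D.afFv π A B e v).tst (D.lab u.1 u.2) := ⟨_, rfl⟩
  obtain ⟨Q, hQ⟩ : ∃ Q, Q = (D.afFv π A B e v).tst (D.lab B v) := ⟨_, rfl⟩
  obtain ⟨z, hz⟩ : ∃ z, z = (D.afFv π A B e v).ray (D.ray u.1 u.2) := ⟨_, rfl⟩
  obtain ⟨bPx, bPb, -, bQx, bQb, -, bX, bB, bY, -, -, -, -⟩ := Hb π Ls D C0 A B t e h v u hu P Q z hP hQ hz
  have lk := HL π Ls D C0 A B t h _ (sf_af_fv_un D π A B e v) v u hu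
  rw [← hP, ← hQ, ← hz] at lk
  have sh := (sf_af_tr_shear P Q z _ _ _ _ _ _ _ c c c lk bX bB bY).2.1
  obtain ⟨M, hM⟩ : ∃ M, M = max 1 π.c2 := ⟨_, rfl⟩
  have hM1 : 1 ≤ M := hM ▸ le_max_left _ _
  have hMc : π.c2 ≤ M := hM ▸ le_max_right _ _
  have hqM : π.q ≤ M := by
    rcases h.val.fam with ⟨-, a⟩ | ⟨-, a⟩ | ⟨a, -⟩
    · linarith
    · linarith
    · linarith
  obtain ⟨x1, x2, x3⟩ := sf_af_Pc_exp π.q π.J M A B u.1 e (CL * t) hqM hM1 h.val.J0 hAl hlB (by linarith)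
  obtain ⟨X, hX⟩ : ∃ X, X = D.s ^ (-(M * (B - A) + 2 * e)) := ⟨_, rfl⟩
  have hX0 : 0 < X := hX ▸ Real.rpow_pos_of_pos hs0 _
  have a2 : D.s ^ (min (π.q * (u.1 - B)) 0 - CL * t) ≤ X := hX ▸ sf_mc_anti hs0 hs1 x1
  have aK : D.s ^ (min (π.q * (u.1 - B) - (u.1 - A)) (-(B - A)) - CL * t) ≤ X := hX ▸ sf_mc_anti hs0 hs1 x2
  have a1 : D.s ^ (min ((π.q - π.J) * (u.1 - B)) 0 - CL * t) ≤ X := hX ▸ sf_mc_anti hs0 hs1 x3
  have hc0 : 0 ≤ c := by linarith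
  have hal : |P.al - Q.al| ≤ X + 2 * X * c + 2 * X * c := by
    refine sh.trans ?_
    have m1 := mul_le_mul_of_nonneg_right a2 hc0
    have m2 := mul_le_mul_of_nonneg_right aK hc0
    linarith
  have cu := Hc π Ls D C0 A B t e h (by linarith) v u hu P hP
  have cv := Hc π Ls D C0 A B t e h (by linarith) v ⟨B, v⟩ (Or.inl rfl) Q hQ
  have eWb : (sfAfWd π D.s (B - A) e).be = D.s ^ (-(π.c2 * (B - A) + 2 * e)) := by simp [sfAfWd, hc2]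
  have hbe : D.s ^ (-(π.c2 * (B - A) + 2 * e)) ≤ X := by
    rw [hX]
    refine sf_mc_anti hs0 hs1 ?_
    have := mul_le_mul_of_nonneg_right hMc hAB
    linarith
  have bPbe : |P.be| ≤ 2 * X := (cu.2.1 hc2).trans (by rw [eWb]; linarith)
  have bQbe : |Q.be| ≤ 2 * X := (cv.2.1 hc2).trans (by rw [eWb]; linarith)
  have bPK : |P.K| ≤ 2 * X := by
    rw [hX, hM]
    exact sf_af_Pc_Kb π Ls D C0 A B t e u.1 P.K h (by linarith) hc2 hg hlB cu.1 cu.2.2.1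
  have bQK : |Q.K| ≤ 2 * X := by
    rw [hX, hM]
    exact sf_af_Pc_Kb π Ls D C0 A B t e B Q.K h (by linarith) hc2 h.wn.gB le_rfl cv.1 cv.2.2.1
  have hg21 : 21 * c ≤ D.s ^ (-e) := (Hk D.s t hs0 h.sm).trans (sf_mc_anti hs0 hs1 (by linarith))
  have eW : (sfAfWd π D.s (B - A) e).al = X * D.s ^ (-e) := by
    rw [hX, ← Real.rpow_add hs0, hM]
    simp only [sfAfWd, if_pos hc2]
    congr 1
    ring
  rw [← hQ] at hQ0 hQ1
  rw [← hP]
  exact sf_af_Pc_sum P.al P.be P.K P.x P.b Q.al Q.be Q.K Q.x Q.b c X (D.s ^ (-e)) _ hc1 hX0.le hg21 eW hal bPbe bPK bQbe bQK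
    bPx bPb bQx bQb hQ0 hQ1

/-- LEAF AF-S4 (~400 l.; may be cut: `c2 = 0` / `0 < c2`).   The centre derivative.   PLAN.   `0 ≤ Q.Pc < W.al` (`sf_af_fr_self`, `m = 5`).
 `c2 = 0` (`W.al = s^(-(c1 h + 3e))`; the shear of the frame has `K = β = 0`, so `P.Pc - Q.Pc = (Pc_u - Pc_v) / w1 B` by `sf_af_fr_Pc`): `sf_af_nP`, `c1 (l - B) ≥ - c1 h`.
 `0 < c2` (`W.al = s^(-(max 1 c2 h + 3e))`): `R.Pc = R.al + 2 R.be R.x - 2 R.K R.b` for `R = P, Q`;  `|P.al - Q.al| ≤ a1 + 2 a2 c + 2 aK c` (`sf_af_tr_shear`, `sf_af_sz_base`), with `a1, a2, aK ≤ s^(-(max 1 c2 h + C' t))`;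
 the products by `sf_af_sz_base` and: `|R.be| ≤ 2 W.be`, `|R.K| ≤ 2 W.K` (`1 ≤ c2`) resp. `|R.K| ≤ (len A / len l) s^(c2 (l-B) - e) ≤ s^(-(h + 2e))` (`c2 < 1`) (`sf_af_sz_curv` for `u` and for `⟨B, v⟩`);  the sum is `≤ 20 c s^(-(max 1 c2 h + 2e)) ≤ W.al` as `20 c ≤ 2^C ≤ s^(-e)`.
 `|P.al| ≤ |P.Pc| + 2 c |P.be| + 2 c |P.K|`, `sf_af_sz_curv'`. -/
theorem sf_af_sz_Pc : ∃ C : ℝ, 0 < C ∧ ∀ (π : SfPar) (Ls : ℝ) (D : SfDoc) (C0 A B t e : ℝ), D.AfH π Ls C0 A B t → C * t ≤ e →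
    ∀ (v : D.Row B) (u : D.Rw), D.AfCh A B u v → ∀ P : SfTest, P = (D.afFv π A B e v).tst (D.lab u.1 u.2) →
    |P.Pc| ≤ 2 * (sfAfWd π D.s (B - A) e).al ∧
    |P.al| ≤ D.s ^ (-((1 + π.c2 + |π.c1| + |π.q|) * (B - A) + 4 * e)) := by
  obtain ⟨c, hc1, Hb⟩ := sf_af_sz_base
  obtain ⟨C1, hC1, H1⟩ := sf_af_Pc_zero
  obtain ⟨C2, hC2, H2⟩ := sf_af_Pc_pos
  obtain ⟨Cd, hCd, Hd⟩ := sf_af_sz_curv'
  obtain ⟨k, hk, Hk⟩ := sf_af_Pc_num (21 * c)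
  refine ⟨C1 + C2 + Cd + k, by positivity, ?_⟩
  intro π Ls D C0 A B t e h hCe v u hu P hP
  have hcore := h.good.1
  obtain ⟨hs0, hs1⟩ := hcore.hs
  have ht := h.t0
  have p1 : 0 < C1 * t := mul_pos hC1 ht
  have p2 : 0 < C2 * t := mul_pos hC2 ht
  have p3 : 0 < Cd * t := mul_pos hCd ht
  have p4 : 0 < k * t := mul_pos hk ht
  have e0 : C1 * t + C2 * t + Cd * t + k * t ≤ e := by linarith
  have hAB : 0 ≤ B - A := by linarith [h.th]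
  have hc2 : 0 ≤ π.c2 := by
    rcases h.val.fam with ⟨a, -⟩ | ⟨a, -⟩ | ⟨a, -⟩ <;> linarith
  have key : |P.Pc| ≤ 2 * (sfAfWd π D.s (B - A) e).al := by
    rw [hP]
    rcases hc2.eq_or_lt with h0 | h0
    · exact H1 π Ls D C0 A B t e h (by linarith) h0.symm v u hu
    · exact H2 π Ls D C0 A B t e h (by linarith) h0 v u hu
  refine ⟨key, ?_⟩
  obtain ⟨bPx, bPb, -⟩ := Hb π Ls D C0 A B t e h v u hu P _ _ hP rfl rfl
  obtain ⟨dK, dbe⟩ := Hd π Ls D C0 A B t e h (by linarith) v u hu P hP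
  obtain ⟨Y, hY⟩ : ∃ Y, Y = D.s ^ (-((1 + π.c2 + |π.c1| + |π.q|) * (B - A) + 3 * e)) := ⟨_, rfl⟩
  have hY0 : 0 < Y := hY ▸ Real.rpow_pos_of_pos hs0 _
  have q1 : 0 ≤ |π.c1| * (B - A) := mul_nonneg (abs_nonneg _) hAB
  have q2 : 0 ≤ |π.q| * (B - A) := mul_nonneg (abs_nonneg _) hAB
  have q3 : 0 ≤ π.c2 * (B - A) := mul_nonneg hc2 hAB
  have hK : |P.K| ≤ Y := dK.trans (hY ▸ sf_mc_anti hs0 hs1 (by linarith))
  have hbe : |P.be| ≤ Y := dbe.trans (hY ▸ sf_mc_anti hs0 hs1 (by linarith))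
  have hWY : (sfAfWd π D.s (B - A) e).al ≤ Y := by
    rw [hY]
    simp only [sfAfWd]
    split_ifs with h0
    · refine sf_mc_anti hs0 hs1 ?_
      have : max 1 π.c2 * (B - A) ≤ (1 + π.c2) * (B - A) := mul_le_mul_of_nonneg_right (max_le (by linarith) (by linarith)) hAB
      linarith
    · refine sf_mc_anti hs0 hs1 ?_
      have : π.c1 * (B - A) ≤ |π.c1| * (B - A) := mul_le_mul_of_nonneg_right (le_abs_self _) hAB
      linarith
  have hg21 : 21 * c ≤ D.s ^ (-e) := (Hk D.s t hs0 h.sm).trans (sf_mc_anti hs0 hs1 (by linarith))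
  have fin := sf_af_Pc_al P.al P.be P.K P.x P.b c Y (D.s ^ (-e)) _ hc1 hY0.le hg21 key hWY hbe hK bPx bPb
  have eY : Y * D.s ^ (-e) = D.s ^ (-((1 + π.c2 + |π.c1| + |π.q|) * (B - A) + 4 * e)) := by
    rw [hY, ← Real.rpow_add hs0]
    congr 1
    ring
  rw [← eY]
  exact fin

/-- a constant `c ≤ C` is absorbed by `s^(-e)`, `C t ≤ e` -/
theorem sf_af_sz_cd_const {s t e C c : ℝ} (hs : 0 < s ∧ s < 1) (hsm : s ^ t ≤ 1 / 2) (hC : 1 ≤ C) (hc : c ≤ C) (he : C * t ≤ e) :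
    c ≤ s ^ (-e) := by
  have h2 : 2 ≤ s ^ (-t) := sf_af_sz_two hs hsm le_rfl
  have h1 : s ^ (-(C * t)) ≤ s ^ (-e) := sf_mc_anti hs.1 hs.2 (by linarith)
  have e1 : s ^ (-(C * t)) = (s ^ (-t)) ^ C := by
    rw [← Real.rpow_mul hs.1.le]
    congr 1
    ring
  have h3 : (2 : ℝ) ^ C ≤ (s ^ (-t)) ^ C := Real.rpow_le_rpow (by norm_num) h2 (by linarith)
  have h4 : 1 + C * 1 ≤ (1 + 1 : ℝ) ^ C := one_add_mul_self_le_rpow_one_add (by norm_num) hC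
  have e2 : (1 + 1 : ℝ) = 2 := by norm_num
  rw [e2] at h4
  rw [e1] at h1
  linarith

/-- the exponents of the five comparisons -/
theorem sf_af_sz_cd_exp {q J l A B : ℝ} (hJ : 0 ≤ J) (hAl : A ≤ l) (hlB : l ≤ B) :
    -((1 + |q| + 2 * J) * (B - A)) ≤ min (q * (l - B)) 0 ∧
    -((1 + |q| + 2 * J) * (B - A)) ≤ min (q * (l - B) - (l - A)) (-(B - A)) ∧
    -((1 + |q| + 2 * J) * (B - A)) ≤ min ((q - J) * (l - B)) 0 ∧
    -((1 + |q| + 2 * J) * (B - A)) ≤ min ((q - 2 * J) * (l - B)) 0 := by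
  have hq1 : q ≤ |q| := le_abs_self q
  have hq0 : 0 ≤ |q| := abs_nonneg q
  have h1 : 0 ≤ B - l := by linarith
  have h2 : B - l ≤ B - A := by linarith
  have h3 : 0 ≤ B - A := by linarith
  have p1 : |q| * (B - l) ≤ |q| * (B - A) := mul_le_mul_of_nonneg_left h2 hq0
  have p2 : q * (B - l) ≤ |q| * (B - l) := mul_le_mul_of_nonneg_right hq1 h1
  have p4 : 0 ≤ J * (B - l) := mul_nonneg hJ h1
  have p5 : 0 ≤ |q| * (B - A) := mul_nonneg hq0 h3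
  have p6 : 0 ≤ J * (B - A) := mul_nonneg hJ h3
  refine ⟨le_min ?_ ?_, le_min ?_ ?_, le_min ?_ ?_, le_min ?_ ?_⟩ <;> linarith

/-- the algebra of the two bounds -/
theorem sf_af_sz_cd_alg {a2 aK a1 aA aS M c : ℝ} (hc : 1 ≤ c) (hM : 0 ≤ M) (h2 : a2 ≤ M) (hK : aK ≤ M) (h1 : a1 ≤ M) (hA : aA ≤ M)
    (hS : aS ≤ M) :
    aA + (a1 + 2 * a2 * c + 2 * aK * c) * c + a2 * c ^ 2 + aK * (c + 2 * c * c) ≤ 10 * c ^ 2 * M ∧
    aS + (a1 + 2 * a2 * c + 2 * aK * c) * c + a2 * c + aK * c ^ 2 ≤ 10 * c ^ 2 * M := by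
  have hc0 : 0 ≤ c := by linarith
  have hcc : c ≤ c ^ 2 := by nlinarith
  have h1c : 1 ≤ c ^ 2 := by nlinarith
  constructor
  · calc aA + (a1 + 2 * a2 * c + 2 * aK * c) * c + a2 * c ^ 2 + aK * (c + 2 * c * c)
        ≤ M + (M + 2 * M * c + 2 * M * c) * c + M * c ^ 2 + M * (c + 2 * c * c) := by gcongr
      _ = M * (1 + 2 * c + 7 * c ^ 2) := by ring
      _ ≤ M * (10 * c ^ 2) := mul_le_mul_of_nonneg_left (by linarith) hM
      _ = 10 * c ^ 2 * M := by ring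
  · calc aS + (a1 + 2 * a2 * c + 2 * aK * c) * c + a2 * c + aK * c ^ 2
        ≤ M + (M + 2 * M * c + 2 * M * c) * c + M * c + M * c ^ 2 := by gcongr
      _ = M * (1 + 2 * c + 5 * c ^ 2) := by ring
      _ ≤ M * (10 * c ^ 2) := mul_le_mul_of_nonneg_left (by linarith) hM
      _ = 10 * c ^ 2 * M := by ring

/-- LEAF AF-S5 (~350 l.).   The constants.   PLAN: `0 ≤ Q.c < W.c`, `0 ≤ Q.d < W.d` (`sf_af_fr_self`, `m = 6, 7`);  `sf_af_tr_shear` with `Xh = Bh = Yh = c` (`sf_af_sz_base`):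
`a1, a2, aK ≤ s^(-((1+|q|+J) h + C' t))`, `aA, aS ≤ s^(-((|q|+2J) h + C' t))`, so `|P.c - Q.c| ≤ 10 c² s^(-((1+|q|+2J) h + C' t)) ≤ W.c`;   `|P.d - Q.d| ≤ lP |P.c| + 10 c² s^(..) ≤ 2 W.c + .. ≤ W.d` (`lP ≤ 1`, `4 ≤ s^(-e)`). -/
theorem sf_af_sz_cd : ∃ C : ℝ, 0 < C ∧ ∀ (π : SfPar) (Ls : ℝ) (D : SfDoc) (C0 A B t e : ℝ), D.AfH π Ls C0 A B t → C * t ≤ e →
    ∀ (v : D.Row B) (u : D.Rw), D.AfCh A B u v → ∀ P : SfTest, P = (D.afFv π A B e v).tst (D.lab u.1 u.2) →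
    |P.c| ≤ 2 * (sfAfWd π D.s (B - A) e).c ∧ |P.d| ≤ 2 * (sfAfWd π D.s (B - A) e).d := by
  obtain ⟨c, hc1, Hb⟩ := sf_af_sz_base
  obtain ⟨C', hC', Hl⟩ := sf_af_link
  refine ⟨max C' (10 * c ^ 2), lt_of_lt_of_le hC' (le_max_left _ _), ?_⟩
  intro π Ls D C0 A B t e h he v u hu P hP
  have hs := h.good.1.hs
  have ht := h.t0
  have hCC : C' ≤ max C' (10 * c ^ 2) := le_max_left _ _
  have h10 : 10 * c ^ 2 ≤ max C' (10 * c ^ 2) := le_max_right _ _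
  have hc2 : 1 ≤ c ^ 2 := by nlinarith
  have hC1 : 1 ≤ max C' (10 * c ^ 2) := by linarith
  have he0 : 0 ≤ e := le_trans (by positivity) he
  have hC't : C' * t ≤ e := (mul_le_mul_of_nonneg_right hCC ht.le).trans he
  have hl : A ≤ u.1 ∧ u.1 ≤ B := by
    rcases hu with rfl | ⟨-, h1, h2, -⟩
    · exact ⟨h.wn.hAB.le, le_rfl⟩
    · exact ⟨h1, h2.le⟩
  obtain ⟨Q, hQ⟩ : ∃ Q, Q = (D.afFv π A B e v).tst (D.lab B v) := ⟨_, rfl⟩
  obtain ⟨z, hz⟩ : ∃ z, z = (D.afFv π A B e v).ray (D.ray u.1 u.2) := ⟨_, rfl⟩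
  obtain ⟨-, -, -, -, -, -, bX, bB, bY, -, -, bl, bT⟩ := Hb π Ls D C0 A B t e h v u hu P Q z hP hQ hz
  have lk := Hl π Ls D C0 A B t h (D.afFv π A B e v) (sf_af_fv_un D π A B e v) v u hu
  rw [← hP, ← hQ, ← hz] at lk
  obtain ⟨-, -, sc, sd⟩ := sf_af_tr_shear P Q z _ _ _ _ _ _ _ c c c lk bX bB bY
  have hU := sf_af_u_pos π Ls D C0 A B t e (sfMcAncT D A B (D.T B v)) h
  have g6 : 0 ≤ Q.c ∧ Q.c < D.s ^ (-((1 + |π.q| + 2 * π.J) * (B - A) + 4 * e)) := by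
    rw [hQ]
    exact sf_af_fr_self (D.afU π A B e (sfMcAncT D A B (D.T B v))) hU (D.lab B v) 6
      (show 0 < D.s ^ (-((1 + |π.q| + 2 * π.J) * (B - A) + 4 * e)) from Real.rpow_pos_of_pos hs.1 _)
  have g7 : 0 ≤ Q.d ∧ Q.d < D.s ^ (-((1 + |π.q| + 2 * π.J) * (B - A) + 5 * e)) := by
    rw [hQ]
    exact sf_af_fr_self (D.afU π A B e (sfMcAncT D A B (D.T B v))) hU (D.lab B v) 7
      (show 0 < D.s ^ (-((1 + |π.q| + 2 * π.J) * (B - A) + 5 * e)) from Real.rpow_pos_of_pos hs.1 _)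
  show |P.c| ≤ 2 * D.s ^ (-((1 + |π.q| + 2 * π.J) * (B - A) + 4 * e)) ∧ |P.d| ≤ 2 * D.s ^ (-((1 + |π.q| + 2 * π.J) * (B - A) + 5 * e))
  obtain ⟨x1, x2, x3, x4⟩ := sf_af_sz_cd_exp (q := π.q) h.val.J0 hl.1 hl.2
  have anti : ∀ {x y : ℝ}, x ≤ y → D.s ^ y ≤ D.s ^ x := fun hxy => sf_mc_anti hs.1 hs.2 hxy
  obtain ⟨y1, y2⟩ := sf_af_sz_cd_alg (M := D.s ^ (-((1 + |π.q| + 2 * π.J) * (B - A)) - C' * t)) hc1 (Real.rpow_pos_of_pos hs.1 _).le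
    (anti (sub_le_sub_right x1 _)) (anti (sub_le_sub_right x2 _)) (anti (sub_le_sub_right x3 _)) (anti (sub_le_sub_right x4 _))
    (anti (sub_le_sub_right x4 _))
  have hk10 : 10 * c ^ 2 ≤ D.s ^ (-e) := sf_af_sz_cd_const hs h.sm hC1 h10 he
  have hk3 : 3 ≤ D.s ^ (-e) := sf_af_sz_cd_const hs h.sm hC1 (by linarith) he
  have hMW : 10 * c ^ 2 * D.s ^ (-((1 + |π.q| + 2 * π.J) * (B - A)) - C' * t) ≤ D.s ^ (-((1 + |π.q| + 2 * π.J) * (B - A) + 4 * e)) := by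
    calc 10 * c ^ 2 * D.s ^ (-((1 + |π.q| + 2 * π.J) * (B - A)) - C' * t)
        ≤ D.s ^ (-e) * D.s ^ (-((1 + |π.q| + 2 * π.J) * (B - A)) - C' * t) :=
          mul_le_mul_of_nonneg_right hk10 (Real.rpow_pos_of_pos hs.1 _).le
      _ = D.s ^ (-e + (-((1 + |π.q| + 2 * π.J) * (B - A)) - C' * t)) := (Real.rpow_add hs.1 _ _).symm
      _ ≤ D.s ^ (-((1 + |π.q| + 2 * π.J) * (B - A) + 4 * e)) := anti (by linarith)
  have hWW : 3 * D.s ^ (-((1 + |π.q| + 2 * π.J) * (B - A) + 4 * e)) ≤ D.s ^ (-((1 + |π.q| + 2 * π.J) * (B - A) + 5 * e)) := by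
    calc 3 * D.s ^ (-((1 + |π.q| + 2 * π.J) * (B - A) + 4 * e))
        ≤ D.s ^ (-e) * D.s ^ (-((1 + |π.q| + 2 * π.J) * (B - A) + 4 * e)) :=
          mul_le_mul_of_nonneg_right hk3 (Real.rpow_pos_of_pos hs.1 _).le
      _ = D.s ^ (-e + -((1 + |π.q| + 2 * π.J) * (B - A) + 4 * e)) := (Real.rpow_add hs.1 _ _).symm
      _ = D.s ^ (-((1 + |π.q| + 2 * π.J) * (B - A) + 5 * e)) := by
          congr 1
          ring
  have sc' := (sc.trans y1).trans hMW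
  have sd' := (sd.trans y2).trans hMW
  have hPc : |P.c| ≤ 2 * D.s ^ (-((1 + |π.q| + 2 * π.J) * (B - A) + 4 * e)) := by
    rw [abs_le] at sc' ⊢
    constructor <;> linarith [sc'.1, sc'.2, g6.1, g6.2]
  refine ⟨hPc, ?_⟩
  have hTc : |(Q.T - P.T) * P.c| ≤ 1 * (2 * D.s ^ (-((1 + |π.q| + 2 * π.J) * (B - A) + 4 * e))) :=
    sf_af_tr_shear_mul (bT.trans bl) hPc
  rw [abs_le] at sd' hTc ⊢
  constructor <;> linarith [sd'.1, sd'.2, hTc.1, hTc.2, g7.1, g7.2]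

/-- a constant `c ≤ C` is absorbed by `s^(-e)`, `C t ≤ e` -/
theorem sf_af_sz_const {s t e C c : ℝ} (hs : 0 < s ∧ s < 1) (hsm : s ^ t ≤ 1 / 2) (hC : 1 ≤ C) (hc : c ≤ C) (he : C * t ≤ e) : c ≤ s ^ (-e) := by
  have h2 : 2 ≤ s ^ (-t) := sf_af_sz_two hs hsm le_rfl
  have h1 : s ^ (-(C * t)) ≤ s ^ (-e) := sf_mc_anti hs.1 hs.2 (by linarith)
  have e1 : s ^ (-(C * t)) = (s ^ (-t)) ^ C := by
    rw [← Real.rpow_mul hs.1.le]
    congr 1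
    ring
  have h3 : (2 : ℝ) ^ C ≤ (s ^ (-t)) ^ C := Real.rpow_le_rpow (by norm_num) h2 (by linarith)
  have h4 : 1 + C * 1 ≤ (1 + 1 : ℝ) ^ C := one_add_mul_self_le_rpow_one_add (by norm_num) hC
  have e2 : (1 + 1 : ℝ) = 2 := by norm_num
  rw [e2] at h4
  rw [e1] at h1
  linarith

/-- LEAF AF-S6 (~250 l., glue).   **THE KEY ESTIMATE**: in the frame of the end row, every binned coordinate of a label on a chain is `≤ c ×` its width, `c` a constant; the size is `≤ Δ^-(C1 - 1) s^(-6e)`.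
PLAN: `C := max` of the constants of `sf_af_sz_curv`, `_curv'`, `_Pc`, `_cd` and of `log₂ c + 1`; `c := max 2 (c of sf_af_sz_base)`; `fin_cases m` (`SfAfU.wd`, `sfAfCo`, `Matrix.cons_val_*`; a width `if .. then .. else 0` is positive only in the first branch);
`SfTest.size` = max of eight absolute values (`max_le`); `sfAfC1 π - 1 = 1 + c2 + |c1| + |q| + 2J`, `0 ≤ c2` (`fam`), `0 ≤ J`; `2 ≤ s^(-e)`, `c ≤ s^(-e)`. -/
theorem sf_af_sz : ∃ C c : ℝ, 0 < C ∧ 1 ≤ c ∧ ∀ (π : SfPar) (Ls : ℝ) (D : SfDoc) (C0 A B t e : ℝ), D.AfH π Ls C0 A B t → C * t ≤ e →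
    ∀ (v : D.Row B) (u : D.Rw), D.AfCh A B u v →
    (∀ m : Fin 8, 0 < (D.afU π A B e (D.afKey π A B e v).1).wd m →
      |sfAfCo ((D.afFv π A B e v).tst (D.lab u.1 u.2)) m| ≤ c * (D.afU π A B e (D.afKey π A B e v).1).wd m) ∧
    ((D.afFv π A B e v).tst (D.lab u.1 u.2)).size ≤ D.s ^ (-((sfAfC1 π - 1) * (B - A) + 6 * e)) := by
  obtain ⟨cb, hcb, Hbase⟩ := sf_af_sz_base
  obtain ⟨C1, hC1, Hcv⟩ := sf_af_sz_curv
  obtain ⟨C2, hC2, Hcv'⟩ := sf_af_sz_curv'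
  obtain ⟨C3, hC3, HPc⟩ := sf_af_sz_Pc
  obtain ⟨C4, hC4, Hcd⟩ := sf_af_sz_cd
  obtain ⟨C, hCd⟩ : ∃ C, C = max (max (max C1 C2) (max C3 C4)) cb := ⟨_, rfl⟩
  have l1 : C1 ≤ C := by rw [hCd]; exact ((le_max_left _ _).trans (le_max_left _ _)).trans (le_max_left _ _)
  have l2 : C2 ≤ C := by rw [hCd]; exact ((le_max_right _ _).trans (le_max_left _ _)).trans (le_max_left _ _)
  have l3 : C3 ≤ C := by rw [hCd]; exact ((le_max_left _ _).trans (le_max_right _ _)).trans (le_max_left _ _)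
  have l4 : C4 ≤ C := by rw [hCd]; exact ((le_max_right _ _).trans (le_max_right _ _)).trans (le_max_left _ _)
  have l5 : cb ≤ C := by rw [hCd]; exact le_max_right _ _
  refine ⟨C, max 2 cb, by linarith, (by norm_num : (1 : ℝ) ≤ 2).trans (le_max_left _ _), ?_⟩
  intro π Ls D C0 A B t e h he v u hu
  have hc := h.good.1
  have hs := hc.hs
  have ht := h.t0
  have hh : 0 < B - A := by linarith [h.wn.hAB]
  have hle : ∀ C' : ℝ, C' ≤ C → C' * t ≤ e := fun C' hC' => (mul_le_mul_of_nonneg_right hC' ht.le).trans he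
  have hte : t ≤ e := by
    have := hle 1 (hcb.trans l5)
    linarith
  have he0 : 0 < e := by linarith
  obtain ⟨P, hP⟩ : ∃ P, P = (D.afFv π A B e v).tst (D.lab u.1 u.2) := ⟨_, rfl⟩
  rw [← hP]
  obtain ⟨bx, bb, by', -⟩ := Hbase π Ls D C0 A B t e h v u hu P _ _ hP rfl rfl
  obtain ⟨Ha, Hb, -, -⟩ := Hcv π Ls D C0 A B t e h (hle _ l1) v u hu P hP
  obtain ⟨cK, cbe⟩ := Hcv' π Ls D C0 A B t e h (hle _ l2) v u hu P hP
  obtain ⟨pPc, pal⟩ := HPc π Ls D C0 A B t e h (hle _ l3) v u hu P hP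
  obtain ⟨dc, dd⟩ := Hcd π Ls D C0 A B t e h (hle _ l4) v u hu P hP
  have h2e : 2 ≤ D.s ^ (-e) := sf_af_sz_two hs h.sm hte
  have hcbe : cb ≤ D.s ^ (-e) := sf_af_sz_const hs h.sm (hcb.trans l5) l5 he
  have m2 : (2 : ℝ) ≤ max 2 cb := le_max_left _ _
  have mc : cb ≤ max 2 cb := le_max_right _ _
  have hc2 : 0 ≤ π.c2 := by
    rcases h.val.fam with ⟨g, _⟩ | ⟨g, _⟩ | ⟨g, _⟩ <;> linarith
  have hJ := h.val.J0
  have hq0 := abs_nonneg π.q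
  have hc10 := abs_nonneg π.c1
  constructor
  · intro m hm
    fin_cases m
    · show |P.x| ≤ max 2 cb * 1
      linarith
    · show |P.b| ≤ max 2 cb * 1
      linarith
    · show |P.y| ≤ max 2 cb * 1
      linarith
    · have hm' : 0 < (sfAfWd π D.s (B - A) e).K := hm
      show |P.K| ≤ max 2 cb * (sfAfWd π D.s (B - A) e).K
      have h1 : 1 ≤ π.c2 := by
        by_contra hn
        simp only [sfAfWd, if_neg hn] at hm'
        exact lt_irrefl _ hm'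
      exact (Ha h1).trans (mul_le_mul_of_nonneg_right m2 hm'.le)
    · have hm' : 0 < (sfAfWd π D.s (B - A) e).be := hm
      show |P.be| ≤ max 2 cb * (sfAfWd π D.s (B - A) e).be
      have h1 : 0 < π.c2 := by
        by_contra hn
        simp only [sfAfWd, if_neg hn] at hm'
        exact lt_irrefl _ hm'
      exact (Hb h1).trans (mul_le_mul_of_nonneg_right m2 hm'.le)
    · have hm' : 0 < (sfAfWd π D.s (B - A) e).al := hm
      show |P.Pc| ≤ max 2 cb * (sfAfWd π D.s (B - A) e).al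
      exact pPc.trans (mul_le_mul_of_nonneg_right m2 hm'.le)
    · have hm' : 0 < (sfAfWd π D.s (B - A) e).c := hm
      show |P.c| ≤ max 2 cb * (sfAfWd π D.s (B - A) e).c
      exact dc.trans (mul_le_mul_of_nonneg_right m2 hm'.le)
    · have hm' : 0 < (sfAfWd π D.s (B - A) e).d := hm
      show |P.d| ≤ max 2 cb * (sfAfWd π D.s (B - A) e).d
      exact dd.trans (mul_le_mul_of_nonneg_right m2 hm'.le)
  · have p1 : 0 ≤ π.c2 * (B - A) := mul_nonneg hc2 hh.le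
    have p2 : 0 ≤ |π.c1| * (B - A) := mul_nonneg hc10 hh.le
    have p3 : 0 ≤ |π.q| * (B - A) := mul_nonneg hq0 hh.le
    have p4 : 0 ≤ π.J * (B - A) := mul_nonneg hJ hh.le
    have eC : (sfAfC1 π - 1) * (B - A) = (B - A) + π.c2 * (B - A) + |π.c1| * (B - A) + |π.q| * (B - A) + 2 * (π.J * (B - A)) := by
      unfold sfAfC1
      ring
    rw [eC]
    have hbase : D.s ^ (-e) ≤ D.s ^ (-((B - A) + π.c2 * (B - A) + |π.c1| * (B - A) + |π.q| * (B - A) + 2 * (π.J * (B - A)) + 6 * e)) :=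
      sf_mc_anti hs.1 hs.2 (by linarith)
    simp only [sfAfWd] at dc dd
    unfold SfTest.size
    refine max_le ((bx.trans hcbe).trans hbase) (max_le ((bb.trans hcbe).trans hbase) (max_le ((by'.trans hcbe).trans hbase)
      (max_le (sf_af_sz_abs hs h2e dc ?_) (max_le (sf_af_sz_abs hs h2e dd ?_) (max_le (pal.trans (sf_mc_anti hs.1 hs.2 ?_))
        (max_le (cbe.trans (sf_mc_anti hs.1 hs.2 ?_)) (cK.trans (sf_mc_anti hs.1 hs.2 ?_))))))))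
    all_goals linarith

/-- product of two bounded reals -/
theorem sf_af_ry_mul {a b A B : ℝ} (ha : |a| ≤ A) (hb : |b| ≤ B) : |a * b| ≤ A * B := by
  rw [abs_mul]
  exact mul_le_mul ha hb (abs_nonneg _) (le_trans (abs_nonneg _) ha)

/-- the normal coordinates of a ray from the two defects and the sizes -/
theorem sf_af_ry_alg {X B Y N Dd c d al be K E S F : ℝ} (hE : 1 ≤ E) (hX : |X| ≤ E) (hB : |B| ≤ E) (hY : |Y| ≤ E)
    (hc : |c| ≤ S) (hd : |d| ≤ S) (hal : |al| ≤ S) (hbe : |be| ≤ S) (hK : |K| ≤ S)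
    (hN : |N - (c + al * X + be * X ^ 2 + K * (Y - 2 * X * B))| ≤ F)
    (hD : |Dd - (d + al * B + be * Y - K * B ^ 2)| ≤ F) :
    |N| ≤ F + 6 * (S * E ^ 2) ∧ |Dd| ≤ F + 6 * (S * E ^ 2) := by
  have hS : 0 ≤ S := le_trans (abs_nonneg _) hc
  have hE0 : 0 ≤ E := by linarith
  have hEE : E ≤ E * E := by nlinarith
  have e0 : S ≤ S * (E * E) := by
    have : S * 1 ≤ S * (E * E) := mul_le_mul_of_nonneg_left (by linarith) hS
    linarith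
  have e1 : S * E ≤ S * (E * E) := mul_le_mul_of_nonneg_left hEE hS
  have m1 : |al * X| ≤ S * E := sf_af_ry_mul hal hX
  have m2 : |be * (X * X)| ≤ S * (E * E) := sf_af_ry_mul hbe (sf_af_ry_mul hX hX)
  have m3 : |K * Y| ≤ S * E := sf_af_ry_mul hK hY
  have m4 : |K * (X * B)| ≤ S * (E * E) := sf_af_ry_mul hK (sf_af_ry_mul hX hB)
  have m5 : |al * B| ≤ S * E := sf_af_ry_mul hal hB
  have m6 : |be * Y| ≤ S * E := sf_af_ry_mul hbe hY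
  have m7 : |K * (B * B)| ≤ S * (E * E) := sf_af_ry_mul hK (sf_af_ry_mul hB hB)
  have q : S * E ^ 2 = S * (E * E) := by ring
  rw [q]
  rw [abs_le] at hN hD hc hd m1 m2 m3 m4 m5 m6 m7
  constructor
  · rw [abs_le]
    constructor <;> linarith [hN.1, hN.2, hc.1, hc.2, m1.1, m1.2, m2.1, m2.2, m3.1, m3.2, m4.1, m4.2]
  · rw [abs_le]
    constructor <;> linarith [hD.1, hD.2, hd.1, hd.2, m5.1, m5.2, m6.1, m6.2, m7.1, m7.2]

/-- the eight parameters of a test are bounded by its size -/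
theorem sf_af_ry_size (P : SfTest) : |P.c| ≤ P.size ∧ |P.d| ≤ P.size ∧ |P.al| ≤ P.size ∧ |P.be| ≤ P.size ∧ |P.K| ≤ P.size := by
  unfold SfTest.size
  refine ⟨?_, ?_, ?_, ?_, ?_⟩ <;> simp only [le_max_iff, le_refl, true_or, or_true]

/-- the ratio of the normal widths over the window -/
theorem sf_af_ry_f (π : SfPar) (Ls : ℝ) (D : SfDoc) (C0 A B t : ℝ) (h : D.AfH π Ls C0 A B t) :
    D.f A / D.f B ≤ D.s ^ (-(3 * t)) * D.s ^ (-((|π.q| + 2 * π.J) * (B - A))) := by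
  have hs := h.good.1.hs
  have gA := h.wn.gA
  have gB := h.wn.gB
  have hAB := h.wn.hAB
  obtain ⟨hrA, hfA⟩ := h.good.1.hw.2.2 A gA
  obtain ⟨hrB, hfB⟩ := h.good.1.hw.2.2 B gB
  have h1 := (h.wn.wr A gA le_rfl hAB.le).2
  have h2 := (h.wn.w2 A gA le_rfl hAB.le).2
  have e : D.f A / D.f B = D.w2 A / D.w2 B * (D.r A / D.r B * (D.r A / D.r B)) := by
    unfold SfDoc.w2
    field_simp
  have hr0 : 0 ≤ D.r A / D.r B := (div_pos hrA hrB).le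
  have hp1 : 0 ≤ D.s ^ (π.J * (B - A) - t) := (Real.rpow_pos_of_pos hs.1 _).le
  have hp2 : 0 ≤ D.s ^ (π.q * (A - B) - t) := (Real.rpow_pos_of_pos hs.1 _).le
  have h3 : D.r A / D.r B * (D.r A / D.r B) ≤ D.s ^ (π.J * (B - A) - t) * D.s ^ (π.J * (B - A) - t) :=
    mul_le_mul h1 h1 hr0 hp1
  have h4 : D.f A / D.f B ≤ D.s ^ (π.q * (A - B) - t) * (D.s ^ (π.J * (B - A) - t) * D.s ^ (π.J * (B - A) - t)) := by
    rw [e]
    exact mul_le_mul h2 h3 (mul_nonneg hr0 hr0) hp2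
  refine le_trans h4 ?_
  rw [← Real.rpow_add hs.1, ← Real.rpow_add hs.1, ← Real.rpow_add hs.1]
  refine Real.rpow_le_rpow_of_exponent_ge hs.1 hs.2.le ?_
  have hJ := h.val.J0
  have hq : π.q ≤ |π.q| := le_abs_self _
  have hBA : 0 ≤ B - A := by linarith
  nlinarith [mul_nonneg hJ hBA, mul_nonneg (sub_nonneg.2 hq) hBA]

/-- the numerical part of AF-S7 -/
theorem sf_af_ry_num {s t e x c F : ℝ} {n : ℕ} (hs : 0 < s ∧ s < 1) (ht : 0 < t) (hsm : s ^ t ≤ 1 / 2) (hc : 1 ≤ c)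
    (hn : 7 * c ^ 2 ≤ 2 ^ n) (hne : ((n : ℝ) + 1) * t ≤ e) (hx : 0 ≤ x) (hF : F ≤ s ^ (-(3 * t)) * s ^ (-x)) :
    c ≤ s ^ (-(x + 7 * e)) ∧ F + 6 * (s ^ (-(x + 6 * e)) * c ^ 2) ≤ s ^ (-(x + 7 * e)) := by
  have hnt : 0 ≤ (n : ℝ) * t := by positivity
  have hte : t ≤ e := by nlinarith
  have hw : (2:ℝ) ^ n ≤ s ^ (-e) := by
    have e1 : s ^ (-((n : ℝ) * t)) = ((s ^ t) ^ n)⁻¹ := by
      rw [Real.rpow_neg hs.1.le, ← Real.rpow_natCast, ← Real.rpow_mul hs.1.le, mul_comm]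
    have hp : 0 < s ^ t := Real.rpow_pos_of_pos hs.1 _
    have h3 : (s ^ t) ^ n ≤ (1 / 2) ^ n := pow_le_pow_left₀ hp.le hsm n
    have h4 : (2:ℝ) ^ n ≤ s ^ (-((n : ℝ) * t)) := by
      rw [e1, le_inv_comm₀ (by positivity) (pow_pos hp n)]
      refine le_trans h3 (le_of_eq ?_)
      rw [one_div, inv_pow]
    refine le_trans h4 (Real.rpow_le_rpow_of_exponent_ge hs.1 hs.2.le ?_)
    linarith
  obtain ⟨S, hS⟩ : ∃ S, S = s ^ (-(x + 6 * e)) := ⟨_, rfl⟩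
  obtain ⟨w, hwd⟩ : ∃ w, w = s ^ (-e) := ⟨_, rfl⟩
  have hfin : s ^ (-(x + 7 * e)) = S * w := by
    rw [hS, hwd, ← Real.rpow_add hs.1]
    congr 1
    ring
  have hS1 : 1 ≤ S := by
    rw [hS]
    exact Real.one_le_rpow_of_pos_of_le_one_of_nonpos hs.1 hs.2.le (by linarith)
  have hFS : F ≤ S := by
    refine le_trans hF ?_
    rw [hS, ← Real.rpow_add hs.1]
    exact Real.rpow_le_rpow_of_exponent_ge hs.1 hs.2.le (by linarith)
  rw [hfin, ← hS]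
  rw [← hwd] at hw
  have hc2 : 1 ≤ c ^ 2 := one_le_pow₀ hc
  have hcc : c ≤ c ^ 2 := by nlinarith
  have a1 : S * (7 * c ^ 2) ≤ S * w := mul_le_mul_of_nonneg_left (hn.trans hw) (by linarith)
  have a2 : 1 * c ^ 2 ≤ S * c ^ 2 := mul_le_mul_of_nonneg_right hS1 (by linarith)
  have a3 : S * 1 ≤ S * c ^ 2 := mul_le_mul_of_nonneg_left hc2 (by linarith)
  constructor
  · linarith
  · linarith

/-- LEAF AF-S7 (~350 l.).   **Rays of the starting rows** in the frame of the end row.   PLAN (`P, Q, z` as above, `u = ⟨A, ρ⟩`): `P.T = 0` (`sf_af_time`: `T0 = T_A ρ`), so `z.B = z.Bt P.T`, `z.Y = z.Yt P.T`, `z.D = z.Dt P.T`: `sf_af_sz_base`;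
`own` of `u` in the frame (`sf_frame_mem`, `sf_af_mem_iff`): `|z.N| ≤ P.f + |P.shA z|`, `|z.D| ≤ lP P.f + |P.shS P.T z|`, `P.f = f A / f B ≤ s^(-((|q|+2J) h + 3t))` (`wn`), `lP = 1`;  the shears by `sf_af_sz` (all coefficients `≤` the size) and `sf_af_sz_base`:
`≤ 10 c² s^(-((C1-1) h + 6e)) ≤ s^(-((C1-1) h + 7e))`. -/
theorem sf_af_sz_ray : ∃ C : ℝ, 0 < C ∧ ∀ (π : SfPar) (Ls : ℝ) (D : SfDoc) (C0 A B t e : ℝ), D.AfH π Ls C0 A B t → C * t ≤ e →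
    ∀ (v : D.Row B) (ρ : D.Row A), D.Conn A B ρ v →
    ((D.afFv π A B e v).ray (D.ray A ρ)).size ≤ D.s ^ (-((sfAfC1 π - 1) * (B - A) + 7 * e)) := by
  obtain ⟨c, hc, H1⟩ := sf_af_sz_base
  obtain ⟨C2, c', hC2, -, H2⟩ := sf_af_sz
  obtain ⟨n, hn⟩ := pow_unbounded_of_one_lt (7 * c ^ 2) (one_lt_two : (1:ℝ) < 2)
  refine ⟨C2 + ((n : ℝ) + 1), by positivity, fun π Ls D C0 A B t e h hCe v ρ hρ => ?_⟩
  have hs := h.good.1.hs
  have gA := h.wn.gA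
  have gB := h.wn.gB
  have hAB := h.wn.hAB
  have ht := h.t0
  have hCe2 : C2 * t ≤ e := by
    have : 0 ≤ ((n : ℝ) + 1) * t := by positivity
    nlinarith
  have hne : ((n : ℝ) + 1) * t ≤ e := by
    have : 0 ≤ C2 * t := by positivity
    nlinarith
  have hu : D.AfCh A B ⟨A, ρ⟩ v := Or.inr ⟨gA, le_rfl, hAB, hρ⟩
  obtain ⟨hrA, hfA⟩ := h.good.1.hw.2.2 A gA
  obtain ⟨hrB, hfB⟩ := h.good.1.hw.2.2 B gB
  have hlA : 0 < D.len A := lt_of_lt_of_le (Real.rpow_pos_of_pos hs.1 _) (h.good.1.hlen.2 A gA).1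
  have hφ : (D.afFv π A B e v).Pos := ⟨hlA, hrB, hfB⟩
  have hb := H1 π Ls D C0 A B t e h v ⟨A, ρ⟩ hu _ _ _ rfl rfl rfl
  have hz := (H2 π Ls D C0 A B t e h hCe2 v ⟨A, ρ⟩ hu).2
  have htm := (sf_af_time π Ls D C0 A B t h v ⟨A, ρ⟩ hu ρ hρ).1
  obtain ⟨o1, o2, o3, -, -⟩ := h.good.1.own A gA ρ
  have hmem := (sf_af_mem_iff _ _ _).1 ((sf_frame_mem (D.afFv π A B e v) hφ (D.lab A ρ) (D.len A) (D.ray A ρ)).2 o3)
  have hf := sf_af_ry_f π Ls D C0 A B t h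
  obtain ⟨φ, hφd⟩ : ∃ φ, φ = D.afFv π A B e v := ⟨_, rfl⟩
  have hT0 : φ.T0 = sfMcAncT D A B (D.T B v) := by rw [hφd]; rfl
  have hL : φ.L = D.len A := by rw [hφd]; rfl
  have hF0 : φ.F0 = D.f B := by rw [hφd]; rfl
  rw [← hφd] at hb hz hmem ⊢
  have hPT : (φ.tst (D.lab A ρ)).T = 0 := by
    show ((D.lab A ρ).T - φ.T0) / φ.L = 0
    rw [hT0, htm]
    show (D.T A ρ - D.T A ρ) / φ.L = 0
    rw [sub_self, zero_div]
  have hPf : (φ.tst (D.lab A ρ)).f = D.f A / D.f B := by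
    show (D.lab A ρ).f / φ.F0 = _
    rw [o2, hF0]
  have hl1 : D.len A / φ.L = 1 := by rw [hL]; exact div_self hlA.ne'
  obtain ⟨P, hP⟩ : ∃ P, P = φ.tst (D.lab A ρ) := ⟨_, rfl⟩
  obtain ⟨z, hzd⟩ : ∃ z, z = φ.ray (D.ray A ρ) := ⟨_, rfl⟩
  simp only at hb hz
  rw [← hP] at hb hz hmem hPT hPf
  rw [← hzd] at hb hmem ⊢
  obtain ⟨-, -, -, -, -, -, bX, -, -, bB, bY, -, -⟩ := hb
  obtain ⟨-, -, -, mN, mD⟩ := hmem
  rw [hPT] at bB bY mD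
  rw [hl1, one_mul, hPf] at mD
  rw [hPf] at mN
  have eB : z.Bt 0 = z.B := by simp [SfRay.Bt]
  have eY : z.Yt 0 = z.Y := by simp [SfRay.Yt]
  have eD : z.Dt 0 = z.D := by simp [SfRay.Dt]
  rw [eB] at bB
  rw [eY] at bY
  rw [eD] at mD
  have eA : P.shA z = P.c + P.al * z.X + P.be * z.X ^ 2 + P.K * (z.Y - 2 * z.X * z.B) := by
    simp only [SfTest.shA, hPT, eB, eY]
  have eS : P.shS 0 z = P.d + P.al * z.B + P.be * z.Y - P.K * z.B ^ 2 := by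
    simp only [SfTest.shS, SfTest.beAt, hPT, eB, eY]; ring
  rw [eA] at mN
  rw [eS] at mD
  obtain ⟨s1, s2, s3, s4, s5⟩ := sf_af_ry_size P
  have hc2 : 0 ≤ π.c2 := by
    rcases h.val.fam with h1 | h1 | h1
    · exact h1.1.le
    · rw [h1.1]; norm_num
    · rw [h1.1]
  have hJ := h.val.J0
  have hBA : 0 ≤ B - A := by linarith
  have hq0 := abs_nonneg π.q
  have hc10 := abs_nonneg π.c1
  obtain ⟨x, hx⟩ : ∃ x, x = (sfAfC1 π - 1) * (B - A) := ⟨_, rfl⟩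
  have hx0 : 0 ≤ x := by
    rw [hx]
    refine mul_nonneg ?_ hBA
    unfold sfAfC1
    linarith
  have hfx : D.s ^ (-((|π.q| + 2 * π.J) * (B - A))) ≤ D.s ^ (-x) := by
    refine Real.rpow_le_rpow_of_exponent_ge hs.1 hs.2.le ?_
    have : (|π.q| + 2 * π.J) * (B - A) ≤ x := by
      rw [hx]
      refine mul_le_mul_of_nonneg_right ?_ hBA
      unfold sfAfC1
      linarith
    linarith
  rw [← hx] at hz ⊢
  obtain ⟨F, hF⟩ : ∃ F, F = D.f A / D.f B := ⟨_, rfl⟩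
  rw [← hF] at mN mD hf
  obtain ⟨nN, nD⟩ := sf_af_ry_alg hc bX bB bY (s1.trans hz) (s2.trans hz) (s3.trans hz) (s4.trans hz) (s5.trans hz) mN mD
  have p3 : 0 < D.s ^ (-(3 * t)) := Real.rpow_pos_of_pos hs.1 _
  have hF' : F ≤ D.s ^ (-(3 * t)) * D.s ^ (-x) := le_trans hf (mul_le_mul_of_nonneg_left hfx p3.le)
  obtain ⟨hsm, hbig⟩ := sf_af_ry_num hs ht h.sm hc hn.le hne hx0 hF'
  unfold SfRay.size
  refine max_le (bX.trans hsm) (max_le (bB.trans hsm) (max_le (bY.trans hsm) (max_le ?_ ?_)))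
  · linarith
  · linarith

end Claimed.Agent.R256
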