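import Claimed.Agent.R256.Soft.AfTKit

/-!
# Row 256 (S0496), unit SOFT, A7 AF, block AF-TR, file 2: THE DOC LEVEL LEMMA      (co-architect helper149)      prefix `sf_at_`

`sf_at_aff`:   `Fm + Wd J q e + Cost e + RowB (c2 + e) tB + RowK (c2 + e) tK ⟹ AffP t`   on ONE document.   One lemma per field of `AffP`, with explicit tolerances.
(A) = `ChA` with `V` at the end points (an affine exponent on a segment is minimal at an end point); third comparison: change of the ray by `Core.base` (`s^(1/a)` beats the crude curvature);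
(B) = `RowB`;   `eqK`, `stK` = `RowK` (`b_2(k) - k` is monotone);   `linP` = `sf_ab_Pc_cmp` + terminal cost.
-/

set_option autoImplicit false

namespace Claimed.Agent.R256

open Claimed.Agent.R255

/-- (A), first comparison -/
theorem sf_at_cmpA_be (D : SfDoc) (hs : 0 < D.s ∧ D.s < 1) (J q e tA t : ℝ) (hW : D.Wd J q e) (hA : D.ChA tA) (ht : 3 * e + tA ≤ t)
    (i : ℝ) (hi : i ∈ D.G) (j : ℝ) (hj : j ∈ D.G) (hij : i < j) (ρ : D.Row i) (ρ' : D.Row j) (hc : D.Conn i j ρ ρ') :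
    |(D.lab i ρ).beAt (D.T j ρ') - (D.lab j ρ').be| ≤ D.s ^ (min (q * (i - 1)) (q * (j - 1)) - t) := by
  have h := hA.be i hi j hj hij ρ ρ' hc (D.s ^ (min (q * (i - 1)) (q * (j - 1)) - 3 * e)) (fun k hk hik hkj =>
    (sf_at_w2 D hs J q e hW k hk).2.trans (sf_mono_aux_le hs (by have := sf_at_aux_aff q i j k hik hkj; linarith)))
  exact h.trans (sf_at_aux_mul hs (by linarith))

/-- (A), second comparison -/
theorem sf_at_cmpA_K (D : SfDoc) (π : SfPar) (C0 a : ℝ) (hco : D.Core π C0 a) (J q e tA t : ℝ) (hW : D.Wd J q e) (hA : D.ChA tA) (ht : 3 * e + a + tA ≤ t)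
    (i : ℝ) (hi : i ∈ D.G) (j : ℝ) (hj : j ∈ D.G) (hij : i < j) (ρ : D.Row i) (ρ' : D.Row j) (hc : D.Conn i j ρ ρ') :
    |(D.lab i ρ).K - (D.lab j ρ').K| ≤ D.s ^ (min (q * (i - 1) - i) (q * (j - 1) - j) - t) := by
  have hs := hco.hs
  have h := hA.K i hi j hj hij ρ ρ' hc (D.s ^ (min (q * (i - 1) - i) (q * (j - 1) - j) - 3 * e - a)) (fun k hk hik hkj =>
    (sf_at_w2l D π C0 a hco J q e hW k hk).trans (sf_mono_aux_le hs (by have := sf_at_aux_aff2 q i j k hik hkj; linarith)))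
  exact h.trans (sf_at_aux_mul hs (by linarith))

/-- (B) -/
theorem sf_at_cmpB (D : SfDoc) (hs : 0 < D.s ∧ D.s < 1) (hG : ∀ i ∈ D.G, 0 ≤ i ∧ i ≤ 1) (J q e c2 tB t : ℝ) (he : 0 ≤ e) (hW : D.Wd J q e) (ht : 3 * e + tB ≤ t)
    (i : ℝ) (ρ : D.Row i) (hB : D.RowB (c2 + e) tB ⟨i, ρ⟩) :
    |(D.lab i ρ).be| + D.len i * |(D.lab i ρ).K| ≤ D.s ^ (min (-c2) (min (q * (i - 1)) 0) - t) := by
  have h := hB (D.s ^ (min (-c2) (min (q * (i - 1)) 0) - 3 * e)) (sf_mono_aux_le hs (by have := min_le_left (-c2) (min (q * (i - 1)) 0); linarith))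
    (fun k hk hik => (sf_at_w2 D hs J q e hW k hk).2.trans (sf_mono_aux_le hs (by
      have h1 := sf_at_aux_aff q i 1 k hik (hG k hk).2
      have h2 := min_le_right (-c2) (min (q * (i - 1)) 0)
      have h3 : q * ((1 : ℝ) - 1) = 0 := by ring
      rw [h3] at h1
      linarith)))
  exact h.trans (sf_at_aux_mul hs (by linarith))

/-- family EQ with `c2 ≤ 1` -/
theorem sf_at_eqK (D : SfDoc) (π : SfPar) (C0 a : ℝ) (hco : D.Core π C0 a) (ha : 0 ≤ a) (J q e tK t : ℝ) (he : 0 ≤ e) (hW : D.Wd J q e) (ht : 3 * e + 2 * a + tK ≤ t)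
    (hq0 : 0 < q) (hq1 : q ≤ 1) (i : ℝ) (hi : i ∈ D.G) (ρ : D.Row i) (hK : D.RowK (q + e) tK ⟨i, ρ⟩) :
    D.len i * |(D.lab i ρ).K| ≤ D.s ^ (q * (i - 1) - t) := by
  have hs := hco.hs
  have hG := hco.gate.2
  have hi0 := (hG i hi).1
  have h := hK (D.s ^ (q * (i - 1) - i - 3 * e - a)) (sf_mono_aux_le hs (by nlinarith))
    (fun k hk => (sf_at_w2 D hs J q e hW k hk).2.trans (sf_mono_aux_le hs (by have := (hG k hk).1; nlinarith)))
    (fun k hk hki => (sf_at_w2l D π C0 a hco J q e hW k hk).trans (sf_mono_aux_le hs (by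
      have hki' : k ≤ i := hki
      nlinarith)))
  have hl := (hco.hlen.2 i hi).2
  have hp : ∀ x : ℝ, 0 < D.s ^ x := fun x => Real.rpow_pos_of_pos hs.1 x
  calc D.len i * |(D.lab i ρ).K| ≤ D.s ^ (i - a) * (D.s ^ (q * (i - 1) - i - 3 * e - a) * D.s ^ (-tK)) :=
        mul_le_mul hl h (abs_nonneg _) (hp _).le
    _ ≤ D.s ^ (i - a) * D.s ^ (q * (i - 1) - i - 3 * e - a - tK) := mul_le_mul_of_nonneg_left (sf_at_aux_mul hs (by linarith)) (hp _).le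
    _ ≤ D.s ^ (q * (i - 1) - t) := sf_at_aux_mul hs (by linarith)

/-- family ST -/
theorem sf_at_stK (D : SfDoc) (π : SfPar) (C0 a : ℝ) (hco : D.Core π C0 a) (ha : 0 ≤ a) (J q e tK t : ℝ) (he : 0 ≤ e) (hW : D.Wd J q e) (ht : 3 * e + a + tK ≤ t)
    (hq1 : q < 1) (i : ℝ) (ρ : D.Row i) (hK : D.RowK (1 + e) tK ⟨i, ρ⟩) :
    D.s * |(D.lab i ρ).K| ≤ D.s ^ (-t) := by
  have hs := hco.hs
  have hG := hco.gate.2
  have h := hK (D.s ^ (-1 - 3 * e - a)) (sf_mono_aux_le hs (by linarith))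
    (fun k hk => (sf_at_w2 D hs J q e hW k hk).2.trans (sf_mono_aux_le hs (by have := (hG k hk).1; have := (hG k hk).2; nlinarith)))
    (fun k hk _ => (sf_at_w2l D π C0 a hco J q e hW k hk).trans (sf_mono_aux_le hs (by have := (hG k hk).1; have := (hG k hk).2; nlinarith)))
  have hp : ∀ x : ℝ, 0 < D.s ^ x := fun x => Real.rpow_pos_of_pos hs.1 x
  calc D.s * |(D.lab i ρ).K| ≤ D.s ^ (1 : ℝ) * (D.s ^ (-1 - 3 * e - a) * D.s ^ (-tK)) := by
        rw [Real.rpow_one]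
        exact mul_le_mul_of_nonneg_left h hs.1.le
    _ ≤ D.s ^ (1 : ℝ) * D.s ^ (-1 - 3 * e - a - tK) := mul_le_mul_of_nonneg_left (sf_at_aux_mul hs (by linarith)) (hp _).le
    _ ≤ D.s ^ (-t) := sf_at_aux_mul hs (by linarith)

/-- crude bound of the shear of a row with `RowB` -/
theorem sf_at_crude (D : SfDoc) (π : SfPar) (Ls C0 a : ℝ) (ha : 0 < a) (hg : D.Good π Ls C0 a) (c tB : ℝ) (hc0 : 0 ≤ c)
    (j : ℝ) (hj : j ∈ D.G) (ρ' : D.Row j) (hB : D.RowB c tB ⟨j, ρ'⟩) :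
    2 * |(D.lab j ρ').be| + 4 * |(D.lab j ρ').K| ≤ 6 * D.s ^ (-(c + 3 * |Ls| + 4 * a + tB + 1)) := by
  have hco := hg.1
  have hs := hco.hs
  have hp : ∀ x : ℝ, 0 < D.s ^ x := fun x => Real.rpow_pos_of_pos hs.1 x
  have hL := abs_nonneg Ls
  have hcv : D.cv ⟨j, ρ'⟩ ≤ D.s ^ (-(c + 3 * (|Ls| + a))) * D.s ^ (-tB) :=
    hB _ (sf_mono_aux_le hs (by linarith)) (fun k hk _ => (sf_ab_w_crude D π Ls C0 a ha hg k hk).1.trans (sf_mono_aux_le hs (by linarith)))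
  have hcv2 : D.cv ⟨j, ρ'⟩ ≤ D.s ^ (-(c + 3 * |Ls| + 3 * a + tB)) := hcv.trans (sf_at_aux_mul hs (by linarith))
  have hlen : D.s ^ (1 + a) ≤ D.len j := (sf_mono_aux_le hs (by have := (hco.gate.2 j hj).2; linarith)).trans (hco.hlen.2 j hj).1
  have hlen0 : 0 < D.len j := lt_of_lt_of_le (hp _) hlen
  have hcvdef : D.cv ⟨j, ρ'⟩ = |(D.lab j ρ').be| + D.len j * |(D.lab j ρ').K| := rfl
  have hbe : |(D.lab j ρ').be| ≤ D.s ^ (-(c + 3 * |Ls| + 4 * a + tB + 1)) := by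
    have h1 : |(D.lab j ρ').be| ≤ D.cv ⟨j, ρ'⟩ := by
      rw [hcvdef]
      have := mul_nonneg hlen0.le (abs_nonneg (D.lab j ρ').K)
      linarith
    exact h1.trans (hcv2.trans (sf_mono_aux_le hs (by linarith)))
  have hK : |(D.lab j ρ').K| ≤ D.s ^ (-(c + 3 * |Ls| + 4 * a + tB + 1)) := by
    have h1 : D.len j * |(D.lab j ρ').K| ≤ D.cv ⟨j, ρ'⟩ := by
      rw [hcvdef]
      have := abs_nonneg (D.lab j ρ').be
      linarith
    have h2 : D.s ^ (1 + a) * |(D.lab j ρ').K| ≤ D.s ^ (-(c + 3 * |Ls| + 3 * a + tB)) :=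
      (mul_le_mul_of_nonneg_right hlen (abs_nonneg _)).trans (h1.trans hcv2)
    have h3 : D.s ^ (-(c + 3 * |Ls| + 3 * a + tB)) = D.s ^ (1 + a) * D.s ^ (-(c + 3 * |Ls| + 4 * a + tB + 1)) := by
      rw [← Real.rpow_add hs.1]; congr 1; ring
    rw [h3] at h2
    exact le_of_mul_le_mul_left h2 (hp _)
  linarith

/-- (A), third comparison: each label at its own ray -/
theorem sf_at_cmpA_P (D : SfDoc) (π : SfPar) (Ls C0 a μ h : ℝ) (hF : D.Fm π Ls C0 a μ h) (J q e c tA tB t : ℝ) (hW : D.Wd J q e) (hA : D.ChA tA)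
    (htA : 0 ≤ tA) (ht : 2 * e + tA + a ≤ t) (hc0 : 0 ≤ c) (hsm : c + 4 * |Ls| + 5 * a + tB + 1 ≤ 1 / a)
    (i : ℝ) (hi : i ∈ D.G) (j : ℝ) (hj : j ∈ D.G) (hij : i < j) (ρ : D.Row i) (ρ' : D.Row j) (hc : D.Conn i j ρ ρ') (hB : D.RowB c tB ⟨j, ρ'⟩) :
    |(D.lab i ρ).Pd (D.ray i ρ) - (D.lab j ρ').Pd (D.ray j ρ')| ≤ D.s ^ (min ((q - J) * (i - 1)) ((q - J) * (j - 1)) - t) := by
  have hg := hF.good
  have hco := hg.1
  have hs := hco.hs
  have ha := hF.a0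
  have hp : ∀ x : ℝ, 0 < D.s ^ x := fun x => Real.rpow_pos_of_pos hs.1 x
  obtain ⟨V, hVdef⟩ : ∃ V, V = D.s ^ (min ((q - J) * (i - 1)) ((q - J) * (j - 1)) - 2 * e) := ⟨_, rfl⟩
  have hV0 : 0 < V := hVdef ▸ hp _
  have hVw : ∀ k ∈ D.G, i ≤ k → k ≤ j → D.w1 k ≤ V := fun k hk hik hkj => by
    rw [hVdef]
    exact (sf_at_w1 D hs J q e hW k hk).2.trans (sf_mono_aux_le hs (by have := sf_at_aux_aff (q - J) i j k hik hkj; linarith))
  have h1 := hA.P i hi j hj hij ρ ρ' hc V hVw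
  -- change of the ray
  obtain ⟨-, -, -, hbd⟩ := hco.base i hi j hj hij ρ ρ' hc
  have hX : |(D.ray i ρ).X - (D.ray j ρ').X| ≤ D.s ^ (1 / a) := (le_max_left _ _).trans hbd
  have hBB : |(D.ray i ρ).B - (D.ray j ρ').B| ≤ D.s ^ (1 / a) := ((le_max_left _ _).trans (le_max_right _ _)).trans hbd
  obtain ⟨-, -, -, hT0, hT1⟩ := hco.own j hj ρ'
  have hlen0 : 0 < D.len j := lt_of_lt_of_le (hp _) (hco.hlen.2 j hj).1
  have hT1' : (D.lab j ρ').T ≤ 1 := by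
    have : D.T j ρ' = (D.lab j ρ').T := rfl
    linarith
  have h2 := sf_ab_Pc_cmp_ray (D.lab j ρ').be (D.lab j ρ').K (D.lab j ρ').T ((D.ray i ρ).X - (D.ray j ρ').X) ((D.ray i ρ).B - (D.ray j ρ').B) (D.s ^ (1 / a))
    hT0 hT1' hX hBB
  have e2 : (D.lab j ρ').Pd (D.ray i ρ) - (D.lab j ρ').Pd (D.ray j ρ')
      = 2 * ((D.lab j ρ').be * ((D.ray i ρ).X - (D.ray j ρ').X)) - 2 * ((D.lab j ρ').K * ((D.ray i ρ).B - (D.ray j ρ').B))
        - 2 * ((D.lab j ρ').T * ((D.lab j ρ').K * ((D.ray i ρ).X - (D.ray j ρ').X))) := by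
    simp only [SfTest.Pd, SfRay.Bt]; ring
  rw [← e2] at h2
  have h3 := sf_at_crude D π Ls C0 a ha hg c tB hc0 j hj ρ' hB
  have h4 : |(D.lab j ρ').Pd (D.ray i ρ) - (D.lab j ρ').Pd (D.ray j ρ')| ≤ 6 * V := by
    refine h2.trans ((mul_le_mul_of_nonneg_right h3 (hp _).le).trans ?_)
    rw [mul_assoc]
    refine mul_le_mul_of_nonneg_left ?_ (by norm_num)
    refine (sf_at_aux_mul hs (z := |Ls| + a) (by linarith)).trans ?_
    exact (sf_ab_w_crude D π Ls C0 a ha hg j hj).2.2.2.trans (hVw j hj hij.le le_rfl)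
  have h5 : (1 : ℝ) ≤ D.s ^ (-tA) := by
    have := sf_mono_aux_le hs (show -tA ≤ 0 by linarith)
    rwa [Real.rpow_zero] at this
  have h6 : (16 : ℝ) ≤ D.s ^ (-a) := by
    have h16 := hF.small
    rw [Real.rpow_neg hs.1.le]
    rw [le_div_iff₀ (by norm_num : (0 : ℝ) < 16)] at h16
    rw [le_inv_comm₀ (by norm_num : (0 : ℝ) < 16) (hp _)]
    linarith
  have e3 : (D.lab i ρ).Pd (D.ray i ρ) - (D.lab j ρ').Pd (D.ray j ρ')
      = ((D.lab i ρ).Pd (D.ray i ρ) - (D.lab j ρ').Pd (D.ray i ρ)) + ((D.lab j ρ').Pd (D.ray i ρ) - (D.lab j ρ').Pd (D.ray j ρ')) := by ring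
  have h7 : |(D.lab i ρ).Pd (D.ray i ρ) - (D.lab j ρ').Pd (D.ray j ρ')| ≤ V * D.s ^ (-tA) + 6 * V := by
    rw [e3]
    exact (abs_add_le _ _).trans (add_le_add h1 h4)
  have h8 : V * D.s ^ (-tA) + 6 * V ≤ V * D.s ^ (-tA) * D.s ^ (-a) := by
    have hx : 0 < V * D.s ^ (-tA) := mul_pos hV0 (hp _)
    have hy : V ≤ V * D.s ^ (-tA) := le_mul_of_one_le_right hV0.le h5
    nlinarith
  refine h7.trans (h8.trans ?_)
  rw [hVdef]
  refine (mul_le_mul_of_nonneg_right (sf_at_aux_mul hs (z := min ((q - J) * (i - 1)) ((q - J) * (j - 1)) - 2 * e - tA) (by linarith)) (hp _).le).trans ?_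
  exact sf_at_aux_mul hs (by linarith)

/-- **AF-TR, DOC LEVEL**: affine widths, terminal costs and the row bounds give `AffP` -/
theorem sf_at_aff (Ls c2 t : ℝ) (h2 : 0 ≤ c2) (ht : 0 < t) : ∃ e0 : ℝ, 0 < e0 ∧
    ∀ (D : SfDoc) (π π' : SfPar) (C0 a μ h e tB tK : ℝ), D.Fm π Ls C0 a μ h → a ≤ e0 → μ ≤ e0 → 0 ≤ e → e ≤ e0 → tB ≤ e0 → tK ≤ e0 →
      π'.c2 = c2 → (c2 = 0 → π'.q = π'.c1 + π'.J ∧ 0 ≤ π'.c1) → D.Wd π'.J π'.q e → D.Cost π' e →
      (∀ u : D.Rw, u.1 ∈ D.G → D.RowB (c2 + e) tB u) → (∀ u : D.Rw, u.1 ∈ D.G → D.RowK (c2 + e) tK u) → D.AffP π' t := by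
  obtain ⟨eA, heA, HA⟩ := sf_ab_chA Ls (t / 4) (by positivity)
  obtain ⟨eP, heP, HP⟩ := sf_ab_Pc_cmp Ls (t / 4) (by positivity)
  have hL := abs_nonneg Ls
  have hden : 0 < c2 + 4 * |Ls| + 8 := by linarith
  have he0 : 0 < min eA (min (eP / 2) (min (t / 16) (min 1 (1 / (c2 + 4 * |Ls| + 8))))) :=
    lt_min heA (lt_min (by positivity) (lt_min (by positivity) (lt_min one_pos (by positivity))))
  refine ⟨_, he0, fun D π π' C0 a μ h e tB tK hF ha hμ he hee htB htK hc2 hlin hW hC hB hK => ?_⟩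
  generalize hdef : min eA (min (eP / 2) (min (t / 16) (min 1 (1 / (c2 + 4 * |Ls| + 8))))) = e0 at he0 ha hμ hee htB htK
  have b1 : e0 ≤ eA := hdef ▸ min_le_left _ _
  have b2 : e0 ≤ eP / 2 := hdef ▸ (min_le_right _ _).trans (min_le_left _ _)
  have b3 : e0 ≤ t / 16 := hdef ▸ (min_le_right _ _).trans ((min_le_right _ _).trans (min_le_left _ _))
  have b4 : e0 ≤ 1 := hdef ▸ (min_le_right _ _).trans ((min_le_right _ _).trans ((min_le_right _ _).trans (min_le_left _ _)))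
  have b5 : e0 ≤ 1 / (c2 + 4 * |Ls| + 8) := hdef ▸ (min_le_right _ _).trans ((min_le_right _ _).trans ((min_le_right _ _).trans (min_le_right _ _)))
  have hg := hF.good
  have hco := hg.1
  have hs := hco.hs
  have ha0 := hF.a0
  have hA : D.ChA (t / 4) := HA D π C0 a μ h hF (ha.trans b1) (hμ.trans b1)
  have hsm : (c2 + e) + 4 * |Ls| + 5 * a + tB + 1 ≤ 1 / a := by
    have h1 : 1 / e0 ≤ 1 / a := one_div_le_one_div_of_le ha0 ha
    have h3 : c2 + 4 * |Ls| + 8 ≤ 1 / e0 := by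
      rw [le_div_iff₀ he0]
      have := (le_div_iff₀ hden).1 b5
      linarith
    linarith
  refine ⟨fun i hi => ?_, fun i hi => ?_, fun i hi j hj hij ρ ρ' hc => ⟨?_, ?_, ?_⟩, fun i hi ρ => ?_, fun hc0 hc1 hq i hi ρ => ?_,
    fun hc1 hq i hi ρ => ?_, fun hc0 => ⟨fun i hi j hj hij ρ ρ' hc => ?_, fun ρ => ?_⟩⟩
  · exact (sf_at_wd_mono D hs _ _ e t (by linarith) hW).hr i hi
  · exact (sf_at_wd_mono D hs _ _ e t (by linarith) hW).hf i hi
  · exact sf_at_cmpA_be D hs _ _ e (t / 4) t hW hA (by linarith) i hi j hj hij ρ ρ' hc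
  · exact sf_at_cmpA_K D π C0 a hco _ _ e (t / 4) t hW hA (by linarith) i hi j hj hij ρ ρ' hc
  · exact sf_at_cmpA_P D π Ls C0 a μ h hF _ _ e (c2 + e) (t / 4) tB t hW hA (by positivity) (by linarith) (by linarith) hsm i hi j hj hij ρ ρ' hc (hB ⟨j, ρ'⟩ hj)
  · rw [hc2]
    exact sf_at_cmpB D hs hco.gate.2 _ _ e c2 tB t he hW (by linarith) i ρ (hB ⟨i, ρ⟩ hi)
  · have hqc : π'.q = c2 := hq.trans hc2
    have hK' := hK ⟨i, ρ⟩ hi
    rw [← hqc] at hK'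
    exact sf_at_eqK D π C0 a hco ha0.le _ _ e tK t he hW (by linarith) (by rw [hqc, ← hc2]; exact hc0) (by rw [hqc, ← hc2]; exact hc1) i hi ρ hK'
  · have hK' := hK ⟨i, ρ⟩ hi
    rw [← hc2, hc1] at hK'
    exact sf_at_stK D π C0 a hco ha0.le _ _ e tK t he hW (by linarith) hq i ρ hK'
  · have hz : c2 = 0 := hc2 ▸ hc0
    obtain ⟨hq, hc1⟩ := hlin hz
    have hB0 : ∀ u : D.Rw, u.1 ∈ D.G → D.RowB 0 (tB + e) u := fun u hu => sf_at_rowB_shift D hs 0 e tB he u (by have := hB u hu; rwa [hz] at this)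
    have hqJ : π'.q - π'.J = π'.c1 := by linarith
    have h1 := HP D π C0 a μ h (tB + e) hF (ha.trans (by linarith)) (hμ.trans (by linarith)) (by linarith) hB0 i hi j hj hij ρ ρ' hc
      (D.s ^ (π'.b1 i - 2 * e)) ?_ ?_
    · exact h1.trans (sf_at_aux_mul hs (by linarith))
    · have hb : π'.b1 i - 2 * e ≤ 0 := by
        have : π'.b1 i = π'.c1 * (i - 1) := by rw [← hqJ]; rfl
        have hi1 := (hco.gate.2 i hi).2
        nlinarith
      have := sf_mono_aux_le hs hb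
      rwa [Real.rpow_zero] at this
    · intro k hk hik
      refine (sf_at_w1 D hs _ _ e hW k hk).2.trans (sf_mono_aux_le hs ?_)
      have : π'.b1 i = (π'.q - π'.J) * (i - 1) := rfl
      rw [this, hqJ]
      nlinarith
  · have h1 := (hC ρ).2 hc0
    rw [(sf_ab_cost D π C0 a hco ρ).2] at h1
    exact h1.trans (sf_mono_aux_le hs (by linarith))

end Claimed.Agent.R256
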