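import Claimed.Agent.R256.Soft.AOut
import Claimed.Agent.R256.Soft.AfDefs

/-!
# Row 256 (S0496), unit SOFT, A7 AF, block AF-TR (= P3 of `Soft/AfDefs.lean`), file 1: DEFINITIONS AND KIT      (co-architect helper149; architect of A7 helper10)      prefix `sf_at_`

ROUTE (helper229, helper149): NO reach clause, NO frames.   The piece `D'` extracted by GE is itself a good configuration with support constant `cF C1`, with affine widths (`SfDoc.Wd`, from `Sub` + `Wn`) and with terminal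
costs `≤ s^(-(c2 + e))` (from the bins of the END rows).   Run the CLEAN chain of helper55 (`sf_ab_clean`: RES keeps the scale, the gates, the lengths, the widths, the labels and the support constant) ON `D'`: all rows get `RowB`, `RowK`.
Then `AffP` is ONE doc-level lemma (`sf_at_aff`, `Soft/AfTAff.lean`):   `Fm + Wd J q e + Cost e + RowB (c2 + e) + RowK (c2 + e) ⟹ AffP t`.
ORDER OF CONSTANTS:  `t` → `e0 (t, Ls, c2)` = tolerance of the widths, of the terminal costs and fineness of the mesh → mesh `G0` → accuracy `a` of `Gd` (= the target `t'` of GE).      EXIT: `sf_at_exit` (`Soft/AfTExit.lean`).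
-/

set_option autoImplicit false

namespace Claimed.Agent.R256

open Claimed.Agent.R255

namespace SfDoc

/-- **affine widths** (the fields `hr`, `hf` of `AffP`) with slopes `(J, q)` and tolerance `e` -/
structure Wd (D : SfDoc) (J q e : ℝ) : Prop where
  hr : ∀ i ∈ D.G, D.s ^ (J * (1 - i) + e) ≤ D.r i ∧ D.r i ≤ D.s ^ (J * (1 - i) - e)
  hf : ∀ i ∈ D.G, D.s ^ ((q - 2 * J) * (i - 1) + e) ≤ D.f i ∧ D.f i ≤ D.s ^ ((q - 2 * J) * (i - 1) - e)

end SfDoc

/-- `Wd` is inherited by the output of RES -/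
theorem sf_at_eqv_wd {D' D : SfDoc} {e : D'.Rw → D.Rw} (h : D'.Eqv D e) (J q t : ℝ) (H : D.Wd J q t) : D'.Wd J q t := by
  refine ⟨fun i hi => ?_, fun i hi => ?_⟩
  · rw [h.hG] at hi
    rw [h.hs, h.hr i hi]
    exact H.hr i hi
  · rw [h.hG] at hi
    rw [h.hs, h.hf i hi]
    exact H.hf i hi

theorem sf_at_wd_mono (D : SfDoc) (hs : 0 < D.s ∧ D.s < 1) (J q e e' : ℝ) (hee : e ≤ e') (H : D.Wd J q e) : D.Wd J q e' := by
  refine ⟨fun i hi => ⟨(sf_mono_aux_le hs (by linarith)).trans (H.hr i hi).1, (H.hr i hi).2.trans (sf_mono_aux_le hs (by linarith))⟩,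
    fun i hi => ⟨(sf_mono_aux_le hs (by linarith)).trans (H.hf i hi).1, (H.hf i hi).2.trans (sf_mono_aux_le hs (by linarith))⟩⟩

/-- quotient of two powers -/
theorem sf_at_aux_div {s x y A B : ℝ} (hs : 0 < s) (hA : A ≤ s ^ x) (hB : s ^ y ≤ B) : A / B ≤ s ^ (x - y) := by
  have hy : 0 < s ^ y := Real.rpow_pos_of_pos hs _
  rw [Real.rpow_sub hs]
  exact div_le_div₀ (Real.rpow_pos_of_pos hs _).le hA hy hB

theorem sf_at_aux_div' {s x y A B : ℝ} (hs : 0 < s) (hA : s ^ x ≤ A) (hB : B ≤ s ^ y) (hB0 : 0 < B) : s ^ (x - y) ≤ A / B := by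
  rw [Real.rpow_sub hs]
  exact div_le_div₀ ((Real.rpow_pos_of_pos hs _).le.trans hA) hA hB0 hB

/-- `w2 k = s^(q (k - 1) ± 3 e)` -/
theorem sf_at_w2 (D : SfDoc) (hs : 0 < D.s ∧ D.s < 1) (J q e : ℝ) (hW : D.Wd J q e) (k : ℝ) (hk : k ∈ D.G) :
    D.s ^ (q * (k - 1) + 3 * e) ≤ D.w2 k ∧ D.w2 k ≤ D.s ^ (q * (k - 1) - 3 * e) := by
  obtain ⟨r1, r2⟩ := hW.hr k hk
  obtain ⟨f1, f2⟩ := hW.hf k hk
  have hp : ∀ x : ℝ, 0 < D.s ^ x := fun x => Real.rpow_pos_of_pos hs.1 x
  have hr0 : 0 < D.r k := lt_of_lt_of_le (hp _) r1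
  have hf0 : 0 < D.f k := lt_of_lt_of_le (hp _) f1
  have e1 : (D.s ^ (J * (1 - k) + e)) ^ 2 = D.s ^ (2 * (J * (1 - k) + e)) := by
    rw [← Real.rpow_natCast, ← Real.rpow_mul hs.1.le]; congr 1; push_cast; ring
  have e2 : (D.s ^ (J * (1 - k) - e)) ^ 2 = D.s ^ (2 * (J * (1 - k) - e)) := by
    rw [← Real.rpow_natCast, ← Real.rpow_mul hs.1.le]; congr 1; push_cast; ring
  have q1 : D.s ^ (2 * (J * (1 - k) + e)) ≤ D.r k ^ 2 := by rw [← e1]; exact pow_le_pow_left₀ (hp _).le r1 2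
  have q2 : D.r k ^ 2 ≤ D.s ^ (2 * (J * (1 - k) - e)) := by rw [← e2]; exact pow_le_pow_left₀ hr0.le r2 2
  unfold SfDoc.w2
  constructor
  · have := sf_at_aux_div' hs.1 f1 q2 (by positivity)
    refine le_trans (le_of_eq ?_) this
    congr 1; ring
  · have := sf_at_aux_div hs.1 f2 q1
    refine le_trans this (le_of_eq ?_)
    congr 1; ring

/-- `w1 k = s^((q - J) (k - 1) ± 2 e)` -/
theorem sf_at_w1 (D : SfDoc) (hs : 0 < D.s ∧ D.s < 1) (J q e : ℝ) (hW : D.Wd J q e) (k : ℝ) (hk : k ∈ D.G) :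
    D.s ^ ((q - J) * (k - 1) + 2 * e) ≤ D.w1 k ∧ D.w1 k ≤ D.s ^ ((q - J) * (k - 1) - 2 * e) := by
  obtain ⟨r1, r2⟩ := hW.hr k hk
  obtain ⟨f1, f2⟩ := hW.hf k hk
  have hp : ∀ x : ℝ, 0 < D.s ^ x := fun x => Real.rpow_pos_of_pos hs.1 x
  have hr0 : 0 < D.r k := lt_of_lt_of_le (hp _) r1
  have hf0 : 0 < D.f k := lt_of_lt_of_le (hp _) f1
  unfold SfDoc.w1
  constructor
  · have := sf_at_aux_div' hs.1 f1 r2 hr0
    refine le_trans (le_of_eq ?_) this
    congr 1; ring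
  · have := sf_at_aux_div hs.1 f2 r1
    refine le_trans this (le_of_eq ?_)
    congr 1; ring

/-- `w2 k / len k ≤ s^(q (k - 1) - k - 3 e - a)` -/
theorem sf_at_w2l (D : SfDoc) (π : SfPar) (C0 a : ℝ) (hc : D.Core π C0 a) (J q e : ℝ) (hW : D.Wd J q e) (k : ℝ) (hk : k ∈ D.G) :
    D.w2 k / D.len k ≤ D.s ^ (q * (k - 1) - k - 3 * e - a) := by
  have hs := hc.hs
  have h2 := sf_at_w2 D hs J q e hW k hk
  have hp : ∀ x : ℝ, 0 < D.s ^ x := fun x => Real.rpow_pos_of_pos hs.1 x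
  have := sf_at_aux_div hs.1 h2.2 (hc.hlen.2 k hk).1
  refine le_trans this (le_of_eq ?_)
  congr 1; ring

/-- product of two powers -/
theorem sf_at_aux_mul {s x y z : ℝ} (hs : 0 < s ∧ s < 1) (h : z ≤ x + y) : s ^ x * s ^ y ≤ s ^ z := by
  rw [← Real.rpow_add hs.1]
  exact sf_mono_aux_le hs h

/-- an affine function on a segment is at least the minimum of its end values -/
theorem sf_at_aux_aff (m i j k : ℝ) (hik : i ≤ k) (hkj : k ≤ j) : min (m * (i - 1)) (m * (j - 1)) ≤ m * (k - 1) := by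
  rcases le_total 0 m with hm | hm
  · exact (min_le_left _ _).trans (mul_le_mul_of_nonneg_left (by linarith) hm)
  · exact (min_le_right _ _).trans (mul_le_mul_of_nonpos_left (by linarith) hm)

/-- the same with a second slope -/
theorem sf_at_aux_aff2 (m i j k : ℝ) (hik : i ≤ k) (hkj : k ≤ j) : min (m * (i - 1) - i) (m * (j - 1) - j) ≤ m * (k - 1) - k := by
  rcases le_total 1 m with hm | hm
  · refine (min_le_left _ _).trans ?_
    nlinarith
  · refine (min_le_right _ _).trans ?_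
    nlinarith

/-- shifting the cost parameter of `RowB` into the tolerance -/
theorem sf_at_rowB_shift (D : SfDoc) (hs : 0 < D.s ∧ D.s < 1) (c e t : ℝ) (he : 0 ≤ e) (u : D.Rw) (h : D.RowB (c + e) t u) : D.RowB c (t + e) u := by
  intro V hV hV2
  have hp : ∀ x : ℝ, 0 < D.s ^ x := fun x => Real.rpow_pos_of_pos hs.1 x
  have hV0 : 0 < V := lt_of_lt_of_le (hp _) hV
  have h1 : (1 : ℝ) ≤ D.s ^ (-e) := by
    have := sf_mono_aux_le hs (show -e ≤ 0 by linarith)
    rwa [Real.rpow_zero] at this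
  have := h (V * D.s ^ (-e)) ?_ ?_
  · refine this.trans (le_of_eq ?_)
    rw [mul_assoc, ← Real.rpow_add hs.1]
    congr 2; ring
  · have e1 : D.s ^ (-(c + e)) = D.s ^ (-c) * D.s ^ (-e) := by rw [← Real.rpow_add hs.1]; congr 1; ring
    rw [e1]
    exact mul_le_mul_of_nonneg_right hV (hp _).le
  · intro k hk hk2
    exact (hV2 k hk hk2).trans (le_mul_of_one_le_right hV0.le h1)

end Claimed.Agent.R256
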