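import Claimed.Agent.R256.Soft.AfMain
import Claimed.Agent.R256.Soft.AfHyp

/-!
# Row 256 (S0496), unit SOFT, A7 AF, file 7: THE TOP      (architect helper10)      no sorry in this file
`sf_af_inner` (INNER of `sf_aw_cmp`) and `sf_af_main` (= `sf_af` with `F ⊆ G`).   Plan and order of constants: header of `Soft/AfMain.lean`.
-/

set_option autoImplicit false

namespace Claimed.Agent.R256

open Claimed.Agent.R255

theorem sf_af_inner (K : SfCls) (π : SfPar) (Ls : ℝ) (hπ : π.Pd) (hK : K.Cal π Ls)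
    (hpos : 0 < K.c2 π Ls ∨ (K.c2 π Ls = 0 ∧ 0 < K.c1 π Ls))
    (hF2 : K.Feas2 π Ls (K.c2 π Ls)) (hF1 : K.c2 π Ls = 0 → K.Feas1 π Ls (K.c1 π Ls))
    (hMC : ∀ τ : ℝ, 0 < τ → ∃ κ0 : ℝ, 0 < κ0 ∧ ∀ C0 t : ℝ, 0 < t →
      SfAll K.ob K.sc (fun c => K.Gd π Ls C0 t c → (K.doc c).MinC { π with c2 := K.c2 π Ls, c1 := K.c1 π Ls } τ κ0 t)) :
    ∃ C0 : ℝ, ∀ (F : Finset ℝ), (∀ i ∈ F, 0 ≤ i ∧ i ≤ 1) → ∀ a : ℝ, 0 < a →
      SfEx K.ob K.sc (fun c => (0 : ℝ) ∈ (K.doc c).G ∧ F ⊆ (K.doc c).G ∧ K.Gd π Ls C0 a c ∧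
        ∃ J q : ℝ, SfPar.Sl { ({ π with c2 := K.c2 π Ls, c1 := K.c1 π Ls } : SfPar) with J := J, q := q } (sfAwL Ls) ∧
          (K.doc c).AffP { ({ π with c2 := K.c2 π Ls, c1 := K.c1 π Ls } : SfPar) with J := J, q := q } a) := by
  classical
  generalize hπ0 : ({ π with c2 := K.c2 π Ls, c1 := K.c1 π Ls } : SfPar) = π0 at hMC ⊢
  have hs0 : π0.Same π := by subst hπ0; exact ⟨rfl, rfl, rfl, rfl, rfl⟩
  have hpos0 : 0 < π0.c2 ∨ (π0.c2 = 0 ∧ 0 < π0.c1) := by subst hπ0; exact hpos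
  have hfin : ∀ N : ℝ, SfAll K.ob K.sc (fun c => ∀ C0 a : ℝ, K.Gd π Ls C0 a c → (K.doc c).Fb N) :=
    fun N => sf_all_mono (fun c hc C0 a hg => hc a hg.2) (hK.fin N)
  obtain ⟨cF, hge⟩ := hK.ge
  obtain ⟨C1, Cc, hCc, hx2⟩ := sf_af_h_x2 π π0 Ls (sfAwL Ls) hπ hs0 hpos0
  refine ⟨cF C1, fun F hF t ht => ?_⟩
  obtain ⟨e0, he0, hx3⟩ := sf_af_x3 K π Ls hπ hK π0 hs0 hpos0 (sfAwL Ls) t ht
  obtain ⟨ε1, a1, hε1, ha1, hx3b⟩ := sf_af_x3b (sfAwL Ls) e0 he0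
  -- accuracy of the window
  obtain ⟨ε, hε, hεε1, hεc, hεone⟩ : ∃ ε : ℝ, 0 < ε ∧ ε ≤ ε1 ∧ Cc * ε ≤ e0 ∧ ε ≤ 1 / 4 := by
    refine ⟨min ε1 (min (e0 / Cc) (1 / 4)), lt_min hε1 (lt_min (div_pos he0 hCc) (by norm_num)), min_le_left _ _, ?_, (min_le_right _ _).trans (min_le_right _ _)⟩
    have : min ε1 (min (e0 / Cc) (1 / 4)) ≤ e0 / Cc := (min_le_right _ _).trans (min_le_left _ _)
    calc Cc * min ε1 (min (e0 / Cc) (1 / 4)) ≤ Cc * (e0 / Cc) := mul_le_mul_of_nonneg_left this hCc.le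
      _ = e0 := by field_simp
  obtain ⟨N, t0, ht0, hwin⟩ := sf_aw_win Ls π0.c2 π0.c1 π0.hyb hpos0 ε hε
  -- accuracy of the outer configuration
  have h2N : (0 : ℝ) < 2 ^ N := by positivity
  obtain ⟨t1, ht1, ht1t0, ht1ε⟩ : ∃ t1 : ℝ, 0 < t1 ∧ t1 ≤ t0 ∧ t1 ≤ ε / 2 ^ N :=
    ⟨min t0 (ε / 2 ^ N), lt_min ht0 (div_pos hε h2N), min_le_left _ _, min_le_right _ _⟩
  obtain ⟨μ, hμ, hout⟩ := sf_sh_out K π Ls hπ hK hpos hF2 hF1 (by rw [hπ0]; exact hMC) t1 ht1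
  rw [hπ0] at hout
  obtain ⟨M, hM01, hM0, hMfine, hMdy, hMw⟩ := sf_af_mesh N μ e0 hμ he0 F hF
  choose G0 hG0 using hMw
  obtain ⟨hg, hg0, hgM⟩ := sf_gap_exists (insert 1 M)
  -- one window
  have step : ∀ κ n : ℕ, κ ≤ N → 2 ^ κ ≤ 2 * n → n < 2 ^ κ → ∃ aw : ℝ, 0 < aw ∧ ∀ C0 a : ℝ, 0 < a → a ≤ aw →
      SfEx K.ob K.sc (fun c => (K.doc c).G = insert 1 M ∧ K.Gd π Ls C0 a c ∧ (K.doc c).Out π0 t1 ∧
        ∃ J q : ℝ, SfPar.Sl { π0 with J := J, q := q } (sfAwL Ls) ∧ (K.doc c).Wn (sfPt κ n) (sfPt κ (n + 1)) J q (ε / 2 ^ κ)) →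
      SfEx K.ob K.sc (fun c => (0 : ℝ) ∈ (K.doc c).G ∧ F ⊆ (K.doc c).G ∧ K.Gd π Ls (cF C1) t c ∧
        ∃ J q : ℝ, SfPar.Sl { π0 with J := J, q := q } (sfAwL Ls) ∧ (K.doc c).AffP { π0 with J := J, q := q } t) := by
    intro κ n hκ hn2 hn
    obtain ⟨g1, g2, g3, g4, g5, g6⟩ := hG0 κ n hκ hn
    obtain ⟨a3, ha3, hop⟩ := hx3 (G0 κ n) g1 g2 g3 g5
    have h2κ : (0 : ℝ) < 2 ^ κ := by positivity
    have hBA : sfPt κ (n + 1) - sfPt κ n = 1 / 2 ^ κ := sf_aw_win_pt κ n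
    generalize hA : sfPt κ n = A at *
    generalize hB : sfPt κ (n + 1) = B at *
    have hh : 0 < B - A := by rw [hBA]; positivity
    have hh1 : B - A ≤ 1 := by
      rw [hBA, div_le_one h2κ]
      exact one_le_pow₀ (by norm_num)
    have hεκ : ε / 2 ^ κ = ε * (B - A) := by rw [hBA]; ring
    have hA4 : 1 / 4 ≤ A := by
      rw [← hA]
      unfold sfPt
      rw [le_div_iff₀ h2κ]
      have : ((2 : ℝ) ^ κ) ≤ 2 * (n : ℝ) := by exact_mod_cast hn2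
      linarith
    have ht' : 0 < min a3 a1 := lt_min ha3 ha1
    obtain ⟨aG, haG, hge'⟩ := hge hg (min a3 a1) hg0 ht'
    refine ⟨min (aG * (B - A)) (min (a1 * (B - A)) (ε * (B - A))), lt_min (mul_pos haG hh) (lt_min (mul_pos ha1 hh) (mul_pos hε hh)),
      fun C0 a ha haw hex => ?_⟩
    have haw1 : a ≤ aG * (B - A) := haw.trans (min_le_left _ _)
    have haw2 : a ≤ a1 * (B - A) := haw.trans ((min_le_right _ _).trans (min_le_left _ _))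
    have haw3 : a ≤ ε * (B - A) := haw.trans ((min_le_right _ _).trans (min_le_right _ _))
    obtain ⟨Nf, s1, hs1, hx2'⟩ := hx2 aG (ε * (B - A)) C0 haG (mul_pos hε hh)
    have hex2 := sf_ex_and_all (sf_ex_small hex s1 hs1) (hfin Nf)
    -- GE
    have hex3 : SfEx K.ob K.sc (fun c' => ((K.doc c').G = G0 κ n ∧ K.Gd π Ls (cF C1) a3 c' ∧ (K.doc c').Cost π0 e0) ∧
        ∃ J q : ℝ, SfPar.Sl { π0 with J := J, q := q } (sfAwL Ls) ∧ (K.doc c').Aw J q e0) := by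
      obtain ⟨S, hS⟩ := hex2
      obtain ⟨S', hS'⟩ := hge' C1 C0 (B - A) hh S
      refine ⟨S', fun σ' hσ' => ?_⟩
      obtain ⟨σ, hσ, H⟩ := hS' σ' hσ'
      obtain ⟨c, hob, hsc, ⟨⟨hG, hgd, hO, J, q, hSl, hWn⟩, hsm⟩, hFb⟩ := hS σ hσ
      have hsD : (K.doc c).s < s1 := lt_of_le_of_lt (hK.sc_le c) hsm
      have ht1e : t1 ≤ ε / 2 ^ κ := by
        refine ht1ε.trans (div_le_div_of_nonneg_left hε.le h2κ ?_)
        exact pow_le_pow_right₀ (by norm_num) hκ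
      obtain ⟨ι, hι, Sb, Ub, φ, hyp, hcost⟩ := hx2' (K.doc c) A B J q (ε / 2 ^ κ) a t1 hsD hεκ.ge ha (by rw [hεκ]; exact haw3) ht1e
        (by rw [hεκ]; nlinarith) hgd.1 (hFb C0 a hgd) hO hWn hSl ((K.doc c).afGk A B)
        (Finset.mem_filter.2 ⟨hWn.gB, hWn.hAB.le, le_rfl⟩) (fun k hk => ⟨(Finset.mem_filter.1 hk).1, (Finset.mem_filter.1 hk).2⟩)
      haveI := hι
      have hGk : (K.doc c).afGk A B = (insert 1 M).filter (fun k => A ≤ k ∧ k ≤ B) := by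
        unfold SfDoc.afGk
        rw [hG]
      obtain ⟨c', b, em, k1, k2, k3, k4, k5, k6, k7, -⟩ := H c hob hsc A B le_rfl (sf_gd_mono K π Ls hK.md_mono C0 _ _ ha haw1 c hgd)
        ((K.doc c).afGk A B) ι Sb Ub φ hyp (by
          intro k hk l hl hkl
          rw [hGk] at hk hl
          have := hgM k (Finset.mem_filter.1 hk).1 l (Finset.mem_filter.1 hl).1 hkl
          nlinarith) (by
          intro k hk
          rw [hGk] at hk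
          obtain ⟨hk1, hk2, -⟩ := Finset.mem_filter.1 hk
          rcases hk2.eq_or_lt with h0 | h0
          · exact Or.inl h0.symm
          · right
            have := hgM A (hG ▸ hWn.gA) k hk1 h0
            nlinarith) (by
          intro g hgG k hk hkg hgB
          have hk2 := (Finset.mem_filter.1 hk).2
          exact Finset.mem_filter.2 ⟨hgG, by linarith [hk2.1], hgB.le⟩)
      have hG' : (K.doc c').G = G0 κ n := by
        ext k'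
        constructor
        · intro hk'
          rw [g6 k', ← hGk]
          exact k5 k' hk'
        · intro hk'
          have h1 := (g6 k').1 hk'
          rw [← hGk] at h1
          have h2 := k4.kept _ h1
          have h3 : (A + k' * (B - A) - A) / (B - A) = k' := by
            rw [add_sub_cancel_left]
            exact mul_div_cancel_right₀ _ hh.ne'
          rwa [h3] at h2
      have h1G' : (1 : ℝ) ∈ (K.doc c').G := k3.1.1.gate.1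
      refine ⟨c', k1, k2, ⟨hG', sf_gd_mono K π Ls hK.md_mono _ _ _ ht' (min_le_left _ _) c' k3, ?_⟩, J, q, hSl, ?_⟩
      · refine sf_ab_cost_mono _ k3.1.1.hs π0 _ _ ?_ (hcost b (K.doc c') (min a3 a1) em k4 k7 h1G')
        have : ε / 2 ^ κ / (B - A) = ε := by rw [hεκ]; field_simp
        rw [this]
        exact hεc
      · exact hx3b (K.doc c) (K.doc c') π Ls C0 a A B J q (ε / 2 ^ κ) (min a3 a1) (φ b) _ em hgd.1 ha haw2 hWn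
          (by rw [hεκ]; exact mul_le_mul_of_nonneg_right hεε1 hh.le) hSl.J0 hSl.JL hSl.qL ht'.le (min_le_right _ _) (hyp.fr b).1 k4 k3.1.1.gate.2
    -- X3
    have hex4 := sf_ab_ex_op K hex3 (sf_ab_op_mono K (A' := fun c' => ((K.doc c').G = G0 κ n ∧ K.Gd π Ls (cF C1) a3 c' ∧ (K.doc c').Cost π0 e0) ∧
        ∃ J q : ℝ, SfPar.Sl { π0 with J := J, q := q } (sfAwL Ls) ∧ (K.doc c').Aw J q e0) (fun c h => h.1) (fun c' c _ h => h) (hop (cF C1)))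
    refine sf_ex_mono ?_ hex4
    rintro c'' ⟨c', ⟨-, J, q, hSl, hAw⟩, hG'', hgd'', haff⟩
    exact ⟨hG'' ▸ g2, hG'' ▸ g4, hgd'', J, q, hSl, haff J q hSl hAw⟩
  -- the finitely many windows
  choose! aw haw using step
  set I : Finset (ℕ × ℕ) := ((Finset.range (N + 1)) ×ˢ (Finset.range (2 ^ N))).filter (fun w => w.1 ≤ N ∧ 2 ^ w.1 ≤ 2 * w.2 ∧ w.2 < 2 ^ w.1) with hI
  obtain ⟨m, hm, hmI⟩ := sf_af_fin_min I (fun w => aw w.1 w.2) (fun w hw => by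
    obtain ⟨-, w1, w2, w3⟩ := Finset.mem_filter.1 hw
    exact (haw w.1 w.2 w1 w2 w3).1)
  have hao : 0 < min m t0 := lt_min hm ht0
  obtain ⟨C0o, hex⟩ := hout M hM01 hM0 hMfine (min m t0) hao
  have hex1 : SfEx K.ob K.sc (fun c => ∃ w ∈ I, (K.doc c).G = insert 1 M ∧ K.Gd π Ls C0o (min m t0) c ∧ (K.doc c).Out π0 t1 ∧
      ∃ J q : ℝ, SfPar.Sl { π0 with J := J, q := q } (sfAwL Ls) ∧ (K.doc c).Wn (sfPt w.1 w.2) (sfPt w.1 (w.2 + 1)) J q (ε / 2 ^ w.1)) := by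
    refine sf_ex_mono ?_ hex
    rintro c ⟨hG, hgd, hO⟩
    obtain ⟨κ, n, w1, w2, w3, J, q, hSl, hWn⟩ := hwin (K.doc c) π π0 C0o (min m t0) t1 hgd.1 hao (min_le_right _ _) ht1t0 rfl rfl rfl hO
      (by rw [hG]; exact hMdy)
    refine ⟨(κ, n), ?_, hG, hgd, hO, J, q, hSl, hWn⟩
    rw [hI, Finset.mem_filter, Finset.mem_product, Finset.mem_range, Finset.mem_range]
    exact ⟨⟨Nat.lt_succ_of_le w1, lt_of_lt_of_le w3 (Nat.pow_le_pow_right (by norm_num) w1)⟩, w1, w2, w3⟩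
  obtain ⟨w, hw, hexw⟩ := sf_ex_finset I hex1
  obtain ⟨-, w1, w2, w3⟩ := Finset.mem_filter.1 hw
  exact (haw w.1 w.2 w1 w2 w3).2 C0o (min m t0) hao ((min_le_left _ _).trans (hmI w hw)) hexw

/-- **Prop. cyl:affine** in the form `F ⊆ G` -/
theorem sf_af_main (K : SfCls) (π : SfPar) (Ls : ℝ) (hπ : π.Pd) (hK : K.Cal π Ls)
    (hpos : 0 < K.c2 π Ls ∨ (K.c2 π Ls = 0 ∧ 0 < K.c1 π Ls))
    (hF2 : K.Feas2 π Ls (K.c2 π Ls)) (hF1 : K.c2 π Ls = 0 → K.Feas1 π Ls (K.c1 π Ls))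
    (hMC : ∀ τ : ℝ, 0 < τ → ∃ κ0 : ℝ, 0 < κ0 ∧ ∀ C0 t : ℝ, 0 < t →
      SfAll K.ob K.sc (fun c => K.Gd π Ls C0 t c → (K.doc c).MinC { π with c2 := K.c2 π Ls, c1 := K.c1 π Ls } τ κ0 t)) :
    ∃ π' : SfPar, π'.Same π ∧ π'.Valid ∧ π'.c2 = K.c2 π Ls ∧ (π'.c2 = 0 → π'.c1 = K.c1 π Ls) ∧ ∃ C0 : ℝ,
      ∀ (F : Finset ℝ), (∀ i ∈ F, 0 ≤ i ∧ i ≤ 1) → ∀ a : ℝ, 0 < a →
        SfEx K.ob K.sc (fun c => F ⊆ (K.doc c).G ∧ K.Gd π Ls C0 a c ∧ (K.doc c).AffP π' a) := by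
  obtain ⟨C0, hin⟩ := sf_af_inner K π Ls hπ hK hpos hF2 hF1 hMC
  obtain ⟨π', h1, h2, h3, h4, h5⟩ := sf_aw_cmp K π Ls C0 (sfAwL Ls) hK hπ { π with c2 := K.c2 π Ls, c1 := K.c1 π Ls } ⟨rfl, rfl, rfl, rfl, rfl⟩ hpos hin
  exact ⟨π', h1, h2, h3, fun _ => h4, C0, h5⟩

end Claimed.Agent.R256
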