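import Claimed.Agent.R256.Soft.Pat

/-!
# Row 256, unit SOFT, file 2: extrema in the closure of exponent data, in finite form      (helper19)

Finite form of Lemmas fw-closure, fw-strict-improvement, fw-pullback (01-framework.tex l.185-300).   Paper free.

`A a E` = "`E` belongs to the class under study with accuracy `a`" (monotone in `a`), `val E` = a normalised exponent of `E`.
* `sf_clo_inf` : the least exponent `x0` in the closure exists:  ATTAINED `∀ a > 0, SfEx (A a ∧ val ≤ x0 + a)`  and  RIGID `∀ t > 0, ∃ a > 0, SfAll (A a → x0 - t < val)`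
  (the accuracy `a` is chosen BEFORE the package).
* `sf_clo_sup` : the same for the largest exponent (`Γ`, `J`).
Lexicographic minimisation = iterate, with the new class `A' a E := A a E ∧ val E ≤ x0 + a`  (`sf_clo_class_mono`).
-/

set_option autoImplicit false

namespace Claimed.Agent.R256

universe u v

/-- a one-sided feasibility predicate `F x a` ("exponent `≤ x` up to the accuracy `a`") -/
structure SfFeas (F : ℝ → ℝ → Prop) : Prop where
  mono_acc : ∀ x a a', a ≤ a' → F x a → F x a'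
  mono_x : ∀ x x' a, x ≤ x' → F x a → F x' a
  shift : ∀ x a t, 0 ≤ t → F x a → F (x - t) (a + t)

/-- abstract form: the infimum of the feasible exponents is attained, and is rigid -/
theorem sf_feas_min {F : ℝ → ℝ → Prop} (hF : SfFeas F) (hne : ∃ x, ∀ a, 0 < a → F x a)
    (hbd : ∃ lo a0 : ℝ, 0 < a0 ∧ ¬ F lo a0) :
    ∃ x0, (∀ a, 0 < a → F x0 a) ∧ ∀ t, 0 < t → ∃ a, 0 < a ∧ ∀ x, x ≤ x0 - t → ¬ F x a := by
  set T : Set ℝ := {x | ∀ a, 0 < a → F x a} with hT
  obtain ⟨lo, a0, ha0, hlo⟩ := hbd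
  have hTne : T.Nonempty := hne
  have hTbd : BddBelow T := by
    refine ⟨lo, fun x hx => ?_⟩
    by_contra hc
    exact hlo (hF.mono_x x lo a0 (not_le.1 hc).le (hx a0 ha0))
  refine ⟨sInf T, fun a ha => ?_, fun t ht => ?_⟩
  · obtain ⟨x, hx, hlt⟩ := exists_lt_of_csInf_lt hTne (show sInf T < sInf T + a / 2 by linarith)
    have h0 : 0 ≤ x - sInf T := sub_nonneg.2 (csInf_le hTbd hx)
    have h1 := hF.shift x (a / 2) (x - sInf T) h0 (hx (a / 2) (by linarith))
    rw [sub_sub_cancel] at h1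
    exact hF.mono_acc _ _ _ (by linarith) h1
  · have hnot : sInf T - t ∉ T := fun h => by
      have := csInf_le hTbd h
      linarith
    have hnot' : ¬ ∀ a, 0 < a → F (sInf T - t) a := hnot
    push Not at hnot'
    obtain ⟨a, ha, hFa⟩ := hnot'
    exact ⟨a, ha, fun x hx h => hFa (hF.mono_x x _ a hx h)⟩

variable {Cfg : Type u} {Pkg : Type v} {ob : Pkg → Cfg → Prop} {sc : Cfg → ℝ}

/-- **least exponent in the closure** -/
theorem sf_clo_inf (A : ℝ → Cfg → Prop) (hA : ∀ a a' E, a ≤ a' → A a E → A a' E) (val : Cfg → ℝ)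
    (hne : ∃ x, ∀ a, 0 < a → SfEx ob sc (fun E => A a E ∧ val E ≤ x + a))
    (hbd : ∃ lo a0 : ℝ, 0 < a0 ∧ SfAll ob sc (fun E => A a0 E → lo < val E)) :
    ∃ x0, (∀ a, 0 < a → SfEx ob sc (fun E => A a E ∧ val E ≤ x0 + a)) ∧
      ∀ t, 0 < t → ∃ a, 0 < a ∧ SfAll ob sc (fun E => A a E → x0 - t < val E) := by
  have hF : SfFeas (fun x a => SfEx ob sc (fun E => A a E ∧ val E ≤ x + a)) := by
    refine ⟨fun x a a' h => sf_ex_mono fun E hE => ⟨hA _ _ E h hE.1, by linarith [hE.2]⟩,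
      fun x x' a h => sf_ex_mono fun E hE => ⟨hE.1, by linarith [hE.2]⟩,
      fun x a t h => sf_ex_mono fun E hE => ⟨hA _ _ E (by linarith) hE.1, by linarith [hE.2]⟩⟩
  obtain ⟨lo, a0, ha0, hlo⟩ := hbd
  obtain ⟨x0, h1, h2⟩ := sf_feas_min hF hne ⟨lo - a0, a0, ha0, fun h =>
    sf_ex_all_false h (sf_all_mono (fun E hE hc => by
      have := hE hc.1
      linarith [hc.2]) hlo)⟩
  refine ⟨x0, h1, fun t ht => ?_⟩
  obtain ⟨a, ha, hx⟩ := h2 t ht
  refine ⟨a, ha, sf_all_mono (fun E hE hAE => ?_) (sf_not_ex_iff.1 (hx (x0 - t) le_rfl))⟩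
  by_contra hc
  exact hE ⟨hAE, by linarith [not_lt.1 hc]⟩

/-- **largest exponent in the closure** -/
theorem sf_clo_sup (A : ℝ → Cfg → Prop) (hA : ∀ a a' E, a ≤ a' → A a E → A a' E) (val : Cfg → ℝ)
    (hne : ∃ x, ∀ a, 0 < a → SfEx ob sc (fun E => A a E ∧ x - a ≤ val E))
    (hbd : ∃ hi a0 : ℝ, 0 < a0 ∧ SfAll ob sc (fun E => A a0 E → val E < hi)) :
    ∃ x0, (∀ a, 0 < a → SfEx ob sc (fun E => A a E ∧ x0 - a ≤ val E)) ∧
      ∀ t, 0 < t → ∃ a, 0 < a ∧ SfAll ob sc (fun E => A a E → val E < x0 + t) := by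
  obtain ⟨x, hx⟩ := hne
  obtain ⟨hi, a0, ha0, hhi⟩ := hbd
  obtain ⟨y0, h1, h2⟩ := sf_clo_inf (ob := ob) (sc := sc) A hA (fun E => - val E)
    ⟨-x, fun a ha => sf_ex_mono (fun E hE => ⟨hE.1, by linarith [hE.2]⟩) (hx a ha)⟩
    ⟨-hi, a0, ha0, sf_all_mono (fun E hE hAE => by linarith [hE hAE]) hhi⟩
  refine ⟨-y0, fun a ha => sf_ex_mono (fun E hE => ⟨hE.1, by linarith [hE.2]⟩) (h1 a ha), fun t ht => ?_⟩
  obtain ⟨a, ha, hall⟩ := h2 t ht
  exact ⟨a, ha, sf_all_mono (fun E hE hAE => by linarith [hE hAE]) hall⟩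

/-- the class of the next step of a lexicographic minimisation is again monotone in the accuracy -/
theorem sf_clo_class_mono (A : ℝ → Cfg → Prop) (hA : ∀ a a' E, a ≤ a' → A a E → A a' E) (val : Cfg → ℝ) (x0 : ℝ) :
    ∀ a a' E, a ≤ a' → (A a E ∧ val E ≤ x0 + a) → (A a' E ∧ val E ≤ x0 + a') :=
  fun a a' E h hE => ⟨hA a a' E h hE.1, by linarith [hE.2]⟩

/-- Lemma fw-pullback / fw-strict-improvement: a construction that produces, for every accuracy, configurations of the class with an exponent improved by a FIXED amount is impossible -/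
theorem sf_clo_no_improve (A : ℝ → Cfg → Prop) (val : Cfg → ℝ) (x0 t : ℝ) (ht : 0 < t)
    (hrig : ∀ t, 0 < t → ∃ a, 0 < a ∧ SfAll ob sc (fun E => A a E → x0 - t < val E))
    (h : ∀ a, 0 < a → SfEx ob sc (fun E => A a E ∧ val E ≤ x0 - t)) : False := by
  obtain ⟨a, ha, hall⟩ := hrig t ht
  refine sf_ex_all_false (h a ha) (sf_all_mono (fun E hE hc => ?_) hall)
  have := hE hc.1
  linarith [hc.2]

end Claimed.Agent.R256
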