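import Claimed.Agent.R256.Soft.Cost
import Claimed.Agent.R256.Soft.Cond
import Claimed.Agent.R256.Soft.Clo
import Claimed.Agent.R256.Soft.Cmp
import Claimed.Agent.R256.Soft.Win
import Claimed.Agent.R256.Soft.AMinMain
import Claimed.Agent.R256.Soft.AZnMain
import Claimed.Agent.R256.Soft.AfTop
import Claimed.Agent.R256.Soft.ASpgMain
import Claimed.Agent.R256.Soft.ASpgAll

/-!
# Row 256 (S0496), unit SOFT = sec. 2B (02-cylinder.tex l.763-1616): THE CONTRACT      (chief helper19; reading report 855; auditors 286, 191, 264)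

## ENTRY
 (E-mod)  `Base/Sys`, `Base/Cyl` (helper207): `Mdl`, `Xp`, `Rate`, `cylCl`, `cylHyb`.      `Gen/Hyp` (helper207/11): `Tight`, `Loc`, `Rep`, `Sgl`, `TailAdm`, `AdmScale`, `Floor`;   Gen contract: PEEL, TRI, COMP, R0-R2 (`p0`, MIN, SAT), SS1-SS3.
 (E-cyl)  R256/Cyl (helper255): Prop. cyl:matched-chain in the format `SfMD.Ext` of `Soft/Model.lean` (report 874 E8, D6) + forward preparation with interleaved row statistics.
 (E-x)    R256/Chan (helper130): the RIGID predicates `X` ((mem), positive cost) and `X0` ((mem), zero cost = `CeMem`) on the class of shadows: `SfCls.Rig`, `SfCls.Rig0` below.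
## EXIT   (consumers: Nm 118, Lay 189, Prj 186, Int 196, Act 277, Ce 157, Hz 82)
 `sf_dich`       `K.Cal π Ls` ⟹ `SfExit` (affine positive-cost family, with `X`)  ∨  `K.ZeroAlt` (zero cost, class form)
 `sf_zero_exit0` `K.ZeroAlt` ⟹ `SfExit0`                                       (PROVED here)
 `sf_cond`       RESTR: `Ok` is stable under conditioning of the final law        (asked by 189)
 `sf_cal`        the class of shadows of a cylinder model with `¬ Rate (η/2)` satisfies `Cal`      (model level)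
 `sf_val`, `sf_zero_cost`   what a zero-cost shadow says about its experiment (for Hz)
 The assembly Q1 is in `Soft/Exit.lean`.
## UNITS  (A = operator free, over `K.Cal`; M = model level; lines = estimate)     sub-block architects: to be named at the gate (no crew yet)
 done  PAT, CLO, CMP, WIN   `Soft/{Pat,Clo,Cmp,Win}.lean`, sorry free (0.7k)
 A0 FRAME   `Soft/Frame.lean` 4 algebra lemmas                                                       0.4k   1 leaf, open now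
 A1 MONO    `Core`, `Mat`, `AffP`, `MinC` monotone in the tolerance; `Sub` composes; prefix of `Good` is `Good` (`sf_pre_good`)      1.2k   3 leaves, open now
 A2 COND    `sf_cond`                                                                                 0.4k   1 leaf, open now
 A3 LIST    P1 sparse lists (REG+SP), P5 time prediction, PN phase names, PT profile transfer on ONE `SfDoc.Core`  (cyl:time-prediction, cyl:phase-name, cyl:profile-transfer)      2.5k   4 leaves, open now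
 A4 COST    `sf_feas2_c2`, `sf_min2`, `sf_feas1_c1`, `sf_min1` (closure, from CLO)  0.5k;   `sf_fin2`, `sf_fin1` (finite costs: DOC on `{0,1}` + GE with root charts)  1.5k
 A5 AB      (A) = telescoping of `Mat.mm` along `Core.split` (0.8k);  (B) = RES at every gate + `Core.tp` (1.7k)
 A6 SH      shape constraints, RIGID (PRE + `sf_min2`; GE on tails with bins of `β`, `(β,K)`, `P`)     3.5k
 A7 AF      `sf_af`: window (WIN) + bins (i)-(iv) + linear and normal-phase bins + GE + compactness of `(J,q)` (CMP)      7k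
 A8 MINC    `sf_minc`: P6 from GE (marked cover form) + `sf_min2`, `sf_min1`                           1.5k
 A9 FL      DROPPED (helper222, 22:10Z): forward flattening at interior gates is used by no consumer (`hubX = nmX`; Nm flattens the FINAL law by `sf_cond` / `nm_restr`)      0
 A10 ZN     `sf_zn`: zero cost, uniform support constant (GE with root charts)                          1k
 A11 DICH   `sf_dich` from A4-A10 (patterns)                                                         0.6k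
 M1 DISC    `Ext` ⟹ a shadow exists (atoms = common refinement of lattice cells and all label supports; classical: shrink the masks along ancestors)      3k
 M2 CORE    RIGID: shadow of `Ext a` ⟹ `Core t ∧ Mat t`: geometry (own, grid, base, norm, trans, split, cl*) 1.5k;  reg, cnt 0.8k;  SP (cyl:rarity) 1k;  TP 1k
 M3 EX/DOC  from (E-cyl)                                                                              1k
 M4 RES     triangle inequality + forward re-preparation (E-cyl)                                      1.5k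
 M5 PRE     prefix experiment (`AdmScale`)                                                            0.8k
 M6 GE      Lemma cyl:group-extraction, cover form, + root gate restoration                             3.5k
 M7 PL      Prop. cyl:planck-floor (needs `Rate (cylCl η) γ`, `γ < Γ_hyb`)                              5k
 M8 VAL     `sf_val`, `sf_zero_cost`                                                                  0.5k
 Serial depth after ENTRY: M: 2 (M1,M2 → M3-M7);  A: A4 → A5 → A6 → A7 → A11 = 5, all over the frozen `Cal`, in parallel with M.      Total ≈ 20k (A) + 19k (M).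
-/

set_option autoImplicit false

namespace Claimed.Agent.R256

open Claimed.Agent.R255

/-! ### A: operator-free units -/

section A

variable (K : SfCls) (π : SfPar) (Ls : ℝ)

/-- **(A4 FIN2)** finite curvature cost (first paragraph of the proof of Lemma cyl:profiles).      OWNER helper19 (cut pending), EST 600 lines. -/
theorem sf_fin2 (hπ : π.Pd) (hK : K.Cal π Ls) : ∃ c : ℝ, 0 ≤ c ∧ K.Feas2 π Ls c :=
  sf_fb_fin2 K π Ls hK

/-- **(A4 FIN1)** finite linear cost.      OWNER helper19 (cut pending), EST 400 lines. -/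
theorem sf_fin1 (hπ : π.Pd) (hK : K.Cal π Ls) (h0 : K.Feas2 π Ls 0) : ∃ c : ℝ, 0 ≤ c ∧ K.Feas1 π Ls c :=
  sf_fl_b_fin1 K π Ls hK h0

/-- = `sf_af_main` (`Soft/AfTop.lean`; A5 AB, A6 SH helper55; A7 AF helper10, 17, 149, 229).      **(A7 AF)** Prop. cyl:affine: if a minimal cost is positive there is ONE affine family `π'` and ONE support constant with configurations on every mesh at every accuracy -/
theorem sf_af (hπ : π.Pd) (hK : K.Cal π Ls) (hpos : 0 < K.c2 π Ls ∨ (K.c2 π Ls = 0 ∧ 0 < K.c1 π Ls)) :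
    ∃ π' : SfPar, π'.Same π ∧ π'.Valid ∧ π'.c2 = K.c2 π Ls ∧ (π'.c2 = 0 → π'.c1 = K.c1 π Ls) ∧ ∃ C0 : ℝ,
      ∀ (F : Finset ℝ), (∀ i ∈ F, 0 ≤ i ∧ i ≤ 1) → ∀ a : ℝ, 0 < a →
        SfEx K.ob K.sc (fun c => F ⊆ (K.doc c).G ∧ K.Gd π Ls C0 a c ∧ (K.doc c).AffP π' a) := by
  have hF2 := (sf_feas2_c2 K π Ls hK.md_mono (sf_fin2 K π Ls hπ hK)).2
  exact sf_af_main K π Ls hπ hK hpos hF2
    (fun h0 => (sf_feas1_c1 K π Ls hK.md_mono (sf_fin1 K π Ls hπ hK (h0 ▸ hF2))).2)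
    (fun τ hτ => sf_mc_minc K π Ls hK { π with c2 := K.c2 π Ls, c1 := K.c1 π Ls } rfl (fun _ => rfl) hpos τ hτ)

/-- OWNER: architect post BP-256-SOFT-MINC #20952, EST 2500 lines.      **(A8 MINC)** P6: cost rigidity is RIGID; `κ0` is package free -/
theorem sf_minc (hπ : π.Pd) (hK : K.Cal π Ls) (hpos : 0 < K.c2 π Ls ∨ (K.c2 π Ls = 0 ∧ 0 < K.c1 π Ls))
    (π' : SfPar) (hs : π'.Same π) (h2 : π'.c2 = K.c2 π Ls) (h1 : π'.c2 = 0 → π'.c1 = K.c1 π Ls) (τ : ℝ) (hτ : 0 < τ) : ∃ κ0 : ℝ, 0 < κ0 ∧ ∀ C0 t : ℝ, 0 < t →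
      SfAll K.ob K.sc (fun c => K.Gd π Ls C0 t c → (K.doc c).MinC π' τ κ0 t) :=
  sf_mc_minc K π Ls hK π' h2 h1 hpos τ hτ

/-- `MinC` is monotone: larger `τ`, smaller `κ0` -/
theorem sf_minc_all_mono (D : SfDoc) (π : SfPar) (τ τ' κ0 κ0' t : ℝ) (hs : 0 < D.s ∧ D.s < 1) (hτ : τ ≤ τ') (hκ : κ0' ≤ κ0) (h : D.MinC π τ κ0 t) : D.MinC π τ' κ0' t := by
  intro i hi j hj hij ht ι _ Sb Ub sg h1 h2 h3 h4 h5 h6 h7
  have hd : 0 < j - i := by linarith
  have hm : κ0' * (j - i) ≤ κ0 * (j - i) := mul_le_mul_of_nonneg_right hκ hd.le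
  have hanti : ∀ x y : ℝ, x ≤ y → D.s ^ y ≤ D.s ^ x := fun x y hxy => Real.rpow_le_rpow_of_exponent_ge hs.1 hs.2.le hxy
  have e1 : D.s ^ (-(κ0' * (j - i))) ≤ D.s ^ (-(κ0 * (j - i))) := hanti _ _ (by linarith)
  refine (h i hi j hj hij (ht.trans hm) ι Sb Ub sg h1 h2 (fun ρ => (h3 ρ).trans e1) (fun lam => (h4 lam).trans e1) h5 ?_ ?_).trans (hanti _ _ hm)
  · intro hc b ρ' hU
    refine (h6 hc b ρ' hU).trans (hanti _ _ ?_)
    have : (π.c2 - τ') * (j - i) ≤ (π.c2 - τ) * (j - i) := mul_le_mul_of_nonneg_right (by linarith) hd.le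
    linarith
  · intro hc b ρ' hU
    obtain ⟨a1, a2⟩ := h7 hc b ρ' hU
    refine ⟨a1.trans e1, a2.trans (hanti _ _ ?_)⟩
    have : (π.c1 - τ') * (j - i) ≤ (π.c1 - τ) * (j - i) := mul_le_mul_of_nonneg_right (by linarith) hd.le
    linarith

/-- `MinC` is vacuous when `κ0 < t` -/
theorem sf_minc_all_vac (D : SfDoc) (π : SfPar) (τ κ0 t : ℝ) (hG : ∀ i ∈ D.G, 0 ≤ i ∧ i ≤ 1) (h0 : 0 ≤ κ0) (hκ : κ0 < t) : D.MinC π τ κ0 t := by
  intro i hi j hj hij ht
  exfalso
  have h1 : j - i ≤ 1 := by linarith [(hG i hi).1, (hG j hj).2]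
  have : κ0 * (j - i) ≤ κ0 * 1 := mul_le_mul_of_nonneg_left h1 h0
  linarith

/-- OWNER: BP-256-SOFT-MINC #20952, EST 300 lines.      **(A8b)** ONE rigidity function for all `τ`.   PLAN: `MinC` is monotone (`τ ≤ τ'`, `κ0' ≤ κ0`); put `κ τ := min (κ0 (2^-k)) (2^-k)` for `2^-k ≤ min τ 1 < 2^(1-k)`; at the tolerance `t` only the finitely many `k` with `t ≤ 2^-k`
matter (`MinC` is vacuous when `κ τ < t`, since `j - i ≤ 1`): `sf_all_finset`. -/
theorem sf_minc_all (hπ : π.Pd) (hK : K.Cal π Ls) (hpos : 0 < K.c2 π Ls ∨ (K.c2 π Ls = 0 ∧ 0 < K.c1 π Ls))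
    (π' : SfPar) (hs : π'.Same π) (h2 : π'.c2 = K.c2 π Ls) (h1 : π'.c2 = 0 → π'.c1 = K.c1 π Ls) :
    ∃ κ0 : ℝ → ℝ, (∀ τ : ℝ, 0 < τ → 0 < κ0 τ) ∧ ∀ C0 t : ℝ, 0 < t →
      SfAll K.ob K.sc (fun c => K.Gd π Ls C0 t c → ∀ τ : ℝ, 0 < τ → (K.doc c).MinC π' τ (κ0 τ) t) := by
  classical
  have hk : ∀ k : ℕ, ∃ κ0 : ℝ, 0 < κ0 ∧ ∀ C0 t : ℝ, 0 < t → SfAll K.ob K.sc (fun c => K.Gd π Ls C0 t c → (K.doc c).MinC π' ((2 : ℝ)⁻¹ ^ k) κ0 t) :=
    fun k => sf_minc K π Ls hπ hK hpos π' hs h2 h1 _ (by positivity)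
  choose κk hκk hMk using hk
  have hex : ∀ τ : ℝ, ∃ k : ℕ, 0 < τ → (2 : ℝ)⁻¹ ^ k ≤ τ := by
    intro τ
    by_cases hτ : 0 < τ
    · obtain ⟨k, hk⟩ := exists_pow_lt_of_lt_one hτ (by norm_num : (2 : ℝ)⁻¹ < 1)
      exact ⟨k, fun _ => hk.le⟩
    · exact ⟨0, fun h => absurd h hτ⟩
  choose kk hkk using hex
  refine ⟨fun τ => min (κk (kk τ)) ((2 : ℝ)⁻¹ ^ (kk τ)), fun τ _ => lt_min (hκk _) (by positivity), fun C0 t ht => ?_⟩
  obtain ⟨Kt, hKt⟩ := exists_pow_lt_of_lt_one ht (by norm_num : (2 : ℝ)⁻¹ < 1)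
  have hfin := sf_all_finset (ob := K.ob) (sc := K.sc) (Finset.range Kt) (A := fun k c => K.Gd π Ls C0 t c → (K.doc c).MinC π' ((2 : ℝ)⁻¹ ^ k) (κk k) t)
    (fun k _ => hMk k C0 t ht)
  refine sf_all_mono (fun c hc hg τ hτ => ?_) hfin
  by_cases hlt : kk τ < Kt
  · exact sf_minc_all_mono _ _ _ _ _ _ _ hg.1.1.hs (hkk τ hτ) (min_le_left _ _) (hc (kk τ) (Finset.mem_range.2 hlt) hg)
  · refine sf_minc_all_vac _ _ _ _ _ hg.1.1.gate.2 (le_min (hκk _).le (by positivity)) ?_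
    have : (2 : ℝ)⁻¹ ^ (kk τ) ≤ (2 : ℝ)⁻¹ ^ Kt := pow_le_pow_of_le_one (by norm_num) (by norm_num) (not_lt.1 hlt)
    exact lt_of_le_of_lt ((min_le_right _ _).trans this) hKt

/-- OWNER helper196 (E2H-SOFT, A level: clone of `sf_minc`, `sf_minc_all` over `Cal.gp`).      **(A8c SPG)** hybrid: rarity transport modulo cost-improved groups is RIGID; ONE rigidity function for all `τ` -/
theorem sf_spg_all (hK : K.Cal π Ls) (hgp : K.CalGp π Ls) (hpos : 0 < K.c2 π Ls ∨ (K.c2 π Ls = 0 ∧ 0 < K.c1 π Ls))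
    (π' : SfPar) (h2 : π'.c2 = K.c2 π Ls) (h1 : π'.c2 = 0 → π'.c1 = K.c1 π Ls) :
    ∃ κ0 : ℝ → ℝ, (∀ τ : ℝ, 0 < τ → 0 < κ0 τ) ∧ ∀ C0 t : ℝ, 0 < t →
      SfAll K.ob K.sc (fun c => K.Gd π Ls C0 (t / 32) c → ∀ τ : ℝ, 0 < τ → (K.doc c).Spg π' τ (κ0 τ) t) :=
  sf_sg_all K π Ls π' (fun τ hτ => sf_sg_spg K π Ls hK hgp π' h2 h1 hpos τ hτ)

/-- **(A10 ZN)** zero cost: uniform support constant, every mesh.      OWNER helper19 (cut with A7), EST 1500 lines. -/
theorem sf_zn (hπ : π.Pd) (hK : K.Cal π Ls) (h : K.Feas1 π Ls 0) : K.ZeroAlt π Ls :=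
  sf_zn_main K π Ls hK h

end A

/-- an EXIST statement is transported by an operation -/
theorem sf_ex_op (K : SfCls) {R : K.Cfg → K.Cfg → Prop} {A : K.Cfg → Prop} (hA : SfEx K.ob K.sc A) (hop : K.Op R A) :
    SfEx K.ob K.sc (fun c' => ∃ c, A c ∧ R c' c) := by
  obtain ⟨S, hS⟩ := hA
  obtain ⟨S', hS'⟩ := hop S
  refine ⟨S', fun s0 h0 => ?_⟩
  obtain ⟨σ, hσ, H⟩ := hS' s0 h0
  obtain ⟨c, h1, h2, h3⟩ := hS σ hσ
  obtain ⟨c', h4, h5, h6⟩ := H c h1 h2 h3
  exact ⟨c', h4, h5, c, h3, h6⟩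

/-! ### EXITS of the operator-free part -/

/-- **EXIT (zero cost)** -/
theorem sf_zero_exit0 (K : SfCls) (π : SfPar) (Ls : ℝ) (hπ : π.Pd) (hK : K.Cal π Ls) (X0 : SfPar → SfDoc → ℝ → Prop)
    (hX : K.Rig0 π Ls X0) (hZ : K.ZeroAlt π Ls) : SfExit0 π.hyb π.η π.Γ X0 := by
  obtain ⟨C0, hZ⟩ := hZ
  refine ⟨π, rfl, rfl, rfl, hπ.2.2.1, hπ.2.2.2.1, hπ.2.2.2.2, C0, fun F hF t s0 ht hs0 => ?_⟩
  obtain ⟨a, ha, hXa⟩ := hX t C0 ht
  have h1 := sf_ex_and_all (hZ F hF (min t a) (lt_min ht ha)) hXa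
  obtain ⟨S, hS⟩ := h1
  obtain ⟨c, -, hsc, ⟨hFG, hg, hz⟩, hx⟩ := hS s0 hs0
  have hs := hg.1.1.hs
  refine ⟨K.doc c, lt_of_le_of_lt (hK.sc_le c) hsc, hFG, ?_, ?_, ?_⟩
  · exact (sf_good_mono _ _ _ _ _ _ (lt_min ht ha) (min_le_left _ _) hg.1).1
  · exact sf_zero_mono _ _ _ hs (min_le_left _ _) hz
  · exact hx (sf_gd_mono K π Ls hK.md_mono _ _ _ (lt_min ht ha) (min_le_right _ _) c hg) (sf_zero_mono _ _ _ hs (min_le_right _ _) hz)

/-- **EXIT (A11 DICH)**: affine positive-cost family with `X`, or the zero-cost alternative.      (No flattening here: the consumers flatten the FINAL law themselves, `sf_cond` / `nm_restr`, `nm_seq`; Lemma cyl:flattening at interior gates is used nowhere.) -/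
theorem sf_dich (K : SfCls) (π : SfPar) (Ls : ℝ) (hπ : π.Pd) (hK : K.Cal π Ls) (hgp : π.hyb = true → K.CalGp π Ls)
    (X : SfPar → SfDoc → ℝ → Prop) (hX : K.Rig π Ls X) :
    SfExit π.hyb π.η π.Γ X ∨ K.ZeroAlt π Ls := by
  have h2 := sf_feas2_c2 K π Ls hK.md_mono (sf_fin2 K π Ls hπ hK)
  have key : (0 < K.c2 π Ls ∨ (K.c2 π Ls = 0 ∧ 0 < K.c1 π Ls)) → SfExit π.hyb π.η π.Γ X := by
    intro hpos
    obtain ⟨π', hs, hv, e2, e1, C0, hAF⟩ := sf_af K π Ls hπ hK hpos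
    obtain ⟨κ0, hκ, hM⟩ := sf_minc_all K π Ls hπ hK hpos π' hs e2 e1
    obtain ⟨κ1, hκ1, hG1⟩ : ∃ κ1 : ℝ → ℝ, (∀ τ : ℝ, 0 < τ → 0 < κ1 τ) ∧ ∀ C0 t : ℝ, 0 < t →
        SfAll K.ob K.sc (fun c => K.Gd π Ls C0 (t / 32) c → ∀ τ : ℝ, 0 < τ → π'.hyb = true → (K.doc c).Spg π' τ (κ1 τ) t) := by
      by_cases hh : π.hyb = true
      · obtain ⟨κ1, g1, g2⟩ := sf_spg_all K π Ls hK (hgp hh) hpos π' e2 e1
        exact ⟨κ1, g1, fun C0 t ht => sf_all_mono (fun c hc hg τ hτ _ => hc hg τ hτ) (g2 C0 t ht)⟩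
      · exact ⟨fun _ => 1, fun _ _ => one_pos, fun C0 t _ =>
          sf_all_of_forall (fun c _ τ _ h => absurd (hs.2.2.2.2.symm.trans h) hh)⟩
    refine ⟨π', hv, hs.2.2.2.2, hs.1, hs.2.1, C0, fun τ => min (κ0 τ) (κ1 τ), fun τ hτ => lt_min (hκ τ hτ) (hκ1 τ hτ),
      fun F hF t s0 ht hs0 => ?_⟩
    obtain ⟨aX, haX, hXa⟩ := hX π' hs hv t C0 ht
    have ht1 : 0 < min (t / 32) aX := lt_min (by positivity) haX
    have h32 : min (t / 32) aX ≤ t := (min_le_left _ _).trans (by linarith)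
    have hB := sf_ex_and_all (sf_ex_and_all (sf_ex_and_all (hAF F hF (min (t / 32) aX) ht1) (hM C0 t ht)) (hG1 C0 t ht)) hXa
    obtain ⟨S, hS⟩ := hB
    obtain ⟨c', -, hsc, ⟨⟨⟨hG, hg, haf⟩, hm⟩, hsp⟩, hx⟩ := hS s0 hs0
    have hs' := hg.1.1.hs
    have hgt := sf_gd_mono K π Ls hK.md_mono _ _ _ ht1 h32 c' hg
    have hg32 := sf_gd_mono K π Ls hK.md_mono _ _ _ ht1 (min_le_left _ _) c' hg
    refine ⟨K.doc c', lt_of_le_of_lt (hK.sc_le c') hsc, ?_, fun τ hτ => ⟨sf_core_same _ _ _ _ _ hs hgt.1.1, ?_⟩, ?_⟩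
    · exact hG
    · exact SfDoc.sf_aff_of _ _ _ _ _ (sf_affp_mono _ _ _ _ hs' h32 haf)
        (sf_minc_all_mono _ _ _ _ _ _ _ hs' le_rfl (min_le_left _ _) (hm hgt τ hτ))
        (fun hh => sf_spg_mono _ _ _ _ _ _ _ _ hs' ht le_rfl le_rfl (min_le_right _ _) (hsp hg32 τ hτ hh))
    · exact hx (sf_gd_mono K π Ls hK.md_mono _ _ _ ht1 (min_le_right _ _) c' hg) (sf_affp_mono _ _ _ _ hs' (min_le_right _ _) haf)
  rcases h2.1.lt_or_eq with hc | hc
  · exact Or.inl (key (Or.inl hc))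
  · have h0 : K.Feas2 π Ls 0 := by rw [hc]; exact h2.2
    have h1 := sf_feas1_c1 K π Ls hK.md_mono (sf_fin1 K π Ls hπ hK h0)
    rcases h1.1.lt_or_eq with hc1 | hc1
    · exact Or.inl (key (Or.inr ⟨hc.symm, hc1⟩))
    · refine Or.inr (sf_zn K π Ls hπ hK ?_)
      rw [hc1]; exact h1.2

end Claimed.Agent.R256
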