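import Claimed.Agent.R256.Soft.Contract
import Claimed.Agent.R256.Gen.Hyp
import Claimed.Agent.R256.Soft.MDocGlue

/-!
# Row 256 (S0496), unit SOFT, file 10: MODEL-LEVEL ENTRY AND EXIT      (chief helper19)

## ENTRY asked from R256/Gen (helper11) and R256/Cyl (helper255), as `Prop`s on a cylinder model `Y : SfCy` (format D6 of report 874: accuracy package free, `C` forward, `A` backward)
* `SfExC`    near extremisers in NORMAL FORM at `(Γ, p, d)`: common terminal widths = widths of the frame, terminal count (cyl:pd), (cyl:terminal-count)                     [Gen R0-R2 + binning of the widths]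
* `SfMatC`   Prop. cyl:matched-chain: a near extremiser in normal form can be documented on any finite mesh (`SfMD.Ext`), terminal labels = sub-family                   [Cyl E8]
* `SfPrepC`  forward preparation (last paragraph of the proof of cyl:matched-chain, Rem. cyl:forward-preparation, SS2, SS3): a documented experiment with counts (i), compatibility (iv),
             near extremal value, already prepared up to the gate `i0`, can be prepared at the later gates by inserting ordinary regularisations; stages up to the gate `i0` unchanged      [Cyl / Gen]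
* `SfLocC`   the correspondence of `Mdl.Loc` is contained in `sfCn`                                                                                                     [Cyl instance]
* `Mdl.Gen`, `Mdl.Rate`                                                                                                                                                  [Gen, Base]
## EXIT  (files `Soft/M*.lean`)
* `sf_cal` (`Soft/MCal.lean`)       the class of shadows satisfies `SfCls.Cal`      (units M1-M7 of `Soft/Contract.lean`, one theorem per field)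
* `sf_val`, `sf_zero_cost` (`Soft/MVal.lean`)      (unit M8)
-/

set_option autoImplicit false

namespace Claimed.Agent.R256

open MeasureTheory Claimed.Agent.R255

/-- a near extremal experiment in normal form -/
structure SfNear (Y : SfCy) (p : Y.M.Par) (E : Xp (Y.M.sys p)) (Q0 : CyT) (Γ pe de τ : ℝ) : Prop where
  width : ∀ l, (Y.tq p (E.ts l)).r = Q0.r ∧ (Y.tq p (E.ts l)).f = Q0.f
  val : (2 : ℝ) ^ ((Γ - τ) * E.n) ≤ E.val
  cnt : ∑ l, E.w l ≤ E.e / E.ka * E.s ^ (-(pe + de) - τ)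

/-- **ENTRY (EX)** -/
def SfExC (Y : SfCy) (Γ pe de : ℝ) : Prop :=
  ∀ τ : ℝ, 0 < τ → ∃ C : ℕ, ∀ A n0 : ℕ, ∃ (p : Y.M.Par) (E : Xp (Y.M.sys p)) (Q0 : CyT),
    n0 ≤ E.n ∧ E.Valid ∧ E.st.length ≤ C ∧ E.GenLe C ∧ Y.af C A p E Q0 ∧ SfNear Y p E Q0 Γ pe de τ

/-- the experiments have the same root and the same final scale -/
def sfSameRoot {P : PkSys} (E' E : Xp P) : Prop :=
  E'.k0 = E.k0 ∧ E'.i0 = E.i0 ∧ E'.n = E.n ∧ E'.v = E.v ∧ E'.e = E.e ∧ E'.ka = E.ka ∧ E'.b0 = E.b0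

/-- **ENTRY (MAT)** = Prop. cyl:matched-chain -/
def SfMatC (Y : SfCy) (Γ pe de Ls : ℝ) : Prop :=
  ∀ (F : Finset ℝ), (∀ i ∈ F, 0 ≤ i ∧ i ≤ 1) → ∀ a : ℝ, 0 < a → ∃ τ ε : ℝ, 0 < τ ∧ 0 < ε ∧ ∀ C : ℕ, ∃ C' : ℕ, ∀ A' : ℕ, ∃ A n0 : ℕ,
    ∀ (p : Y.M.Par) (E : Xp (Y.M.sys p)) (Q0 : CyT), n0 ≤ E.n → E.Valid → E.st.length ≤ C → E.GenLe C → Y.af C A p E Q0 → SfNear Y p E Q0 Γ pe de τ →
    ∃ W : SfMD (Y.M.sys p), SfMD.Ext Y p W pe de Ls ε a ∧ W.G = insert 1 F ∧ W.Q0 = Q0 ∧ sfSameRoot W.E E ∧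
      W.E.st.length ≤ C' ∧ W.E.GenLe C' ∧ Y.af C' A' p W.E Q0 ∧
      ∀ l' : Fin W.E.L, ∃ l : Fin E.L, W.E.iv l' = E.iv l ∧ W.E.ts l' = E.ts l ∧ ∀ x, W.E.th l' x ≤ E.th l x

/-- `W'` refines `W`: same root, frame, gates, depths, widths; labels = sub-weights of the old labels; nothing changes up to the gate `i0` -/
structure SfMD.Ref {P : PkSys} (W' W : SfMD P) (i0 : ℝ) : Prop where
  root : sfSameRoot W'.E W.E
  q0 : W'.Q0 = W.Q0
  hG : W'.G = W.G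
  hk : ∀ i ∈ W.G, W'.k i = W.k i ∧ W'.r i = W.r i ∧ W'.f i = W.f i
  lab : ∃ g : ∀ i, W'.Lb i → W.Lb i, ∀ i ∈ W.G, Function.Injective (g i) ∧
    (∀ l, W'.iv i l = W.iv i (g i l) ∧ W'.ts i l = W.ts i (g i l) ∧ ∀ x, W'.th i l x ≤ W.th i (g i l) x) ∧
    (i ≤ i0 → Function.Surjective (g i) ∧ ∀ l, W'.th i l = W.th i (g i l))
  old : ∀ i ∈ W.G, i ≤ i0 → W'.pos i = W.pos i ∧ W'.gb i = W.gb i ∧ W'.E.st.take (W.pos i + 1) = W.E.st.take (W.pos i + 1)

/-- a documented experiment BEFORE forward preparation: structure, counts (i), compatibility (iv), near extremal value; (ii), (iii) only at the gates `≤ i0` -/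
structure SfMD.PreS (Y : SfCy) (p : Y.M.Par) (W : SfMD (Y.M.sys p)) (Γ pe de Ls ε a i0 : ℝ) : Prop where
  str : W.Str (Y.tq p)
  val : (2 : ℝ) ^ ((Γ - a) * W.E.n) ≤ W.E.val
  depth : ∀ i ∈ W.G, |((W.k i : ℝ) - W.E.k0) - i * W.E.n| ≤ a * W.E.n
  cnt : ∀ i ∈ W.G, ∑ l, (Y.M.sys p).wt (W.ts i l) ≤ W.E.s ^ (-a) * (W.E.e / W.E.ka) * W.E.s ^ (-((pe + de) * i))
  en : ∀ i ∈ W.G, i ≤ i0 → ∑ m ∈ W.ivs i, ‖W.pre i m‖ ^ 2 ≤ W.E.s ^ (-a) * W.E.e * W.E.s ^ (-(de * i))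
  reg : ∀ i ∈ W.G, i ≤ i0 → ∀ m ∈ W.ivs i,
    (Y.M.sys p).Reg (tmL (W.k i) m) (W.k i) (W.gb i) (W.E.s ^ (-a) * W.E.ka * W.E.s ^ (pe * i)) (W.pre i m)
  wr : ∀ i j, sfNext W.G i j → W.E.s ^ (Ls * (j - i) + a) ≤ W.r i / W.r j ∧ W.r i / W.r j ≤ 1 ∧
    W.E.s ^ (Ls * (j - i) + a) ≤ W.f i / W.f j ∧ W.f i / W.f j ≤ W.E.s ^ (-(Ls * (j - i) + a))
  mm : ∀ i j, sfNext W.G i j → ∀ (l : W.Lb i) (l' : W.Lb j) (x x' : (Y.M.sys p).X), W.th i l x ≠ 0 → W.th j l' x' ≠ 0 →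
    sfCn Y p (W.E.s ^ (-ε)) (W.T i l) (W.k i) (W.T j l') (W.k j) x x' →
    |(sfTestAt (W.T i l) (Y.tq p (W.ts i l))).be - (sfTestAt (W.T j l') (Y.tq p (W.ts j l'))).beAt (W.T i l)|
        + (2 : ℝ)⁻¹ ^ W.k i * |(Y.tq p (W.ts i l)).K - (Y.tq p (W.ts j l')).K| ≤ W.f j / W.r j ^ 2 * W.E.s ^ (-(Ls * (j - i) + a)) ∧
    |(sfTestAt (W.T i l) (Y.tq p (W.ts i l))).Pd (sfRayAt (W.T i l) (Y.co p (W.T i l) x))
        - (sfTestAt (W.T j l') (Y.tq p (W.ts j l'))).Pd (sfRayAt (W.T i l) (Y.co p (W.T i l) x))| ≤ W.f j / W.r j * W.E.s ^ (-(Ls * (j - i) + a))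

/-- **ENTRY (PREP)** = forward preparation -/
def SfPrepC (Y : SfCy) (Γ pe de Ls : ℝ) : Prop :=
  ∀ h a ε : ℝ, 0 < h → 0 < a → 0 < ε → ∃ τ : ℝ, 0 < τ ∧ ∀ C : ℕ, ∃ C' : ℕ, ∀ A' : ℕ, ∃ A n0 : ℕ,
    ∀ (p : Y.M.Par) (W : SfMD (Y.M.sys p)) (i0 : ℝ), n0 ≤ W.E.n → W.E.st.length ≤ C → W.E.GenLe C → Y.af C A p W.E W.Q0 →
      SfMD.PreS Y p W Γ pe de Ls ε τ i0 → (∀ i ∈ W.G, ∀ j ∈ W.G, i < j → h ≤ j - i) →
    ∃ W' : SfMD (Y.M.sys p), W'.Ref W i0 ∧ SfMD.Ext Y p W' pe de Ls ε a ∧ W'.E.st.length ≤ C' ∧ W'.E.GenLe C' ∧ Y.af C' A' p W'.E W'.Q0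

/-- **ENTRY (LOC)**: the correspondence of the generic locality is the geometric one -/
def SfLocC (Y : SfCy) (g : ℝ) (L : Y.M.Loc g) : Prop :=
  ∀ p Λ T k T' k' x x', T' + (2 : ℝ)⁻¹ ^ k' ≤ T + (2 : ℝ)⁻¹ ^ k → L.cn p Λ T k T' k' x x' → CutLe T k T' k' → sfCn Y p Λ T k T' k' x x'

/-- all ENTRY hypotheses of the model-level part, at the exponents `π` -/
structure SfEntry (Y : SfCy) (π : SfPar) (Ls : ℝ) : Prop where
  par : π.Pd ∧ π.η = Y.η ∧ π.hyb = Y.hyb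
  adm : ∀ C A p E, (Y.M.gd p ∧ Y.M.adm C A p E) ↔ ∃ Q0, Y.af C A p E Q0
  gen : Y.M.Gen (1 + Y.η / 2)
  loc : ∃ L : Y.M.Loc (1 + Y.η / 2), SfLocC Y (1 + Y.η / 2) L
  rate : Y.M.Rate π.Γ
  /-- THE EXITS OF R256/Cyl THEMSELVES (ruling of 22:40Z; the private copies `SfExC`, `SfMatC`, `SfPrepC` are no longer fields) -/
  exps : π.Γ = Y.M.Gam ∧ π.p = Y.M.p0 ∧ π.d = Y.M.d0
  ls : 0 < Ls
  hyp : Nonempty (CyHyp Y)
  jit : CyJit Y
  extr : CyExtr Y
  fwd : CyForward Y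
  frm : CyFrm Y
  /-- Prop. cyl:matched-chain with the frame as input and polynomial labels (`Soft/MDocGlue.lean`, helper39) -/
  dmat : SfDocMat Y Ls

theorem sf_entry_eqns_cite : True := by
  have := @SfExC.eq_1
  have := @sfSameRoot.eq_1
  have := @SfMatC.eq_1
  have := @SfPrepC.eq_1
  have := @SfLocC.eq_1
  trivial

end Claimed.Agent.R256
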