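import Claimed.Agent.R256.Soft.Voc
import Claimed.Agent.R256.Gen.Contract

/-!
# Row 256 (S0496), unit SOFT, block M2 CORE (BP-256-SOFT-CORE, architect helper169, chief helper19), file 1: DEFINITIONS AND PATTERN      -- KEEP

PURPOSE OF THE BLOCK: every shadow `c : SfCfg Y π.d` of an experiment with `SfMD.Ext` is `Good` (`Soft/MCoreTop.lean`: `sf_core_x`).   One theorem per field of `SfDoc.Core`, `SfDoc.Mat`.
Files: `MCoreDefs` (this file) | `MCoreGeo` (scalars, own, grid, cnt, chains: trans split base normH wr mm) | `MCoreCl` (classical fields) | `MCoreReg` (reg) | `MCoreLoc` (locality along stacks and gates) | `MCoreSp` (sp, tp) | `MCoreTop` (assembly).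
RULES FOR LEAVES: prove IN PLACE, statement verbatim, helper lemmas directly above the theorem, their names = name of the theorem + suffix.  Statements of this block and of the imports may be cited even if still `sorry`.  PAPER-FREE: the plans are in the docstrings.

* `SfCyOk Y`     what the two cylinder models have in common (so that no leaf unfolds `sfCl`, `sfHy`);  `sf_cy_ok`
* `SfCoreHyp Y π`   what the block uses of `SfEntry` (`par adm gen loc rate`)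
* `SfSep Y`      measurable approximate successor sets (replaces Lemma cyl:borel-paths);  `sf_sep`  (`MCoreLoc`)
* `SfCfg.Xtra`   three properties of shadows delivered by DISC (helper39), to be moved into `SfSh`
* `SfCfg.fr, tm, fray, Lk, mid, wS, preR`      frame, absolute time of a row, frame ray of a physical row, link of two rows, stages between two gates, weight of a set of rows, restricted state
* `SfRigid`      THE PATTERN  `∃ a ε0 μ0, ∀ ε1 > 0, ∀ C, ∃ A n0, ∀ c, ..`;   `sf_rigid_and`, `sf_rigid_mono`:  every leaf chooses its own constants.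
-/

set_option autoImplicit false

namespace Claimed.Agent.R256

open MeasureTheory Claimed.Agent.R255

/-- **what the two cylinder models have in common** -/
structure SfCyOk (Y : SfCy) : Prop where
  cell : ∀ p Q T k x, x ∈ (Y.M.sys p).cell Q T k ↔ cyIn (Y.tq p Q) ((2 : ℝ)⁻¹ ^ k) (Y.co p T x)
  wt : ∀ p Q, (Y.M.sys p).wt Q = cyWt Y.η (Y.tq p Q)
  ok : ∀ p Q k, (Y.M.sys p).ok Q k ↔ 0 < (Y.tq p Q).r ∧ 0 < (Y.tq p Q).f ∧ Y.dl p k ≤ (Y.tq p Q).f
  tq_surj : ∀ p q, ∃ Q, Y.tq p Q = q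
  /-- the base flow -/
  coX : ∀ p T x, (Y.co p T x).X = (Y.co p 0 x).X
  coB : ∀ p T x, (Y.co p T x).B = (Y.co p 0 x).B + T * (Y.co p 0 x).X
  coY : ∀ p T x, (Y.co p T x).Y = (Y.co p 0 x).Y + T * (Y.co p 0 x).X ^ 2
  /-- the base ray is a function of the exact index -/
  ixB : ∀ p x x', Y.ix p x = Y.ix p x' →
    (Y.co p 0 x).X = (Y.co p 0 x').X ∧ (Y.co p 0 x).B = (Y.co p 0 x').B ∧ (Y.co p 0 x).Y = (Y.co p 0 x').Y
  dl0 : ∀ p k, 0 ≤ Y.dl p k
  dl_mono : ∀ p, Y.M.gd p → ∀ k k', k ≤ k' → Y.dl p k ≤ Y.dl p k'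
  /-- `q_ℓ = ℓ d_ℓ` decreases with the depth -/
  ql_anti : ∀ p, Y.M.gd p → ∀ k k', k ≤ k' → (2 : ℝ)⁻¹ ^ k' * Y.dl p k' ≤ (2 : ℝ)⁻¹ ^ k * Y.dl p k
  /-- the generation is ignored -/
  gen : ∀ p T k b, (Y.M.sys p).An T k b = (Y.M.sys p).An T k 0
  af : ∀ C A p E Q0, Y.af C A p E Q0 → Y.M.gd p ∧ 0 < Q0.r ∧ 0 < Q0.f ∧
    E.s ^ (C : ℝ) * (E.ka * cyWt Y.η Q0) ≤ E.e ∧ E.e ≤ E.s ^ (-(C : ℝ)) * (E.ka * cyWt Y.η Q0)
  meas : ∀ p, Y.M.gd p → ∀ T, Measurable (fun x => (Y.co p T x).X) ∧ Measurable (fun x => (Y.co p T x).B) ∧ Measurable (fun x => (Y.co p T x).Y) ∧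
    Measurable (fun x => (Y.co p T x).N) ∧ Measurable (fun x => (Y.co p T x).D)
  /-- classical model: a row is its exact index, `d_ℓ = 0`, free flow, all operators are multiplications -/
  clI : Y.hyb = false → ∀ p x x', Y.ix p x = Y.ix p x' → x = x'
  clD : Y.hyb = false → ∀ p k, Y.dl p k = 0
  clN : Y.hyb = false → ∀ p T x, (Y.co p T x).N = (Y.co p 0 x).N ∧ (Y.co p T x).D = (Y.co p 0 x).D + T * (Y.co p 0 x).N
  clRho : Y.hyb = false → ∀ p k k', (Y.M.sys p).rho k = (Y.M.sys p).rho k'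
  clAn : Y.hyb = false → ∀ p T k b T' k' b' v,
    (((Y.M.sys p).An T k b v : Lp (Y.M.sys p).Fb 2 ((Y.M.sys p).rho k)) : (Y.M.sys p).X → (Y.M.sys p).Fb)
      =ᵐ[(Y.M.sys p).rho k] (((Y.M.sys p).An T' k' b' v : Lp (Y.M.sys p).Fb 2 ((Y.M.sys p).rho k')) : (Y.M.sys p).X → (Y.M.sys p).Fb)
  clTz : Y.hyb = false → ∀ p T k b (M : (Y.M.sys p).X → ℝ), IsMask M → ∀ v T' k' b',
    (((Y.M.sys p).An T' k' b' ((Y.M.sys p).tz T k b M v) : Lp (Y.M.sys p).Fb 2 ((Y.M.sys p).rho k')) : (Y.M.sys p).X → (Y.M.sys p).Fb)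
      =ᵐ[(Y.M.sys p).rho k'] fun x => ((M x : ℝ) : ℂ) •
        (((Y.M.sys p).An T' k' b' v : Lp (Y.M.sys p).Fb 2 ((Y.M.sys p).rho k')) : (Y.M.sys p).X → (Y.M.sys p).Fb) x

/-- the correspondence of the generic locality is the geometric one (= `SfLocC` of `Soft/Entry.lean`; own copy: this block does not import `Entry`) -/
def SfLocK (Y : SfCy) (g : ℝ) (L : Y.M.Loc g) : Prop :=
  ∀ p Λ T k T' k' x x', T' + (2 : ℝ)⁻¹ ^ k' ≤ T + (2 : ℝ)⁻¹ ^ k → L.cn p Λ T k T' k' x x' → CutLe T k T' k' → sfCn Y p Λ T k T' k' x x'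

/-- **what this block uses of the ENTRY hypotheses** (glue from `SfEntry`: `Soft/MCoreTop.lean`) -/
structure SfCoreHyp (Y : SfCy) (π : SfPar) : Prop where
  par : π.Pd ∧ π.η = Y.η ∧ π.hyb = Y.hyb
  adm : ∀ C A p E, (Y.M.gd p ∧ Y.M.adm C A p E) ↔ ∃ Q0, Y.af C A p E Q0
  gen : Y.M.Gen (1 + Y.η / 2)
  loc : ∃ L : Y.M.Loc (1 + Y.η / 2), SfLocK Y (1 + Y.η / 2) L
  rate : Y.M.Rate π.Γ

/-- **measurable approximate successor sets**: up to a null set, the `Λ`-successors of a measurable set of rows lie in a measurable set of `2Λ`-successors -/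
def SfSep (Y : SfCy) : Prop :=
  ∀ p, Y.M.gd p → ∀ Λ : ℝ, 1 ≤ Λ → ∀ (T : ℝ) (k : ℕ) (T' : ℝ) (k' : ℕ), k ≤ k' → T ≤ T' → T' + (2 : ℝ)⁻¹ ^ k' ≤ T + (2 : ℝ)⁻¹ ^ k →
    ∀ A : Set (Y.M.sys p).X, MeasurableSet A → ∃ A' Z : Set (Y.M.sys p).X, MeasurableSet A' ∧ MeasurableSet Z ∧ A' ⊆ A ∧ (Y.M.sys p).rho k (A \ A') = 0 ∧
      (∀ x ∈ A', ∀ x', sfCn Y p Λ T k T' k' x x' → x' ∈ Z) ∧ ∀ x' ∈ Z, ∃ x ∈ A', sfCn Y p (2 * Λ) T k T' k' x x'

namespace SfCfg

variable {Y : SfCy} {de : ℝ} (c : SfCfg Y de)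

/-- three properties of the shadows built by DISC -/
structure Xtra : Prop where
  at_ne : ∀ i ∈ c.W.G, ∀ ρ, (c.sh.atm i ρ).Nonempty
  rp_cl : Y.hyb = false → ∀ i ∈ c.W.G, ∀ j ∈ c.W.G, ∀ ρ ρ', c.D.idx i ρ = c.D.idx j ρ' → c.sh.rp i ρ = c.sh.rp j ρ'
  /-- classical model: every point of an atom lies in an atom of every earlier gate, on the ancestor interval -/
  cl_nest : Y.hyb = false → ∀ i ∈ c.W.G, ∀ j ∈ c.W.G, i < j → ∀ ρ', ∀ x ∈ c.sh.atm j ρ',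
    ∃ ρ, x ∈ c.sh.atm i ρ ∧ c.W.iv i (c.sh.lb i ρ) = ancI (c.W.k j) (c.W.k i) (c.W.iv j (c.sh.lb j ρ'))

/-- the frame -/
noncomputable def fr : SfFrame := sfFrameOf (tmL c.W.E.k0 c.W.E.i0) ((2 : ℝ)⁻¹ ^ c.W.E.k0) c.W.Q0

/-- the absolute time of a row -/
noncomputable def tm (i : ℝ) (ρ : c.D.Row i) : ℝ := c.W.T i (c.sh.lb i ρ)

/-- the interval of a row -/
def im (i : ℝ) (ρ : c.D.Row i) : ℕ := c.W.iv i (c.sh.lb i ρ)

/-- the ray (absolute units) of the physical row `x` read at the time of `ρ` -/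
noncomputable def aray (i : ℝ) (ρ : c.D.Row i) (x : (Y.M.sys c.p).X) : SfRay := sfRayAt (c.tm i ρ) (Y.co c.p (c.tm i ρ) x)

/-- the same ray in the frame -/
noncomputable def fray (i : ℝ) (ρ : c.D.Row i) (x : (Y.M.sys c.p).X) : SfRay := c.fr.ray (c.aray i ρ x)

/-- two rows of consecutive gates are linked -/
def Lk (u v : Σ i, c.D.Row i) : Prop :=
  sfNext c.W.G u.1 v.1 ∧ ∃ x ∈ c.sh.atm u.1 u.2, ∃ x' ∈ c.sh.atm v.1 v.2,
    sfCn Y c.p (c.W.E.s ^ (-c.ε)) (c.W.T u.1 (c.sh.lb u.1 u.2)) (c.W.k u.1) (c.W.T v.1 (c.sh.lb v.1 v.2)) (c.W.k v.1) x x'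

/-- the stages strictly between the gates `i` and `j` -/
def mid (i j : ℝ) : List (Stg (Y.M.sys c.p)) := (c.W.E.st.take (c.W.pos j)).drop (c.W.pos i + 1)

open Classical in
/-- the weight of the rows of `S` that live in the interval `m` of the gate `i` -/
noncomputable def wS (i : ℝ) (S : c.D.Row i → Prop) (m : ℕ) (x : (Y.M.sys c.p).X) : ℝ :=
  ∑ ρ, if S ρ ∧ c.im i ρ = m then (c.sh.atm i ρ).indicator (c.W.th i (c.sh.lb i ρ)) x else 0

/-- the union of the atoms of the rows of `S` that live in the interval `m` -/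
def aS (i : ℝ) (S : c.D.Row i → Prop) (m : ℕ) : Set (Y.M.sys c.p).X := ⋃ ρ, ⋃ (_ : S ρ ∧ c.im i ρ = m), c.sh.atm i ρ

/-- the state after the gate `i` on the interval `m` if the synthesis is restricted to the rows of `R` -/
noncomputable def synR (i : ℝ) (R : c.D.Row i → Prop) (m : ℕ) : (Y.M.sys c.p).Kc :=
  (Y.M.sys c.p).tz (tmL (c.W.k i) m) (c.W.k i) (c.W.gb i) (c.wS i R m) (c.W.pre i m)

/-- the state entering the gate `j` on the interval `m'` if the synthesis at the gate `i` is restricted to the rows of `R` -/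
noncomputable def preR (i j : ℝ) (R : c.D.Row i → Prop) (m' : ℕ) : (Y.M.sys c.p).Kc :=
  Xp.run (c.W.k j) m' (c.mid i j) (c.synR i R (ancI (c.W.k j) (c.W.k i) m'))

/-- the energy read at the gate `j` on the interval `m'` by the rows of `V` in the state `ψ` -/
noncomputable def rdE (j : ℝ) (V : c.D.Row j → Prop) (m' : ℕ) (ψ : (Y.M.sys c.p).Kc) : ℝ :=
  (Y.M.sys c.p).en (tmL (c.W.k j) m') (c.W.k j) (c.W.gb j) (c.wS j V m') ψ

end SfCfg

theorem sf_mcore_eqns_cite : True := by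
  have := @SfSep.eq_1
  have := @SfLocK.eq_1
  have := @SfCfg.fr.eq_1
  have := @SfCfg.tm.eq_1
  have := @SfCfg.im.eq_1
  have := @SfCfg.aray.eq_1
  have := @SfCfg.fray.eq_1
  have := @SfCfg.Lk.eq_1
  have := @SfCfg.mid.eq_1
  have := @SfCfg.wS.eq_1
  have := @SfCfg.aS.eq_1
  have := @SfCfg.synR.eq_1
  have := @SfCfg.preR.eq_1
  have := @SfCfg.rdE.eq_1
  trivial

/-- all gaps of the mesh are `≥ h` (own copy of `SfDoc.Gap`, whose definition is going to be strengthened) -/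
def SfDoc.GapK (D : SfDoc) (h : ℝ) : Prop := ∀ i ∈ D.G, ∀ j ∈ D.G, i < j → h ≤ j - i

/-- **THE PATTERN**: `X c C` holds for every shadow `c` (package `C`) of an experiment with `Ext` at a package free accuracy, truncation exponent in `[ε1, ε0]`, fine atoms, large tail order, small scale, mesh `≥ h` -/
def SfRigid (Y : SfCy) (π : SfPar) (Ls h : ℝ) (X : SfCfg Y π.d → ℕ → Prop) : Prop :=
  ∃ a ε0 μ0 : ℝ, 0 < a ∧ 0 < ε0 ∧ ∀ ε1 : ℝ, 0 < ε1 → ∀ C : ℕ, ∃ A n0 : ℕ, ∀ c : SfCfg Y π.d, c.ob C → c.Xtra → A ≤ c.A → n0 ≤ c.W.E.n →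
    SfMD.Ext Y c.p c.W π.p π.d Ls c.ε a → ε1 ≤ c.ε → c.ε ≤ ε0 → μ0 ≤ c.μ → c.D.GapK h → X c C

theorem sf_rigid_eqns_cite : True := by
  have := @SfRigid.eq_1
  have := @SfDoc.GapK.eq_1
  trivial

/-- `Conn` = chains of links -/
theorem sf_core_conn {Y : SfCy} {de : ℝ} (c : SfCfg Y de) (i : ℝ) (hi : i ∈ c.W.G) (j : ℝ) (hj : j ∈ c.W.G) (ρ : c.D.Row i) (ρ' : c.D.Row j) :
    c.D.Conn i j ρ ρ' ↔ Relation.TransGen c.Lk ⟨i, ρ⟩ ⟨j, ρ'⟩ :=
  c.sh.conn i hi j hj ρ ρ'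

/-- **(LEAF EXT-MONO)** `Ext` is monotone in the accuracy.   PLAN: field by field; `s = W.E.s ∈ (0,1]` (`gn_s_pos`, `gn_s_le_one`), `s^(-a) ≤ s^(-a')`, `s^(a') ≤ s^a` (`gn_s_anti`); the other factors are `≥ 0`
(`Valid.e_pos`, `Valid.ka_pos` from `str.valid`; `Real.rpow_nonneg`; weights: `Reg` needs `0 ≤ wt Q`, NOT available: for `reg` use that `ms ≥ 0` (`gn_ms_nonneg`) forces `0 ≤ κ wt Q`, hence `wt Q ≥ 0` as `κ > 0`;
`f j / r j ^ 2 ≥ 0`, `f j / r j ≥ 0` by `str.frame`). -/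
theorem sf_ext_mono (Y : SfCy) (p : Y.M.Par) (W : SfMD (Y.M.sys p)) (pe de Ls ε a a' : ℝ) (ha : a ≤ a') (h : SfMD.Ext Y p W pe de Ls ε a) :
    SfMD.Ext Y p W pe de Ls ε a' := by
  have hs0 := gn_s_pos W.E
  have he := h.str.valid.e_pos
  have hka := h.str.valid.ka_pos
  have hneg : W.E.s ^ (-a) ≤ W.E.s ^ (-a') := gn_s_anti W.E (by linarith)
  have hpos : W.E.s ^ a' ≤ W.E.s ^ a := gn_s_anti W.E ha
  have hp : ∀ y : ℝ, 0 < W.E.s ^ y := fun y => Real.rpow_pos_of_pos hs0 y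
  refine ⟨h.str, fun i hi => ?_, fun i hi => ?_, fun i hi => ?_, fun i hi m hm Q hQ => ?_, fun i hi => ?_, fun i j hij => ?_, fun i j hij l l' x x' h1 h2 h3 => ?_⟩
  · exact (h.depth i hi).trans (mul_le_mul_of_nonneg_right ha (Nat.cast_nonneg _))
  · refine (h.cnt i hi).trans ?_
    exact mul_le_mul_of_nonneg_right (mul_le_mul_of_nonneg_right hneg (div_pos he hka).le) (hp _).le
  · refine (h.en i hi).trans ?_
    exact mul_le_mul_of_nonneg_right (mul_le_mul_of_nonneg_right hneg he.le) (hp _).le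
  · have h1 := h.reg i hi m hm Q hQ
    have h0 := gn_ms_nonneg (P := Y.M.sys p) (tmL (W.k i) m) (W.k i) (W.gb i) ((Y.M.sys p).cell Q (tmL (W.k i) m) (W.k i)) (W.pre i m)
    have hκ : 0 < W.E.s ^ (-a) * W.E.ka * W.E.s ^ (pe * i) := mul_pos (mul_pos (hp _) hka) (hp _)
    have hwt : 0 ≤ (Y.M.sys p).wt Q := by
      by_contra hcon
      rw [not_le] at hcon
      have := mul_neg_of_pos_of_neg hκ hcon
      linarith
    refine h1.trans (mul_le_mul_of_nonneg_right ?_ hwt)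
    exact mul_le_mul_of_nonneg_right (mul_le_mul_of_nonneg_right hneg hka.le) (hp _).le
  · refine le_trans ?_ (h.read i hi)
    exact mul_le_mul_of_nonneg_right (mul_le_mul_of_nonneg_right hpos he.le) (hp _).le
  · obtain ⟨w1, w2, w3, w4⟩ := h.wr i j hij
    exact ⟨(gn_s_anti W.E (by linarith)).trans w1, w2, (gn_s_anti W.E (by linarith)).trans w3, w4.trans (gn_s_anti W.E (by linarith))⟩
  · obtain ⟨m1, m2⟩ := h.mm i j hij l l' x x' h1 h2 h3
    obtain ⟨hr, hf⟩ := h.str.frame.2.2 j hij.2.1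
    have hmon : W.E.s ^ (-(Ls * (j - i) + a)) ≤ W.E.s ^ (-(Ls * (j - i) + a')) := gn_s_anti W.E (by linarith)
    exact ⟨m1.trans (mul_le_mul_of_nonneg_left hmon (by positivity)), m2.trans (mul_le_mul_of_nonneg_left hmon (by positivity))⟩

theorem sf_rigid_mono {Y : SfCy} {π : SfPar} {Ls h : ℝ} {X X' : SfCfg Y π.d → ℕ → Prop} (hX : SfRigid Y π Ls h X) (hi : ∀ c C, X c C → X' c C) :
    SfRigid Y π Ls h X' := by
  obtain ⟨a, ε0, μ0, ha, hε, H⟩ := hX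
  refine ⟨a, ε0, μ0, ha, hε, fun ε1 h1 C => ?_⟩
  obtain ⟨A, n0, H'⟩ := H ε1 h1 C
  exact ⟨A, n0, fun c a1 a2 a3 a4 a5 a6 a7 a8 a9 => hi c C (H' c a1 a2 a3 a4 a5 a6 a7 a8 a9)⟩

theorem sf_rigid_and {Y : SfCy} {π : SfPar} {Ls h : ℝ} {X X' : SfCfg Y π.d → ℕ → Prop} (hX : SfRigid Y π Ls h X) (hX' : SfRigid Y π Ls h X') :
    SfRigid Y π Ls h (fun c C => X c C ∧ X' c C) := by
  obtain ⟨a, ε0, μ0, ha, hε, H⟩ := hX
  obtain ⟨a', ε0', μ0', ha', hε', H'⟩ := hX'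
  refine ⟨min a a', min ε0 ε0', max μ0 μ0', lt_min ha ha', lt_min hε hε', fun ε1 h1 C => ?_⟩
  obtain ⟨A, n0, K⟩ := H ε1 h1 C
  obtain ⟨A', n0', K'⟩ := H' ε1 h1 C
  refine ⟨max A A', max n0 n0', fun c a1 a2 a3 a4 a5 a6 a7 a8 a9 => ⟨?_, ?_⟩⟩
  · exact K c a1 a2 ((le_max_left _ _).trans a3) ((le_max_left _ _).trans a4) (sf_ext_mono _ _ _ _ _ _ _ _ _ (min_le_left _ _) a5) a6
      (a7.trans (min_le_left _ _)) ((le_max_left _ _).trans a8) a9
  · exact K' c a1 a2 ((le_max_right _ _).trans a3) ((le_max_right _ _).trans a4) (sf_ext_mono _ _ _ _ _ _ _ _ _ (min_le_right _ _) a5) a6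
      (a7.trans (min_le_right _ _)) ((le_max_right _ _).trans a8) a9

theorem sf_cy_ok_ql (H : ℝ) (hH : 0 ≤ H) (k k' : ℕ) (h : k ≤ k') :
    (2 : ℝ)⁻¹ ^ k' * Real.sqrt (H * 2 ^ k') ≤ (2 : ℝ)⁻¹ ^ k * Real.sqrt (H * 2 ^ k) := by
  have e : ∀ j : ℕ, (2 : ℝ)⁻¹ ^ j * Real.sqrt (H * 2 ^ j) = Real.sqrt (H / 2 ^ j) := by
    intro j
    have e : H / 2 ^ j = ((2 : ℝ)⁻¹ ^ j) ^ 2 * (H * 2 ^ j) := by
      rw [inv_pow]; field_simp
    rw [e, Real.sqrt_mul (by positivity) (H * 2 ^ j), Real.sqrt_sq (by positivity)]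
  rw [e, e]
  apply Real.sqrt_le_sqrt
  apply div_le_div_of_nonneg_left hH (by positivity)
  exact pow_le_pow_right₀ (by norm_num) h

theorem sf_cy_ok_adj (η : ℝ) (p : CclPar) (T : ℝ) (k b : ℕ) (F : Lp (p.sys η).Fb 2 ((p.sys η).rho k)) :
    ContinuousLinearMap.adjoint ((p.sys η).An T k b) F = F :=
  DFunLike.congr_fun (ContinuousLinearMap.adjoint_id (𝕜 := ℂ) (E := Lp p.Fb 2 p.m)) F

theorem sf_cy_ok_tz (η : ℝ) (p : CclPar) (T : ℝ) (k b : ℕ) (M : p.Om → ℝ) (v : (p.sys η).Kc) :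
    (p.sys η).tz T k b M v = (p.sys η).mulR k M v := by
  unfold PkSys.tz
  rw [sf_cy_ok_adj]
  rfl

theorem sf_cy_ok_clTz (η : ℝ) (p : CclPar) (T : ℝ) (k b : ℕ) (M : p.Om → ℝ) (hM : IsMask M) (v w : Lp p.Fb 2 p.m)
    (hw : w = (p.sys η).tz T k b M v) : (w : p.Om → p.Fb) =ᵐ[p.m] fun x => ((M x : ℝ) : ℂ) • (v : p.Om → p.Fb) x := by
  have hw' : w = (p.sys η).mulR k M v := hw.trans (sf_cy_ok_tz η p T k b M v)
  subst hw'
  exact gn_mulR_coe (P := p.sys η) k hM v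

theorem sf_cy_ok_measH (p : ChyPar) (hp : p.Ok) (T : ℝ) :
    Measurable (fun x => (p.co T x).X) ∧ Measurable (fun x => (p.co T x).B) ∧ Measurable (fun x => (p.co T x).Y) ∧
      Measurable (fun x => (p.co T x).N) ∧ Measurable (fun x => (p.co T x).D) := by
  have m1 : Measurable fun x : p.Om × ℝ × ℝ => p.X x.1 := hp.mX.comp measurable_fst
  refine ⟨m1, ?_, ?_, ?_, ?_⟩
  · exact (hp.mB.comp measurable_fst).add (m1.const_mul T)
  · exact (hp.mY.comp measurable_fst).add ((m1.pow_const 2).const_mul T)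
  · exact measurable_snd.comp measurable_snd
  · exact measurable_fst.comp measurable_snd

theorem sf_cy_ok_measC (p : CclPar) (hp : p.Ok) (T : ℝ) :
    Measurable (fun x => (p.co T x).X) ∧ Measurable (fun x => (p.co T x).B) ∧ Measurable (fun x => (p.co T x).Y) ∧
      Measurable (fun x => (p.co T x).N) ∧ Measurable (fun x => (p.co T x).D) := by
  refine ⟨hp.mX, ?_, ?_, hp.mN, ?_⟩
  · exact hp.mB.add (hp.mX.const_mul T)
  · exact hp.mY.add ((hp.mX.pow_const 2).const_mul T)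
  · exact hp.mD.add (hp.mN.const_mul T)

theorem sf_cy_ok_cl (η : ℝ) : SfCyOk (sfCl η) where
  cell := fun _ _ _ _ _ => Iff.rfl
  wt := fun _ _ => rfl
  ok := fun _ _ _ => ⟨fun h => ⟨h.1, h.2, h.2.le⟩, fun h => ⟨h.1, h.2.1⟩⟩
  tq_surj := fun _ q => ⟨q, rfl⟩
  coX := fun _ _ _ => rfl
  coB := fun p T x => by
    show CclPar.B p x + T * CclPar.X p x = CclPar.B p x + 0 * CclPar.X p x + T * CclPar.X p x
    ring
  coY := fun p T x => by
    show CclPar.Y p x + T * CclPar.X p x ^ 2 = CclPar.Y p x + 0 * CclPar.X p x ^ 2 + T * CclPar.X p x ^ 2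
    ring
  ixB := fun p x x' h => by
    have h' : x = x' := h
    subst h'
    exact ⟨rfl, rfl, rfl⟩
  dl0 := fun _ _ => le_rfl
  dl_mono := fun _ _ _ _ _ => le_rfl
  ql_anti := fun _ _ k k' _ => by
    show (2 : ℝ)⁻¹ ^ k' * 0 ≤ (2 : ℝ)⁻¹ ^ k * 0
    simp
  gen := fun _ _ _ _ => rfl
  af := fun _ _ _ _ _ h => ⟨h.1, h.2.r_pos, h.2.f_pos, h.2.ek_lo, h.2.ek_hi⟩
  meas := fun p hp T => sf_cy_ok_measC p hp T
  clI := fun _ _ _ _ h => h
  clD := fun _ _ _ => rfl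
  clN := fun _ p T x => by
    refine ⟨rfl, ?_⟩
    show CclPar.D p x + T * CclPar.N p x = CclPar.D p x + 0 * CclPar.N p x + T * CclPar.N p x
    ring
  clRho := fun _ _ _ _ => rfl
  clAn := fun _ _ _ _ _ _ _ _ _ => Filter.EventuallyEq.rfl
  clTz := fun _ p T k b M hM v _ _ _ => sf_cy_ok_clTz η p T k b M hM v _ rfl

theorem sf_cy_ok_hy (η : ℝ) : SfCyOk (sfHy η) where
  cell := fun _ _ _ _ _ => Iff.rfl
  wt := fun _ _ => rfl
  ok := fun _ _ _ => Iff.rfl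
  tq_surj := fun _ q => ⟨q, rfl⟩
  coX := fun _ _ _ => rfl
  coB := fun p T x => by
    show ChyPar.B p x.1 + T * ChyPar.X p x.1 = ChyPar.B p x.1 + 0 * ChyPar.X p x.1 + T * ChyPar.X p x.1
    ring
  coY := fun p T x => by
    show ChyPar.Y p x.1 + T * ChyPar.X p x.1 ^ 2 = ChyPar.Y p x.1 + 0 * ChyPar.X p x.1 ^ 2 + T * ChyPar.X p x.1 ^ 2
    ring
  ixB := fun p x x' h => by
    have h' : x.1 = x'.1 := h
    refine ⟨?_, ?_, ?_⟩
    · show ChyPar.X p x.1 = ChyPar.X p x'.1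
      rw [h']
    · show ChyPar.B p x.1 + 0 * ChyPar.X p x.1 = ChyPar.B p x'.1 + 0 * ChyPar.X p x'.1
      rw [h']
    · show ChyPar.Y p x.1 + 0 * ChyPar.X p x.1 ^ 2 = ChyPar.Y p x'.1 + 0 * ChyPar.X p x'.1 ^ 2
      rw [h']
  dl0 := fun _ _ => Real.sqrt_nonneg _
  dl_mono := fun p hp k k' h => by
    have hp' : ChyPar.Ok p := hp
    show Real.sqrt (ChyPar.H p * 2 ^ k) ≤ Real.sqrt (ChyPar.H p * 2 ^ k')
    apply Real.sqrt_le_sqrt
    apply mul_le_mul_of_nonneg_left _ hp'.H_pos.le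
    exact pow_le_pow_right₀ (by norm_num) h
  ql_anti := fun p hp k k' h => by
    have hp' : ChyPar.Ok p := hp
    exact sf_cy_ok_ql (ChyPar.H p) hp'.H_pos.le k k' h
  gen := fun _ _ _ _ => rfl
  af := fun _ _ _ _ _ h => ⟨h.1, h.2.1.r_pos, h.2.1.f_pos, h.2.1.ek_lo, h.2.1.ek_hi⟩
  meas := fun p hp T => sf_cy_ok_measH p hp T
  clI := fun h => by cases h
  clD := fun h => by cases h
  clN := fun h => by cases h
  clRho := fun h => by cases h
  clAn := fun h => by cases h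
  clTz := fun h => by cases h

/-- **(LEAF CY-OK)** the two instances.   PLAN: `rcases hY with ⟨η, rfl⟩ | ⟨η, rfl⟩`; every field by unfolding `sfCl` / `sfHy`, `cylCl` / `cylHyb`, `CclPar.sys` / `ChyPar.sys`, `CclPar.co` / `ChyPar.co` (most are `Iff.rfl`, `rfl`, `by simp`, `ring`).
`ok` classical: `0 ≤ f` from `0 < f`.   `dl_mono`, `ql_anti` hybrid: `hy_lc_dl_mono`, `hy_lc_ql` of `Hyb/Loc.lean` may be COPIED (do not import): `√(H 2^k)` increases, `2⁻¹^k √(H 2^k) = √(H / 2^k)` decreases.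
`af`: the fields `r_pos f_pos ek_lo ek_hi` of `CySet`.   `meas`: `CclPar.Ok` / `ChyPar.Ok` + `measurable_fst`, `measurable_snd`.
The `cl*` fields are vacuous for `sfHy` (`true = false`).   Classical: `An = id`, `adjoint id = id` (`ContinuousLinearMap.adjoint_id`), `tz T k b M v = mulR k M v`, `gn_mulR_coe`. -/
theorem sf_cy_ok (Y : SfCy) (hY : (∃ η, Y = sfCl η) ∨ ∃ η, Y = sfHy η) : SfCyOk Y := by
  rcases hY with ⟨η, rfl⟩ | ⟨η, rfl⟩
  · exact sf_cy_ok_cl η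
  · exact sf_cy_ok_hy η

end Claimed.Agent.R256
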