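import Claimed.Agent.R256.Soft.MDocGlue

/-!
# Row 256 (S0496), unit SOFT, M3 EX/DOC, file 3: EX, INPUT SIDE; SCALES      (architect helper39; block BP-256-SOFT-DOC; prefix `sf_doc_`)

* `sf_doc_ex_input`   homogeneous extremisers with common widths (`CyExtr`) + `Rate Γ` + CNT (`gn_cnt`) ⟹ the hypotheses of `SfDocMat`, in one package, for every tail order, at arbitrarily small scales.
* `sf_doc_num_A`, `sf_doc_num_n`, `sf_doc_num_ex`    small scale ⟹ large tail order, large `n`.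
SORRY FREE.
-/

set_option autoImplicit false

namespace Claimed.Agent.R256

open MeasureTheory Claimed.Agent.R255

/-- **EX, input side** -/
theorem sf_doc_ex_input {Y : SfCy} (H : CyHyp Y) (hX : CyExtr Y) (τ : ℝ) (hτ : 0 < τ) :
    ∃ C : ℕ, ∀ A n0 : ℕ, ∃ (p : Y.M.Par) (E : Xp (Y.M.sys p)) (Q0 : CyT) (r1 f1 : ℝ), n0 ≤ E.n ∧ Y.M.Cls C A p E ∧ Y.af C A p E Q0 ∧
      (∀ l, (Y.tq p (E.ts l)).r = r1 ∧ (Y.tq p (E.ts l)).f = f1) ∧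
      E.tw ≤ E.e / E.ka * E.s ^ (-(Y.M.p0 + Y.M.d0) - τ) ∧ 2 ^ ((Y.M.Gam - τ) * E.n) ≤ E.val := by
  obtain ⟨C, hC⟩ := hX (τ / 4) (τ / 2) (by positivity) (by positivity)
  obtain ⟨Ar, nr, hR⟩ := gn_rate_gam Y.M _ H.gen C (τ / 2) (by positivity)
  refine ⟨C, fun A n0 => ?_⟩
  obtain ⟨p, E, r1, f1, h1, h2, h3, h4, h5⟩ := hC (max A Ar) (max n0 nr)
  have hA : Y.M.Cls C A p E := gn_cls_anti Y.M H.gen.scale (le_max_left _ _) h2
  have hAr : Y.M.Cls C Ar p E := gn_cls_anti Y.M H.gen.scale (le_max_right _ _) h2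
  obtain ⟨Q0, hQ0⟩ := (H.af_iff C A p E hA.1).1 hA.2.2.2.2
  have hhi := hR p E ((le_max_right _ _).trans h1) hAr
  obtain ⟨-, -, c3⟩ := gn_cnt E hA.2.1 Y.M.Gam Y.M.p0 (τ / 4) (τ / 2) (by positivity) (by positivity) h3 h4 hhi
  refine ⟨p, E, Q0, r1, f1, (le_max_left _ _).trans h1, hA, hQ0, h5, ?_, ?_⟩
  · have e : -(Y.M.p0 + (Y.M.Gam + (Y.M.p0 - 1) / 2)) - (τ / 2 + 2 * (τ / 4)) = -(Y.M.p0 + Y.M.d0) - τ := by
      unfold Mdl.d0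
      ring
    rw [e] at c3
    exact c3
  · refine le_trans (gn_two_mono (mul_le_mul_of_nonneg_right ?_ (Nat.cast_nonneg _))) h4
    linarith

theorem sf_doc_num_A {A A' : ℕ} {σ : ℝ} (h1 : 1 / ((A' : ℝ) + 1) < σ) (h2 : σ ≤ 1 / ((A : ℝ) + 1)) : A ≤ A' := by
  have h3 := lt_of_lt_of_le h1 h2
  have hA : (0 : ℝ) < (A : ℝ) + 1 := by positivity
  have hA' : (0 : ℝ) < (A' : ℝ) + 1 := by positivity
  rw [div_lt_div_iff₀ hA' hA] at h3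
  have h4 : (A : ℝ) < A' := by linarith
  exact_mod_cast h4.le

theorem sf_doc_num_n {n N : ℕ} {σ : ℝ} (h1 : (2 : ℝ)⁻¹ ^ n < σ) (h2 : σ ≤ (2 : ℝ)⁻¹ ^ N) : N ≤ n := by
  have h3 := lt_of_lt_of_le h1 h2
  by_contra hcon
  push Not at hcon
  have h4 : (2 : ℝ)⁻¹ ^ N ≤ (2 : ℝ)⁻¹ ^ n := pow_le_pow_of_le_one (by norm_num) (by norm_num) hcon.le
  linarith

/-- a tail order and a scale below a given threshold -/
theorem sf_doc_num_ex (σ : ℝ) (hσ : 0 < σ) : ∃ A N : ℕ, (∀ A' : ℕ, A ≤ A' → 1 / ((A' : ℝ) + 1) < σ) ∧ ∀ n : ℕ, N ≤ n → (2 : ℝ)⁻¹ ^ n < σ := by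
  obtain ⟨A, hA⟩ := exists_nat_one_div_lt hσ
  obtain ⟨N, hN⟩ := exists_pow_lt_of_lt_one hσ (show (2 : ℝ)⁻¹ < 1 by norm_num)
  refine ⟨A, N, fun A' h => lt_of_le_of_lt ?_ hA, fun n h => lt_of_le_of_lt (pow_le_pow_of_le_one (by norm_num) (by norm_num) h) hN⟩
  have h1 : (A : ℝ) ≤ A' := by exact_mod_cast h
  exact one_div_le_one_div_of_le (by positivity) (by linarith)

end Claimed.Agent.R256
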