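import Claimed.Agent.R256.Soft.MCoreGeo
import Claimed.Agent.R256.Soft.MDocIn

/-!
# Row 256 (S0496), unit SOFT, M1 DISC, file 12: BASE ERRORS ALONG CHAINS ARE `≤ s^N`      (architect helper39; block BP-256-SOFT-DOC; prefix `sf_doc_`)

* `sf_doc_card`   a documented experiment has at most `st.length + 1` gates (`Str.k_mono`, `Str.k_one`).
* `sf_doc_fin`    **FIN** (explicit form of the field `fin` of `SfCls.Cal`): for every `N` and every package `S` there is a scale `σ`: `ob S`, `sc < σ`, `0 ≤ μ`, `1/(μ+1) < σ`  ⟹  along every chain the base rays differ by `≤ s^N`.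
SORRY FREE.
-/

set_option autoImplicit false

namespace Claimed.Agent.R256

open MeasureTheory Claimed.Agent.R255

theorem sf_doc_card {P : PkSys} {W : SfMD P} {tq : P.Tst → CyT} (h : W.Str tq) : W.G.card ≤ W.E.st.length + 1 := by
  have h1 : W.G.card ≤ (Finset.range (W.E.st.length + 1)).card := by
    refine Finset.card_le_card_of_injOn W.pos ?_ ?_
    · intro i hi
      have hi' : i ∈ W.G := hi
      rw [Finset.coe_range, Set.mem_Iio]
      rcases (h.gate.2 i hi').2.lt_or_eq with h1 | h1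
      · have := (h.k_mono i hi' 1 h.gate.1 h1).2
        rw [h.k_one.2.1] at this
        omega
      · rw [h1, h.k_one.2.1]
        omega
    · intro i hi j hj hij
      have hi' : i ∈ W.G := hi
      have hj' : j ∈ W.G := hj
      rcases lt_trichotomy i j with h1 | h1 | h1
      · have := (h.k_mono i hi' j hj' h1).2
        omega
      · exact h1
      · have := (h.k_mono j hj' i hi' h1).2
        omega
  simpa using h1

/-- **FIN** -/
theorem sf_doc_fin (Y : SfCy) (hY : (∃ η, Y = sfCl η) ∨ ∃ η, Y = sfHy η) (de N : ℝ) (S : ℕ) :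
    ∃ σ : ℝ, 0 < σ ∧ ∀ c : SfCfg Y de, c.ob S → c.sc < σ → 0 ≤ c.μ → 1 / (c.μ + 1) < σ →
      ∀ i ∈ c.D.G, ∀ j ∈ c.D.G, i < j → ∀ ρ ρ', c.D.Conn i j ρ ρ' → (c.D.ray i ρ).bdist (c.D.ray j ρ') ≤ c.D.s ^ N := by
  have hO := sf_cy_ok Y hY
  obtain ⟨n0, hn0⟩ := gn_absorb (2 * ((S : ℝ) + 1)) 1 one_pos
  refine ⟨min (1 / (max N 0 + 2)) ((2 : ℝ)⁻¹ ^ n0), lt_min (by positivity) (by positivity), fun c hob hsc hμ0 hμ => ?_⟩
  have hstr := hob.2.2.1
  have hs0 : 0 < c.D.s := by rw [c.sh.hs]; exact gn_s_pos _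
  have hsE : c.D.s = (2 : ℝ)⁻¹ ^ c.W.E.n := c.sh.hs
  have hs1 : c.D.s < min (1 / (max N 0 + 2)) ((2 : ℝ)⁻¹ ^ n0) := lt_of_le_of_lt (le_max_left _ _) hsc
  have hn : n0 ≤ c.W.E.n := sf_doc_num_n (by rw [← hsE]; exact hs1) (min_le_right _ _)
  have hμN : N + 1 ≤ c.μ := by
    have h3 := lt_of_lt_of_le hμ (min_le_left _ _)
    have hA : (0 : ℝ) < max N 0 + 2 := by positivity
    have hA' : (0 : ℝ) < c.μ + 1 := by linarith
    rw [div_lt_div_iff₀ hA' hA] at h3
    have := le_max_left N 0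
    linarith
  set e : ℝ := c.D.s ^ c.μ with he
  have he0 : 0 ≤ e := Real.rpow_nonneg hs0.le _
  have hlink : ∀ u v, c.Lk u v → (c.D.ray u.1 u.2).bdist (c.D.ray v.1 v.2) ≤ 2 * e := by
    intro u v hl
    obtain ⟨-, -, -, z, z', d1, d2, hX, hB, hY, -, -⟩ := sf_core_link hO c S hob u v hl
    have t1 := sf_core_base_tri (c.D.ray u.1 u.2) z (c.D.ray v.1 v.2)
    have t2 := sf_core_base_tri z z' (c.D.ray v.1 v.2)
    have t3 := sf_core_base_zero z z' hX hB hY
    have t4 := (sf_core_base_bd z (c.D.ray u.1 u.2)).trans d1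
    have t5 := (sf_core_base_bd z' (c.D.ray v.1 v.2)).trans d2
    rw [sf_core_base_symm] at t4
    linarith
  have key := sf_core_chain_ind c
    (fun n u v => (c.D.ray u.1 u.2).bdist (c.D.ray v.1 v.2) ≤ n * (2 * e))
    (by
      intro u v hl
      simpa using hlink u v hl)
    (by
      intro n u v w a4 _ hl
      have b4 := hlink v w hl
      have := sf_core_base_tri (c.D.ray u.1 u.2) (c.D.ray v.1 v.2) (c.D.ray w.1 w.2)
      push_cast
      linarith)
    (by
      intro n n' u v hnn a4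
      refine a4.trans ?_
      exact mul_le_mul_of_nonneg_right (by exact_mod_cast hnn) (by positivity))
  intro i hi j hj hij ρ ρ' hc
  rw [c.sh.hG] at hi hj
  have k4 := key ⟨i, ρ⟩ ⟨j, ρ'⟩ ((sf_core_conn c i hi j hj ρ ρ').1 hc)
  refine k4.trans ?_
  have hcard : (c.W.G.card : ℝ) ≤ (S : ℝ) + 1 := by
    have := (sf_doc_card hstr).trans (Nat.add_le_add_right hob.1 1)
    exact_mod_cast this
  have h2n : 2 * ((S : ℝ) + 1) ≤ c.D.s ^ (-1 : ℝ) := by
    rw [c.sh.hs, gn_s_rpow]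
    have := hn0 c.W.E.n hn
    simpa using this
  calc (c.W.G.card : ℝ) * (2 * e) ≤ ((S : ℝ) + 1) * (2 * e) := mul_le_mul_of_nonneg_right hcard (by positivity)
    _ = 2 * ((S : ℝ) + 1) * e := by ring
    _ ≤ c.D.s ^ (-1 : ℝ) * e := mul_le_mul_of_nonneg_right h2n he0
    _ = c.D.s ^ (-1 + c.μ) := by rw [he, ← Real.rpow_add hs0]
    _ ≤ c.D.s ^ N := by
        rw [c.sh.hs]
        exact gn_s_anti _ (by linarith)

end Claimed.Agent.R256
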