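import Claimed.Agent.R256.Soft.MDocIn
import Claimed.Agent.R256.Soft.Cal

/-!
# Row 256 (S0496), unit SOFT, M3 EX/DOC, file 4: ASSEMBLY      (architect helper39; block BP-256-SOFT-DOC; prefix `sf_doc_`)

`SfDocHyp Y π Ls` = what EX/DOC use: the bundle `CyHyp`, the exponents, `CyExtr`, `SfDocMat` (matched chain with the frame as input and polynomial labels), `SfDocCore` (= the statement of `sf_core`).
* `sf_doc_make`   a documented experiment with `Ext` at a package free accuracy, polynomial labels, large tail order, small scale ⟹ a configuration with `ob` and `Gd`.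
* `sf_doc_ex`     **EX**        * `sf_doc_dc`     **DOC**
SORRY FREE.
-/

set_option autoImplicit false

namespace Claimed.Agent.R256

open MeasureTheory Claimed.Agent.R255

/-- the form of `sf_core` used by EX/DOC (= the statement of `sf_core`, `Soft/MCore.lean`) -/
def SfDocCore (Y : SfCy) (π : SfPar) (Ls : ℝ) : Prop :=
  ∀ t h : ℝ, 0 < t → 0 < h → ∃ a : ℝ, 0 < a ∧ ∀ C : ℕ, ∃ A n0 : ℕ, ∀ c : SfCfg Y π.d, (sfCls Y π Ls).ob C c → A ≤ c.A → n0 ≤ c.W.E.n →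
    (sfCls Y π Ls).md c a → c.D.Gap h → c.D.Good π Ls C t

/-- what EX/DOC use -/
structure SfDocHyp (Y : SfCy) (π : SfPar) (Ls : ℝ) : Prop where
  hyp : Nonempty (CyHyp Y)
  p0 : π.p = Y.M.p0
  d0 : π.d = Y.M.d0
  gam : π.Γ = Y.M.Gam
  ext : CyExtr Y
  mat : SfDocMat Y Ls
  core : SfDocCore Y π Ls

/-- polynomial labels -/
def SfMD.Bd {Y : SfCy} {p : Y.M.Par} (W : SfMD (Y.M.sys p)) (C : ℕ) : Prop :=
  ∀ i ∈ W.G, ∀ l, CyBdd (W.E.s ^ (C : ℝ)) (cyNrm (tmL W.E.k0 W.E.i0) W.E.k0 W.Q0 (W.T i l) (Y.tq p (W.ts i l)))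

theorem sf_doc_top_eqns_cite : True := by
  have := @SfDocCore.eq_1
  have := @SfMD.Bd.eq_1
  trivial

theorem sf_doc_ext_cast {Y : SfCy} {p : Y.M.Par} {W : SfMD (Y.M.sys p)} {pe de pe' de' Ls ε a : ℝ} (h : W.Ext Y p pe de Ls ε a)
    (h1 : pe' = pe) (h2 : de' = de) : W.Ext Y p pe' de' Ls ε a := by
  subst h1 h2
  exact h

theorem sf_doc_num_mu {σ μ : ℝ} (hσ : 0 < σ) (h : 1 / σ ≤ μ) : 1 / (μ + 1) < σ := by
  have h0 : 0 < 1 / σ := by positivity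
  rw [div_lt_iff₀ (by linarith)]
  rw [div_le_iff₀ hσ] at h
  nlinarith

section

variable (Y : SfCy) (hY : (∃ η, Y = sfCl η) ∨ ∃ η, Y = sfHy η) (π : SfPar) (Ls : ℝ) (hH : SfDocHyp Y π Ls)

include hY hH

/-- **MAKE** -/
theorem sf_doc_make (t h ε0 : ℝ) (ht : 0 < t) (hh : 0 < h) (hε0 : 0 < ε0) :
    ∃ a : ℝ, 0 < a ∧ ∀ C : ℕ, ∃ S' A0 n0 : ℕ, ∀ μ1 : ℝ, ∀ (p : Y.M.Par) (W : SfMD (Y.M.sys p)) (A : ℕ), A0 ≤ A → n0 ≤ W.E.n →
      W.Ext Y p π.p π.d Ls ε0 a → Y.M.Cls C A p W.E → Y.af C A p W.E W.Q0 → W.Bd C → CyGap W.G h →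
      ∃ (ε μ : ℝ) (D : SfDoc) (sh : SfSh Y p W π.d ε μ D), μ1 ≤ μ ∧ (sfCls Y π Ls).ob S' ⟨p, W, A, ε, μ, D, sh⟩ ∧
        (sfCls Y π Ls).Gd π Ls S' t ⟨p, W, A, ε, μ, D, sh⟩ := by
  obtain ⟨H⟩ := hH.hyp
  obtain ⟨ac, hac, Hc⟩ := hH.core t h ht hh
  have hε : 0 < min ε0 (min ac t) := lt_min hε0 (lt_min hac ht)
  refine ⟨min ac t, lt_min hac ht, fun C => ?_⟩
  obtain ⟨A0, n0, Hc'⟩ := Hc (max (3 * C + 5) (Nat.ceil (1 / min ε0 (min ac t))))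
  refine ⟨max (3 * C + 5) (Nat.ceil (1 / min ε0 (min ac t))), A0, max n0 1, fun μ1 p W A hA hn hx hcls haf hbd hgap => ?_⟩
  set S' := max (3 * C + 5) (Nat.ceil (1 / min ε0 (min ac t))) with hS'
  set ε := min ε0 (min ac t) with hεdef
  have hCS : C ≤ S' := le_trans (by omega) (le_max_left _ _)
  have hS := hx.str
  have hT := H.gen.tight
  have hx1 : W.Ext Y p π.p π.d Ls ε (min ac t) := sf_doc_ext_eps H hx (min_le_left _ _)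
  obtain ⟨D, ⟨sh⟩⟩ := sf_doc_disc' Y hY p hcls.1 W hS (sf_doc_tot_pos hx) π.d ε (max μ1 (max (1 / ac) (1 / t)))
  refine ⟨ε, max μ1 (max (1 / ac) (1 / t)), D, sh, le_max_left _ _, ?_⟩
  have hob0 : (⟨p, W, A, ε, max μ1 (max (1 / ac) (1 / t)), D, sh⟩ : SfCfg Y π.d).ob S' := by
    refine ⟨hcls.2.2.1.trans hCS, sf_doc_af_mono H haf hCS le_rfl, hS,
      ⟨hcls.2.2.2.1.1.trans hCS, hcls.2.2.2.1.2.1.trans hCS, fun σ hσ => (hcls.2.2.2.1.2.2 σ hσ).trans hCS⟩, fun i hi ρ => ?_⟩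
    obtain ⟨k1, k2⟩ := sf_doc_pkg Y (sf_doc_geo Y hY) p W hS sh C ((le_max_right _ _).trans hn) hbd i hi ρ
    have hmono : D.s ^ (-((3 * C + 5 : ℕ) : ℝ)) ≤ D.s ^ (-(S' : ℝ)) := by
      rw [sh.hs]
      refine gn_s_anti W.E (neg_le_neg ?_)
      exact_mod_cast le_max_left _ _
    exact ⟨k1.trans hmono, k2.trans hmono⟩
  have hSε : 1 / ((S' : ℝ) + 1) ≤ ε := by
    have h1 : 1 / ε ≤ (S' : ℝ) := (Nat.le_ceil _).trans (by exact_mod_cast le_max_right _ _)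
    rw [div_le_iff₀ (by positivity)]
    rw [div_le_iff₀ hε] at h1
    nlinarith
  have hob : (sfCls Y π Ls).ob S' ⟨p, W, A, ε, max μ1 (max (1 / ac) (1 / t)), D, sh⟩ := ⟨hob0, hSε⟩
  refine ⟨hob, ?_, ?_⟩
  · refine Hc' _ hob hA ((le_max_left _ _).trans hn) ⟨cy_tp_ext_mono hT hcls.1 hx1 (min_le_left _ _), hε,
      (min_le_right _ _).trans (min_le_left _ _), (le_max_left _ _).trans (le_max_right _ _)⟩ ?_
    have hG : D.G = W.G := sh.hG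
    refine ⟨fun i hi j hj hij => ?_, fun i hi => ?_⟩
    · rw [hG] at hi hj
      exact hgap.1 i hi j hj hij
    · rw [hG] at hi
      exact hgap.2 i hi
  · exact ⟨cy_tp_ext_mono hT hcls.1 hx1 (min_le_right _ _), hε, (min_le_right _ _).trans (min_le_right _ _),
      (le_max_right _ _).trans (le_max_right _ _)⟩

/-- **EX** -/
theorem sf_doc_ex : (sfCls Y π Ls).CalEx π Ls := by
  intro t ht
  obtain ⟨H⟩ := hH.hyp
  obtain ⟨h, hh, hgap⟩ := cy_tp_gap (insert 1 ∅) (by simp)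
  obtain ⟨ε0, hε0, Hm⟩ := hH.mat ∅ (by simp)
  obtain ⟨a, ha, Hk⟩ := sf_doc_make Y hY π Ls hH t h ε0 ht hh hε0
  obtain ⟨τ, hτ, Hm'⟩ := Hm a ha
  obtain ⟨Ce, He⟩ := sf_doc_ex_input H hH.ext τ hτ
  obtain ⟨C', Hm''⟩ := Hm' Ce
  obtain ⟨S', A0, n0, Hk'⟩ := Hk C'
  refine ⟨S', S', fun s0 hs0 => ?_⟩
  obtain ⟨A1, N1, hA1, hN1⟩ := sf_doc_num_ex s0 hs0
  obtain ⟨A, n1, Hm3⟩ := Hm'' (max A0 A1)
  obtain ⟨p, E, Q0, r1, f1, e1, e2, e3, e4, e5, e6⟩ := He A (max n1 (max n0 N1))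
  obtain ⟨W, w1, -, w3, w4, -, w6, -, -, w9, w10⟩ := Hm3 p E Q0 r1 f1 ((le_max_left _ _).trans e1) e2 e3 e4 e5 e6
  obtain ⟨ε, μ, D, sh, hμ, o1, o2⟩ := Hk' (1 / s0) p W (max A0 A1) (le_max_left _ _)
    (by rw [w6]; exact ((le_max_left _ _).trans (le_max_right _ _)).trans e1) (sf_doc_ext_cast w9 hH.p0 hH.d0) w3 w4 w10 (by rw [w1]; exact hgap)
  refine ⟨⟨p, W, max A0 A1, ε, μ, D, sh⟩, o1, ?_, o2⟩
  show max D.s (max (1 / (((max A0 A1 : ℕ) : ℝ) + 1)) (1 / (μ + 1))) < s0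
  refine max_lt ?_ (max_lt (hA1 _ (le_max_right _ _)) (sf_doc_num_mu hs0 hμ))
  rw [sh.hs]
  refine hN1 _ ?_
  rw [w6]
  exact ((le_max_right _ _).trans (le_max_right _ _)).trans e1

/-- **DOC** (only the model-level accuracy of the old configuration is used) -/
theorem sf_doc_dc : (sfCls Y π Ls).CalDc π Ls := by
  intro F hF t ht
  obtain ⟨H⟩ := hH.hyp
  have hG0 : ∀ i ∈ insert (1 : ℝ) F, 0 ≤ i := by
    intro i hi
    rcases Finset.mem_insert.1 hi with rfl | hi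
    · exact zero_le_one
    · exact (hF i hi).1
  obtain ⟨h, hh, hgap⟩ := cy_tp_gap (insert 1 F) hG0
  obtain ⟨ε0, hε0, Hm⟩ := hH.mat F hF
  obtain ⟨am, ham, Hk⟩ := sf_doc_make Y hY π Ls hH t h ε0 ht hh hε0
  obtain ⟨τ, hτ, Hm'⟩ := Hm am ham
  have hΓ : π.Γ = π.d + (1 - π.p) / 2 := by
    rw [hH.gam, hH.d0, hH.p0]
    unfold Mdl.d0
    ring
  refine ⟨τ / 3, by positivity, fun _ S => ?_⟩
  obtain ⟨C', Hm''⟩ := Hm' S
  obtain ⟨S', A0, n0, Hk'⟩ := Hk C'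
  refine ⟨S', S', fun σ' hσ' => ?_⟩
  obtain ⟨A1, N1, hA1, hN1⟩ := sf_doc_num_ex σ' hσ'
  obtain ⟨A, n1, Hm3⟩ := Hm'' (max A0 A1)
  refine ⟨min σ' (min (1 / ((A : ℝ) + 1)) ((2 : ℝ)⁻¹ ^ (max n1 n0))), lt_min hσ' (lt_min (by positivity) (by positivity)), fun c hob' hsc hgd => ?_⟩
  have hob : c.ob S := hob'.1
  have hmd : (sfCls Y π Ls).md c (τ / 3) := hgd.2
  have hs1 : c.D.s < min σ' (min (1 / ((A : ℝ) + 1)) ((2 : ℝ)⁻¹ ^ (max n1 n0))) := lt_of_le_of_lt (le_max_left _ _) hsc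
  have hs2 : 1 / ((c.A : ℝ) + 1) < min σ' (min (1 / ((A : ℝ) + 1)) ((2 : ℝ)⁻¹ ^ (max n1 n0))) :=
    lt_of_le_of_lt ((le_max_left _ _).trans (le_max_right _ _)) hsc
  have hA : A ≤ c.A := sf_doc_num_A hs2 ((min_le_right _ _).trans (min_le_left _ _))
  have hsE : c.D.s = (2 : ℝ)⁻¹ ^ c.W.E.n := c.sh.hs
  have hn : max n1 n0 ≤ c.W.E.n := sf_doc_num_n (by rw [← hsE]; exact hs1) ((min_le_right _ _).trans (min_le_right _ _))
  have hx : c.W.Ext Y c.p π.p π.d Ls c.ε (τ / 3) := hmd.1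
  have hS := hx.str
  obtain ⟨k1, k2, k3, k4, k5⟩ := sf_doc_keep_hyp H c.sh hx (sf_doc_noorph' Y hY c.p c.W hS) hΓ (by positivity) (by linarith : 3 * (τ / 3) ≤ τ)
    hob.1 hob.2.2.2.1 hob.2.1
  have ee : -(π.p + π.d) - τ = -(Y.M.p0 + Y.M.d0) - τ := by rw [hH.p0, hH.d0]
  rw [ee] at k4
  rw [hH.gam] at k5
  obtain ⟨W, w1, w2, w3, w4, w5, w6, w7, -, w9, w10⟩ := Hm3 c.p (sfDocE1 c.sh) c.W.Q0 c.W.Q0.r c.W.Q0.f ((le_max_left _ _).trans hn)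
    (gn_cls_anti Y.M H.gen.scale hA k1) (sf_doc_af_mono H k2 le_rfl hA) k3 k4 k5
  have hQ : W.Q0 = c.W.Q0 := w2
  have hnW : W.E.n = c.W.E.n := w6
  obtain ⟨ε, μ, D, sh, hμ, o1, o2⟩ := Hk' (1 / σ') c.p W (max A0 A1) (le_max_left _ _)
    (by rw [hnW]; exact (le_max_right _ _).trans hn) (sf_doc_ext_cast w9 hH.p0 hH.d0) w3 w4 w10 (by rw [w1]; exact hgap)
  have hsW : W.E.s = c.W.E.s := by unfold Xp.s; rw [hnW]
  refine ⟨⟨c.p, W, max A0 A1, ε, μ, D, sh⟩, o1, ?_, ?_, ?_, o2, ?_, ?_⟩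
  · show max D.s (max (1 / (((max A0 A1 : ℕ) : ℝ) + 1)) (1 / (μ + 1))) < σ'
    refine max_lt ?_ (max_lt (hA1 _ (le_max_right _ _)) (sf_doc_num_mu hσ' hμ))
    rw [sh.hs, hsW, ← c.sh.hs]
    exact lt_of_lt_of_le hs1 (min_le_left _ _)
  · show D.s = c.D.s
    rw [sh.hs, hsW, ← c.sh.hs]
  · show D.G = insert 1 F
    rw [sh.hG, w1]
  · show Y.H c.p * 2 ^ W.E.k0 / W.Q0.f ^ 2 = Y.H c.p * 2 ^ c.W.E.k0 / c.W.Q0.f ^ 2
    have hk0 : W.E.k0 = c.W.E.k0 := w5.1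
    rw [hQ, hk0]
  · intro ρ'
    obtain ⟨ρ, hρ⟩ := sf_doc_lab_old c.sh hS w9.str w5 w6 hQ w7 (sh.lb 1 ρ')
    refine ⟨ρ, ?_⟩
    show D.lab 1 ρ' = c.D.lab 1 ρ
    rw [← hρ]
    exact sh.hlab 1 w9.str.gate.1 ρ'

end

end Claimed.Agent.R256
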