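import Claimed.Agent.R256.Soft.MCore
import Claimed.Agent.R256.Soft.MDocTop
import Claimed.Agent.R256.Soft.MDocFin

/-!
# Row 256 (S0496), unit SOFT, M3 EX/DOC, file 5: LINK      (architect helper39; block BP-256-SOFT-DOC; prefix `sf_doc_`)

From `SfEntry` (+ `sf_core`): the fields `ex`, `dc`, `fin` of `SfCls.Cal` for the class of shadows.      SORRY FREE (modulo the imports).
-/

set_option autoImplicit false

namespace Claimed.Agent.R256

open MeasureTheory Claimed.Agent.R255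

section

variable (Y : SfCy) (hY : (∃ η, Y = sfCl η) ∨ ∃ η, Y = sfHy η) (π : SfPar) (Ls : ℝ) (hE : SfEntry Y π Ls)

include hY hE

theorem sf_doc_hyp : SfDocHyp Y π Ls :=
  ⟨hE.hyp, hE.exps.2.1, hE.exps.2.2, hE.exps.1, hE.extr, hE.dmat, fun t h ht hh => sf_core Y hY π Ls hE t h ht hh⟩

/-- **EX** -/
theorem sf_doc_cal_ex : (sfCls Y π Ls).CalEx π Ls := sf_doc_ex Y hY π Ls (sf_doc_hyp Y hY π Ls hE)

/-- **DOC** -/
theorem sf_doc_cal_dc : (sfCls Y π Ls).CalDc π Ls := sf_doc_dc Y hY π Ls (sf_doc_hyp Y hY π Ls hE)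

omit hE in
/-- **FIN** -/
theorem sf_doc_cal_fin : (sfCls Y π Ls).CalFin := by
  intro N S
  obtain ⟨σ, hσ, H⟩ := sf_doc_fin Y hY π.d N S
  refine ⟨σ, hσ, fun c hob hsc a hmd => H c hob.1 ?_ ?_ ?_⟩
  · exact max_lt (lt_of_le_of_lt (le_max_left _ _) hsc) (lt_of_le_of_lt ((le_max_left _ _).trans (le_max_right _ _)) hsc)
  · obtain ⟨-, h2, h3, h4⟩ := hmd
    have ha : 0 < a := lt_of_lt_of_le h2 h3
    have : 0 < 1 / a := by positivity
    linarith
  · exact lt_of_le_of_lt ((le_max_right _ _).trans (le_max_right _ _)) hsc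

end

end Claimed.Agent.R256
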