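import Claimed.Agent.R256.Soft.MGeNum

/-!
# Row 256 (S0496), unit SOFT, block M6 GE, sub-block SEL, file 6: PIGEONHOLE AND EXPONENTS      (architect helper169; prefix `sf_ga_`)

MATHLIB ONLY (+ `sf_ge_pick` of `Soft/MGeNum.lean`).   `s` = old scale, `s^ξ` = scale of the groups (`ξ = n'/n`, `|ξ - (j - i)| ≤ 2α`), `α` = absolute accuracy, `8α ≤ j - i`.
 `gaKa` regularity of the groups | `gaGt` bound for the sum of the group energies | `gaCk k` bound for the sum of the counts at the gate `k` | `gaMt` lower bound for the mass read by the marked rows | `gaLo` lower bound for the sum of the readouts |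
 `gaU` the constant of the upper estimate `R b ≤ U max (g b) θ` | `gaChi k` the relative count that is imposed.
METHOD for the four exponent lemmas: unfold, write both sides as `const * (e * √ka) * s^x` (`Real.sqrt_eq_rpow`, `Real.mul_rpow`, `← Real.rpow_mul`, `← Real.rpow_add hs`), absorb the constants by `s^(-α)`, compare the exponents with `Real.rpow_le_rpow_of_exponent_ge hs.1 hs.2.le`.
All statements were tested numerically (200000 random samples at the boundary of the hypotheses).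
-/

set_option autoImplicit false

namespace Claimed.Agent.R256

open Finset

noncomputable def gaKa (s ka α p i Cr : ℝ) : ℝ := Cr * (s ^ (-α) * ka * s ^ (p * i))

noncomputable def gaGt (s e α dd i : ℝ) : ℝ := s ^ (-α) * (s ^ (-α) * e * s ^ (-(dd * i)))

noncomputable def gaCk (s e ka α p dd k : ℝ) : ℝ := s ^ (-α) * (s ^ (-α) * (e / ka) * s ^ (-((p + dd) * k)))

noncomputable def gaMt (s e α dd j : ℝ) : ℝ := s ^ (2 * α) * (s ^ α * e * s ^ (-(dd * j)))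

noncomputable def gaLo (s e ka α p dd j : ℝ) : ℝ := (gaMt s e α dd j / 4) ^ (3 / 2 : ℝ) / Real.sqrt (gaCk s e ka α p dd j)

noncomputable def gaU (s ka α Γ p i ξ εR Cr : ℝ) : ℝ := s ^ ((1 / 2 - Γ - εR) * ξ) * Real.sqrt (gaKa s ka α p i Cr)

noncomputable def gaChi (s ka α p dd i j ξ a1 Cr Λ k : ℝ) : ℝ :=
  (s ^ ξ) ^ (-a1) * (s ^ ξ) ^ (-((p + dd) * ((k - i) / (j - i)))) / (4 * Λ * gaKa s ka α p i Cr)

theorem sf_ga_num_eqns_cite : True := by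
  have := @gaKa.eq_1
  have := @gaGt.eq_1
  have := @gaCk.eq_1
  have := @gaMt.eq_1
  have := @gaLo.eq_1
  have := @gaU.eq_1
  have := @gaChi.eq_1
  trivial

/-- **(LEAF L-256-GA-NLO)** closed forms.   PLAN: `gaMt / 4 = e * s^(3α - dd j) / 4`, `(x / 4)^(3/2) = x^(3/2) / 8` (`4^(3/2) = 8`: `(2^2)^(3/2)`), `gaCk = (e / ka) * s^(-2α - (p + dd) j)`, `√` as `^(1/2)`; `e^(3/2) / (e / ka)^(1/2) = e * √ka`. -/
theorem sf_ga_num_lo (s e ka α p dd j : ℝ) (hs : 0 < s) (he : 0 < e) (hka : 0 < ka) :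
    gaLo s e ka α p dd j = 1 / 8 * (e * Real.sqrt ka) * s ^ (11 / 2 * α + (p / 2 - dd) * j) := by
  obtain ⟨a, rfl⟩ : ∃ a, s = Real.exp a := ⟨Real.log s, (Real.exp_log hs).symm⟩
  obtain ⟨b, rfl⟩ : ∃ b, e = Real.exp b := ⟨Real.log e, (Real.exp_log he).symm⟩
  obtain ⟨c, rfl⟩ : ∃ c, ka = Real.exp c := ⟨Real.log ka, (Real.exp_log hka).symm⟩
  have h8 : (4 : ℝ) ^ (3 / 2 : ℝ) = 8 := by
    rw [show (4 : ℝ) = 2 ^ (2 : ℝ) by norm_num, ← Real.rpow_mul (by norm_num)]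
    norm_num
  unfold gaLo gaMt gaCk
  rw [Real.div_rpow (by positivity) (by norm_num), h8, Real.sqrt_eq_rpow, Real.sqrt_eq_rpow]
  simp only [← Real.exp_mul, ← Real.exp_add, ← Real.exp_sub]
  rw [div_right_comm, ← Real.exp_sub, mul_assoc, ← Real.exp_add, div_eq_mul_one_div, mul_comm]
  congr 2
  ring

theorem sf_ga_num_val_sqrt (s ka α p i Cr : ℝ) (hs : 0 < s) (hCr : 0 ≤ Cr) (hka : 0 ≤ ka) :
    Real.sqrt (gaKa s ka α p i Cr) = Real.sqrt Cr * Real.sqrt ka * s ^ ((-α + p * i) / 2) := by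
  unfold gaKa
  have e1 : s ^ (-α) * ka * s ^ (p * i) = ka * s ^ (-α + p * i) := by
    rw [Real.rpow_add hs]; ring
  rw [e1, Real.sqrt_mul hCr, Real.sqrt_mul hka, Real.sqrt_eq_rpow (s ^ (-α + p * i)), ← Real.rpow_mul hs.le]
  rw [mul_assoc]
  congr 3
  ring

/-- **(LEAF L-256-GA-NVAL)** the selected group is near extremal.   PLAN: `sf_ga_num_lo`;  `gaGt * √gaKa = √Cr * (e * √ka) * s^(-(5/2) α - dd i + p i / 2)`;   RHS `= 1 / (16 √Cr) * s^(-ξ/2 + 8α + (p/2 - dd)(j - i))`;   `16 √Cr ≤ 16 Cr ≤ s^(-α)`;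
`p/2 - dd = 1/2 - Γ`;   exponents: `-(Γ - τ) ξ ≥ -ξ/2 + 9α + (1/2 - Γ)(j - i)` because `τ ξ ≥ 12 α` and `|(1/2 - Γ)(j - i - ξ)| ≤ (3/2) 2α` (`-1/2 ≤ 1/2 - Γ ≤ 3/2`). -/
theorem sf_ga_num_val (s e ka α Γ p dd i j ξ τ Cr : ℝ) (hs : 0 < s ∧ s < 1) (he : 0 < e) (hka : 0 < ka) (hα : 0 < α) (hΓ : Γ = dd + (1 - p) / 2) (hp : 1 ≤ p ∧ p < 3)
    (hd : 0 < dd ∧ dd ≤ 1) (hξ : |ξ - (j - i)| ≤ 2 * α) (hτ : 12 * α ≤ τ * ξ) (hCr : 1 ≤ Cr) (hc : 16 * Cr ≤ s ^ (-α)) :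
    s ^ (-((Γ - τ) * ξ)) ≤ s ^ (-(ξ / 2)) * (gaLo s e ka α p dd j / (2 * gaGt s e α dd i * Real.sqrt (gaKa s ka α p i Cr))) := by
  obtain ⟨hs0, hs1⟩ := hs
  have hsq := sf_ga_num_val_sqrt s ka α p i Cr hs0 (by linarith) hka.le
  have hA : 0 < e * Real.sqrt ka := mul_pos he (Real.sqrt_pos.2 hka)
  have hC0 : 0 < Real.sqrt Cr := Real.sqrt_pos.2 (by linarith)
  have hsC : Real.sqrt Cr ≤ Cr := Real.sqrt_le_iff.2 ⟨by linarith, by nlinarith⟩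
  have hD : 0 < 2 * gaGt s e α dd i * Real.sqrt (gaKa s ka α p i Cr) := by
    rw [hsq]
    unfold gaGt
    have := Real.sqrt_pos.2 hka
    positivity
  rw [sf_ga_num_lo s e ka α p dd j hs0 he hka, ← mul_div_assoc, le_div_iff₀ hD, hsq]
  unfold gaGt
  obtain ⟨x1, hx1⟩ : ∃ x1 : ℝ, x1 = -((Γ - τ) * ξ) + (-α) + (-α) + (-(dd * i)) + (-α + p * i) / 2 := ⟨_, rfl⟩
  obtain ⟨x2, hx2⟩ : ∃ x2 : ℝ, x2 = -(ξ / 2) + (11 / 2 * α + (p / 2 - dd) * j) := ⟨_, rfl⟩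
  have e1 : s ^ (-((Γ - τ) * ξ)) * (2 * (s ^ (-α) * (s ^ (-α) * e * s ^ (-(dd * i)))) * (Real.sqrt Cr * Real.sqrt ka * s ^ ((-α + p * i) / 2)))
      = 1 / 8 * ((e * Real.sqrt ka) * (16 * Real.sqrt Cr * s ^ x1)) := by
    rw [hx1, Real.rpow_add hs0, Real.rpow_add hs0, Real.rpow_add hs0, Real.rpow_add hs0]
    ring
  have e2 : s ^ (-(ξ / 2)) * (1 / 8 * (e * Real.sqrt ka) * s ^ (11 / 2 * α + (p / 2 - dd) * j)) = 1 / 8 * ((e * Real.sqrt ka) * s ^ x2) := by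
    rw [hx2, Real.rpow_add hs0 (-(ξ / 2)) (11 / 2 * α + (p / 2 - dd) * j)]
    ring
  rw [e1, e2]
  have hexp : x2 ≤ -α + x1 := by
    obtain ⟨y1, y2⟩ := abs_le.1 hξ
    rw [hx1, hx2, hΓ]
    nlinarith [mul_nonneg (show 0 ≤ p / 2 - dd + 1 / 2 by linarith [hp.1, hd.2]) (show 0 ≤ ξ - (j - i) + 2 * α by linarith),
      mul_nonneg (show 0 ≤ 3 / 2 - (p / 2 - dd) by linarith [hp.2, hd.1]) (show 0 ≤ 2 * α - (ξ - (j - i)) by linarith)]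
  have h3 : 16 * Real.sqrt Cr * s ^ x1 ≤ s ^ x2 := by
    calc 16 * Real.sqrt Cr * s ^ x1 ≤ s ^ (-α) * s ^ x1 := by
          apply mul_le_mul_of_nonneg_right _ (Real.rpow_pos_of_pos hs0 _).le
          linarith
      _ = s ^ (-α + x1) := (Real.rpow_add hs0 _ _).symm
      _ ≤ s ^ x2 := Real.rpow_le_rpow_of_exponent_ge hs0 hs1.le hexp
  exact mul_le_mul_of_nonneg_left (mul_le_mul_of_nonneg_left h3 hA.le) (by norm_num)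

/-- the exponent count of `sf_ga_num_k` -/
theorem sf_ga_num_k_exp (α Γ p dd i j ξ a1 εR k : ℝ) (_hα : 0 < α) (hΓ : Γ = dd + (1 - p) / 2) (hp : 1 ≤ p ∧ p < 3)
    (hd : 0 < dd ∧ dd ≤ 1) (hij : i < j) (hξ : |ξ - (j - i)| ≤ 2 * α) (hk : i ≤ k ∧ k ≤ j) (ha1 : 22 * α ≤ (a1 - εR) * ξ) :
    11 / 2 * α + (p / 2 - dd) * j ≤ -α + (-α + ((1 / 2 - Γ - εR) * ξ + (p * i - α) / 2 + -α + -α + -((p + dd) * k) + (p * i - α) + ξ * a1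
      + ξ * ((p + dd) * ((k - i) / (j - i))))) := by
  have hδ : 0 < j - i := by linarith
  obtain ⟨h1, h2⟩ := abs_le.1 hξ
  set θ := (k - i) / (j - i) with hθ
  have hθ0 : 0 ≤ θ := div_nonneg (by linarith) hδ.le
  have hθ1 : θ ≤ 1 := (div_le_one hδ).2 (by linarith)
  have hki : k - i = θ * (j - i) := by rw [hθ]; field_simp
  have hk' : k = i + θ * (j - i) := by linarith
  -- c (ξ - δ) ≥ -3 α
  have e1 : -(3 * α) ≤ (p / 2 - dd) * (ξ - (j - i)) := by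
    have hc : |p / 2 - dd| ≤ 3 / 2 := abs_le.2 ⟨by linarith [hp.1, hd.2], by linarith [hp.2, hd.1]⟩
    have := abs_mul (p / 2 - dd) (ξ - (j - i))
    have h3 : |(p / 2 - dd) * (ξ - (j - i))| ≤ 3 / 2 * (2 * α) := by
      rw [this]
      exact mul_le_mul hc hξ (abs_nonneg _) (by norm_num)
    linarith [(abs_le.1 h3).1]
  have e2 : -(8 * α) ≤ (p + dd) * θ * (ξ - (j - i)) := by
    have hc : |(p + dd) * θ| ≤ 4 := by
      rw [abs_of_nonneg (mul_nonneg (by linarith [hp.1, hd.1]) hθ0)]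
      calc (p + dd) * θ ≤ 4 * 1 := mul_le_mul (by linarith [hp.2, hd.2]) hθ1 hθ0 (by norm_num)
        _ = 4 := by norm_num
    have := abs_mul ((p + dd) * θ) (ξ - (j - i))
    have h3 : |(p + dd) * θ * (ξ - (j - i))| ≤ 4 * (2 * α) := by
      rw [this]
      exact mul_le_mul hc hξ (abs_nonneg _) (by norm_num)
    linarith [(abs_le.1 h3).1]
  rw [hΓ, hk']
  nlinarith [e1, e2, ha1]

/-- **(LEAF L-256-GA-NK)** the groups that violate a relative count are negligible.   PLAN: LHS `= 4 Λ Cr^(3/2) (e √ka) s^x`, `x = (1/2 - Γ - εR + a1) ξ + (p + dd)(k - i) ξ / (j - i) - (7/2) α - (p + dd) k + (3/2) p i`  (`(s^ξ)^y = s^(ξ y)`, `gaKa^(3/2)`);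
RHS `= 1 / (32 M) (e √ka) s^(11/2 α + (p/2 - dd) j)`;   `128 M Λ Cr^(3/2) ≤ s^(-2α)` (`Cr^(3/2) ≤ Cr²`);   exponents: `(1/2 - Γ)(ξ - (j - i)) ≥ -3α`, `(p + dd)(k - i)(ξ / (j - i) - 1) ≥ -8α` (`0 ≤ k - i ≤ j - i`, `p + dd ≤ 4`), `(a1 - εR) ξ ≥ 22 α`. -/
theorem sf_ga_num_k (s e ka α Γ p dd i j ξ a1 εR Cr Λ M k : ℝ) (hs : 0 < s ∧ s < 1) (he : 0 < e) (hka : 0 < ka) (hα : 0 < α) (hΓ : Γ = dd + (1 - p) / 2) (hp : 1 ≤ p ∧ p < 3)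
    (hd : 0 < dd ∧ dd ≤ 1) (hij : i < j) (hξ : |ξ - (j - i)| ≤ 2 * α) (hk : i ≤ k ∧ k ≤ j) (ha1 : 22 * α ≤ (a1 - εR) * ξ) (hCr : 1 ≤ Cr) (hΛ : 1 ≤ Λ ∧ Λ ≤ s ^ (-α)) (hM : 1 ≤ M)
    (hc : 128 * M * Cr ^ 2 ≤ s ^ (-α)) :
    gaU s ka α Γ p i ξ εR Cr * (gaCk s e ka α p dd k / gaChi s ka α p dd i j ξ a1 Cr Λ k) ≤ gaLo s e ka α p dd j / (4 * M) := by
  obtain ⟨hs0, hs1⟩ := hs
  have hexp := sf_ga_num_k_exp α Γ p dd i j ξ a1 εR k hα hΓ hp hd hij hξ hk ha1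
  rw [sf_ga_num_lo s e ka α p dd j hs0 he hka]
  unfold gaU gaCk gaChi
  have hCr0 : 0 < Cr := by linarith
  have hΛ0 : 0 < Λ := by linarith [hΛ.1]
  have hM0 : 0 < M := by linarith
  have hKa_eq : gaKa s ka α p i Cr = Cr * ka * s ^ (p * i - α) := by
    unfold gaKa
    rw [sub_eq_add_neg, Real.rpow_add hs0]
    ring
  have hsq : Real.sqrt (gaKa s ka α p i Cr) = Real.sqrt Cr * Real.sqrt ka * s ^ ((p * i - α) / 2) := by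
    rw [hKa_eq, Real.sqrt_mul (by positivity), Real.sqrt_mul hCr0.le, Real.sqrt_eq_rpow (s ^ (p * i - α)), ← Real.rpow_mul hs0.le]
    congr 2
    ring
  rw [hsq, hKa_eq, ← Real.rpow_mul hs0.le, ← Real.rpow_mul hs0.le]
  set y := (p + dd) * ((k - i) / (j - i)) with hy
  have h5 : s ^ (ξ * -a1) = (s ^ (ξ * a1))⁻¹ := by rw [mul_neg, Real.rpow_neg hs0.le]
  have h6 : s ^ (ξ * -y) = (s ^ (ξ * y))⁻¹ := by rw [mul_neg, Real.rpow_neg hs0.le]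
  rw [h5, h6]
  have hkk : ka = Real.sqrt ka * Real.sqrt ka := (Real.mul_self_sqrt hka.le).symm
  have hsk : 0 < Real.sqrt ka := Real.sqrt_pos.2 hka
  have hsC : 0 < Real.sqrt Cr := Real.sqrt_pos.2 hCr0
  have hsC1 : Real.sqrt Cr ≤ Cr := by
    have h1 : 1 ≤ Real.sqrt Cr := Real.one_le_sqrt.2 hCr
    calc Real.sqrt Cr = Real.sqrt Cr * 1 := (mul_one _).symm
      _ ≤ Real.sqrt Cr * Real.sqrt Cr := mul_le_mul_of_nonneg_left h1 hsC.le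
      _ = Cr := Real.mul_self_sqrt hCr0.le
  set x := (1 / 2 - Γ - εR) * ξ + (p * i - α) / 2 + -α + -α + -((p + dd) * k) + (p * i - α) + ξ * a1 + ξ * y with hx
  have hL : s ^ ((1 / 2 - Γ - εR) * ξ) * (Real.sqrt Cr * Real.sqrt ka * s ^ ((p * i - α) / 2)) *
      (s ^ (-α) * (s ^ (-α) * (e / ka) * s ^ (-((p + dd) * k))) / ((s ^ (ξ * a1))⁻¹ * (s ^ (ξ * y))⁻¹ / (4 * Λ * (Cr * ka * s ^ (p * i - α)))))
      = 4 * Λ * (Cr * Real.sqrt Cr) * (e * Real.sqrt ka) * s ^ x := by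
    rw [hx]
    simp only [Real.rpow_add hs0]
    have p1 := Real.rpow_pos_of_pos hs0 (ξ * a1)
    have p2 := Real.rpow_pos_of_pos hs0 (ξ * y)
    have p3 := Real.rpow_pos_of_pos hs0 (p * i - α)
    field_simp
  rw [hL]
  have hz : s ^ (-α + (-α + x)) ≤ s ^ (11 / 2 * α + (p / 2 - dd) * j) :=
    Real.rpow_le_rpow_of_exponent_ge hs0 hs1.le hexp
  rw [Real.rpow_add hs0, Real.rpow_add hs0] at hz
  have hsx : 0 < s ^ x := Real.rpow_pos_of_pos hs0 x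
  have hsa : 0 < s ^ (-α) := Real.rpow_pos_of_pos hs0 _
  have hE : 0 < e * Real.sqrt ka := mul_pos he hsk
  have hc1 : 128 * M * (Cr * Real.sqrt Cr) ≤ s ^ (-α) := by
    refine le_trans ?_ hc
    have : Cr * Real.sqrt Cr ≤ Cr ^ 2 := by
      rw [sq]
      exact mul_le_mul_of_nonneg_left hsC1 hCr0.le
    exact mul_le_mul_of_nonneg_left this (by positivity)
  have hmain : 128 * M * Λ * (Cr * Real.sqrt Cr) * s ^ x ≤ s ^ (11 / 2 * α + (p / 2 - dd) * j) := by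
    refine le_trans ?_ hz
    have : 128 * M * (Cr * Real.sqrt Cr) * Λ ≤ s ^ (-α) * s ^ (-α) := mul_le_mul hc1 hΛ.2 hΛ0.le hsa.le
    calc 128 * M * Λ * (Cr * Real.sqrt Cr) * s ^ x = 128 * M * (Cr * Real.sqrt Cr) * Λ * s ^ x := by ring
      _ ≤ s ^ (-α) * s ^ (-α) * s ^ x := mul_le_mul_of_nonneg_right this hsx.le
      _ = s ^ (-α) * (s ^ (-α) * s ^ x) := by ring
  rw [le_div_iff₀ (by positivity)]
  calc 4 * Λ * (Cr * Real.sqrt Cr) * (e * Real.sqrt ka) * s ^ x * (4 * M)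
      = 1 / 8 * (e * Real.sqrt ka) * (128 * M * Λ * (Cr * Real.sqrt Cr) * s ^ x) := by ring
    _ ≤ 1 / 8 * (e * Real.sqrt ka) * s ^ (11 / 2 * α + (p / 2 - dd) * j) := mul_le_mul_of_nonneg_left hmain (by positivity)

theorem sf_ga_aux_nb_sqrt {s : ℝ} (hs : 0 < s) (u : ℝ) : Real.sqrt (s ^ u) = s ^ (u / 2) := by
  rw [Real.sqrt_eq_rpow, ← Real.rpow_mul hs.le]
  congr 1
  ring

/-- **(LEAF L-256-GA-NB)** the tiny groups are negligible.   PLAN: `Bc ≤ gaCk j / w ≤ s^(-2α - (p + dd) j - Kw)`;   LHS `≤ √Cr (e √ka) s^x`, `x = (1/2 - Γ - εR) ξ - α/2 + p i / 2 - 2α - (p + dd) j - Kw + Cθ`;   RHS `= 1/32 (e √ka) s^(11/2 α + (p/2 - dd) j)`; `32 √Cr ≤ s^(-α)`;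
`0 ≤ ξ ≤ 5/4`, `1/2 - Γ - εR ≥ -3/2`, `(p + dd) j ≤ 4`, `(p/2 - dd) j ≤ 3/2`, `α ≤ 1/8`. -/
theorem sf_ga_num_b (s e ka α Γ p dd i j ξ εR Cr Kw Cθ w Bc : ℝ) (hs : 0 < s ∧ s < 1) (he : 0 < e) (hka : 0 < ka) (hα : 0 < α) (hαδ : 8 * α ≤ j - i) (hΓ : Γ = dd + (1 - p) / 2)
    (hp : 1 ≤ p ∧ p < 3) (hd : 0 < dd ∧ dd ≤ 1) (hi : 0 ≤ i) (hj : j ≤ 1) (hξ : |ξ - (j - i)| ≤ 2 * α) (hεR : 0 < εR ∧ εR ≤ 1) (hCr : 1 ≤ Cr) (hc : 32 * Cr ≤ s ^ (-α))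
    (hw : s ^ Kw * (e / ka) ≤ w) (hBc0 : 0 ≤ Bc) (hBc : Bc * w ≤ gaCk s e ka α p dd j) (hCθ : Kw + 10 ≤ Cθ) :
    gaU s ka α Γ p i ξ εR Cr * (Bc * (s ^ Cθ * e)) ≤ gaLo s e ka α p dd j / 4 := by
  have h0 := hs.1
  have pos : ∀ u : ℝ, 0 < s ^ u := fun u => Real.rpow_pos_of_pos h0 u
  have hr : 0 < e / ka := div_pos he hka
  have hsk : 0 < Real.sqrt ka := Real.sqrt_pos.2 hka
  -- the number of groups
  have b1 : Bc ≤ s ^ (-α + (-α + -((p + dd) * j)) - Kw) := by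
    have a1 : Bc * (s ^ Kw * (e / ka)) ≤ s ^ (-α) * (s ^ (-α) * (e / ka) * s ^ (-((p + dd) * j))) :=
      (mul_le_mul_of_nonneg_left hw hBc0).trans hBc
    have a2 : s ^ (-α) * (s ^ (-α) * (e / ka) * s ^ (-((p + dd) * j))) = s ^ (-α + (-α + -((p + dd) * j)) - Kw) * (s ^ Kw * (e / ka)) := by
      rw [Real.rpow_sub h0, Real.rpow_add h0, Real.rpow_add h0]
      have := (pos Kw).ne'
      field_simp
    rw [a2] at a1
    exact le_of_mul_le_mul_right a1 (mul_pos (pos _) hr)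
  -- the regularity
  have b2 : Real.sqrt (gaKa s ka α p i Cr) = Real.sqrt Cr * (Real.sqrt ka * s ^ ((-α + p * i) / 2)) := by
    unfold gaKa
    rw [Real.sqrt_mul (by linarith only [hCr]), show s ^ (-α) * ka * s ^ (p * i) = ka * s ^ (-α + p * i) by rw [Real.rpow_add h0]; ring,
      Real.sqrt_mul hka.le, sf_ga_aux_nb_sqrt h0]
  have b3 : Real.sqrt Cr ≤ s ^ (-α) / 32 := by
    have : Real.sqrt Cr ≤ Cr := by
      rw [Real.sqrt_le_left (by linarith only [hCr])]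
      nlinarith only [hCr]
    linarith only [this, hc]
  -- the exponents
  have hξ' := abs_le.1 hξ
  have x0 : 0 ≤ ξ := by linarith only [hξ'.1, hαδ, hα]
  have x1 : ξ ≤ 5 / 4 := by linarith only [hξ'.2, hαδ, hi, hj]
  have c0 : 0 ≤ (1 / 2 - Γ - εR + 3 / 2) * ξ := mul_nonneg (by rw [hΓ]; linarith only [hp.1, hd.2, hεR.2]) x0
  have c1 : 0 ≤ p * i := mul_nonneg (by linarith only [hp.1]) hi
  have hj0 : 0 ≤ j := by linarith only [hαδ, hα, hi]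
  have c2 : 0 ≤ (3 - p) * j := mul_nonneg (by linarith only [hp.2]) hj0
  have hx : 11 / 2 * α + (p / 2 - dd) * j ≤ -α + ((1 / 2 - Γ - εR) * ξ + ((-α + p * i) / 2 + ((-α + (-α + -((p + dd) * j)) - Kw) + Cθ))) := by
    nlinarith only [c0, c1, c2, x1, hαδ, hi, hj, hCθ, hα]
  rw [sf_ga_num_lo s e ka α p dd j h0 he hka]
  unfold gaU
  rw [b2]
  calc s ^ ((1 / 2 - Γ - εR) * ξ) * (Real.sqrt Cr * (Real.sqrt ka * s ^ ((-α + p * i) / 2))) * (Bc * (s ^ Cθ * e))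
      ≤ s ^ ((1 / 2 - Γ - εR) * ξ) * (s ^ (-α) / 32 * (Real.sqrt ka * s ^ ((-α + p * i) / 2))) * (s ^ (-α + (-α + -((p + dd) * j)) - Kw) * (s ^ Cθ * e)) := by
        refine mul_le_mul ?_ ?_ ?_ ?_
        · exact mul_le_mul_of_nonneg_left (mul_le_mul_of_nonneg_right b3 (mul_pos hsk (pos _)).le) (pos _).le
        · exact mul_le_mul_of_nonneg_right b1 (mul_pos (pos _) he).le
        · exact mul_nonneg hBc0 (mul_pos (pos _) he).le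
        · exact (mul_pos (pos _) (mul_pos (div_pos (pos _) (by norm_num)) (mul_pos hsk (pos _)))).le
    _ = 1 / 32 * (e * Real.sqrt ka) * s ^ (-α + ((1 / 2 - Γ - εR) * ξ + ((-α + p * i) / 2 + ((-α + (-α + -((p + dd) * j)) - Kw) + Cθ)))) := by
        rw [Real.rpow_add h0 (-α), Real.rpow_add h0 ((1 / 2 - Γ - εR) * ξ), Real.rpow_add h0 ((-α + p * i) / 2), Real.rpow_add h0 (-α + (-α + -((p + dd) * j)) - Kw)]
        ring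
    _ ≤ 1 / 32 * (e * Real.sqrt ka) * s ^ (11 / 2 * α + (p / 2 - dd) * j) :=
        mul_le_mul_of_nonneg_left (Real.rpow_le_rpow_of_exponent_ge h0 hs.2.le hx) (by positivity)
    _ = 1 / 8 * (e * Real.sqrt ka) * s ^ (11 / 2 * α + (p / 2 - dd) * j) / 4 := by ring

/-- **(LEAF L-256-GA-NERR)** the errors of the comparison are negligible.   PLAN: `Lt ≤ gaCk j / w ≤ s^(-2α - (p + dd) j - Kw)`;   LHS `≤ 2 Cp² e s^(2 Cb - 3α - dd i - (p + dd) j - Kw)`;   RHS `= e s^(3α - dd j) / 2`;   `4 Cp² ≤ s^(-α)`;   `dd i ≤ 1`, `(p + dd) j ≤ 4`, `dd j ≥ 0`, `7α ≤ 1`. -/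
theorem sf_ga_num_err (s e ka α p dd i j Kw Cb Cp w Lt : ℝ) (hs : 0 < s ∧ s < 1) (he : 0 < e) (hka : 0 < ka) (hα : 0 < α) (hα8 : α ≤ 1 / 8) (hp : 1 ≤ p ∧ p < 3) (hd : 0 < dd ∧ dd ≤ 1)
    (hi : 0 ≤ i ∧ i ≤ 1) (hj : 0 ≤ j ∧ j ≤ 1) (hCp : 0 ≤ Cp) (hc : 4 * Cp ^ 2 ≤ s ^ (-α)) (hw : s ^ Kw * (e / ka) ≤ w) (hLt0 : 0 ≤ Lt) (hLt : Lt * w ≤ gaCk s e ka α p dd j) (hCb : Kw + 6 ≤ 2 * Cb) :
    2 * ((Cp * s ^ Cb) ^ 2 * (s ^ (-α) * e * s ^ (-(dd * i)))) * Lt ≤ gaMt s e α dd j / 2 := by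
  obtain ⟨hs0, hs1⟩ := hs
  have hq : 0 < e / ka := div_pos he hka
  have hK : 0 < s ^ Kw := Real.rpow_pos_of_pos hs0 _
  have hLt' : Lt ≤ s ^ (-(2 * α) - (p + dd) * j - Kw) := by
    have h1 : Lt * (s ^ Kw * (e / ka)) ≤ s ^ (-α) * (s ^ (-α) * (e / ka) * s ^ (-((p + dd) * j))) :=
      (mul_le_mul_of_nonneg_left hw hLt0).trans hLt
    have e1 : s ^ (-α) * (s ^ (-α) * (e / ka) * s ^ (-((p + dd) * j))) = s ^ (-(2 * α) - (p + dd) * j - Kw) * (s ^ Kw * (e / ka)) := by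
      have e0 : s ^ (-(2 * α) - (p + dd) * j - Kw) * s ^ Kw = s ^ (-α) * s ^ (-α) * s ^ (-((p + dd) * j)) := by
        rw [← Real.rpow_add hs0, ← Real.rpow_add hs0, ← Real.rpow_add hs0]
        congr 1
        ring
      calc s ^ (-α) * (s ^ (-α) * (e / ka) * s ^ (-((p + dd) * j))) = (s ^ (-α) * s ^ (-α) * s ^ (-((p + dd) * j))) * (e / ka) := by ring
        _ = s ^ (-(2 * α) - (p + dd) * j - Kw) * (s ^ Kw * (e / ka)) := by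
          rw [← e0]
          ring
    rw [e1] at h1
    exact le_of_mul_le_mul_right h1 (mul_pos hK hq)
  have hX : 0 < s ^ (2 * Cb - α - dd * i) := Real.rpow_pos_of_pos hs0 _
  have hA : 0 < s ^ (-α) := Real.rpow_pos_of_pos hs0 _
  have e2 : 2 * ((Cp * s ^ Cb) ^ 2 * (s ^ (-α) * e * s ^ (-(dd * i)))) * Lt = (2 * Cp ^ 2) * (e * (s ^ (2 * Cb - α - dd * i) * Lt)) := by
    have e0 : s ^ (2 * Cb - α - dd * i) = (s ^ Cb) ^ 2 * s ^ (-α) * s ^ (-(dd * i)) := by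
      rw [pow_two, ← Real.rpow_add hs0, ← Real.rpow_add hs0, ← Real.rpow_add hs0]
      congr 1
      ring
    rw [e0]
    ring
  rw [e2]
  have h3 : s ^ (2 * Cb - α - dd * i) * Lt ≤ s ^ (2 * Cb - α - dd * i) * s ^ (-(2 * α) - (p + dd) * j - Kw) := mul_le_mul_of_nonneg_left hLt' hX.le
  rw [← Real.rpow_add hs0] at h3
  have h4 : 0 ≤ e * (s ^ (2 * Cb - α - dd * i) * Lt) := mul_nonneg he.le (mul_nonneg hX.le hLt0)
  have h5 : (2 * Cp ^ 2) * (e * (s ^ (2 * Cb - α - dd * i) * Lt)) ≤ (s ^ (-α) / 2) * (e * (s ^ (2 * Cb - α - dd * i) * Lt)) :=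
    mul_le_mul_of_nonneg_right (by linarith) h4
  have h6 : (s ^ (-α) / 2) * (e * (s ^ (2 * Cb - α - dd * i) * Lt)) ≤ (s ^ (-α) / 2) * (e * s ^ (2 * Cb - α - dd * i + (-(2 * α) - (p + dd) * j - Kw))) :=
    mul_le_mul_of_nonneg_left (mul_le_mul_of_nonneg_left h3 he.le) (by linarith)
  have h7 : (s ^ (-α) / 2) * (e * s ^ (2 * Cb - α - dd * i + (-(2 * α) - (p + dd) * j - Kw))) = e / 2 * s ^ (-α + (2 * Cb - α - dd * i + (-(2 * α) - (p + dd) * j - Kw))) := by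
    rw [Real.rpow_add hs0 (-α)]
    ring
  have h8 : gaMt s e α dd j / 2 = e / 2 * s ^ (3 * α - dd * j) := by
    unfold gaMt
    have e0 : s ^ (3 * α - dd * j) = s ^ (2 * α) * s ^ α * s ^ (-(dd * j)) := by
      rw [← Real.rpow_add hs0, ← Real.rpow_add hs0]
      congr 1
      ring
    rw [e0]
    ring
  have h9 : s ^ (-α + (2 * Cb - α - dd * i + (-(2 * α) - (p + dd) * j - Kw))) ≤ s ^ (3 * α - dd * j) := by
    apply Real.rpow_le_rpow_of_exponent_ge hs0 hs1.le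
    have a1 : dd * i ≤ 1 * 1 := mul_le_mul hd.2 hi.2 hi.1 (by norm_num)
    have a2 : p * j ≤ 3 * 1 := mul_le_mul hp.2.le hj.2 hj.1 (by norm_num)
    linarith
  rw [h8]
  have h10 := mul_le_mul_of_nonneg_left h9 (show 0 ≤ e / 2 by linarith)
  linarith

/-- **(LEAF L-256-GA-ALO)** Hölder over the groups.   PLAN: `Lt = ∑ b ∈ B, Lc b`: `Lt * w ≤ ∑ tw ≤ Ckj` (`Finset.sum_mul`), so `2 err Lt ≤ Mt / 2`;   `Mt ≤ ∑ sg ≤ 2 ∑ tm + 2 err Lt`: `Mt / 4 ≤ ∑ tm`.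
`∑ tm ≤ ∑ R^(2/3) tw^(1/3) ≤ (∑ R)^(2/3) (∑ tw)^(1/3)` (`Real.inner_le_Lp_mul_Lq B _ _ (p := 3/2) (q := 3)` with `f = R^(2/3)`, `g = tw^(1/3)`; `|f|^(3/2) = R`, `|g|^3 = tw`; cf. `sf_holder` in `Soft/MCoreSp.lean`) `≤ (∑ R)^(2/3) Ckj^(1/3)`.
Raise to the power `3/2` (`Real.rpow_le_rpow`, `Real.mul_rpow`, `← Real.rpow_mul`): `(Mt/4)^(3/2) ≤ (∑ R) √Ckj`; `div_le_iff₀`. -/
theorem sf_ga_abs_lo {ι : Type} (B : Finset ι) (R tm tw Lc sg : ι → ℝ) (Mt Ckj err w : ℝ) (hR : ∀ b ∈ B, 0 ≤ R b) (htw : ∀ b ∈ B, 0 ≤ tw b) (hL : ∀ b ∈ B, 0 ≤ Lc b)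
    (hMt : 0 < Mt) (hCk : 0 < Ckj) (h_sig : Mt ≤ ∑ b ∈ B, sg b) (h_cmp : ∀ b ∈ B, sg b ≤ 2 * tm b + 2 * err * Lc b)
    (h_hol : ∀ b ∈ B, tm b ≤ R b ^ (2 / 3 : ℝ) * tw b ^ (1 / 3 : ℝ)) (h_L : ∀ b ∈ B, Lc b * w ≤ tw b) (h_tw : ∑ b ∈ B, tw b ≤ Ckj)
    (h_err : ∀ Lt : ℝ, 0 ≤ Lt → Lt * w ≤ Ckj → 2 * err * Lt ≤ Mt / 2) :
    (Mt / 4) ^ (3 / 2 : ℝ) / Real.sqrt Ckj ≤ ∑ b ∈ B, R b := by
  have hLt0 : 0 ≤ ∑ b ∈ B, Lc b := Finset.sum_nonneg hL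
  have hLtw : (∑ b ∈ B, Lc b) * w ≤ Ckj := by
    rw [Finset.sum_mul]
    exact (Finset.sum_le_sum h_L).trans h_tw
  have he := h_err _ hLt0 hLtw
  have h1 : Mt ≤ 2 * ∑ b ∈ B, tm b + 2 * err * ∑ b ∈ B, Lc b := by
    calc Mt ≤ ∑ b ∈ B, sg b := h_sig
      _ ≤ ∑ b ∈ B, (2 * tm b + 2 * err * Lc b) := Finset.sum_le_sum h_cmp
      _ = _ := by rw [Finset.sum_add_distrib, Finset.mul_sum, Finset.mul_sum]
  have h2 : Mt / 4 ≤ ∑ b ∈ B, tm b := by linarith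
  have hSR : 0 ≤ ∑ b ∈ B, R b := Finset.sum_nonneg hR
  have hST : 0 ≤ ∑ b ∈ B, tw b := Finset.sum_nonneg htw
  have hpq : (3 / 2 : ℝ).HolderConjugate 3 := by
    rw [Real.holderConjugate_iff]
    constructor <;> norm_num
  have h3 : ∑ b ∈ B, R b ^ (2 / 3 : ℝ) * tw b ^ (1 / 3 : ℝ) ≤ (∑ b ∈ B, R b) ^ (2 / 3 : ℝ) * (∑ b ∈ B, tw b) ^ (1 / 3 : ℝ) := by
    have h := Real.inner_le_Lp_mul_Lq_of_nonneg B hpq (f := fun b => R b ^ (2 / 3 : ℝ)) (g := fun b => tw b ^ (1 / 3 : ℝ))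
      (fun b hb => Real.rpow_nonneg (hR b hb) _) (fun b hb => Real.rpow_nonneg (htw b hb) _)
    have e1 : ∑ b ∈ B, (R b ^ (2 / 3 : ℝ)) ^ (3 / 2 : ℝ) = ∑ b ∈ B, R b := by
      refine Finset.sum_congr rfl fun b hb => ?_
      rw [← Real.rpow_mul (hR b hb)]
      norm_num
    have e2 : ∑ b ∈ B, (tw b ^ (1 / 3 : ℝ)) ^ (3 : ℝ) = ∑ b ∈ B, tw b := by
      refine Finset.sum_congr rfl fun b hb => ?_
      rw [← Real.rpow_mul (htw b hb)]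
      norm_num
    rw [e1, e2] at h
    have e3 : (1 / (3 / 2) : ℝ) = 2 / 3 := by norm_num
    rw [e3] at h
    exact h
  have h4 : Mt / 4 ≤ (∑ b ∈ B, R b) ^ (2 / 3 : ℝ) * Ckj ^ (1 / 3 : ℝ) := by
    calc Mt / 4 ≤ ∑ b ∈ B, tm b := h2
      _ ≤ ∑ b ∈ B, R b ^ (2 / 3 : ℝ) * tw b ^ (1 / 3 : ℝ) := Finset.sum_le_sum h_hol
      _ ≤ _ := h3
      _ ≤ _ := mul_le_mul_of_nonneg_left (Real.rpow_le_rpow hST h_tw (by norm_num)) (Real.rpow_nonneg hSR _)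
  have h5 : (Mt / 4) ^ (3 / 2 : ℝ) ≤ (∑ b ∈ B, R b) * Real.sqrt Ckj := by
    calc (Mt / 4) ^ (3 / 2 : ℝ) ≤ ((∑ b ∈ B, R b) ^ (2 / 3 : ℝ) * Ckj ^ (1 / 3 : ℝ)) ^ (3 / 2 : ℝ) :=
          Real.rpow_le_rpow (by positivity) h4 (by norm_num)
      _ = (∑ b ∈ B, R b) * Real.sqrt Ckj := by
          rw [Real.mul_rpow (Real.rpow_nonneg hSR _) (Real.rpow_nonneg hCk.le _), ← Real.rpow_mul hSR, ← Real.rpow_mul hCk.le, Real.sqrt_eq_rpow]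
          norm_num
  rw [div_le_iff₀ (Real.sqrt_pos.2 hCk)]
  exact h5

/-- **(LEAF L-256-GA-ABS) the selection, abstract form.**   PLAN: `sf_ge_pick B K R g cn (gaChi ..) (gaCk ..) (gaU ..) (s^Cθ * e) (gaLo ..) (gaGt ..)`.
`h1 = h_up`.   `h2`: `sf_ga_abs_lo` with `Mt = gaMt`, `Ckj = gaCk j`, `err = (Cp s^Cb)² (s^(-α) e s^(-(dd i)))`: `gaMt ≤ s^(2α) totj ≤ ∑ sg` (`h_tj`); `∑ tw ≤ ∑ cn j ≤ s^(-α) cnt j ≤ gaCk j` (`h_tw`, `h_cn`, `h_cnt`); `h_err` = `sf_ga_num_err` (`α ≤ 1/8` from `8α ≤ j - i ≤ 1`).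
`h3`: `h_en`, `h_ti`.   `h4`: `h_cn`, `h_cnt`.   `h5`: `mul_add`, `Finset.mul_sum`: every term `≤ gaLo / (4 M)` (`sf_ga_num_k`; `1 ≤ M` from `j ∈ K`), `card K ≤ M`: the sum is `≤ gaLo / 4`;   `sf_ga_num_b` with `Bc = card B`: `card B * w ≤ ∑ cn j ≤ gaCk j` (`h_B`, `Finset.card_nsmul_le_sum`).
Positivity: `Real.rpow_pos_of_pos`, `gaLo > 0` by `sf_ga_num_lo`.   `16 Cr, 32 Cr ≤ 128 M Cr²`.
CONCLUSION for the `b` of `sf_ge_pick`: `θ ≤ g b` (so `g b > 0`);   `4 Λ cn k b ≤ 4 Λ gaChi k * g b =` the claim (`gaChi`, `field_simp`);   `gaLo / (2 gaGt) * g b ≤ R b` and `sf_ga_num_val`: `s^(-(ξ/2)) / (g b √gaKa) * R b ≥ s^(-(ξ/2)) * (gaLo / (2 gaGt √gaKa))`. -/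
theorem sf_ga_abs {ι : Type} (B : Finset ι) (K : Finset ℝ) (R g tm tw Lc sg : ι → ℝ) (cn : ℝ → ι → ℝ)
    (s e ka α Γ p dd i j ξ τ a1 εR Cr Λ Kw Cθ Cb Cp M w toti totj : ℝ) (cnt : ℝ → ℝ)
    (hs : 0 < s ∧ s < 1) (he : 0 < e) (hka : 0 < ka) (hα : 0 < α) (hαδ : 8 * α ≤ j - i) (hΓ : Γ = dd + (1 - p) / 2) (hp : 1 ≤ p ∧ p < 3) (hd : 0 < dd ∧ dd ≤ 1)
    (hi : 0 ≤ i) (hj : j ≤ 1) (hξ : |ξ - (j - i)| ≤ 2 * α) (hK : ∀ k ∈ K, i ≤ k ∧ k ≤ j) (hjK : j ∈ K) (hM : (K.card : ℝ) ≤ M)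
    (hτ : 12 * α ≤ τ * ξ) (ha1 : 22 * α ≤ (a1 - εR) * ξ) (hεR : 0 < εR ∧ εR ≤ 1)
    (hCr : 1 ≤ Cr) (hΛ : 1 ≤ Λ ∧ Λ ≤ s ^ (-α)) (hc1 : 128 * M * Cr ^ 2 ≤ s ^ (-α)) (hCp : 0 ≤ Cp) (hc2 : 4 * Cp ^ 2 ≤ s ^ (-α))
    (hCθ : Kw + 10 ≤ Cθ) (hCb : Kw + 6 ≤ 2 * Cb)
    (hR0 : ∀ b ∈ B, 0 ≤ R b) (hg0 : ∀ b ∈ B, 0 ≤ g b) (htw0 : ∀ b ∈ B, 0 ≤ tw b) (hL0 : ∀ b ∈ B, 0 ≤ Lc b) (hcn0 : ∀ k ∈ K, ∀ b ∈ B, 0 ≤ cn k b)
    (h_up : ∀ b ∈ B, R b ≤ gaU s ka α Γ p i ξ εR Cr * max (g b) (s ^ Cθ * e))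
    (h_cmp : ∀ b ∈ B, sg b ≤ 2 * tm b + 2 * ((Cp * s ^ Cb) ^ 2 * (s ^ (-α) * e * s ^ (-(dd * i)))) * Lc b)
    (h_hol : ∀ b ∈ B, tm b ≤ R b ^ (2 / 3 : ℝ) * tw b ^ (1 / 3 : ℝ))
    (h_tw : ∀ b ∈ B, tw b ≤ cn j b) (h_L : ∀ b ∈ B, Lc b * w ≤ tw b) (h_B : ∀ b ∈ B, w ≤ cn j b)
    (h_sig : s ^ (2 * α) * totj ≤ ∑ b ∈ B, sg b) (h_en : ∑ b ∈ B, g b ≤ s ^ (-α) * toti) (h_cn : ∀ k ∈ K, ∑ b ∈ B, cn k b ≤ s ^ (-α) * cnt k)
    (h_ti : toti ≤ s ^ (-α) * e * s ^ (-(dd * i))) (h_tj : s ^ α * e * s ^ (-(dd * j)) ≤ totj)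
    (h_cnt : ∀ k ∈ K, cnt k ≤ s ^ (-α) * (e / ka) * s ^ (-((p + dd) * k))) (h_w : s ^ Kw * (e / ka) ≤ w) :
    ∃ b ∈ B, s ^ Cθ * e ≤ g b ∧
      (∀ k ∈ K, 4 * Λ * cn k b ≤ (s ^ ξ) ^ (-a1) * (g b / gaKa s ka α p i Cr) * (s ^ ξ) ^ (-((p + dd) * ((k - i) / (j - i))))) ∧
      s ^ (-((Γ - τ) * ξ)) ≤ s ^ (-(ξ / 2)) / (g b * Real.sqrt (gaKa s ka α p i Cr)) * R b := by
  have hsp : ∀ y : ℝ, 0 < s ^ y := fun y => Real.rpow_pos_of_pos hs.1 y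
  have hspp : ∀ y z : ℝ, 0 < (s ^ y) ^ z := fun y z => Real.rpow_pos_of_pos (hsp y) z
  have hij : i < j := by linarith
  have hα8 : α ≤ 1 / 8 := by linarith
  have hΛ0 : 0 < Λ := by linarith [hΛ.1]
  have hCr0 : 0 < Cr := by linarith
  have hM1 : 1 ≤ M := by
    have : 1 ≤ K.card := Finset.card_pos.2 ⟨j, hjK⟩
    have h2 : (1 : ℝ) ≤ (K.card : ℝ) := by exact_mod_cast this
    linarith
  have hMC : Cr ≤ M * Cr ^ 2 := by nlinarith [mul_nonneg (sub_nonneg.2 hM1) (sq_nonneg Cr)]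
  have hc16 : 16 * Cr ≤ s ^ (-α) := by linarith
  have hc32 : 32 * Cr ≤ s ^ (-α) := by linarith
  have hKa : 0 < gaKa s ka α p i Cr := by
    unfold gaKa
    exact mul_pos hCr0 (mul_pos (mul_pos (hsp _) hka) (hsp _))
  have hU : 0 < gaU s ka α Γ p i ξ εR Cr := by
    unfold gaU
    exact mul_pos (hsp _) (Real.sqrt_pos.2 hKa)
  have hθ : 0 < s ^ Cθ * e := mul_pos (hsp _) he
  have hLo : 0 < gaLo s e ka α p dd j := by
    rw [sf_ga_num_lo s e ka α p dd j hs.1 he hka]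
    exact mul_pos (mul_pos (by norm_num) (mul_pos he (Real.sqrt_pos.2 hka))) (hsp _)
  have hGt : 0 < gaGt s e α dd i := by
    unfold gaGt
    exact mul_pos (hsp _) (mul_pos (mul_pos (hsp _) he) (hsp _))
  have hCk : ∀ k, 0 < gaCk s e ka α p dd k := by
    intro k
    unfold gaCk
    exact mul_pos (hsp _) (mul_pos (mul_pos (hsp _) (div_pos he hka)) (hsp _))
  have hMt : 0 < gaMt s e α dd j := by
    unfold gaMt
    exact mul_pos (hsp _) (mul_pos (mul_pos (hsp _) he) (hsp _))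
  have hχ : ∀ k, 0 < gaChi s ka α p dd i j ξ a1 Cr Λ k := by
    intro k
    unfold gaChi
    exact div_pos (mul_pos (hspp _ _) (hspp _ _)) (mul_pos (mul_pos (by norm_num) hΛ0) hKa)
  -- the counts
  have h4 : ∀ k ∈ K, ∑ b ∈ B, cn k b ≤ gaCk s e ka α p dd k := by
    intro k hk
    refine (h_cn k hk).trans ?_
    unfold gaCk
    exact mul_le_mul_of_nonneg_left (h_cnt k hk) (hsp _).le
  have h3 : ∑ b ∈ B, g b ≤ gaGt s e α dd i := by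
    refine h_en.trans ?_
    unfold gaGt
    exact mul_le_mul_of_nonneg_left h_ti (hsp _).le
  have h2 : gaLo s e ka α p dd j ≤ ∑ b ∈ B, R b := by
    unfold gaLo
    refine sf_ga_abs_lo B R tm tw Lc sg (gaMt s e α dd j) (gaCk s e ka α p dd j) ((Cp * s ^ Cb) ^ 2 * (s ^ (-α) * e * s ^ (-(dd * i)))) w
      hR0 htw0 hL0 hMt (hCk j) ?_ h_cmp h_hol h_L ?_ ?_
    · refine le_trans ?_ h_sig
      unfold gaMt
      exact mul_le_mul_of_nonneg_left h_tj (hsp _).le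
    · exact (Finset.sum_le_sum h_tw).trans (h4 j hjK)
    · intro Lt hLt0 hLt
      exact sf_ga_num_err s e ka α p dd i j Kw Cb Cp w Lt hs he hka hα hα8 hp hd ⟨hi, by linarith⟩ ⟨by linarith, hj⟩ hCp hc2 h_w hLt0 hLt hCb
  have h5 : gaU s ka α Γ p i ξ εR Cr * (∑ k ∈ K, gaCk s e ka α p dd k / gaChi s ka α p dd i j ξ a1 Cr Λ k + (B.card : ℝ) * (s ^ Cθ * e))
      ≤ gaLo s e ka α p dd j / 2 := by
    rw [mul_add, Finset.mul_sum]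
    have a1' : ∑ k ∈ K, gaU s ka α Γ p i ξ εR Cr * (gaCk s e ka α p dd k / gaChi s ka α p dd i j ξ a1 Cr Λ k) ≤ gaLo s e ka α p dd j / 4 := by
      calc _ ≤ ∑ _k ∈ K, gaLo s e ka α p dd j / (4 * M) :=
            Finset.sum_le_sum fun k hk => sf_ga_num_k s e ka α Γ p dd i j ξ a1 εR Cr Λ M k hs he hka hα hΓ hp hd hij hξ (hK k hk) ha1 hCr hΛ hM1 hc1
        _ = (K.card : ℝ) * (gaLo s e ka α p dd j / (4 * M)) := by rw [Finset.sum_const, nsmul_eq_mul]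
        _ ≤ M * (gaLo s e ka α p dd j / (4 * M)) := mul_le_mul_of_nonneg_right hM (by positivity)
        _ = gaLo s e ka α p dd j / 4 := by field_simp
    have a2' : gaU s ka α Γ p i ξ εR Cr * ((B.card : ℝ) * (s ^ Cθ * e)) ≤ gaLo s e ka α p dd j / 4 := by
      refine sf_ga_num_b s e ka α Γ p dd i j ξ εR Cr Kw Cθ w (B.card : ℝ) hs he hka hα hαδ hΓ hp hd hi hj hξ hεR hCr hc32 h_w (Nat.cast_nonneg _) ?_ hCθ
      refine le_trans ?_ (h4 j hjK)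
      calc (B.card : ℝ) * w = ∑ _b ∈ B, w := by rw [Finset.sum_const, nsmul_eq_mul]
        _ ≤ ∑ b ∈ B, cn j b := Finset.sum_le_sum h_B
    linarith
  obtain ⟨b, hb, c1, c2, c3⟩ := sf_ge_pick B K R g cn (gaChi s ka α p dd i j ξ a1 Cr Λ) (gaCk s e ka α p dd) (gaU s ka α Γ p i ξ εR Cr) (s ^ Cθ * e)
    (gaLo s e ka α p dd j) (gaGt s e α dd i) hg0 hcn0 (fun k _ => hχ k) hU.le hθ.le hLo hGt h_up h2 h3 h4 h5
  have hgb : 0 < g b := lt_of_lt_of_le hθ c1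
  refine ⟨b, hb, c1, fun k hk => ?_, ?_⟩
  · have := mul_le_mul_of_nonneg_left (c2 k hk) (by positivity : (0 : ℝ) ≤ 4 * Λ)
    refine this.trans (le_of_eq ?_)
    unfold gaChi
    field_simp
  · have hv := sf_ga_num_val s e ka α Γ p dd i j ξ τ Cr hs he hka hα hΓ hp hd hξ hτ hCr hc16
    refine hv.trans ?_
    have hsq : 0 < Real.sqrt (gaKa s ka α p i Cr) := Real.sqrt_pos.2 hKa
    have e1 : s ^ (-(ξ / 2)) * (gaLo s e ka α p dd j / (2 * gaGt s e α dd i * Real.sqrt (gaKa s ka α p i Cr)))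
        = s ^ (-(ξ / 2)) / (g b * Real.sqrt (gaKa s ka α p i Cr)) * (gaLo s e ka α p dd j / (2 * gaGt s e α dd i) * g b) := by
      field_simp
    rw [e1]
    exact mul_le_mul_of_nonneg_left c3 (div_pos (hsp _) (mul_pos hgb hsq)).le

end Claimed.Agent.R256
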