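import Claimed.Agent.R256.Soft.MGeIface

/-!
# Row 256 (S0496), unit SOFT, block M6 GE, sub-block SEL (architect helper169), file UP: THE GROUP EXPERIMENT LIES IN THE CLASS AND OBEYS THE RATE      (helper220; prefix `sf_ga_up_`)

* `sf_ga_up_abs`    generic (`M : Mdl`, `Gen`, `Rate γ`): a valid tail piece `E'` of `E ∈ Cls C A` on a gap of relative length `≥ h`, with `≤ C + 1` stages of generations `≤ C + 1`, lies in `Cls C' A'`
                    (`C'` independent of `A'`) and  `rd E' ≤ 2^(-(1/2 - γ - εR) n') e' √κ'`.      `TailAdm` at the tail order `max A' A_R`, `AdmScale`, `Rate` at `(C', εR)`.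
* `sf_ga_up_len`, `sf_ga_up_gen`      the stack of `d.X` has `≤ S + 1` stages, all generations are `≤ S + 1`.
* `sf_ga_up`        the same for the group experiment `d.X` of a configuration that obeys the package `S`.
-/

set_option autoImplicit false

namespace Claimed.Agent.R256

open MeasureTheory Claimed.Agent.R255

/-- `val ≤ 2^((γ+ε) n)` rewritten as a bound of the cubic readout -/
theorem sf_ga_up_rd {P : PkSys} (E : Xp P) (hV : E.Valid) (γ ε : ℝ) (h : E.val ≤ 2 ^ ((γ + ε) * E.n)) :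
    E.rd ≤ 2 ^ (-((1 / 2 - γ - ε) * E.n)) * (E.e * Real.sqrt E.ka) := by
  have h1 : 0 < E.e * Real.sqrt E.ka := mul_pos hV.e_pos (Real.sqrt_pos.2 hV.ka_pos)
  have h2 : (0 : ℝ) < 2 ^ ((E.n : ℝ) / 2) := gn_two_pos _
  have h3 : E.rd = E.val * ((2 : ℝ) ^ ((E.n : ℝ) / 2))⁻¹ * (E.e * Real.sqrt E.ka) := by
    have h5 := hV.e_pos.ne'
    have h6 := (Real.sqrt_pos.2 hV.ka_pos).ne'
    unfold Xp.val
    field_simp
  rw [h3]
  refine mul_le_mul_of_nonneg_right ?_ h1.le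
  have h4 : (2 : ℝ) ^ (-((1 / 2 - γ - ε) * E.n)) = 2 ^ ((γ + ε) * E.n) * ((2 : ℝ) ^ ((E.n : ℝ) / 2))⁻¹ := by
    rw [← gn_two_neg, ← gn_two_add]
    congr 1
    ring
  rw [h4]
  exact mul_le_mul_of_nonneg_right h (inv_pos.2 h2).le

/-- **UP, generic form** -/
theorem sf_ga_up_abs (M : Mdl) (g : ℝ) (hG : M.Gen g) (γ : ℝ) (hγ : M.Rate γ) (C : ℕ) (h εR : ℝ) (hh : 0 < h) (hε : 0 < εR) :
    ∃ C' : ℕ, ∀ A' : ℕ, ∃ A n0 : ℕ, ∀ (p : M.Par) (E E' : Xp (M.sys p)), n0 ≤ E.n → M.Cls C A p E → E'.Valid → Mdl.IsTail C E E' → h * E.n ≤ E'.n →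
      E'.st.length ≤ C + 1 → E'.GenLe (C + 1) →
      M.Cls C' A' p E' ∧ E'.rd ≤ 2 ^ (-((1 / 2 - γ - εR) * E'.n)) * (E'.e * Real.sqrt E'.ka) := by
  obtain ⟨C1, H1⟩ := hG.tail C h hh
  obtain ⟨AR, nR, HR⟩ := hγ (max C1 (C + 1)) εR hε
  refine ⟨max C1 (C + 1), fun A' => ?_⟩
  obtain ⟨A, n0, H⟩ := H1 (max A' AR)
  refine ⟨A, max n0 ⌈(nR : ℝ) / h⌉₊, fun p E E' hn hE hV hT hl hlen hgen => ?_⟩
  have hC : C + 1 ≤ max C1 (C + 1) := le_max_right _ _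
  have hadm := H p E E' ((le_max_left _ _).trans hn) hE hV hT hl
  have hcls : M.Cls (max C1 (C + 1)) (max A' AR) p E' :=
    ⟨hE.1, hV, hlen.trans hC, ⟨hgen.1.trans hC, hgen.2.1.trans hC, fun σ hσ => (hgen.2.2 σ hσ).trans hC⟩,
      hG.scale C1 _ _ _ p _ _ hE.1 hadm ⟨rfl, rfl, rfl, rfl, rfl, rfl⟩ (Nat.mul_le_mul_right _ (le_max_left _ _)) (le_refl _)⟩
  refine ⟨gn_cls_anti M hG.scale (le_max_left _ _) hcls, ?_⟩
  have hn' : nR ≤ E'.n := by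
    have h3 : (nR : ℝ) / h ≤ E.n := (Nat.le_ceil _).trans (by exact_mod_cast (le_max_right _ _).trans hn)
    rw [div_le_iff₀ hh] at h3
    have : (nR : ℝ) ≤ (E'.n : ℝ) := by linarith
    exact_mod_cast this
  exact sf_ga_up_rd E' hV γ εR (HR p E' hn' (gn_cls_anti M hG.scale (le_max_right _ _) hcls))

section

variable {Y : SfCy} {de : ℝ} {c : SfCfg Y de} (d : SfGeD c)

theorem sf_ga_up_g0 : d.γ 0 = d.i := by
  simp [SfGeD.γ]

theorem sf_ga_up_g1 : d.γ 1 = d.j := by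
  simp [SfGeD.γ]

/-- the root gate, the end gate -/
theorem sf_ga_up_gates (hd : d.Ok) : d.γ 0 ∈ c.W.G ∧ d.γ 1 ∈ c.W.G ∧ d.γ 0 < d.γ 1 := by
  rw [sf_ga_up_g0, sf_ga_up_g1]
  exact ⟨hd.gi, hd.gj, hd.hij⟩

/-- the final depth of the group experiment -/
theorem sf_ga_up_kf (hs : c.W.Str (Y.tq c.p)) (hd : d.Ok) : d.X.kf = c.W.k (d.γ 1) := by
  obtain ⟨h0, h1, h01⟩ := sf_ga_up_gates d hd
  have := (hs.k_mono _ h0 _ h1 h01).1
  show c.W.k (d.γ 0) + (c.W.k (d.γ 1) - c.W.k (d.γ 0)) = c.W.k (d.γ 1)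
  omega

/-- the stack of the group experiment has at most `S + 1` stages -/
theorem sf_ga_up_len (S : ℕ) (hob : c.ob S) (hd : d.Ok) : d.X.st.length ≤ S + 1 := by
  obtain ⟨h0, h1, h01⟩ := sf_ga_up_gates d hd
  show (_ :: stRes (c.mid (d.γ 0) (d.γ 1)) d.B).length ≤ S + 1
  rw [List.length_cons, sf_ge_res_length]
  exact Nat.succ_le_succ (sf_core_mid_ok c S hob _ h0 _ h1 h01).len

/-- all generations of the group experiment are at most `S + 1` -/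
theorem sf_ga_up_gen (S : ℕ) (hob : c.ob S) (hd : d.Ok) : d.X.GenLe (S + 1) := by
  obtain ⟨h0, h1, h01⟩ := sf_ga_up_gates d hd
  have hb0 : d.b0 ≤ S + 1 := Nat.succ_le_succ (sf_core_gb_le c S hob _ h0)
  refine ⟨hb0, (sf_core_gb_le c S hob _ h1).trans (Nat.le_succ S), fun σ hσ => ?_⟩
  have hσ' : σ ∈ (_ :: stRes (c.mid (d.γ 0) (d.γ 1)) d.B) := hσ
  rcases List.mem_cons.1 hσ' with rfl | hσ''
  · exact hb0
  · have : σ.b ∈ (stRes (c.mid (d.γ 0) (d.γ 1)) d.B).map (·.b) := List.mem_map_of_mem hσ''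
    rw [sf_ge_res_map_b] at this
    obtain ⟨τ, hτ, e⟩ := List.mem_map.1 this
    rw [← e]
    exact ((sf_core_mid_ok c S hob _ h0 _ h1 h01).gen τ hτ).trans (Nat.le_succ S)

/-- the chain atoms of an interval of a gate form a measurable set -/
theorem sf_ga_up_gS_meas (g : ℝ) (hg : g ∈ c.W.G) (m : ℕ) : MeasurableSet (d.gS g m) := by
  by_cases hb : d.bel g m
  · have : d.gS g m = c.aS g (fun ρ => d.chn ⟨g, ρ⟩) m := by
      ext x
      exact ⟨fun h => h.2, fun h => ⟨hb, h⟩⟩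
    rw [this]
    unfold SfCfg.aS
    exact MeasurableSet.iUnion fun ρ => MeasurableSet.iUnion fun _ => c.sh.at_meas g hg ρ
  · have : d.gS g m = ∅ := by
      ext x
      exact ⟨fun h => hb h.1, fun h => h.elim⟩
    rw [this]
    exact MeasurableSet.empty

/-- the root interval of a group is an interval of the root gate -/
theorem sf_ga_up_m0 (hs : c.W.Str (Y.tq c.p)) (hd : d.Ok) : d.m0 ∈ c.W.ivs (d.γ 0) := by
  obtain ⟨v, hv⟩ := hd.u_ne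
  obtain ⟨u, hu, -, hm⟩ := hd.u_pred v hv
  obtain ⟨g, ρ⟩ := u
  simp only at hu hm
  subst hu
  rw [sf_ga_up_g0, ← hm]
  exact hs.iv_in _ hd.gi _

/-- **the group experiment is a tail piece of the old experiment** (package `Ct ≥ S + 1`; the four numerical conditions are hypotheses) -/
theorem sf_ga_up_istail (S Ct : ℕ) (hSC : S + 1 ≤ Ct) (hob : c.ob S) (hd : d.Ok)
    (e_lo : c.W.E.s ^ (Ct : ℝ) * c.W.E.e ≤ d.e) (e_hi : d.e ≤ c.W.E.e)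
    (ka_lo : c.W.E.s ^ (Ct : ℝ) * c.W.E.ka ≤ d.ka) (ka_hi : d.ka ≤ c.W.E.s ^ (-(Ct : ℝ)) * c.W.E.ka) : Mdl.IsTail Ct c.W.E d.X := by
  obtain ⟨h0, h1, h01⟩ := sf_ga_up_gates d hd
  have hs := hob.2.2.1
  have hSC' : S ≤ Ct := (Nat.le_succ S).trans hSC
  refine ⟨(hs.k_rg _ h0).1, ?_, ?_, ?_, e_lo, e_hi, ka_lo, ka_hi⟩
  · rw [sf_ga_up_kf d hs hd]
    exact (hs.k_rg _ h1).2
  · exact (gn_mem_ivs c.W.E.k0 c.W.E.i0 (c.W.k (d.γ 0)) d.m0).1 (sf_ga_up_m0 d hs hd)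
  · refine ⟨c.W.E.st.take (c.W.pos (d.γ 0)) ++ [⟨c.W.k (d.γ 0), c.W.gb (d.γ 0), fun m => (d.gS (d.γ 0) m).indicator (c.W.gM (d.γ 0) m)⟩], ?_, ?_⟩
    · have hmem : ∀ σ ∈ c.W.E.st.take (c.W.pos (d.γ 0)), σ ∈ c.W.E.st := fun σ hσ => List.mem_of_mem_take hσ
      refine ⟨?_, fun σ hσ => ?_, ?_, fun σ hσ => ?_, fun σ hσ m => ?_⟩
      · rw [List.length_append, List.length_singleton]
        exact (Nat.succ_le_succ (((List.take_sublist _ _).length_le).trans hob.1)).trans hSC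
      · rcases List.mem_append.1 hσ with h | h
        · exact ⟨(hs.valid.st_dep σ (hmem σ h)).1, sf_core_take_le c hs _ h0 σ h⟩
        · rw [List.mem_singleton.1 h]
          exact ⟨(hs.k_rg _ h0).1, le_rfl⟩
      · rw [List.pairwise_append]
        refine ⟨hs.valid.st_mono.sublist (List.take_sublist _ _), List.pairwise_singleton _ _, fun σ hσ τ hτ => ?_⟩
        rw [List.mem_singleton.1 hτ]
        exact sf_core_take_le c hs _ h0 σ hσ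
      · rcases List.mem_append.1 hσ with h | h
        · exact (hob.2.2.2.1.2.2 σ (hmem σ h)).trans hSC'
        · rw [List.mem_singleton.1 h]
          exact (sf_core_gb_le c S hob _ h0).trans hSC'
      · rcases List.mem_append.1 hσ with h | h
        · exact ⟨hs.valid.st_meas σ (hmem σ h) m, hs.valid.st_bd σ (hmem σ h) m⟩
        · rw [List.mem_singleton.1 h]
          exact sf_ge_mask_ind (sf_core_gM_mask c hs _ h0 m) (sf_ga_up_gS_meas d _ h0 m)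
    · rw [gn_run_append]
      have e : ancI d.X.k0 (c.W.k (d.γ 0)) d.X.i0 = d.m0 := gn_anc_self _ _
      show d.psi = _
      simp only [Xp.run, e]
      rfl

/-- the relative length of the gap -/
theorem sf_ga_up_n {pe Ls ε α : ℝ} (hx : SfMD.Ext Y c.p c.W pe de Ls ε α) (hd : d.Ok) : ((d.j - d.i) - 2 * α) * c.W.E.n ≤ d.X.n := by
  obtain ⟨h0, h1, h01⟩ := sf_ga_up_gates d hd
  have hk := (hx.str.k_mono _ h0 _ h1 h01).1
  have e : ((d.X.n : ℕ) : ℝ) = (c.W.k (d.γ 1) : ℝ) - c.W.k (d.γ 0) := by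
    show (((c.W.k (d.γ 1) - c.W.k (d.γ 0) : ℕ)) : ℝ) = _
    rw [Nat.cast_sub hk]
  have a0 := abs_le.1 (hx.depth _ h0)
  have a1 := abs_le.1 (hx.depth _ h1)
  rw [sf_ga_up_g0] at a0
  rw [sf_ga_up_g1] at a1
  rw [e, sf_ga_up_g0, sf_ga_up_g1]
  nlinarith [a0.2, a1.1]

end

/-- the regularity `Cr s^(-α) κ s^q` is polynomial -/
theorem sf_ga_up_ka {P : PkSys} (E : Xp P) (hka : 0 < E.ka) (Cr α q : ℝ) (hCr : 1 ≤ Cr) (hCrs : Cr ≤ E.s ^ (-(1 : ℝ))) (hα : 0 ≤ α ∧ α ≤ 1) (hq : 0 ≤ q)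
    (Ct : ℕ) (h2 : 2 ≤ Ct) (hqC : q ≤ Ct) :
    E.s ^ (Ct : ℝ) * E.ka ≤ Cr * (E.s ^ (-α) * E.ka * E.s ^ q) ∧ Cr * (E.s ^ (-α) * E.ka * E.s ^ q) ≤ E.s ^ (-(Ct : ℝ)) * E.ka := by
  have hs := gn_s_pos E
  have hp : ∀ y : ℝ, 0 < E.s ^ y := fun y => Real.rpow_pos_of_pos hs y
  have h0 : E.s ^ (0 : ℝ) = 1 := Real.rpow_zero _
  have b1 : 1 ≤ E.s ^ (-α) := by
    rw [← h0]; exact gn_s_anti E (by linarith [hα.1])
  have b2 : E.s ^ (-α) ≤ E.s ^ (-(1 : ℝ)) := gn_s_anti E (by linarith [hα.2])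
  have b3 : E.s ^ (Ct : ℝ) ≤ E.s ^ q := gn_s_anti E hqC
  have b4 : E.s ^ q ≤ 1 := by
    rw [← h0]; exact gn_s_anti E hq
  have b5 : E.s ^ (-(1 : ℝ)) * E.s ^ (-(1 : ℝ)) ≤ E.s ^ (-(Ct : ℝ)) := by
    rw [← Real.rpow_add hs]
    refine gn_s_anti E ?_
    have : (2 : ℝ) ≤ Ct := by exact_mod_cast h2
    linarith
  constructor
  · calc E.s ^ (Ct : ℝ) * E.ka ≤ E.s ^ q * E.ka := mul_le_mul_of_nonneg_right b3 hka.le
      _ = 1 * (1 * E.ka * E.s ^ q) := by ring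
      _ ≤ Cr * (E.s ^ (-α) * E.ka * E.s ^ q) := by
        have := (hp q).le
        gcongr
  · calc Cr * (E.s ^ (-α) * E.ka * E.s ^ q) ≤ E.s ^ (-(1 : ℝ)) * (E.s ^ (-(1 : ℝ)) * E.ka * 1) := by
          have := (hp (-α)).le
          have := (hp (-(1 : ℝ))).le
          gcongr
      _ = E.s ^ (-(1 : ℝ)) * E.s ^ (-(1 : ℝ)) * E.ka := by ring
      _ ≤ E.s ^ (-(Ct : ℝ)) * E.ka := mul_le_mul_of_nonneg_right b5 hka.le

/-- the old experiment lies in the class -/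
theorem sf_ga_up_old {Y : SfCy} {π : SfPar} (hE : SfCoreHyp Y π) {de : ℝ} (c : SfCfg Y de) (S C A : ℕ) (hob : c.ob S) (hC : S ≤ C) (hA : A ≤ c.A) :
    Y.M.Cls C A c.p c.W.E := by
  obtain ⟨hg, ha⟩ := (hE.adm S c.A c.p c.W.E).2 ⟨_, hob.2.1⟩
  exact gn_cls_anti Y.M hE.gen.scale hA (gn_cls_mono Y.M hE.gen.scale hC ⟨hg, hob.2.2.1.valid, hob.1, hob.2.2.2.1, ha⟩)

/-- **UP**: a valid group experiment with polynomial budget and the regularity `Cr s^(-α) κ s^(p i)` lies in the class `Cls C' A'` (`C'` independent of `A'`) and obeys the rate -/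
theorem sf_ga_up (Y : SfCy) (π : SfPar) (Ls : ℝ) (hE : SfCoreHyp Y π) (h εR Cr : ℝ) (hh : 0 < h) (hε : 0 < εR) (hCr : 1 ≤ Cr) (S Ct : ℕ) :
    ∃ C' : ℕ, ∀ A' : ℕ, ∃ A n0 : ℕ, ∀ (c : SfCfg Y π.d) (C0 α : ℝ) (d : SfGeD c), SfGeIn Y π Ls c S C0 α → h ≤ d.j - d.i → α ≤ (d.j - d.i) / 4 →
      A ≤ c.A → n0 ≤ c.W.E.n → d.Ok → d.X.Valid → d.ka = Cr * (c.W.E.s ^ (-α) * c.W.E.ka * c.W.E.s ^ (π.p * d.i)) →
      c.W.E.s ^ (Ct : ℝ) * c.W.E.e ≤ d.e → d.e ≤ c.W.E.e →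
      Y.M.Cls C' A' c.p d.X ∧ d.X.rd ≤ 2 ^ (-((1 / 2 - π.Γ - εR) * d.X.n)) * (d.e * Real.sqrt d.ka) := by
  obtain ⟨C', H⟩ := sf_ga_up_abs Y.M _ hE.gen π.Γ hE.rate (S + Ct + 3) (h / 2) εR (half_pos hh) hε
  obtain ⟨n1, hn1⟩ := gn_absorb Cr 1 one_pos
  refine ⟨C', fun A' => ?_⟩
  obtain ⟨A, n0, H'⟩ := H A'
  refine ⟨A, max n0 n1, fun c C0 α d hin hji hα hA hn hd hV hka he1 he2 => ?_⟩
  have hs := hin.ob.2.2.1
  have hij1 : d.j - d.i ≤ 1 := by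
    have := (hs.gate.2 _ hd.gi).1
    have := (hs.gate.2 _ hd.gj).2
    linarith
  have hα0 : 0 ≤ α := by
    have h1 : (0 : ℝ) < 1 / ((S : ℝ) + 1) := by positivity
    linarith [hin.eps.1, hin.eps.2]
  have hCrs : Cr ≤ c.W.E.s ^ (-(1 : ℝ)) := by
    rw [gn_s_rpow]
    have := hn1 c.W.E.n ((le_max_right _ _).trans hn)
    simpa using this
  have hp := hE.par.1.2.2.2.1
  have hi := hs.gate.2 _ hd.gi
  have hq0 : 0 ≤ π.p * d.i := mul_nonneg (by linarith [hp.1]) hi.1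
  have hq1 : π.p * d.i ≤ ((S + Ct + 3 : ℕ) : ℝ) := by
    have : π.p * d.i ≤ 3 * 1 := mul_le_mul hp.2.le hi.2 hi.1 (by norm_num)
    push_cast
    have h1 : (0 : ℝ) ≤ S := Nat.cast_nonneg _
    have h2 : (0 : ℝ) ≤ Ct := Nat.cast_nonneg _
    linarith
  obtain ⟨k1, k2⟩ := sf_ga_up_ka c.W.E hs.valid.ka_pos Cr α (π.p * d.i) hCr hCrs ⟨hα0, by linarith⟩ hq0 (S + Ct + 3) (by omega) hq1
  rw [← hka] at k1 k2
  have he1' : c.W.E.s ^ ((S + Ct + 3 : ℕ) : ℝ) * c.W.E.e ≤ d.e := by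
    refine le_trans (mul_le_mul_of_nonneg_right (gn_s_anti c.W.E ?_) hs.valid.e_pos.le) he1
    exact_mod_cast (by omega : Ct ≤ S + Ct + 3)
  have hT := sf_ga_up_istail d S (S + Ct + 3) (by omega) hin.ob hd he1' he2 k1 k2
  have hnn : h / 2 * c.W.E.n ≤ d.X.n := by
    refine le_trans ?_ (sf_ga_up_n d hin.ext hd)
    refine mul_le_mul_of_nonneg_right ?_ (Nat.cast_nonneg _)
    linarith
  have hg := sf_ga_up_gen d S hin.ob hd
  exact H' c.p c.W.E d.X ((le_max_left _ _).trans hn) (sf_ga_up_old hE c S _ A hin.ob (by omega) hA) hV hT hnn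
    ((sf_ga_up_len d S hin.ob hd).trans (by omega))
    ⟨hg.1.trans (by omega), hg.2.1.trans (by omega), fun σ hσ => (hg.2.2 σ hσ).trans (by omega)⟩

end Claimed.Agent.R256
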