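import Claimed.Agent.R256.Soft.MGaFam
import Claimed.Agent.R256.Soft.MGaNum
import Claimed.Agent.R256.Soft.MGaUp

/-!
# Row 256 (S0496), unit SOFT, block M6 GE, sub-block SEL, file 7: THE SELECTION      (architect helper169; prefix `sf_ga_`)

* `SfGaFam`       a finite family of groups `dd b` on one gap `[i,j]` with root carriers `S0 b`: structure + the three sums (Σ), (E), (C)
* `sf_ga_sel2`    **COMMON FORM** (cover `CalGe` and partition `CalGp`): a family with (Σ), (E), (C) contains a group that lies in the class, is near extremal and obeys the relative counts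
* `sf_ga_sel`     `SfGeSel Y π Ls` (cover form)
-/

set_option autoImplicit false

namespace Claimed.Agent.R256

open MeasureTheory Claimed.Agent.R255

variable {Y : SfCy}

/-- **a family of groups** on the gap `[i,j]`: absolute accuracy `α`, truncation `Λ` of the restored root gate, error `ϰ` -/
structure SfGaFam {de : ℝ} {c : SfCfg Y de} (ι : Type) [Fintype ι] (dd : ι → SfGeD c) (S0 : ι → c.D.Rw → Prop) (i j : ℝ) (Gk : Finset ℝ) (α Λ ϰ : ℝ) : Prop where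
  /-- the end gate is a gate (so that (Σ) forces `ι` to be nonempty) -/
  gj : j ∈ c.W.G
  hi : ∀ b, (dd b).i = i
  hj : ∀ b, (dd b).j = j
  hG : ∀ b, (dd b).Gk = Gk
  ok : ∀ b, (dd b).Ok
  car : ∀ b, (dd b).Car (S0 b) ϰ
  /-- the carrier consists of admitted root rows (needed for `SfGeSelC.ebd`: `d.gS` is cut to `d.S0`) -/
  s0 : ∀ b u, S0 b u → (dd b).S0 u
  /-- the restored root rows (hypotheses of `sf_ge_s_valid`) -/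
  nm : ∀ b ρ, MeasurableSet ((dd b).Nr ((dd b).γ 0) ρ)
  nd : ∀ b ρ ρ', (dd b).chn ⟨(dd b).γ 0, ρ⟩ → (dd b).chn ⟨(dd b).γ 0, ρ'⟩ → ρ ≠ ρ' → Disjoint ((dd b).Nr ((dd b).γ 0) ρ) ((dd b).Nr ((dd b).γ 0) ρ')
  wid : ∀ b, 0 < (dd b).f0 ∧ (dd b).f0 ≤ 4 * Λ * c.W.f i
  /-- the mass of `SfGeSelC.eraw` is the raw mass of the carrier -/
  eraw : ∀ b, (Y.M.sys c.p).en (tmL (c.W.k ((dd b).γ 0)) (dd b).m0) (c.W.k ((dd b).γ 0)) (c.W.gb ((dd b).γ 0))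
    (((dd b).gS ((dd b).γ 0) (dd b).m0).indicator (c.W.gM ((dd b).γ 0) (dd b).m0)) (c.W.pre ((dd b).γ 0) (dd b).m0) ≤ (dd b).raw (S0 b)
  /-- (Σ) the groups read a subpower part of the mass of the end gate -/
  sig : c.W.E.s ^ (2 * α) * c.W.tot j ≤ ∑ b, (dd b).sig (S0 b)
  /-- (E) the carriers overlap subpower often -/
  en : ∑ b, c.gaEnS (S0 b) (dd b).U i ≤ c.W.E.s ^ (-α) * c.W.tot i
  /-- (C) every label of a kept gate is reached by subpower many groups -/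
  cn : ∀ k ∈ Gk, ∑ b, c.gaCnt (dd b).U k ≤ c.W.E.s ^ (-α) * ∑ l, (Y.M.sys c.p).wt (c.W.ts k l)

section

variable {de : ℝ} {c : SfCfg Y de}

theorem sf_ga_sel2_ok (d : SfGeD c) (e ka : ℝ) (h : d.Ok) : ({ d with e := e, ka := ka } : SfGeD c).Ok :=
  ⟨h.hij, h.gi, h.gj, h.kept, h.seg, h.u_dep, h.u_pred, h.u_ne, h.u_s0⟩

theorem sf_ga_sel2_car (d : SfGeD c) (e ka : ℝ) (S0 : c.D.Rw → Prop) (ϰ : ℝ) (h : d.Car S0 ϰ) : ({ d with e := e, ka := ka } : SfGeD c).Car S0 ϰ :=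
  ⟨h.psi, h.nm, h.appr⟩

/-- powers of the scale of the groups -/
theorem sf_ga_sel2_pow {P : PkSys} (E E' : Xp P) (hn : 0 < E.n) (y : ℝ) : (E.s ^ ((E'.n : ℝ) / E.n)) ^ y = E'.s ^ y := by
  have hn' : (E.n : ℝ) ≠ 0 := by exact_mod_cast hn.ne'
  rw [← Real.rpow_mul (gn_s_pos E).le, gn_s_rpow, gn_s_rpow]
  congr 2
  field_simp

theorem sf_ga_sel2_pow2 {P : PkSys} (E : Xp P) (n' : ℕ) (hn : 0 < E.n) (y : ℝ) : E.s ^ (y * ((n' : ℝ) / E.n)) = 2 ^ (-(y * n')) := by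
  have hn' : (E.n : ℝ) ≠ 0 := by exact_mod_cast hn.ne'
  rw [gn_s_rpow]
  congr 2
  field_simp

end

theorem sf_ga_sel2_num (a τ a1 εR δ ξ : ℝ) (ha : 0 < a) (ha8 : a ≤ 1 / 8) (haτ : a ≤ τ / 16) (haa : a ≤ a1 / 64) (hεRa : εR ≤ a1 / 2) (hδ : 0 < δ)
    (hξ : |ξ - δ| ≤ 2 * (a * δ)) : 12 * (a * δ) ≤ τ * ξ ∧ 22 * (a * δ) ≤ (a1 - εR) * ξ := by
  have h1 := (abs_le.1 hξ).1
  have h2 : a * δ ≤ 1 / 8 * δ := mul_le_mul_of_nonneg_right ha8 hδ.le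
  have h3 : 3 / 4 * δ ≤ ξ := by linarith
  have h4 : 0 ≤ ξ := by linarith
  constructor
  · calc 12 * (a * δ) = 16 * a * (3 / 4 * δ) := by ring
      _ ≤ τ * (3 / 4 * δ) := mul_le_mul_of_nonneg_right (by linarith) (by linarith)
      _ ≤ τ * ξ := mul_le_mul_of_nonneg_left h3 (by linarith)
  · calc 22 * (a * δ) ≤ 24 * (a * δ) := by nlinarith
      _ = 32 * a * (3 / 4 * δ) := by ring
      _ ≤ (a1 - εR) * (3 / 4 * δ) := mul_le_mul_of_nonneg_right (by linarith) (by linarith)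
      _ ≤ (a1 - εR) * ξ := mul_le_mul_of_nonneg_left h3 (by linarith)

theorem sf_ga_sel2_xi (n ki kj k0 i j α : ℝ) (hn : 0 < n) (d1 : |(ki - k0) - i * n| ≤ α * n) (d2 : |(kj - k0) - j * n| ≤ α * n) :
    |(kj - ki) / n - (j - i)| ≤ 2 * α := by
  have e : (kj - ki) / n - (j - i) = (((kj - k0) - j * n) - ((ki - k0) - i * n)) / n := by
    field_simp
    ring
  rw [e, abs_div, abs_of_pos hn, div_le_iff₀ hn]
  have := abs_sub ((kj - k0) - j * n) ((ki - k0) - i * n)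
  linarith

/-- one group of a family: validity and the inputs of `sf_ga_abs` -/
theorem sf_ga_sel2_one (hO : SfCyOk Y) (π : SfPar) (Ls : ℝ) (hE : SfCoreHyp Y π) {c : SfCfg Y π.d} {S : ℕ} {C0 α : ℝ} (hin : SfGeIn Y π Ls c S C0 α) (hα1 : α ≤ 1)
    (d : SfGeD c) (S0 : c.D.Rw → Prop) (ϰ : ℝ) (hϰ : 0 ≤ ϰ) (hloc : c.LocG ϰ) (hok : d.Ok) (hcar : d.Car S0 ϰ)
    (nm : ∀ ρ, MeasurableSet (d.Nr (d.γ 0) ρ)) (nd : ∀ ρ ρ', d.chn ⟨d.γ 0, ρ⟩ → d.chn ⟨d.γ 0, ρ'⟩ → ρ ≠ ρ' → Disjoint (d.Nr (d.γ 0) ρ) (d.Nr (d.γ 0) ρ'))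
    (hreg : (Y.M.sys c.p).Reg (tmL (c.W.k (d.γ 0)) d.m0) (c.W.k (d.γ 0)) d.b0 d.ka d.psi) (hka : 0 < d.ka) (he : 0 < d.e) (hraw : d.raw S0 ≤ d.e) :
    d.X.Valid ∧ 0 ≤ d.X.rd ∧ 0 ≤ d.X.tw ∧
      d.sig S0 ≤ 2 * d.X.tm + 2 * ((((S : ℝ) + 2) * ϰ) ^ 2 * (c.W.E.s ^ (-α) * c.W.E.e * c.W.E.s ^ (-(π.d * d.i)))) * d.X.L ∧
      d.X.tm ≤ d.X.rd ^ (2 / 3 : ℝ) * d.X.tw ^ (1 / 3 : ℝ) ∧
      d.X.tw ≤ c.gaCnt d.U d.j ∧
      (d.X.L : ℝ) * (c.W.E.s ^ ((S : ℝ) + 4 * |Ls| + 4) * (c.W.E.e / c.W.E.ka)) ≤ d.X.tw ∧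
      c.W.E.s ^ ((S : ℝ) + 4 * |Ls| + 4) * (c.W.E.e / c.W.E.ka) ≤ c.gaCnt d.U d.j ∧
      d.raw S0 ≤ c.gaEnS S0 d.U d.i ∧ d.raw S0 ≤ c.W.E.e ∧ 0 ≤ d.raw S0 := by
  have hob := hin.ob
  have hs := hob.2.2.1
  have hgd : Y.M.gd c.p := (hO.af S c.A c.p c.W.E c.W.Q0 hob.2.1).1
  have hT : (Y.M.sys c.p).Tight := hE.gen.tight c.p hgd
  obtain ⟨h0, h1, h01⟩ := sf_ga_gates d hok
  obtain ⟨r1, r2, r3, r4⟩ := sf_ga_raw d hs hT hok S0 ϰ hcar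
  obtain ⟨p1, p2⟩ := sf_ga_pre d hT π.p Ls α hin.ext hok
  have hV : d.X.Valid := sf_ge_s_valid d hT S hob hok nm nd he hka (r1.trans hraw) hreg
  have hn : c.Nest := sf_ga_nest c hs π C0 α hin.good.1
  have hw1 : ∀ l : c.W.Lb (d.γ 1), c.W.E.s ^ ((S : ℝ) + 4 * |Ls| + 4) * (c.W.E.e / c.W.E.ka) ≤ (Y.M.sys c.p).wt (c.W.ts (d.γ 1) l) :=
    fun l => sf_ga_wlow hO π Ls hE c S C0 α hin hα1 _ h1 l
  have hwj : ∀ l : c.W.Lb d.j, c.W.E.s ^ ((S : ℝ) + 4 * |Ls| + 4) * (c.W.E.e / c.W.E.ka) ≤ (Y.M.sys c.p).wt (c.W.ts d.j l) :=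
    fun l => sf_ga_wlow hO π Ls hE c S C0 α hin hα1 _ hok.gj l
  obtain ⟨t1, t2⟩ := sf_ga_tw d hs hT hok _ hw1
  rw [sf_ga_g1] at t1
  rw [sf_ga_g0] at r3
  have e0 : π.d * d.γ 0 = π.d * d.i := by rw [sf_ga_g0]
  rw [e0] at p1
  refine ⟨hV, gn_rd_nonneg _ hV, Finset.sum_nonneg fun l _ => (hV.w_pos l).le, ?_, sf_xp_holder _ hV, t1, t2,
    sf_ga_fb c hs hT d.j hok.gj d.U hok.u_dep hok.u_ne _ hwj, r3, r4.trans p2, r2⟩
  refine (sf_ga_cmpg d hO S hob hT hn hok ϰ hϰ hloc S0 hcar).trans ?_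
  have hL : (0 : ℝ) ≤ d.X.L := Nat.cast_nonneg _
  have h2 : (((S : ℝ) + 2) * ϰ * ‖c.W.pre (d.γ 0) d.m0‖) ^ 2 ≤ (((S : ℝ) + 2) * ϰ) ^ 2 * (c.W.E.s ^ (-α) * c.W.E.e * c.W.E.s ^ (-(π.d * d.i))) := by
    rw [mul_pow]
    exact mul_le_mul_of_nonneg_left p1 (sq_nonneg _)
  have h3 := mul_le_mul_of_nonneg_right (mul_le_mul_of_nonneg_left h2 (by norm_num : (0 : ℝ) ≤ 2)) hL
  linarith

/-- **SEL-2, COMMON FORM.** -/
theorem sf_ga_sel2 (hY : (∃ η, Y = sfCl η) ∨ ∃ η, Y = sfHy η) (π : SfPar) (Ls : ℝ) (hE : SfCoreHyp Y π) :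
    ∀ τ a1 : ℝ, 0 < τ → 0 < a1 → ∃ a : ℝ, 0 < a ∧ a ≤ 1 / 8 ∧ ∀ (C0 h : ℝ), 0 < h → ∀ S : ℕ, ∃ C' Cb : ℕ, ∀ A' : ℕ, ∃ A n0 : ℕ,
    ∀ (c : SfCfg Y π.d) (i j : ℝ), h ≤ j - i → SfGeIn Y π Ls c S C0 (a * (j - i)) → A ≤ c.A → n0 ≤ c.W.E.n →
    ∀ (Gk : Finset ℝ) (ι : Type) [Fintype ι] (dd : ι → SfGeD c) (S0 : ι → c.D.Rw → Prop),
      SfGaFam ι dd S0 i j Gk (a * (j - i)) (c.W.E.s ^ (-(c.ε / 4))) (c.W.E.s ^ (Cb : ℝ)) →
    ∃ (b : ι) (e ka : ℝ), SfGeSelC Y π ({ dd b with e := e, ka := ka } : SfGeD c) C' A' τ a1 := by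
  intro τ a1 hτ ha1
  have hO : SfCyOk Y := sf_cy_ok Y hY
  have hS : SfSep Y := sf_sep hY
  obtain ⟨hη, -, hΓ, hp, hd⟩ := hE.par.1
  have hηY : 0 < Y.η ∧ Y.η < 1 := hE.par.2.1 ▸ hη
  have ha : 0 < min (1 / 8 : ℝ) (min (τ / 16) (a1 / 64)) := lt_min (by norm_num) (lt_min (by positivity) (by positivity))
  refine ⟨min (1 / 8 : ℝ) (min (τ / 16) (a1 / 64)), ha, min_le_left _ _, fun C0 h hh S => ?_⟩
  generalize haeq : min (1 / 8 : ℝ) (min (τ / 16) (a1 / 64)) = a at ha ⊢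
  have ha8 : a ≤ 1 / 8 := haeq ▸ min_le_left _ _
  have haτ : a ≤ τ / 16 := haeq ▸ (min_le_right _ _).trans (min_le_left _ _)
  have haa : a ≤ a1 / 64 := haeq ▸ (min_le_right _ _).trans (min_le_right _ _)
  obtain ⟨Cr, hCr, Hreg⟩ := sf_ga_reg hO π Ls hE S
  have hεR : 0 < min (a1 / 2) 1 := lt_min (by positivity) one_pos
  generalize hεeq : min (a1 / 2) 1 = εR at hεR
  have hεR1 : εR ≤ 1 := hεeq ▸ min_le_right _ _
  have hεRa : εR ≤ a1 / 2 := hεeq ▸ min_le_left _ _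
  obtain ⟨Ct, hCt⟩ := exists_nat_ge ((S : ℝ) + 4 * |Ls| + 4 + 10)
  obtain ⟨Cb, hCb⟩ := exists_nat_ge ((S : ℝ) + 4 * |Ls| + 4 + 6)
  obtain ⟨C', Hup⟩ := sf_ga_up Y π Ls hE h εR Cr hh hεR hCr S Ct
  refine ⟨C', Cb, fun A' => ?_⟩
  obtain ⟨A, n1, Hup'⟩ := Hup A'
  obtain ⟨n2, Hloc⟩ := sf_ga_locg hO hS π hE (1 / ((S : ℝ) + 1)) (by positivity) Cb S
  obtain ⟨n3, hn3⟩ := gn_absorb (128 * ((S : ℝ) + 1) * Cr ^ 2 + 4 * ((S : ℝ) + 2) ^ 2) (a * h) (by positivity)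
  refine ⟨A, max (max n1 n2) (max n3 1), fun c i j hji hin hA hn Gk ι _ dd S0 F => ?_⟩
  have hn1 : n1 ≤ c.W.E.n := ((le_max_left _ _).trans (le_max_left _ _)).trans hn
  have hn2 : n2 ≤ c.W.E.n := ((le_max_right _ _).trans (le_max_left _ _)).trans hn
  have hn3' : n3 ≤ c.W.E.n := ((le_max_left _ _).trans (le_max_right _ _)).trans hn
  have hnpos : 0 < c.W.E.n := lt_of_lt_of_le one_pos (((le_max_right _ _).trans (le_max_right _ _)).trans hn)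
  have hob := hin.ob
  have hs := hob.2.2.1
  have hgd : Y.M.gd c.p := (hO.af S c.A c.p c.W.E c.W.Q0 hob.2.1).1
  have hT : (Y.M.sys c.p).Tight := hE.gen.tight c.p hgd
  have hs01 : 0 < c.W.E.s ∧ c.W.E.s < 1 := c.sh.hs ▸ hin.good.1.hs
  have hpw : ∀ y : ℝ, 0 < c.W.E.s ^ y := fun y => Real.rpow_pos_of_pos hs01.1 y
  have he := hs.valid.e_pos
  have hka := hs.valid.ka_pos
  have hij : 0 < j - i := lt_of_lt_of_le hh hji
  have hα0 : 0 < a * (j - i) := mul_pos ha hij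
  have htot := fun g hg => sf_core_sp_tot c π.p Ls (a * (j - i)) hin.ext hin.good.1.hmass g hg
  -- the family is not empty
  have hne : Nonempty ι := by
    by_contra hcon
    rw [not_nonempty_iff] at hcon
    have h1 := F.sig
    rw [Finset.univ_eq_empty, Finset.sum_empty] at h1
    exact absurd h1 (not_le.2 (mul_pos (hpw _) (htot j F.gj).1))
  obtain ⟨b0⟩ := hne
  have gi : i ∈ c.W.G := F.hi b0 ▸ (F.ok b0).gi
  have gj : j ∈ c.W.G := F.gj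
  have hjK : j ∈ Gk := by
    have := (F.ok b0).kept.1
    rwa [F.hj b0, F.hG b0] at this
  have hK : ∀ k ∈ Gk, k ∈ c.W.G ∧ i ≤ k ∧ k ≤ j := by
    intro k hk
    have := (F.ok b0).kept.2 k (by rw [F.hG b0]; exact hk)
    rwa [F.hj b0, F.hi b0] at this
  have hi0 : 0 ≤ i := (hs.gate.2 i gi).1
  have hj1 : j ≤ 1 := (hs.gate.2 j gj).2
  have hij1 : j - i ≤ 1 := by linarith
  have hα8 : 8 * (a * (j - i)) ≤ j - i := by
    have := mul_le_mul_of_nonneg_right ha8 hij.le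
    linarith
  have hα1 : a * (j - i) ≤ 1 := by linarith
  -- the scale of the groups
  have hkij : c.W.k i ≤ c.W.k j := (hs.k_mono i gi j gj (by linarith)).1
  have hnN : (0 : ℝ) < c.W.E.n := by exact_mod_cast hnpos
  have hξ : |(((c.W.k j - c.W.k i : ℕ) : ℝ) / c.W.E.n) - (j - i)| ≤ 2 * (a * (j - i)) := by
    rw [Nat.cast_sub hkij]
    exact sf_ga_sel2_xi _ _ _ _ _ _ _ hnN (hin.ext.depth i gi) (hin.ext.depth j gj)
  generalize hξeq : (((c.W.k j - c.W.k i : ℕ) : ℝ) / c.W.E.n) = ξ at hξ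
  obtain ⟨hτξ, ha1ξ⟩ := sf_ga_sel2_num a τ a1 εR (j - i) ξ ha ha8 haτ haa hεRa hij hξ
  have hε0 : 0 < c.ε := lt_of_lt_of_le (by positivity) hin.eps.1
  have hΛ : 1 ≤ c.W.E.s ^ (-(c.ε / 4)) ∧ c.W.E.s ^ (-(c.ε / 4)) ≤ c.W.E.s ^ (-(a * (j - i))) := by
    constructor
    · rw [← Real.rpow_zero c.W.E.s]
      exact gn_s_anti c.W.E (by linarith)
    · exact gn_s_anti c.W.E (by linarith [hin.eps.2])
  have habs : 128 * ((S : ℝ) + 1) * Cr ^ 2 + 4 * ((S : ℝ) + 2) ^ 2 ≤ c.W.E.s ^ (-(a * (j - i))) := by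
    refine (hn3 _ hn3').trans ?_
    rw [gn_s_rpow]
    refine gn_two_mono ?_
    have : a * h * c.W.E.n ≤ a * (j - i) * c.W.E.n := mul_le_mul_of_nonneg_right (mul_le_mul_of_nonneg_left hji ha.le) hnN.le
    linarith
  have hc1 : 128 * ((S : ℝ) + 1) * Cr ^ 2 ≤ c.W.E.s ^ (-(a * (j - i))) := by
    have : (0 : ℝ) ≤ 4 * ((S : ℝ) + 2) ^ 2 := by positivity
    linarith
  have hc2 : 4 * ((S : ℝ) + 2) ^ 2 ≤ c.W.E.s ^ (-(a * (j - i))) := by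
    have : (0 : ℝ) ≤ 128 * ((S : ℝ) + 1) * Cr ^ 2 := by positivity
    linarith
  have hM : (Gk.card : ℝ) ≤ (S : ℝ) + 1 := by
    have h1 : Gk.card ≤ c.W.G.card := Finset.card_le_card fun k hk => (hK k hk).1
    have h2 := sf_ga_card c S hob
    exact_mod_cast h1.trans h2
  have hloc : c.LocG (c.W.E.s ^ (Cb : ℝ)) := Hloc c hob hin.eps.1 hn2
  have hϰ0 : 0 ≤ c.W.E.s ^ (Cb : ℝ) := (hpw _).le
  have hpow2 : ∀ y : ℝ, c.W.E.s ^ (y * ξ) = 2 ^ (-(y * ((c.W.k j - c.W.k i : ℕ) : ℝ))) := fun y => hξeq ▸ sf_ga_sel2_pow2 c.W.E _ hnpos y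
  have hnb : ∀ b, (dd b).X.n = c.W.k j - c.W.k i := by
    intro b
    show c.W.k ((dd b).γ 1) - c.W.k ((dd b).γ 0) = _
    rw [sf_ga_g1, sf_ga_g0, F.hi b, F.hj b]
  have hkG : 0 < gaKa c.W.E.s c.W.E.ka (a * (j - i)) π.p i Cr := by
    unfold gaKa
    exact mul_pos (by linarith) (mul_pos (mul_pos (hpw _) hka) (hpw _))
  have hθ0 : 0 < c.W.E.s ^ (Ct : ℝ) * c.W.E.e := mul_pos (hpw _) he
  have hθe : c.W.E.s ^ (Ct : ℝ) * c.W.E.e ≤ c.W.E.e := by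
    have : c.W.E.s ^ (Ct : ℝ) ≤ 1 := Real.rpow_le_one hs01.1.le hs01.2.le (Nat.cast_nonneg _)
    nlinarith only [this, he]
  have hraw : ∀ b, 0 ≤ (dd b).raw (S0 b) ∧ (dd b).raw (S0 b) ≤ c.W.E.e ∧ (dd b).raw (S0 b) ≤ c.gaEnS (S0 b) (dd b).U i := by
    intro b
    obtain ⟨-, r2, r3, r4⟩ := sf_ga_raw (dd b) hs hT (F.ok b) (S0 b) _ (F.car b)
    rw [sf_ga_g0, F.hi b] at r3
    exact ⟨r2, r4.trans (sf_ga_pre (dd b) hT π.p Ls _ hin.ext (F.ok b)).2, r3⟩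
  have key : ∀ (b : ι) (e' : ℝ), c.W.E.s ^ (Ct : ℝ) * c.W.E.e ≤ e' → (dd b).raw (S0 b) ≤ e' → e' ≤ c.W.E.e →
      ({ dd b with e := e', ka := gaKa c.W.E.s c.W.E.ka (a * (j - i)) π.p i Cr } : SfGeD c).X.Valid ∧
      Y.M.Cls C' A' c.p ({ dd b with e := e', ka := gaKa c.W.E.s c.W.E.ka (a * (j - i)) π.p i Cr } : SfGeD c).X ∧
      (dd b).X.rd ≤ gaU c.W.E.s c.W.E.ka (a * (j - i)) π.Γ π.p i ξ εR Cr * e' ∧ 0 ≤ (dd b).X.rd ∧ 0 ≤ (dd b).X.tw ∧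
      (dd b).sig (S0 b) ≤ 2 * (dd b).X.tm + 2 * ((((S : ℝ) + 2) * c.W.E.s ^ (Cb : ℝ)) ^ 2 * (c.W.E.s ^ (-(a * (j - i))) * c.W.E.e * c.W.E.s ^ (-(π.d * i)))) * (dd b).X.L ∧
      (dd b).X.tm ≤ (dd b).X.rd ^ (2 / 3 : ℝ) * (dd b).X.tw ^ (1 / 3 : ℝ) ∧
      (dd b).X.tw ≤ c.gaCnt (dd b).U j ∧
      ((dd b).X.L : ℝ) * (c.W.E.s ^ ((S : ℝ) + 4 * |Ls| + 4) * (c.W.E.e / c.W.E.ka)) ≤ (dd b).X.tw ∧
      c.W.E.s ^ ((S : ℝ) + 4 * |Ls| + 4) * (c.W.E.e / c.W.E.ka) ≤ c.gaCnt (dd b).U j := by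
    intro b e' h1 h2 h3
    have hok' := sf_ga_sel2_ok (dd b) e' (gaKa c.W.E.s c.W.E.ka (a * (j - i)) π.p i Cr) (F.ok b)
    have hcar' := sf_ga_sel2_car (dd b) e' (gaKa c.W.E.s c.W.E.ka (a * (j - i)) π.p i Cr) (S0 b) _ (F.car b)
    have hkaeq : gaKa c.W.E.s c.W.E.ka (a * (j - i)) π.p i Cr = Cr * (c.W.E.s ^ (-(a * (j - i))) * c.W.E.ka * c.W.E.s ^ (π.p * (dd b).i)) := by
      rw [F.hi b]
      rfl
    have hreg := Hreg c C0 (a * (j - i)) _ _ (S0 b) hin hok' hcar'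
    have hreg' : (Y.M.sys c.p).Reg (tmL (c.W.k ((dd b).γ 0)) (dd b).m0) (c.W.k ((dd b).γ 0)) (dd b).b0 (gaKa c.W.E.s c.W.E.ka (a * (j - i)) π.p i Cr) (dd b).psi := by
      rw [hkaeq]
      exact hreg
    obtain ⟨o1, o2, o3, o4, o5, o6, o7, o8, -, -, -⟩ := sf_ga_sel2_one hO π Ls hE hin hα1 _ (S0 b) _ hϰ0 hloc hok' hcar' (F.nm b) (F.nd b) hreg' hkG
      (lt_of_lt_of_le hθ0 h1) h2
    obtain ⟨u1, u2⟩ := Hup' c C0 (a * (j - i)) _ hin (by show h ≤ (dd b).j - (dd b).i; rw [F.hi b, F.hj b]; exact hji)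
      (by show a * (j - i) ≤ ((dd b).j - (dd b).i) / 4; rw [F.hi b, F.hj b]; linarith) hA hn1 hok' o1 hkaeq h1 h3
    have o4' : (dd b).sig (S0 b) ≤ 2 * (dd b).X.tm + 2 * ((((S : ℝ) + 2) * c.W.E.s ^ (Cb : ℝ)) ^ 2 * (c.W.E.s ^ (-(a * (j - i))) * c.W.E.e * c.W.E.s ^ (-(π.d * (dd b).i)))) * (dd b).X.L := o4
    have o6' : (dd b).X.tw ≤ c.gaCnt (dd b).U (dd b).j := o6
    have o8' : c.W.E.s ^ ((S : ℝ) + 4 * |Ls| + 4) * (c.W.E.e / c.W.E.ka) ≤ c.gaCnt (dd b).U (dd b).j := o8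
    rw [F.hi b] at o4'
    rw [F.hj b] at o6' o8'
    refine ⟨o1, u1, ?_, o2, o3, o4', o5, o6', o7, o8'⟩
    have u2' : (dd b).X.rd ≤ 2 ^ (-((1 / 2 - π.Γ - εR) * ((dd b).X.n : ℝ))) * (e' * Real.sqrt (gaKa c.W.E.s c.W.E.ka (a * (j - i)) π.p i Cr)) := u2
    rw [hnb b, ← hpow2] at u2'
    unfold gaU
    linarith
  have kb := fun b => key b (max ((dd b).raw (S0 b)) (c.W.E.s ^ (Ct : ℝ) * c.W.E.e)) (le_max_right _ _) (le_max_left _ _) (max_le (hraw b).2.1 hθe)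
  have hcn0 : ∀ k ∈ Gk, ∀ b ∈ (Finset.univ : Finset ι), 0 ≤ c.gaCnt (dd b).U k := by
    intro k hk b _
    unfold SfCfg.gaCnt
    refine Finset.sum_nonneg fun l _ => ?_
    split_ifs
    · exact (hT.wt_pos _ _ (hs.ok k (hK k hk).1 l)).le
    · exact le_rfl
  have hCb' : (S : ℝ) + 4 * |Ls| + 4 + 6 ≤ 2 * (Cb : ℝ) := by
    have : (0 : ℝ) ≤ Cb := Nat.cast_nonneg _
    linarith
  obtain ⟨b, -, hbθ, hbcn, hbval⟩ := sf_ga_abs Finset.univ Gk (fun b => (dd b).X.rd) (fun b => (dd b).raw (S0 b)) (fun b => (dd b).X.tm) (fun b => (dd b).X.tw)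
    (fun b => ((dd b).X.L : ℝ)) (fun b => (dd b).sig (S0 b)) (fun k b => c.gaCnt (dd b).U k)
    c.W.E.s c.W.E.e c.W.E.ka (a * (j - i)) π.Γ π.p π.d i j ξ τ a1 εR Cr (c.W.E.s ^ (-(c.ε / 4))) ((S : ℝ) + 4 * |Ls| + 4) (Ct : ℝ) (Cb : ℝ) ((S : ℝ) + 2) ((S : ℝ) + 1)
    (c.W.E.s ^ ((S : ℝ) + 4 * |Ls| + 4) * (c.W.E.e / c.W.E.ka)) (c.W.tot i) (c.W.tot j) (fun k => ∑ l, (Y.M.sys c.p).wt (c.W.ts k l))
    hs01 he hka hα0 hα8 hΓ hp hd hi0 hj1 hξ (fun k hk => (hK k hk).2) hjK hM hτξ ha1ξ ⟨hεR, hεR1⟩ hCr hΛ hc1 (by positivity) hc2 hCt hCb'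
    (fun b _ => (kb b).2.2.2.1) (fun b _ => (hraw b).1) (fun b _ => (kb b).2.2.2.2.1) (fun b _ => Nat.cast_nonneg _) hcn0
    (fun b _ => (kb b).2.2.1) (fun b _ => (kb b).2.2.2.2.2.1) (fun b _ => (kb b).2.2.2.2.2.2.1) (fun b _ => (kb b).2.2.2.2.2.2.2.1)
    (fun b _ => (kb b).2.2.2.2.2.2.2.2.1) (fun b _ => (kb b).2.2.2.2.2.2.2.2.2) F.sig
    ((Finset.sum_le_sum fun b _ => (hraw b).2.2).trans F.en) F.cn (htot i gi).2 (hin.ext.read j gj) (fun k hk => hin.ext.cnt k (hK k hk).1) le_rfl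
  obtain ⟨v1, v2, -⟩ := key b ((dd b).raw (S0 b)) hbθ le_rfl (hraw b).2.1
  have hok' := sf_ga_sel2_ok (dd b) ((dd b).raw (S0 b)) (gaKa c.W.E.s c.W.E.ka (a * (j - i)) π.p i Cr) (F.ok b)
  refine ⟨b, (dd b).raw (S0 b), gaKa c.W.E.s c.W.E.ka (a * (j - i)) π.p i Cr, v2, ?_, ?_, ?_, F.eraw b⟩
  · -- near extremal
    show (2 : ℝ) ^ ((π.Γ - τ) * ((dd b).X.n : ℝ)) ≤ 2 ^ (((dd b).X.n : ℝ) / 2) / ((dd b).raw (S0 b) * Real.sqrt (gaKa c.W.E.s c.W.E.ka (a * (j - i)) π.p i Cr)) * (dd b).X.rd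
    have e1 : c.W.E.s ^ (-((π.Γ - τ) * ξ)) = 2 ^ ((π.Γ - τ) * ((dd b).X.n : ℝ)) := by
      have := hpow2 (-(π.Γ - τ))
      rw [hnb b, ← neg_mul, this]
      congr 1
      ring
    have e2 : c.W.E.s ^ (-(ξ / 2)) = 2 ^ (((dd b).X.n : ℝ) / 2) := by
      have := hpow2 (-(1 / 2))
      rw [hnb b, show -(ξ / 2) = -(1 / 2) * ξ by ring, this]
      congr 1
      ring
    rw [← e1, ← e2]
    exact hbval
  · -- relative counts
    intro g' hg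
    obtain ⟨w1, -, -, w4⟩ := sf_ga_newgate _ hok' g' hg
    have hwid : 0 < (dd b).f0 ∧ (dd b).f0 ≤ 4 * c.W.E.s ^ (-(c.ε / 4)) * c.W.f ((dd b).γ 0) := by
      rw [sf_ga_g0, F.hi b]
      exact F.wid b
    refine (sf_ga_cnt _ hO hs hT hok' hηY _ hΛ.1 hwid g' hg).trans ?_
    have w1' : (dd b).γ g' ∈ Gk := F.hG b ▸ w1
    have w4' : g' = ((dd b).γ g' - i) / (j - i) := by
      have : g' = ((dd b).γ g' - (dd b).i) / ((dd b).j - (dd b).i) := w4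
      rwa [F.hi b, F.hj b] at this
    have h5 := hbcn _ w1'
    rw [← w4', ← hξeq, ← hnb b, sf_ga_sel2_pow c.W.E (dd b).X hnpos, sf_ga_sel2_pow c.W.E (dd b).X hnpos] at h5
    exact h5
  · -- the budget
    intro Q hQ hsub
    obtain ⟨h0, -, -⟩ := sf_ga_gates (dd b) (F.ok b)
    have hr := hin.ext.reg _ h0 (dd b).m0 (sf_ge_s_m0 (dd b) hs (F.ok b))
    have h6 := sf_ga_ebd (dd b) hs hT (F.ok b) (S0 b) (F.s0 b) _ hr Q hQ hsub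
    have e0 : π.p * (dd b).γ 0 = π.p * i := by rw [sf_ga_g0, F.hi b]
    rw [e0] at h6
    have hwQ : 0 ≤ (Y.M.sys c.p).wt Q := (hT.wt_pos Q _ hQ).le
    show (dd b).raw (S0 b) ≤ gaKa c.W.E.s c.W.E.ka (a * (j - i)) π.p i Cr * (Y.M.sys c.p).wt Q
    refine h6.trans (mul_le_mul_of_nonneg_right ?_ hwQ)
    unfold gaKa
    have : 0 < c.W.E.s ^ (-(a * (j - i))) * c.W.E.ka * c.W.E.s ^ (π.p * i) := mul_pos (mul_pos (hpw _) hka) (hpw _)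
    nlinarith only [this, hCr]

theorem sf_ga_sel_sub_eq {ι : Type} [Fintype ι] (P : ι → Prop) [F : Fintype {b // P b}] (f : ι → ℝ) (hf : ∀ b, ¬ P b → f b = 0) :
    ∑ b : {b // P b}, f b.1 = ∑ b, f b := by
  classical
  have h := Finset.sum_subtype (F := F) (Finset.univ.filter fun b : ι => P b) (by simp) f
  refine h.symm.trans (Finset.sum_filter_of_ne fun b _ hb => ?_)
  by_contra hc
  exact hb (hf b hc)

theorem sf_ga_sel_sub_le {ι : Type} [Fintype ι] (P : ι → Prop) [F : Fintype {b // P b}] (f : ι → ℝ) (hf : ∀ b, 0 ≤ f b) :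
    ∑ b : {b // P b}, f b.1 ≤ ∑ b, f b := by
  classical
  have h := Finset.sum_subtype (F := F) (Finset.univ.filter fun b : ι => P b) (by simp) f
  rw [← h]
  exact Finset.sum_le_sum_of_subset_of_nonneg (Finset.filter_subset _ _) fun b _ _ => hf b

/-- `s^(2α) ≤ s^α - s^(1/α)` -/
theorem sf_ga_sel_num {s α : ℝ} (hs0 : 0 < s) (hs1 : s ≤ 1) (hα0 : 0 < α) (hα : α ≤ 1 / 8) (hx : s ^ α ≤ 1 / 2) :
    s ^ (2 * α) ≤ s ^ α - s ^ (1 / α) := by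
  have e : s ^ (2 * α) = s ^ α * s ^ α := by rw [← Real.rpow_add hs0]; ring_nf
  have h1 : 2 * α ≤ 1 / α := by
    rw [le_div_iff₀ hα0]
    nlinarith
  have h2 : s ^ (1 / α) ≤ s ^ (2 * α) := Real.rpow_le_rpow_of_exponent_ge hs0 hs1 h1
  have hp : 0 < s ^ α := Real.rpow_pos_of_pos hs0 _
  rw [e] at h2 ⊢
  nlinarith

/-- **SEL, cover form.**   PLAN (helper129): `sf_ga_sel2`; `ι' = {b // ∃ v, sfGeU c.D i Ub b v}` (`Fintype.ofFinite`), `dd b = SfGeD.mk i j Gk (sfGeU c.D i Ub b) (m0 b) (Nr b) f0 (Q0 b) 0 0`, `S0 = fun _ _ => True`.   New `n0`: also `2 ≤ 2^(a h n)` (`gn_absorb`), so `s^α ≤ 1/2`.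
`ok`: `hij` from `h ≤ j - i`; `gi gj kept seg` from `SfGeCov` (`c.sh.hG`); `u_dep`: `ub_dep`; `u_pred`: `sfGeU` gives `u`, `sb_pred`, the hypothesis on `m0`; `u_ne`: `b.2`.   `car`: `sf_ga_car` from `Root`.   `nm nd wid`: `Root.meas`, `Root.disj`, `Root.wid` (`sf_ga_g0`; `0 < f_i`: `Str.frame`).   `eraw`: `sf_ga_eraw`.
`sig`: `sf_ga_full`, `SfCfg.gaPr`, `sf_ga_g1`; `∑ b : ι', pr (U b) = ∑ b : ι, pr (U b)` (a `b` without marked rows has `pr = 0`: `Finset.sum_subtype`/`Finset.sum_coe_sort` + `Finset.sum_subset`); `sf_ga_f0`; `s^(2α) ≤ s^α - s^(1/α)` (`s^α ≤ 1/2`, `1/α ≥ 2α`).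
`en`: `SfCfg.gaEnS`, `true_and`, `sf_ga_f3` (sub-sum of nonnegative terms).   `cn`: `sf_ga_f4`.   The conclusion is the claim (`rfl`). -/
theorem sf_ga_sel (hY : (∃ η, Y = sfCl η) ∨ ∃ η, Y = sfHy η) (π : SfPar) (Ls : ℝ) (hE : SfCoreHyp Y π) : SfGeSel Y π Ls := by
  have hO : SfCyOk Y := sf_cy_ok Y hY
  intro τ a1 hτ ha1
  obtain ⟨a, ha0, ha8, H⟩ := sf_ga_sel2 hY π Ls hE τ a1 hτ ha1
  refine ⟨a, ha0, ?_⟩
  intro C0 h hh S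
  obtain ⟨C', Cb, H⟩ := H C0 h hh S
  refine ⟨C', Cb, ?_⟩
  intro A'
  obtain ⟨A, n0, H⟩ := H A'
  obtain ⟨n1, hn1⟩ := gn_absorb 2 (a * h) (by positivity)
  refine ⟨A, max n0 n1, ?_⟩
  intro c i j hij hin hA hn Gk ι _ Sb Ub hcov m0 Nr f0 Q0 hm0 hroot
  classical
  have : Fintype ι := Fintype.ofFinite ι
  have hs := hin.ob.2.2.1
  have hgd : Y.M.gd c.p := (hO.af S c.A c.p c.W.E c.W.Q0 hin.ob.2.1).1
  have hT := hE.gen.tight c.p hgd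
  have hG : c.D.G = c.W.G := c.sh.hG
  have hDs : c.D.s = c.W.E.s := c.sh.hs
  have hlt : i < j := by linarith
  have hgi : i ∈ c.W.G := hG ▸ hcov.gi
  have hgj : j ∈ c.W.G := hG ▸ hcov.gj
  have hs0 : 0 < c.W.E.s := gn_s_pos _
  have hs1 : c.W.E.s ≤ 1 := gn_s_le_one _
  have htot : ∀ g ∈ c.W.G, 0 ≤ c.W.tot g := by
    intro g hg
    unfold SfMD.tot SfMD.m
    exact Finset.sum_nonneg fun l _ => gn_en_nonneg _ _ _ (fun x => hs.nn _ hg l x) _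
  obtain ⟨α, hαd⟩ : ∃ α, α = a * (j - i) := ⟨_, rfl⟩
  have H := H c i j hij
  rw [← hαd] at hin hcov H
  have hji1 : j - i ≤ 1 := by
    have := (hs.gate.2 j hgj).2
    have := (hs.gate.2 i hgi).1
    linarith
  have hα0 : 0 < α := by rw [hαd]; exact mul_pos ha0 (by linarith)
  have hα8 : α ≤ 1 / 8 := by
    rw [hαd]
    calc a * (j - i) ≤ (1 / 8) * 1 := mul_le_mul ha8 hji1 (by linarith) (by norm_num)
      _ = 1 / 8 := by norm_num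
  have hx : c.W.E.s ^ α ≤ 1 / 2 := by
    rw [gn_s_rpow, Real.rpow_neg (by norm_num), one_div]
    refine inv_anti₀ (by norm_num) ?_
    refine (hn1 _ (le_trans (le_max_right _ _) hn)).trans ?_
    refine Real.rpow_le_rpow_of_exponent_le (by norm_num) ?_
    refine mul_le_mul_of_nonneg_right ?_ (Nat.cast_nonneg _)
    rw [hαd]
    exact mul_le_mul_of_nonneg_left hij ha0.le
  -- the family
  have hok : ∀ b : {b : ι // ∃ v, sfGeU c.D i Ub b v}, ∀ e ka,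
      (SfGeD.mk i j Gk (sfGeU c.D i Ub b.1) (fun _ => True) (m0 b.1) (Nr b.1) f0 (Q0 b.1) e ka : SfGeD c).Ok := by
    intro b e ka
    refine ⟨hlt, hgi, hgj, ⟨hcov.kept.1, fun k hk => ?_⟩, fun g hg k hk h1 h2 => ?_, fun v hv => hcov.ub_dep b.1 v hv.1, fun v hv => ?_, b.2, fun v hv => ?_⟩
    · have := hcov.kept.2 k hk
      exact ⟨hG ▸ this.1, this.2⟩
    · exact hcov.seg g (hG.symm ▸ hg) k hk h1 h2
    · obtain ⟨hU, u, hu, hcn⟩ := hv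
      exact ⟨u, hu, hcn, hm0 b.1 u (hcov.sb_pred b.1 u v hU hu hcn)⟩
    · obtain ⟨hU, u, hu, hcn⟩ := hv
      exact ⟨u, hu, hcn, hm0 b.1 u (hcov.sb_pred b.1 u v hU hu hcn), trivial⟩
  have hfam : SfGaFam {b : ι // ∃ v, sfGeU c.D i Ub b v}
      (fun b => (SfGeD.mk i j Gk (sfGeU c.D i Ub b.1) (fun _ => True) (m0 b.1) (Nr b.1) f0 (Q0 b.1) 0 0 : SfGeD c)) (fun _ _ => True) i j Gk α
      (c.W.E.s ^ (-(c.ε / 4))) (c.W.E.s ^ (Cb : ℝ)) := by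
    refine ⟨hgj, fun _ => rfl, fun _ => rfl, fun _ => rfl, fun b => hok b 0 0, fun b => ?_, fun _ _ _ => trivial, fun b => ?_, fun b => ?_, fun b => ?_, fun b => ?_, ?_, ?_, ?_⟩
    · exact sf_ga_car _ hs (hok b 0 0) _ _ (hroot b.1 b.2 0 0)
    · exact (hroot b.1 b.2 0 0).meas
    · exact (hroot b.1 b.2 0 0).disj
    · have hw := (hroot b.1 b.2 0 0).wid
      rw [sf_ga_g0] at hw
      have hfi : 0 < c.W.f i := (hs.frame.2.2 i hgi).2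
      have hΛ : 0 < c.W.E.s ^ (-(c.ε / 4)) := Real.rpow_pos_of_pos hs0 _
      refine ⟨lt_of_lt_of_le ?_ hw.1, hw.2⟩
      exact mul_pos (by linarith) hfi
    · exact (sf_ga_eraw _ hs (hok b 0 0)).le
    · -- sig
      have e1 : ∀ b : {b : ι // ∃ v, sfGeU c.D i Ub b v},
          (SfGeD.mk i j Gk (sfGeU c.D i Ub b.1) (fun _ => True) (m0 b.1) (Nr b.1) f0 (Q0 b.1) 0 0 : SfGeD c).sig (fun _ => True)
            = (c.D.P j).pr (fun ρ => sfGeU c.D i Ub b.1 ⟨j, ρ⟩) * c.W.tot j := by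
        intro b
        rw [← sf_ga_full _ hO S hin.ob (hok b 0 0), sf_ga_g1]
        rfl
      rw [Finset.sum_congr rfl fun b _ => e1 b, ← Finset.sum_mul]
      refine mul_le_mul_of_nonneg_right ?_ (htot j hgj)
      rw [sf_ga_sel_sub_eq (fun b : ι => ∃ v, sfGeU c.D i Ub b v) (fun b => (c.D.P j).pr (fun ρ => sfGeU c.D i Ub b ⟨j, ρ⟩))
        (fun b hb => by
          unfold FLaw.pr
          refine Finset.sum_eq_zero fun ρ _ => if_neg fun hc => hb ⟨_, hc⟩)]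
      refine le_trans ?_ (sf_ga_f0 c.D π C0 α hin.good.1 i j hlt Gk ι Sb Ub hcov)
      rw [hDs]
      exact sf_ga_sel_num hs0 hs1 hα0 hα8 hx
    · -- en
      have e1 : ∀ b : {b : ι // ∃ v, sfGeU c.D i Ub b v},
          c.gaEnS (fun _ => True) (SfGeD.mk i j Gk (sfGeU c.D i Ub b.1) (fun _ => True) (m0 b.1) (Nr b.1) f0 (Q0 b.1) 0 0 : SfGeD c).U i
            = (c.D.P i).pr (fun ρ => c.D.chnU (sfGeU c.D i Ub b.1) ⟨i, ρ⟩) * c.W.tot i := by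
        intro b
        unfold SfCfg.gaEnS
        simp only [true_and]
      rw [Finset.sum_congr rfl fun b _ => e1 b, ← Finset.sum_mul]
      refine mul_le_mul_of_nonneg_right ?_ (htot i hgi)
      refine (sf_ga_sel_sub_le (fun b : ι => ∃ v, sfGeU c.D i Ub b v) (fun b => (c.D.P i).pr (fun ρ => c.D.chnU (sfGeU c.D i Ub b) ⟨i, ρ⟩))
        (fun b => by
          unfold FLaw.pr
          refine Finset.sum_nonneg fun ρ _ => ?_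
          split_ifs
          · exact (c.D.P i).nonneg ρ
          · exact le_rfl)).trans ?_
      rw [← hDs]
      exact sf_ga_f3 c.D α i j hlt Gk ι Sb Ub hcov
    · -- cn
      intro k hk
      have hkG : k ∈ c.W.G := hG ▸ (hcov.kept.2 k hk).1
      refine (sf_ga_sel_sub_le (fun b : ι => ∃ v, sfGeU c.D i Ub b v) (fun b => c.gaCnt (sfGeU c.D i Ub b) k) (fun b => ?_)).trans ?_
      · unfold SfCfg.gaCnt
        refine Finset.sum_nonneg fun l _ => ?_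
        split_ifs
        · exact (hT.wt_pos _ _ (hs.ok k hkG l)).le
        · exact le_rfl
      · rw [← hDs]
        exact sf_ga_f4 c hs hT α i j Gk ι Sb Ub hcov k hk
  obtain ⟨b, e, ka, hsel⟩ := H hin hA (le_trans (le_max_left _ _) hn) Gk _ _ _ hfam
  exact ⟨b.1, e, ka, b.2, hsel⟩

end Claimed.Agent.R256
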