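import Claimed.Agent.R256.Soft.MDocRef

/-!
# Row 256 (S0496), unit SOFT, M1 DISC, file 7: SHADOWS FROM ABSTRACT PRE-ATOMS (REF, general form)      (architect helper39; block BP-256-SOFT-DOC; prefix `sf_doc_pa_`)

Request of helper105 (GE, restored root gate).   `SfPa Y p W μ` = PRE-ATOMS of a documented experiment `W`: finite types `A i`, measurable sets `pa i a`, a relation `bel i l a` ("the pre-atom `a` belongs to the label `l`"): disjoint within a label, covering the rows to cover,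
representatives `prp` in the cell of every label they belong to, small in the root frame of `W`, pre-cells of the exact index (`Idx0 pidx pia`).
`sfPaAt … : SfAt Y p W μ` :    row = `(l, a, S)` with `bel l a`,   atom = (rows of `l` to cover) ∩ `pa a` ∩ (rows with the signature `S`),   representative = `prp a`,   exact index = (`pidx a`, classical: `S`).
`SfRf.toPa` : the refinement data of `Soft/MDocRef.lean` are pre-atoms (`A i = D.Row (γ i)`).      SORRY FREE.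
-/

set_option autoImplicit false

namespace Claimed.Agent.R256

open MeasureTheory Claimed.Agent.R255

/-- **pre-atoms** -/
structure SfPa (Y : SfCy) (p : Y.M.Par) (W : SfMD (Y.M.sys p)) (μ : ℝ) where
  A : ℝ → Type
  fA : ∀ i, Fintype (A i)
  neA : ∀ i, Nonempty (A i)
  pa : ∀ i, A i → Set (Y.M.sys p).X
  bel : ∀ i, W.Lb i → A i → Prop
  prp : ∀ i, A i → (Y.M.sys p).X
  Idx0 : Type
  pidx : ∀ i, A i → Idx0
  pia : Idx0 → Set (Y.Ix p)
  pa_meas : ∀ i ∈ W.G, ∀ a, MeasurableSet (pa i a)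
  pa_disj : ∀ i ∈ W.G, ∀ l a a', bel i l a → bel i l a' → a ≠ a' → Disjoint (pa i a) (pa i a')
  pa_cov : ∀ i ∈ W.G, ∀ l, ∀ x ∈ sfDocSup Y p W i l, ∃ a, bel i l a ∧ x ∈ pa i a
  prp_cell : ∀ i ∈ W.G, ∀ l a, bel i l a → prp i a ∈ (Y.M.sys p).cell (W.ts i l) (W.T i l) (W.k i)
  prp_cl : Y.hyb = false → ∀ i ∈ W.G, ∀ j ∈ W.G, ∀ a a', pidx i a = pidx j a' → prp i a = prp j a'
  small : ∀ i ∈ W.G, ∀ l a, bel i l a → ∀ x ∈ pa i a, x ∈ sfDocSup Y p W i l →
    (sfDocRay Y p W i l x).dist (sfDocRay Y p W i l (prp i a)) ≤ W.E.s ^ μ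
  pia_disj : ∀ a b, a ≠ b → Disjoint (pia a) (pia b)
  pia_mem : ∀ i ∈ W.G, ∀ a, ∀ x ∈ pa i a, Y.ix p x ∈ pia (pidx i a)
  pia_full : Y.hyb = false → ∀ i ∈ W.G, ∀ a x, Y.ix p x ∈ pia (pidx i a) → x ∈ pa i a

section

variable {Y : SfCy} {p : Y.M.Par} {W : SfMD (Y.M.sys p)} {μ : ℝ}

/-- keys of the atoms -/
abbrev SfPa.Key (r : SfPa Y p W μ) (i : ℝ) : Type := W.Lb i × r.A i × Set (Σ i, W.Lb i)

/-- the atom of a key -/
def SfPa.atm (r : SfPa Y p W μ) (i : ℝ) (u : r.Key i) : Set (Y.M.sys p).X :=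
  {x | x ∈ sfDocSup Y p W i u.1 ∧ x ∈ r.pa i u.2.1 ∧ sfSig W x = u.2.2}

/-- the rows -/
def SfPa.Row (r : SfPa Y p W μ) (hl : ∀ i, Nonempty (W.Lb i)) (i : ℝ) : Type :=
  {u : r.Key i // (i ∈ W.G ∧ r.bel i u.1 u.2.1 ∧ (r.atm i u).Nonempty) ∨ (i ∉ W.G ∧ u = ((hl i).some, (r.neA i).some, ∅))}

/-- the cells of the exact index -/
def SfPa.ia (r : SfPa Y p W μ) (a : r.Idx0 × Option (Set (Σ i, W.Lb i))) : Set (Y.Ix p) :=
  {ι | ι ∈ r.pia a.1 ∧ match a.2 with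
    | none => Y.hyb = true
    | some S => Y.hyb = false ∧ ∃ x, Y.ix p x = ι ∧ sfSig W x = S}

/-- the name of the cell -/
def SfPa.ix (r : SfPa Y p W μ) (i : ℝ) (u : r.Key i) : r.Idx0 × Option (Set (Σ i, W.Lb i)) :=
  (r.pidx i u.2.1, if Y.hyb = true then none else some u.2.2)

theorem sf_doc_pa_eqns_cite : True := by
  have := @SfPa.atm.eq_1
  have := @SfPa.Row.eq_1
  have := @SfPa.ia.eq_1
  have := @SfPa.ix.eq_1
  trivial

theorem sf_doc_pa_fin (r : SfPa Y p W μ) (hl : ∀ i, Nonempty (W.Lb i)) (i : ℝ) : Finite (r.Row hl i) := by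
  have hfin : {u : r.Key i | (i ∈ W.G ∧ r.bel i u.1 u.2.1 ∧ (r.atm i u).Nonempty) ∨
      (i ∉ W.G ∧ u = ((hl i).some, (r.neA i).some, ∅))}.Finite := by
    by_cases hi : i ∈ W.G
    · have hs : {S : Set (Σ i, W.Lb i) | S ⊆ {u : Σ i, W.Lb i | u.1 ∈ W.G}}.Finite := (sf_doc_lab_fin W).finite_subsets
      have : Fintype (r.A i) := r.fA i
      refine ((Set.finite_univ (α := W.Lb i)).prod ((Set.finite_univ (α := r.A i)).prod hs)).subset ?_
      rintro ⟨l, ρ, S⟩ hu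
      rcases hu with ⟨_, _, x, hx⟩ | ⟨hn, _⟩
      · obtain ⟨hx1, hx2, hx3⟩ := hx
        refine ⟨Set.mem_univ _, Set.mem_univ _, ?_⟩
        have hx3' : sfSig W x = S := hx3
        show S ⊆ _
        rw [← hx3']
        intro v hv
        exact hv.1
      · exact absurd hi hn
    · refine (Set.finite_singleton ((hl i).some, (r.neA i).some, (∅ : Set (Σ i, W.Lb i)))).subset ?_
      rintro u (⟨hi', _⟩ | ⟨_, hu⟩)
      · exact absurd hi' hi
      · exact hu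
  exact hfin.to_subtype

theorem sf_doc_pa_ok (r : SfPa Y p W μ) (hl : ∀ i, Nonempty (W.Lb i)) {i : ℝ} (hi : i ∈ W.G) (ρ : r.Row hl i) :
    r.bel i ρ.1.1 ρ.1.2.1 ∧ (r.atm i ρ.1).Nonempty := by
  rcases ρ.2 with h1 | h1
  · exact h1.2
  · exact absurd hi h1.1

theorem sf_doc_pa_ix_cl (r : SfPa Y p W μ) (hc : Y.hyb = false) {i j : ℝ} {u : r.Key i} {v : r.Key j} (h : r.ix i u = r.ix j v) :
    r.pidx i u.2.1 = r.pidx j v.2.1 ∧ u.2.2 = v.2.2 := by
  unfold SfPa.ix at h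
  simp only [hc, Bool.false_eq_true, if_false, Prod.mk.injEq, Option.some.injEq] at h
  exact h

/-- **the atoms built from pre-atoms** -/
noncomputable def sfPaAt (hg : SfGeo Y) (hS : W.Str (Y.tq p)) (r : SfPa Y p W μ)
    (hne : ∀ i ∈ W.G, ∃ l, (sfDocSup Y p W i l).Nonempty) : SfAt Y p W μ where
  R := r.Row hS.lb_ne
  fR := fun i => @Fintype.ofFinite _ (sf_doc_pa_fin r hS.lb_ne i)
  neR := fun i => by
    by_cases hi : i ∈ W.G
    · obtain ⟨l, x, hx⟩ := hne i hi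
      obtain ⟨ρ, h1, h2⟩ := r.pa_cov i hi l x hx
      exact ⟨⟨(l, ρ, sfSig W x), Or.inl ⟨hi, h1, x, hx, h2, rfl⟩⟩⟩
    · exact ⟨⟨_, Or.inr ⟨hi, rfl⟩⟩⟩
  lb := fun _ ρ => ρ.1.1
  atm := fun i ρ => r.atm i ρ.1
  rp := fun i ρ => r.prp i ρ.1.2.1
  Idx := r.Idx0 × Option (Set (Σ i, W.Lb i))
  idx := fun i ρ => r.ix i ρ.1
  ia := r.ia
  at_meas := fun i hi ρ =>
    (sf_doc_rf_sup_meas Y p W hS hi ρ.1.1).inter ((r.pa_meas i hi ρ.1.2.1).inter (sf_doc_rf_sig_meas hS ρ.1.2.2))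
  at_disj := fun i hi ρ ρ' hl hne' => by
    refine Set.disjoint_left.2 fun x hx hx' => hne' (Subtype.ext (Prod.ext hl (Prod.ext ?_ ?_)))
    · by_contra hρ
      have e1 := (sf_doc_pa_ok r hS.lb_ne hi ρ).1
      have e2 := (sf_doc_pa_ok r hS.lb_ne hi ρ').1
      have hl' : ρ.1.1 = ρ'.1.1 := hl
      rw [hl'] at e1
      exact Set.disjoint_left.1 (r.pa_disj i hi _ _ _ e1 e2 hρ) hx.2.1 hx'.2.1
    · exact hx.2.2.symm.trans hx'.2.2
  at_ne := fun _ hi ρ => (sf_doc_pa_ok r hS.lb_ne hi ρ).2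
  at_cov := fun i hi l x => by
    constructor
    · intro hx
      obtain ⟨ρ, h1, h2⟩ := r.pa_cov i hi l x hx
      exact ⟨⟨(l, ρ, sfSig W x), Or.inl ⟨hi, h1, x, hx, h2, rfl⟩⟩, rfl, hx, h2, rfl⟩
    · rintro ⟨ρ, rfl, hx⟩
      exact hx.1
  rp_cell := fun i hi ρ => r.prp_cell i hi _ _ (sf_doc_pa_ok r hS.lb_ne hi ρ).1
  rp_cl := fun hc i hi j hj ρ ρ' hidx => r.prp_cl hc i hi j hj _ _ (sf_doc_pa_ix_cl r hc hidx).1
  small := fun i hi ρ x hx => r.small i hi ρ.1.1 ρ.1.2.1 (sf_doc_pa_ok r hS.lb_ne hi ρ).1 x hx.2.1 hx.1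
  ia_disj := fun a b hab => by
    refine Set.disjoint_left.2 fun ι h1 h2 => hab ?_
    obtain ⟨a1, a2⟩ := a
    obtain ⟨b1, b2⟩ := b
    have e1 : a1 = b1 := by
      by_contra hne'
      exact Set.disjoint_left.1 (r.pia_disj a1 b1 hne') h1.1 h2.1
    subst e1
    have q1 := h1.2
    have q2 := h2.2
    cases a2 with
    | none =>
      cases b2 with
      | none => rfl
      | some S' =>
        have t1 : Y.hyb = true := q1
        have t2 : Y.hyb = false := q2.1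
        rw [t1] at t2
        exact absurd t2 (by simp)
    | some S =>
      cases b2 with
      | none =>
        have t1 : Y.hyb = true := q2
        have t2 : Y.hyb = false := q1.1
        rw [t1] at t2
        exact absurd t2 (by simp)
      | some S' =>
        obtain ⟨hc, x, hx, rfl⟩ := q1
        obtain ⟨-, x', hx', rfl⟩ := q2
        rw [hg.cl_inj hc p (hx.trans hx'.symm)]
  ia_mem := fun i hi ρ x hx => by
    refine ⟨r.pia_mem i hi _ x hx.2.1, ?_⟩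
    by_cases hc : Y.hyb = true
    · simp only [SfPa.ix, hc, if_true]
    · have hc' : Y.hyb = false := by simpa using hc
      simp only [SfPa.ix, hc', Bool.false_eq_true, if_false]
      exact ⟨trivial, x, rfl, hx.2.2⟩
  ia_full := fun hc i hi ρ x hx => by
    obtain ⟨h1, h2⟩ := hx
    simp only [SfPa.ix, hc, Bool.false_eq_true, if_false] at h1 h2
    obtain ⟨-, x', hx', hs⟩ := h2
    have hxx : x' = x := hg.cl_inj hc p hx'
    subst hxx
    obtain ⟨y, hy⟩ := (sf_doc_pa_ok r hS.lb_ne hi ρ).2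
    exact ⟨sf_doc_sup_sig Y p W hi ρ.1.1 (hs.trans hy.2.2.symm) hy.1, r.pia_full hc i hi _ x' h1, hs⟩

theorem sf_doc_pa_eqns_cite2 : True := by
  have := @sfPaAt.eq_1
  trivial

/-! ## what the users need -/

section

variable (hg : SfGeo Y) (hS : W.Str (Y.tq p)) (r : SfPa Y p W μ) (hne : ∀ i ∈ W.G, ∃ l, (sfDocSup Y p W i l).Nonempty)

/-- the pre-atom of a row -/
def sfPaOf (i : ℝ) (u : (sfPaAt hg hS r hne).R i) : r.A i := u.1.2.1

theorem sf_doc_pa_sub {i : ℝ} (hi : i ∈ W.G) (u : (sfPaAt hg hS r hne).R i) :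
    (sfPaAt hg hS r hne).atm i u ⊆ r.pa i (sfPaOf hg hS r hne i u) ∧ (sfPaAt hg hS r hne).atm i u ⊆ sfDocSup Y p W i ((sfPaAt hg hS r hne).lb i u) ∧
      r.bel i ((sfPaAt hg hS r hne).lb i u) (sfPaOf hg hS r hne i u) :=
  ⟨fun _ hx => hx.2.1, fun _ hx => hx.1, (sf_doc_pa_ok r hS.lb_ne hi u).1⟩

theorem sf_doc_pa_rp (i : ℝ) (u : (sfPaAt hg hS r hne).R i) : (sfPaAt hg hS r hne).rp i u = r.prp i (sfPaOf hg hS r hne i u) := rfl

theorem sf_doc_pa_idx {i j : ℝ} (u : (sfPaAt hg hS r hne).R i) (v : (sfPaAt hg hS r hne).R j)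
    (h : (sfPaAt hg hS r hne).idx i u = (sfPaAt hg hS r hne).idx j v) : r.pidx i (sfPaOf hg hS r hne i u) = r.pidx j (sfPaOf hg hS r hne j v) :=
  congrArg Prod.fst h

theorem sf_doc_pa_idx_hy (hc : Y.hyb = true) {i j : ℝ} (u : (sfPaAt hg hS r hne).R i) (v : (sfPaAt hg hS r hne).R j)
    (h : r.pidx i (sfPaOf hg hS r hne i u) = r.pidx j (sfPaOf hg hS r hne j v)) : (sfPaAt hg hS r hne).idx i u = (sfPaAt hg hS r hne).idx j v := by
  show r.ix i u.1 = r.ix j v.1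
  have h' : r.pidx i u.1.2.1 = r.pidx j v.1.2.1 := h
  unfold SfPa.ix
  simp only [hc, if_true, h']

/-- one link of the new shadow = a link between the pre-atoms -/
theorem sf_doc_pa_step (ε : ℝ) {u v : Σ i, (sfPaAt hg hS r hne).R i} (h : (sfPaAt hg hS r hne).step ε u v) :
    sfNext W.G u.1 v.1 ∧ ∃ x ∈ r.pa u.1 (sfPaOf hg hS r hne u.1 u.2), ∃ x' ∈ r.pa v.1 (sfPaOf hg hS r hne v.1 v.2),
      x ∈ sfDocSup Y p W u.1 ((sfPaAt hg hS r hne).lb u.1 u.2) ∧ x' ∈ sfDocSup Y p W v.1 ((sfPaAt hg hS r hne).lb v.1 v.2) ∧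
      sfCn Y p (W.E.s ^ (-ε)) (W.T u.1 ((sfPaAt hg hS r hne).lb u.1 u.2)) (W.k u.1) (W.T v.1 ((sfPaAt hg hS r hne).lb v.1 v.2)) (W.k v.1) x x' := by
  obtain ⟨h1, x, hx, x', hx', h2⟩ := h
  exact ⟨h1, x, hx.2.1, x', hx'.2.1, hx.1, hx'.1, h2⟩

open Classical in
/-- the masses of the atoms inside a pre-atom add up -/
theorem sf_doc_pa_fib {i : ℝ} (hi : i ∈ W.G) (l : W.Lb i) (a : r.A i) (ha : r.bel i l a) :
    ∑ u : (sfPaAt hg hS r hne).R i, (if (sfPaAt hg hS r hne).lb i u = l ∧ sfPaOf hg hS r hne i u = a then (sfPaAt hg hS r hne).q i u else 0)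
      = (Y.M.sys p).en (W.T i l) (W.k i) (W.gb i) ((r.pa i a ∩ sfDocSup Y p W i l).indicator (W.th i l)) (W.pre i (W.iv i l)) := by
  have hth := sf_doc_th_mask hS hi l
  rw [← Finset.sum_filter]
  have s1 : ∑ u ∈ Finset.univ.filter (fun u : (sfPaAt hg hS r hne).R i => (sfPaAt hg hS r hne).lb i u = l ∧ sfPaOf hg hS r hne i u = a), (sfPaAt hg hS r hne).q i u
      = ∑ u ∈ Finset.univ.filter (fun u : (sfPaAt hg hS r hne).R i => (sfPaAt hg hS r hne).lb i u = l ∧ sfPaOf hg hS r hne i u = a),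
        (Y.M.sys p).en (W.T i l) (W.k i) (W.gb i) (((sfPaAt hg hS r hne).atm i u).indicator (W.th i l)) (W.pre i (W.iv i l)) := by
    refine Finset.sum_congr rfl fun u hu => ?_
    have hl := (Finset.mem_filter.1 hu).2.1
    unfold SfAt.q
    rw [hl]
  rw [s1, ← gn_en_sum _ _ _ _ _ (fun u _ => sf_doc_ind_mask hth ((sfPaAt hg hS r hne).at_meas i hi u))]
  congr 1
  ext x
  by_cases hx : x ∈ r.pa i a ∩ sfDocSup Y p W i l
  · rw [Set.indicator_of_mem hx]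
    obtain ⟨u0, hu0⟩ : ∃ u0 : (sfPaAt hg hS r hne).R i, u0 = ⟨(l, a, sfSig W x), Or.inl ⟨hi, ha, x, hx.2, hx.1, rfl⟩⟩ := ⟨_, rfl⟩
    have hx0 : x ∈ (sfPaAt hg hS r hne).atm i u0 := by
      rw [hu0]
      exact ⟨hx.2, hx.1, rfl⟩
    rw [Finset.sum_eq_single u0]
    · exact Set.indicator_of_mem hx0 _
    · intro u hu hne'
      obtain ⟨h1, h2⟩ := (Finset.mem_filter.1 hu).2
      refine Set.indicator_of_notMem (fun hxu => hne' ?_) _
      have hxu' : x ∈ r.atm i u.1 := hxu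
      rw [hu0]
      apply Subtype.ext
      have h1' : u.1.1 = l := h1
      have h2' : u.1.2.1 = a := h2
      exact Prod.ext h1' (Prod.ext h2' hxu'.2.2.symm)
    · intro hn
      refine absurd (Finset.mem_filter.2 ⟨Finset.mem_univ u0, ?_, ?_⟩) hn
      · rw [hu0]; rfl
      · rw [hu0]; rfl
  · rw [Set.indicator_of_notMem hx]
    refine Finset.sum_eq_zero fun u hu => ?_
    obtain ⟨h1, h2⟩ := (Finset.mem_filter.1 hu).2
    refine Set.indicator_of_notMem (fun hxu => hx ?_) _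
    have hxu' : x ∈ r.atm i u.1 := hxu
    have h1' : u.1.1 = l := h1
    have h2' : u.1.2.1 = a := h2
    refine ⟨?_, ?_⟩
    · rw [← h2']; exact hxu'.2.1
    · rw [← h1']; exact hxu'.1

end

end

/-- the refinement data of `Soft/MDocRef.lean` are pre-atoms -/
def SfRf.toPa {Y : SfCy} {p : Y.M.Par} {W : SfMD (Y.M.sys p)} {de ε μ : ℝ} {D : SfDoc} {sh : SfSh Y p W de ε μ D}
    {W' : SfMD (Y.M.sys p)} {μ' : ℝ} (r : SfRf Y p W sh W' μ') : SfPa Y p W' μ' where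
  A := fun i => D.Row (r.γ i)
  fA := fun i => D.fin (r.γ i)
  neA := fun i => sf_doc_rf_row_ne D (r.γ i)
  pa := fun i => sh.atm (r.γ i)
  bel := fun i l ρ => sh.lb (r.γ i) ρ = r.g i l
  prp := fun i => sh.rp (r.γ i)
  Idx0 := D.Idx
  pidx := fun i => D.idx (r.γ i)
  pia := sh.ia
  pa_meas := fun i hi => sh.at_meas (r.γ i) (r.hG i hi)
  pa_disj := fun i hi _ a a' h1 h2 h3 => sh.at_disj (r.γ i) (r.hG i hi) a a' (h1.trans h2.symm) h3
  pa_cov := r.hsup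
  prp_cell := fun i hi l ρ h => by
    have h1 := sh.rp_cell (r.γ i) (r.hG i hi) ρ
    rw [h, ← r.hts i hi, ← sf_doc_rf_T r hi, ← r.hk i hi] at h1
    exact h1
  prp_cl := fun hc i hi j hj => sh.rp_cl hc (r.γ i) (r.hG i hi) (r.γ j) (r.hG j hj)
  small := r.hsm
  pia_disj := sh.ia_disj
  pia_mem := fun i hi => sh.ia_mem (r.γ i) (r.hG i hi)
  pia_full := fun hc i hi => sh.ia_full hc (r.γ i) (r.hG i hi)

theorem sf_doc_pa_eqns_cite3 : True := by
  have := @SfRf.toPa.eq_1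
  have := @sfPaOf.eq_1
  trivial

end Claimed.Agent.R256
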