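import Claimed.Agent.R256.Soft.MGeDef
import Claimed.Agent.R256.Soft.Cal
import Claimed.Agent.R256.Soft.MDocPa
import Claimed.Agent.R256.Cyl.Defs

/-!
# Row 256 (S0496), unit SOFT, block M6 GE, file 4: THE EXITS OF THE SUB-BLOCKS AS `Prop`s      (architect helper105; TOP = helper217)

DEFINITIONS ONLY.   `sf_cal_ge` (Soft/MGeTop.lean, helper217) is glued from the `Prop`s of this file.      `α = a (j - i)` = the absolute accuracy;  `n' = d.X.n = k_j - k_i`, `s' = d.X.s = 2^-n'`;  `α n ≤ 2 a n'`.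
FLOW      `SfGeCov` (combinatorial part of `GeHyp`)
  ROOT   `SfGeRootX`   for every group: restored root rows `Nr` (hybrid: measurable `Λ`-neighbourhoods of the chain atoms at the same cut, made disjoint; classical: the atoms), `f0 = 4 Λ f_i`, `Λ = s^(-ε/4)`          (helper105/220)
  SEL    `SfGeSel`     one group `b`, budget `e`, regularity `ka`: `d.X` in the class, near extremal, relative counts at the kept gates                                                                       (helper169)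
  FRAME  `SfGeFrm`     `Q0'` with `sfFrameOf (root of d.X) Q0' = φ_b ∘ c.fr`; polynomial bounds for `φ_b`                                                                                                      (helper226)
  AF     `SfGeAf`      `Y.af C' A p d.X Q0'`                                                                                                                                                                  (helper163, on `Cyl/Frm2.lean` of helper272)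
  PRE    `SfGePre`     `d.W.Pre`, `Prep` at the root gate                                                                                                                                                      (helper272)
  DOC    `SfGeDoc`     `SfGePre`, `CyForward`, pre-atoms, shadow `c'`, `Sub`, `ob`, `Ext`                                                                                                                      (helper105)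
  CORE   `sf_core_y` (helper169) on `c'`: `Good π Ls S' t'`
  CF     `SfGeCf`      `Good π Ls S' t'` + labels `≤ s'^-K1` + `ek ≤ s'^-(4 K1 + 5)`  ⟹  `Good π Ls (cK K1) t'`      (bdd: `Core.own` + `sf_doc_mem_size`, widths by `Mat.wr`; hek: `Core.cnt` at the gate `1`)                    (helper226)
-/

set_option autoImplicit false

namespace Claimed.Agent.R256

open MeasureTheory Claimed.Agent.R255

/-- **the cover**: the combinatorial part of `SfCls.GeHyp` at the absolute accuracy `α` (junk values of `Conn` excluded: `u.1 < v.1`) -/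
structure SfGeCov (D : SfDoc) (i j : ℝ) (Gk : Finset ℝ) (ι : Type) (Sb Ub : ι → D.Rw → Prop) (α : ℝ) : Prop where
  gi : i ∈ D.G
  gj : j ∈ D.G
  kept : j ∈ Gk ∧ ∀ k ∈ Gk, k ∈ D.G ∧ i ≤ k ∧ k ≤ j
  /-- the kept gates are an UPPER SEGMENT of the gates of `D` in `[i,j]` (consecutive kept gates are consecutive gates of `D`) -/
  seg : ∀ g ∈ D.G, ∀ k ∈ Gk, k < g → g < j → g ∈ Gk
  ub_dep : ∀ b u, Ub b u → u.1 = j
  ub_disj : ∀ b b' u, Ub b u → Ub b' u → b = b'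
  ub_mass : D.s ^ α ≤ (D.P j).pr (fun ρ' => ∃ b, Ub b ⟨j, ρ'⟩)
  sb_dep : ∀ b u, Sb b u → u.1 = i
  sb_time : ∀ b u u', Sb b u → Sb b u' → (D.lab u.1 u.2).T = (D.lab u'.1 u'.2).T
  sb_pred : ∀ b (u v : D.Rw), Ub b v → u.1 = i → D.Conn u.1 v.1 u.2 v.2 → Sb b u
  sb_ovl : ∀ u, (({b | Sb b u} : Set ι).ncard : ℝ) ≤ D.s ^ (-α)
  lb_ovl : ∀ k ∈ Gk, ∀ lam : SfTest,
    (({b | ∃ u v : D.Rw, u.1 = k ∧ D.lab u.1 u.2 = lam ∧ Ub b v ∧ (u = v ∨ (u.1 < v.1 ∧ D.Conn u.1 v.1 u.2 v.2))} : Set ι).ncard : ℝ) ≤ D.s ^ (-α)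

/-- the marked end rows of the bin `b` that have a predecessor at the gate `i` (the others carry the mass `≤ s^(1/t)`: `Core.sp` with `S = ∅`) -/
def sfGeU (D : SfDoc) (i : ℝ) {ι : Type} (Ub : ι → D.Rw → Prop) (b : ι) (v : D.Rw) : Prop :=
  Ub b v ∧ ∃ u : D.Rw, u.1 = i ∧ D.Conn u.1 v.1 u.2 v.2

namespace SfGeD

variable {Y : SfCy} {de : ℝ} {c : SfCfg Y de} (d : SfGeD c)

/-- structural hypotheses on the data of a group -/
structure Ok : Prop where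
  hij : d.i < d.j
  gi : d.i ∈ c.W.G
  gj : d.j ∈ c.W.G
  kept : d.j ∈ d.Gk ∧ ∀ k ∈ d.Gk, k ∈ c.W.G ∧ d.i ≤ k ∧ k ≤ d.j
  /-- upper segment -/
  seg : ∀ g ∈ c.W.G, ∀ k ∈ d.Gk, k < g → g < d.j → g ∈ d.Gk
  u_dep : ∀ v, d.U v → v.1 = d.j
  /-- every marked row has a predecessor at the root gate, in the root interval -/
  u_pred : ∀ v, d.U v → ∃ u : c.D.Rw, u.1 = d.i ∧ c.D.Conn u.1 v.1 u.2 v.2 ∧ c.im u.1 u.2 = d.m0
  u_ne : ∃ v, d.U v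
  /-- every marked row has an admitted predecessor -/
  u_s0 : ∀ v, d.U v → ∃ u : c.D.Rw, u.1 = d.i ∧ c.D.Conn u.1 v.1 u.2 v.2 ∧ c.im u.1 u.2 = d.m0 ∧ d.S0 u

/-- **the restored root gate**: truncation `Λ`, error `ϰ`.   (If `i ∉ Gk` then `d.N = univ` and only `wid` matters.) -/
structure Root (Λ ϰ : ℝ) : Prop where
  meas : ∀ ρ, MeasurableSet (d.Nr (d.γ 0) ρ)
  disj : ∀ ρ ρ', d.chn ⟨d.γ 0, ρ⟩ → d.chn ⟨d.γ 0, ρ'⟩ → ρ ≠ ρ' → Disjoint (d.Nr (d.γ 0) ρ) (d.Nr (d.γ 0) ρ')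
  /-- every restored row is a `Λ`-neighbour (same cut, same exact index) of a row of the old atom -/
  near : ∀ ρ, d.chn ⟨d.γ 0, ρ⟩ → ∀ x' ∈ d.Nr (d.γ 0) ρ, ∃ x ∈ c.sh.atm (d.γ 0) ρ,
    sfCn Y c.p Λ (c.tm (d.γ 0) ρ) (c.W.k (d.γ 0)) (c.tm (d.γ 0) ρ) (c.W.k (d.γ 0)) x x'
  ne : ∃ ρ, d.chn ⟨d.γ 0, ρ⟩ ∧ (d.Nr (d.γ 0) ρ).Nonempty
  /-- classical model: old row ownership -/
  cl : Y.hyb = false → ∀ ρ, d.chn ⟨d.γ 0, ρ⟩ → d.Nr (d.γ 0) ρ = c.sh.atm (d.γ 0) ρ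
  /-- projection and synthesis approximate the identity on the group state -/
  appr : ∀ v : (Y.M.sys c.p).Kc, Real.sqrt ((Y.M.sys c.p).ms (tmL (c.W.k (d.γ 0)) d.m0) (c.W.k (d.γ 0)) d.b0 d.Nᶜ
    ((Y.M.sys c.p).tz (tmL (c.W.k (d.γ 0)) d.m0) (c.W.k (d.γ 0)) (c.W.gb (d.γ 0)) ((d.gS (d.γ 0) d.m0).indicator (c.W.gM (d.γ 0) d.m0)) v)) ≤ ϰ * ‖v‖
  wid : (2 + Λ) * c.W.f (d.γ 0) ≤ d.f0 ∧ d.f0 ≤ 4 * Λ * c.W.f (d.γ 0)

end SfGeD

variable (Y : SfCy) (π : SfPar) (Ls : ℝ)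

/-- the standing hypotheses on the old configuration: package `S`, absolute accuracy `α` -/
structure SfGeIn (c : SfCfg Y π.d) (S : ℕ) (C0 α : ℝ) : Prop where
  ob : c.ob S
  eps : 1 / ((S : ℝ) + 1) ≤ c.ε ∧ c.ε ≤ α
  good : c.D.Good π Ls C0 α
  ext : SfMD.Ext Y c.p c.W π.p π.d Ls c.ε α

/-- **ROOT**: for every family of marked rows the restored root gate exists, at the truncation `Λ = s^(-ε/4)`, with an error of any polynomial order `Cb` -/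
def SfGeRootX : Prop :=
  ∀ (S Cb : ℕ), ∃ n0 : ℕ, ∀ (c : SfCfg Y π.d) (C0 α : ℝ), SfGeIn Y π Ls c S C0 α → n0 ≤ c.W.E.n →
    ∀ (i j : ℝ) (Gk : Finset ℝ) (U S0 : c.D.Rw → Prop) (m0 : ℕ),
      (∀ Nr f0 Q0 e ka, (SfGeD.mk i j Gk U S0 m0 Nr f0 Q0 e ka : SfGeD c).Ok) →
    ∃ Nr : ∀ g, c.D.Row g → Set (Y.M.sys c.p).X, ∀ Q0 e ka,
      (SfGeD.mk i j Gk U S0 m0 Nr (4 * c.W.E.s ^ (-(c.ε / 4)) * c.W.f i) Q0 e ka : SfGeD c).Root (c.W.E.s ^ (-(c.ε / 4))) (c.W.E.s ^ (Cb : ℝ))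

/-- the conclusions of the selection for the data `d` -/
structure SfGeSelC {c : SfCfg Y π.d} (d : SfGeD c) (C' A' : ℕ) (τ a1 : ℝ) : Prop where
  cls : Y.M.Cls C' A' c.p d.X
  val : (2 : ℝ) ^ ((π.Γ - τ) * d.X.n) ≤ d.X.val
  cnt : ∀ g' ∈ d.G, ∑ l : d.Lb g', (Y.M.sys c.p).wt (d.ts g' l.1) ≤ d.X.s ^ (-a1) * (d.e / d.ka) * d.X.s ^ (-((π.p + π.d) * g'))
  /-- the budget is the raw mass read on the chain atoms of the root gate: at most the regularity times the weight of any test that contains them (`Ext.reg`) -/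
  ebd : ∀ Q, (Y.M.sys c.p).ok Q (c.W.k (d.γ 0)) → d.gS (d.γ 0) d.m0 ⊆ (Y.M.sys c.p).cell Q (tmL (c.W.k (d.γ 0)) d.m0) (c.W.k (d.γ 0)) →
    d.e ≤ d.ka * (Y.M.sys c.p).wt Q
  /-- the budget dominates the raw mass of the old prefix on the chain atoms of the root gate -/
  eraw : (Y.M.sys c.p).en (tmL (c.W.k (d.γ 0)) d.m0) (c.W.k (d.γ 0)) (c.W.gb (d.γ 0)) ((d.gS (d.γ 0) d.m0).indicator (c.W.gM (d.γ 0) d.m0)) (c.W.pre (d.γ 0) d.m0) ≤ d.e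

/-- **SEL**: Lemma cyl:group-extraction.   `a` = relative accuracy (package free);  `Cb` = the order of the root error that the selection tolerates -/
def SfGeSel : Prop :=
  ∀ τ a1 : ℝ, 0 < τ → 0 < a1 → ∃ a : ℝ, 0 < a ∧ ∀ (C0 h : ℝ), 0 < h → ∀ S : ℕ, ∃ C' Cb : ℕ, ∀ A' : ℕ, ∃ A n0 : ℕ,
    ∀ (c : SfCfg Y π.d) (i j : ℝ), h ≤ j - i → SfGeIn Y π Ls c S C0 (a * (j - i)) → A ≤ c.A → n0 ≤ c.W.E.n →
    ∀ (Gk : Finset ℝ) (ι : Type) [Finite ι] (Sb Ub : ι → c.D.Rw → Prop), SfGeCov c.D i j Gk ι Sb Ub (a * (j - i)) →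
    ∀ (m0 : ι → ℕ) (Nr : ι → ∀ g, c.D.Row g → Set (Y.M.sys c.p).X) (f0 : ℝ) (Q0 : ι → CyT), (∀ b u, Sb b u → c.im u.1 u.2 = m0 b) →
      (∀ b, (∃ v, sfGeU c.D i Ub b v) → ∀ e ka,
        (SfGeD.mk i j Gk (sfGeU c.D i Ub b) (fun _ => True) (m0 b) (Nr b) f0 (Q0 b) e ka : SfGeD c).Root (c.W.E.s ^ (-(c.ε / 4))) (c.W.E.s ^ (Cb : ℝ))) →
    ∃ (b : ι) (e ka : ℝ), (∃ v, sfGeU c.D i Ub b v) ∧
      SfGeSelC Y π (SfGeD.mk i j Gk (sfGeU c.D i Ub b) (fun _ => True) (m0 b) (Nr b) f0 (Q0 b) e ka : SfGeD c) C' A' τ a1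

/-- the frame `Q0'` of the piece is the old frame followed by `φ` -/
structure SfGeFr {c : SfCfg Y π.d} (d : SfGeD c) (φ : SfFrame) : Prop where
  r : d.Q0.r = c.W.r d.j
  f : d.Q0.f = c.W.f d.j
  ray : ∀ z, d.W.fr.ray z = φ.ray (c.fr.ray z)
  tst : ∀ Q, d.W.fr.tst Q = φ.tst (c.fr.tst Q)

/-- polynomial bounds in the frame `φ`: rows and labels on chains (exponent `K1`, scale `s'` of the piece; `K1` depends only on `C1`), Lipschitz constant `s^-K` on the rays of size `≤ s^-Kr` (old scale; `φ.ray` is QUADRATIC: the radius and the constant need two exponents; `Kr = S + 1` covers the old support) -/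
structure SfGeBd {c : SfCfg Y π.d} (d : SfGeD c) (φ : SfFrame) (K1 Kr K : ℝ) : Prop where
  lab : ∀ u, d.chn u → u.1 ∈ d.Gk → (φ.tst (c.D.lab u.1 u.2)).size ≤ d.X.s ^ (-K1)
  ray : ∀ u, d.chn u → u.1 = d.i → (φ.ray (c.D.ray u.1 u.2)).size ≤ d.X.s ^ (-K1)
  lip : ∀ z z' : SfRay, z.size ≤ c.D.s ^ (-Kr) → z'.size ≤ c.D.s ^ (-Kr) → (φ.ray z).dist (φ.ray z') ≤ c.D.s ^ (-K) * z.dist z'

/-- **FRAME**: composition of the frames, polynomial bounds.   `K1 = 2 |C1| + 1` -/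
def SfGeFrm : Prop :=
  ∀ (C1 C0 h : ℝ), 0 < h → ∀ S : ℕ, ∃ (K : ℝ) (n0 : ℕ), (S : ℝ) + 1 ≤ K ∧ ∀ (c : SfCfg Y π.d) (α : ℝ), SfGeIn Y π Ls c S C0 α → n0 ≤ c.W.E.n →
    ∀ (i j : ℝ) (Gk : Finset ℝ) (U S0 : c.D.Rw → Prop) (m0 : ℕ) (φ : SfFrame), h ≤ j - i → α ≤ (j - i) / 8 →
      (∀ Nr f0 Q0 e ka, (SfGeD.mk i j Gk U S0 m0 Nr f0 Q0 e ka : SfGeD c).Ok) →
      φ.L = c.D.len i → φ.r0 = c.D.r j → φ.F0 = c.D.f j →
      (∀ u v : c.D.Rw, U v → u.1 = i → c.D.Conn u.1 v.1 u.2 v.2 → S0 u →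
        (c.D.lab u.1 u.2).T = φ.T0 ∧ (φ.ray (c.D.ray u.1 u.2)).size ≤ c.D.s ^ (-(C1 * (j - i)))) →
      (∀ u v : c.D.Rw, U v → (u = v ∨ (u.1 < v.1 ∧ c.D.Conn u.1 v.1 u.2 v.2)) → u.1 ∈ Gk → (φ.tst (c.D.lab u.1 u.2)).size ≤ c.D.s ^ (-(C1 * (j - i)))) →
    ∃ Q0 : CyT, ∀ Nr f0 e ka, SfGeFr Y π (SfGeD.mk i j Gk U S0 m0 Nr f0 Q0 e ka : SfGeD c) φ ∧
      SfGeBd Y π (SfGeD.mk i j Gk U S0 m0 Nr f0 Q0 e ka : SfGeD c) φ (2 * |C1| + 1) ((S : ℝ) + 1) K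

/-- **AF**: a near extremal group in the class obeys the setup in the frame `φ ∘ c.fr`; its `e/κ` is bounded by the size of its support (`SfGeSelC.ebd`).   `Nh` : `n ≤ Nh n'` -/
def SfGeAf : Prop :=
  ∀ (S C Nh : ℕ) (K1 K : ℝ), 0 ≤ K1 → (S : ℝ) + 1 ≤ K → ∃ (C' A0 n0 : ℕ) (μ0 : ℝ), ∀ (c : SfCfg Y π.d) (C0 α : ℝ), SfGeIn Y π Ls c S C0 α → α ≤ 1 → μ0 ≤ c.μ →
    ∀ (d : SfGeD c) (φ : SfFrame) (A : ℕ) (τ a1 : ℝ), d.Ok → A0 ≤ A → n0 ≤ d.X.n → c.W.E.n ≤ Nh * d.X.n → τ ≤ π.Γ + 1 / 2 → SfGeSelC Y π d C A τ a1 →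
      SfGeFr Y π d φ → SfGeBd Y π d φ K1 ((S : ℝ) + 1) K →
      Y.af C' A c.p d.X d.Q0 ∧ d.e ≤ d.X.s ^ (-(4 * K1 + 5)) * (d.ka * cyWt Y.η d.Q0)

/-- **PRE**: the documented group experiment has the structure, the depths, the width ratios and the compatibility (M) of the old one, at the relative accuracy `a1` and any truncation exponent `ε' ≤ ε/4`; it is prepared at its root gate.
`Str`: `Soft/MGeDef.lean` (`stage`: the cut mask of a gate is the sum of the cut weights of its kept labels);   `depth`: `|k_g - k_i - g' n'| ≤ 4 α n ≤ 8 a n'`;   `wr`, `mm`: consecutive kept gates are consecutive old gates (`Ok.seg`), `s'^(-ε') ≤ s^(-ε)`;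
at the root gate a link `x̃ → x'` extends to `x → x'` at `2 Λ + s'^(-ε') ≤ s^(-ε)` (`Root.near`, `sf_cn_comp`), `Pd` and `be`, `K` do not see `N`, `D`, `f`;   `Prep` at `0`: `pre 0 m0 = psi`, `Valid.budget`, `Valid.reg`. -/
def SfGePre : Prop :=
  ∀ a1 : ℝ, 0 < a1 → ∃ a : ℝ, 0 < a ∧ ∀ h : ℝ, 0 < h → ∀ S : ℕ, ∃ n0 : ℕ,
    ∀ (c : SfCfg Y π.d) (C0 ϰ ε' : ℝ) (d : SfGeD c), h ≤ d.j - d.i → SfGeIn Y π Ls c S C0 (a * (d.j - d.i)) → n0 ≤ c.W.E.n →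
      d.Ok → d.Root (c.W.E.s ^ (-(c.ε / 4))) ϰ → d.X.Valid → d.Q0.r = c.W.r d.j → d.Q0.f = c.W.f d.j → 0 < ε' → ε' ≤ c.ε / 4 →
      (∀ g' ∈ d.G, ∑ l : d.Lb g', (Y.M.sys c.p).wt (d.ts g' l.1) ≤ d.X.s ^ (-a1) * (d.e / d.ka) * d.X.s ^ (-((π.p + π.d) * g'))) →
      d.W.Pre Y c.p π.p π.d Ls ε' a1 ∧ (d.i ∈ d.Gk → d.W.Prep Y c.p π.p π.d a1 0)

/-- what the documentation step returns -/
structure SfGeDocC {c : SfCfg Y π.d} (d : SfGeD c) (φ : SfFrame) (c' : SfCfg Y π.d) (e : c'.D.Rw → c.D.Rw) (S' A' : ℕ) (aF ε1 μ' t' : ℝ) : Prop where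
  ob : c'.ob S'
  eps : 1 / ((S' : ℝ) + 1) ≤ c'.ε ∧ c'.ε ≤ ε1
  hA : c'.A = A'
  hμ : c'.μ = μ'
  hn : c'.W.E.n = d.X.n
  hG : c'.D.G = d.G
  ext : SfMD.Ext Y c'.p c'.W π.p π.d Ls c'.ε aF
  hp : c'.hp = Y.H c.p * 2 ^ (c.W.k d.i) / d.Q0.f ^ 2
  hek : c'.D.ek = d.e / (d.ka * cyWt Y.η d.Q0)
  sub : c'.D.Sub c.D d.i d.j φ d.Gk t' e
  /-- every row of a gate (and every row at the depth `0`, even if `0` is not a gate) comes from a row on a chain -/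
  chn : ∀ u : c'.D.Rw, u.1 ∈ c'.D.G ∨ u.1 = 0 → d.chn (e u)

/-- **DOC**: `Pre` of `d.W`, forward preparation, pre-atoms, shadow, `Sub` -/
def SfGeDoc : Prop :=
  ∀ h' aF t' ε1 : ℝ, 0 < h' → 0 < aF → 0 < t' → 0 < ε1 → ∃ a a1 τ : ℝ, 0 < a ∧ 0 < a1 ∧ 0 < τ ∧
    ∀ (h K1 K : ℝ), 0 < h → 0 ≤ K1 → ∀ S C : ℕ, (S : ℝ) + 1 ≤ K → ∃ S' : ℕ, ∀ (A' : ℕ) (μ' : ℝ), ∃ (A n0 : ℕ) (μ0 : ℝ),
    ∀ (c : SfCfg Y π.d) (C0 ϰ : ℝ) (d : SfGeD c) (φ : SfFrame), h ≤ d.j - d.i → SfGeIn Y π Ls c S C0 (a * (d.j - d.i)) → n0 ≤ c.W.E.n → μ0 ≤ c.μ →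
      d.Ok → (∀ k ∈ d.Gk, ∀ l ∈ d.Gk, k < l → h' * (d.j - d.i) ≤ l - k) → (∀ k ∈ d.Gk, k = d.i ∨ h' * (d.j - d.i) ≤ k - d.i) → d.Root (c.W.E.s ^ (-(c.ε / 4))) ϰ →
      SfGeSelC Y π d C A τ a1 → Y.af C A c.p d.X d.Q0 → φ.L = c.D.len d.i → φ.r0 = c.D.r d.j → φ.F0 = c.D.f d.j →
      SfGeFr Y π d φ → SfGeBd Y π d φ K1 ((S : ℝ) + 1) K →
    ∃ (c' : SfCfg Y π.d) (e : c'.D.Rw → c.D.Rw), SfGeDocC Y π Ls d φ c' e S' A' aF ε1 μ' t'

/-- **CF**: the support constant of the piece depends only on `K1` (operator free) -/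
def SfGeCf : Prop :=
  ∃ cK : ℝ → ℝ, ∀ (D : SfDoc) (S' t' K1 : ℝ), 0 < t' → t' ≤ 1 → 0 ≤ K1 → D.s ≤ 1 / 32 → D.Good π Ls S' t' →
    (∀ i ∈ D.G, ∀ ρ, (D.lab i ρ).size ≤ D.s ^ (-K1)) → D.ek ≤ D.s ^ (-(4 * K1 + 5)) → D.Good π Ls (cK K1) t'

theorem sf_ge_iface_eqns_cite : True := by
  have := @sfGeU.eq_1
  have := @SfGeRootX.eq_1
  have := @SfGeSel.eq_1
  have := @SfGeFrm.eq_1
  have := @SfGeAf.eq_1
  have := @SfGeCf.eq_1
  have := @SfGePre.eq_1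
  have := @SfGeDoc.eq_1
  trivial

end Claimed.Agent.R256
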