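import Claimed.Agent.R256.Soft.MGeAf
import Claimed.Agent.R256.Soft.MGeIface

/-!
# Row 256 (S0496), unit SOFT, block M6 GE, part HEAVY/AF, file 2: THE EXIT `SfGeAf` OF `Soft/MGeIface.lean`      (architect helper163; prefix `sf_gh_`)

From the interface hypotheses (`SfGeIn`, `d.Ok`, `SfGeSelC`, `SfGeFr`, `SfGeBd`) to `SfGhD` of `Soft/MGeAf.lean`.
 (R)  `sf_gh_ray`   every physical row of a chain atom of the root gate has a ray of size `≤ s'^-(K1+1)` in the frame of the piece      (`SfSh.small`, `SfGeBd.lip`, `SfGeBd.ray`, `SfGeFr.ray`; `μ ≥ K`)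
 (D)  `sf_gh_dok`   `SfGhD c d C (⌈K1⌉₊ + 1) A`
 (E)  `sf_gh_ebd`   `e ≤ s'^-(4 K1 + 5) κ w`      (`SfGeSelC.ebd` at the enlarged test `cyEnl d.Q0 (s'^-(K1+1))`)
EXIT  `sf_gh_ge`.      TWO CHANGES OF THE INTERFACE ARE NEEDED (msg to helper105, 00:13Z): the hypothesis `eraw` (budget `≥` raw mass), `0 ≤ K1`, `S + 1 ≤ K`.
-/

set_option autoImplicit false

namespace Claimed.Agent.R256

open MeasureTheory Claimed.Agent.R255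

/-- triangle inequality for the size of a ray (`unfold SfRay.size SfRay.dist`; five times `|a| ≤ |a'| + |a - a'|` (`abs_sub_abs_le_abs_sub` / `abs_le` + `linarith`), `le_max_*` chains) -/
theorem sf_gh_size_tri (z z' : SfRay) : z.size ≤ z'.size + z.dist z' := by
  have key : ∀ a a' : ℝ, |a| ≤ |a'| + |a - a'| := fun a a' => by
    have := abs_sub_abs_le_abs_sub a a'
    linarith
  have s1 : |z'.X| ≤ z'.size := le_max_left _ _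
  have s2 : |z'.B| ≤ z'.size := (le_max_left _ _).trans (le_max_right _ _)
  have s3 : |z'.Y| ≤ z'.size := ((le_max_left _ _).trans (le_max_right _ _)).trans (le_max_right _ _)
  have s4 : |z'.N| ≤ z'.size := (((le_max_left _ _).trans (le_max_right _ _)).trans (le_max_right _ _)).trans (le_max_right _ _)
  have s5 : |z'.D| ≤ z'.size := (((le_max_right _ _).trans (le_max_right _ _)).trans (le_max_right _ _)).trans (le_max_right _ _)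
  have d1 : |z.X - z'.X| ≤ z.dist z' := le_max_left _ _
  have d2 : |z.B - z'.B| ≤ z.dist z' := (le_max_left _ _).trans (le_max_right _ _)
  have d3 : |z.Y - z'.Y| ≤ z.dist z' := ((le_max_left _ _).trans (le_max_right _ _)).trans (le_max_right _ _)
  have d4 : |z.N - z'.N| ≤ z.dist z' := (((le_max_left _ _).trans (le_max_right _ _)).trans (le_max_right _ _)).trans (le_max_right _ _)
  have d5 : |z.D - z'.D| ≤ z.dist z' := (((le_max_right _ _).trans (le_max_right _ _)).trans (le_max_right _ _)).trans (le_max_right _ _)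
  have k1 := key z.X z'.X
  have k2 := key z.B z'.B
  have k3 := key z.Y z'.Y
  have k4 := key z.N z'.N
  have k5 := key z.D z'.D
  exact max_le (by linarith) (max_le (by linarith) (max_le (by linarith) (max_le (by linarith) (by linarith))))

/-- the size of the ray in a frame = the sizes of the normalised coordinates (`cy_nr_ray`; `unfold SfRay.size cyRay cyU cyBaseSz cyNorSz`; `max_le_iff`) -/
theorem sf_gh_sz (T0 l : ℝ) (Q : CyT) (z : Cy5) (t : ℝ) (h : ((sfFrameOf T0 l Q).ray (sfRayAt T0 z)).size ≤ t) : cyBaseSz Q l z ≤ t ∧ cyNorSz Q l z ≤ t := by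
  rw [cy_nr_ray] at h
  unfold SfRay.size cyRay cyU at h
  simp only [max_le_iff] at h
  obtain ⟨h1, h2, h3, h4, h5⟩ := h
  exact ⟨max_le h1 (max_le h2 h3), max_le h4 h5⟩

section

variable {Y : SfCy} {π : SfPar} {Ls : ℝ}

/-- `γ 0 = i`, `γ 1 = j` -/
theorem sf_gh_gam {de : ℝ} {c : SfCfg Y de} (d : SfGeD c) : d.γ 0 = d.i ∧ d.γ 1 = d.j := by
  unfold SfGeD.γ
  constructor <;> ring

/-- a physical row of the chain atoms of the root gate lies in an atom of a row on a chain, in the root interval -/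
theorem sf_gh_mem {de : ℝ} {c : SfCfg Y de} (d : SfGeD c) (x : (Y.M.sys c.p).X) (hx : x ∈ d.gS (d.γ 0) d.m0) :
    ∃ ρ : c.D.Row (d.γ 0), d.chn ⟨d.γ 0, ρ⟩ ∧ c.im (d.γ 0) ρ = d.m0 ∧ x ∈ c.sh.atm (d.γ 0) ρ := by
  obtain ⟨-, hx2⟩ := hx
  unfold SfCfg.aS at hx2
  simp only [Set.mem_iUnion, exists_prop] at hx2
  obtain ⟨ρ, ⟨h1, h2⟩, h3⟩ := hx2
  exact ⟨ρ, h1, h2, h3⟩

/-- `x ≤ s^-a + 1` gives `x ≤ s^-(a+1)` for `s ≤ 1/2` -/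
theorem sf_gh_ray_num {s a x : ℝ} (hs0 : 0 < s) (hs : s ≤ 1 / 2) (ha : 0 ≤ a) (hx : x ≤ s ^ (-a) + 1) : x ≤ s ^ (-(a + 1)) := by
  have h1 : 1 ≤ s ^ (-a) := Real.one_le_rpow_of_pos_of_le_one_of_nonpos hs0 (by linarith) (by linarith)
  have h2 : (2 : ℝ) ≤ s ^ (-1 : ℝ) := by
    rw [Real.rpow_neg_one, le_inv_comm₀ (by norm_num) hs0]
    linarith
  have e : s ^ (-(a + 1)) = s ^ (-a) * s ^ (-1 : ℝ) := by
    rw [← Real.rpow_add hs0]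
    congr 1
    ring
  rw [e]
  nlinarith

/-- the scale of an experiment of depth `≥ 1` -/
theorem sf_gh_ray_s {P : PkSys} (E : Xp P) (hn : 1 ≤ E.n) : 0 < E.s ∧ E.s ≤ 1 / 2 := by
  unfold Xp.s
  refine ⟨by positivity, ?_⟩
  calc ((2 : ℝ)⁻¹) ^ E.n ≤ ((2 : ℝ)⁻¹) ^ 1 := pow_le_pow_of_le_one (by norm_num) (by norm_num) hn
    _ = 1 / 2 := by norm_num

/-- **(R)**.   PLAN: `ρ` from `sf_gh_mem`.   `T0 := tmL (c.W.k (d.γ 0)) d.m0 = c.W.T (d.γ 0) (c.sh.lb (d.γ 0) ρ)` (`unfold SfMD.T`, `SfCfg.im` at `him`).   `z := c.fr.ray (sfRayAt T0 (co T0 x))`, `z' := c.D.ray (d.γ 0) ρ`.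
`c.sh.small (d.γ 0) hg ρ x hx : z.dist z' ≤ c.W.E.s ^ c.μ` (`c.fr` unfolds to the frame of `small`).   `hin.ob.2.2.2.2 (d.γ 0) (c.sh.hG ▸ hg) ρ : z'.size ≤ c.D.s ^ (-S)`; `c.sh.hs : c.D.s = c.W.E.s`.   With `s = c.W.E.s ≤ 1/2` (`1 ≤ n' ≤ n`... use `hn1 : 1 ≤ c.W.E.n`), `K ≤ μ`, `0 ≤ K`:
`s^μ ≤ 1`, `z.size ≤ s^-S + 1 ≤ s^-(S+1) ≤ s^-K` (`sf_gh_size_tri`), `z'.size ≤ s^-K`;   `hbd.lip z z' : (φ.ray z).dist (φ.ray z') ≤ s^-K s^μ ≤ 1`;   `hbd.ray ⟨d.γ 0, ρ⟩ hchn (sf_gh_gam d).1 : (φ.ray z').size ≤ s'^-K1`;   `sf_gh_size_tri`: `(φ.ray z).size ≤ s'^-K1 + 1 ≤ 2 s'^-K1 ≤ s'^-(K1+1)`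
(`s' = d.X.s ≤ 1/2` by `hn' : 1 ≤ d.X.n`);   `hfr.ray _ : d.W.fr.ray _ = φ.ray (c.fr.ray _)`; `d.W.fr` unfolds (`SfMD.fr`, `rfl`) to the frame of the statement. -/
theorem sf_gh_ray {c : SfCfg Y π.d} {S : ℕ} {C0 α K1 K : ℝ} (hK1 : 0 ≤ K1) (hK : (S : ℝ) + 1 ≤ K) (hin : SfGeIn Y π Ls c S C0 α) (hμ : K ≤ c.μ)
    {d : SfGeD c} {φ : SfFrame} (hok : d.Ok) (hn' : 1 ≤ d.X.n) (hn1 : 1 ≤ c.W.E.n) (hfr : SfGeFr Y π d φ) (hbd : SfGeBd Y π d φ K1 ((S : ℝ) + 1) K)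
    (x : (Y.M.sys c.p).X) (hx : x ∈ d.gS (d.γ 0) d.m0) :
    ((sfFrameOf (tmL (c.W.k (d.γ 0)) d.m0) ((2 : ℝ)⁻¹ ^ c.W.k (d.γ 0)) d.Q0).ray
      (sfRayAt (tmL (c.W.k (d.γ 0)) d.m0) (Y.co c.p (tmL (c.W.k (d.γ 0)) d.m0) x))).size ≤ d.X.s ^ (-(K1 + 1)) := by
  obtain ⟨ρ, hchn, him, hxa⟩ := sf_gh_mem d x hx
  have hg : d.γ 0 ∈ c.W.G := by rw [(sf_gh_gam d).1]; exact hok.gi
  have hgD : d.γ 0 ∈ c.D.G := by rw [c.sh.hG]; exact hg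
  have hT : c.W.T (d.γ 0) (c.sh.lb (d.γ 0) ρ) = tmL (c.W.k (d.γ 0)) d.m0 := by
    unfold SfMD.T
    rw [show c.W.iv (d.γ 0) (c.sh.lb (d.γ 0) ρ) = d.m0 from him]
  have hsm := c.sh.small (d.γ 0) hg ρ x hxa
  rw [hT] at hsm
  have hz' := (hin.ob.2.2.2.2 (d.γ 0) hgD ρ).1
  obtain ⟨hs0, hs2⟩ := sf_gh_ray_s c.W.E hn1
  obtain ⟨ht0, ht2⟩ := sf_gh_ray_s d.X hn'
  rw [← c.sh.hs] at hs0 hs2 hsm
  have hlip := hbd.lip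
  have hray := hbd.ray ⟨d.γ 0, ρ⟩ hchn (sf_gh_gam d).1
  have hfr1 := hfr.ray (sfRayAt (tmL (c.W.k (d.γ 0)) d.m0) (Y.co c.p (tmL (c.W.k (d.γ 0)) d.m0) x))
  have hgoal : (sfFrameOf (tmL (c.W.k (d.γ 0)) d.m0) ((2 : ℝ)⁻¹ ^ c.W.k (d.γ 0)) d.Q0) = d.W.fr := rfl
  rw [hgoal, hfr1]
  have hz : c.fr.ray (sfRayAt (tmL (c.W.k (d.γ 0)) d.m0) (Y.co c.p (tmL (c.W.k (d.γ 0)) d.m0) x))
      = (sfFrameOf (tmL c.W.E.k0 c.W.E.i0) ((2 : ℝ)⁻¹ ^ c.W.E.k0) c.W.Q0).ray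
        (sfRayAt (tmL (c.W.k (d.γ 0)) d.m0) (Y.co c.p (tmL (c.W.k (d.γ 0)) d.m0) x)) := rfl
  rw [← hz] at hsm
  obtain ⟨z, hzd⟩ : ∃ z, z = c.fr.ray (sfRayAt (tmL (c.W.k (d.γ 0)) d.m0) (Y.co c.p (tmL (c.W.k (d.γ 0)) d.m0) x)) := ⟨_, rfl⟩
  rw [← hzd] at hsm ⊢
  obtain ⟨s, hsd⟩ : ∃ s, s = c.D.s := ⟨_, rfl⟩
  rw [← hsd] at hs0 hs2 hsm hz' hlip
  have hs1 : s < 1 := by linarith
  have hS0 : (0 : ℝ) ≤ S := Nat.cast_nonneg _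
  have hμ1 : s ^ c.μ ≤ 1 := Real.rpow_le_one hs0.le hs1.le (by linarith)
  have a1 : z.size ≤ s ^ (-((S : ℝ) + 1)) := by
    have h1 := sf_gh_size_tri z (c.D.ray (d.γ 0) ρ)
    have h2 : z.size ≤ s ^ (-((S : ℝ) + 1)) := sf_gh_ray_num hs0 hs2 hS0 (by linarith)
    exact h2.trans (Real.rpow_le_rpow_of_exponent_ge hs0 hs1.le (by linarith))
  have a2 : (c.D.ray (d.γ 0) ρ).size ≤ s ^ (-((S : ℝ) + 1)) := hz'.trans (Real.rpow_le_rpow_of_exponent_ge hs0 hs1.le (by linarith))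
  have a3 : (φ.ray z).dist (φ.ray (c.D.ray (d.γ 0) ρ)) ≤ 1 := by
    refine (hlip z _ a1 a2).trans ?_
    calc s ^ (-K) * z.dist (c.D.ray (d.γ 0) ρ) ≤ s ^ (-K) * s ^ c.μ :=
          mul_le_mul_of_nonneg_left hsm (Real.rpow_nonneg hs0.le _)
      _ = s ^ (c.μ - K) := by
          rw [← Real.rpow_add hs0]
          congr 1
          ring
      _ ≤ 1 := Real.rpow_le_one hs0.le hs1.le (by linarith)
  have a4 := sf_gh_size_tri (φ.ray z) (φ.ray (c.D.ray (d.γ 0) ρ))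
  exact sf_gh_ray_num ht0 ht2 hK1 (by linarith)

/-- **(D)**.   PLAN: `str := hin.ob.2.2.1`;  `gate`: `(sf_gh_gam d).1 ▸ hok.gi`;  `cls := hsel.cls`;  `val`: `gn_two_mono` with `-(n'/2) ≤ (Γ - τ) n'` (`hτ`, `nlinarith`), then `hsel.val`;
`wd`: `hin.ob.2.2.1.width (d.γ 1) ((sf_gh_gam d).2 ▸ hok.gj) l` gives `c.W.r (d.γ 1)`, `c.W.f (d.γ 1)`; `rw [(sf_gh_gam d).2]`, `hfr.r`, `hfr.f`;
`raw`: `hraw.trans` (`d.e ≤ s'^-Kn d.e`: `1 ≤ s'^-Kn`, `0 < d.e = d.X.e` by `hsel.cls.2.1.e_pos`);  `ray`: `hray x hx` then `gn_s_anti d.X` (`K1 + 1 ≤ ⌈K1⌉₊ + 1`: `Nat.le_ceil`, `push_cast`). -/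
theorem sf_gh_dok {c : SfCfg Y π.d} {S C A : ℕ} {C0 α K1 τ a1 : ℝ} (hin : SfGeIn Y π Ls c S C0 α) {d : SfGeD c} {φ : SfFrame} (hok : d.Ok)
    (hτ : τ ≤ π.Γ + 1 / 2) (hsel : SfGeSelC Y π d C A τ a1) (hfr : SfGeFr Y π d φ)
    (hraw : (Y.M.sys c.p).en (tmL (c.W.k (d.γ 0)) d.m0) (c.W.k (d.γ 0)) (c.W.gb (d.γ 0)) ((d.gS (d.γ 0) d.m0).indicator (c.W.gM (d.γ 0) d.m0)) (c.W.pre (d.γ 0) d.m0) ≤ d.e)
    (hray : ∀ x ∈ d.gS (d.γ 0) d.m0, ((sfFrameOf (tmL (c.W.k (d.γ 0)) d.m0) ((2 : ℝ)⁻¹ ^ c.W.k (d.γ 0)) d.Q0).ray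
      (sfRayAt (tmL (c.W.k (d.γ 0)) d.m0) (Y.co c.p (tmL (c.W.k (d.γ 0)) d.m0) x))).size ≤ d.X.s ^ (-(K1 + 1))) :
    SfGhD c d C (⌈K1⌉₊ + 1) A := by
  obtain ⟨g0, g1⟩ := sf_gh_gam d
  have hstr := hin.ob.2.2.1
  have hs1 : (1 : ℝ) ≤ d.X.s ^ (-((⌈K1⌉₊ + 1 : ℕ) : ℝ)) :=
    Real.one_le_rpow_of_pos_of_le_one_of_nonpos (gn_s_pos d.X) (gn_s_le_one d.X) (neg_nonpos.2 (Nat.cast_nonneg _))
  have he : 0 < d.e := hsel.cls.2.1.e_pos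
  refine ⟨hstr, g0 ▸ hok.gi, hsel.cls, ?_, ?_, ?_, ?_⟩
  · refine (gn_two_mono ?_).trans hsel.val
    have hn : (0 : ℝ) ≤ d.X.n := Nat.cast_nonneg _
    nlinarith
  · intro l
    have h := hstr.width (d.γ 1) (g1 ▸ hok.gj) l
    rw [hfr.r, hfr.f, ← g1]
    exact h
  · refine hraw.trans ?_
    nlinarith
  · intro x hx
    refine (hray x hx).trans (gn_s_anti d.X ?_)
    have := Nat.le_ceil K1
    push_cast
    linarith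

/-- **(E)**.   PLAN: `hr, hf, hd` from `sf_gh_norm H hn' (sf_gh_d_hyp H hD)` (widths of `d.Q0` positive, `dl ≤ f`).   `t := d.X.s ^ (-(K1 + 1)) ≥ 1`, `Q := H.mkT c.p (cyEnl d.Q0 t)`; `ok`: `H.ok`, `H.tq_mk` as in `sf_gh_heavy`;
`d.gS .. ⊆ cell Q`: `H.cell`, `H.tq_mk`, `sf_gh_cell d.Q0 hr hf _ t _ ht1 _ (sf_gh_sz .. (hray x hx)).1 (..).2`;   `hsel.ebd Q hok hsub : d.e ≤ d.ka * wt Q`; `H.wt`, `H.tq_mk`, `sf_gh_wt`: `wt Q = t⁴ cyWt η d.Q0`; `t⁴ = s'^-(4K1+4) ≤ s'^-(4K1+5)` (`← Real.rpow_natCast`, `← Real.rpow_mul`, `gn_s_anti`); `0 < d.ka`. -/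
theorem sf_gh_ebd (H : CyHyp Y) {c : SfCfg Y π.d} {C Kn A : ℕ} {K1 τ a1 : ℝ} (hK1 : 0 ≤ K1) {d : SfGeD c} (hn' : 1 ≤ d.X.n) (hsel : SfGeSelC Y π d C A τ a1) (hD : SfGhD c d C Kn A)
    (hray : ∀ x ∈ d.gS (d.γ 0) d.m0, ((sfFrameOf (tmL (c.W.k (d.γ 0)) d.m0) ((2 : ℝ)⁻¹ ^ c.W.k (d.γ 0)) d.Q0).ray
      (sfRayAt (tmL (c.W.k (d.γ 0)) d.m0) (Y.co c.p (tmL (c.W.k (d.γ 0)) d.m0) x))).size ≤ d.X.s ^ (-(K1 + 1))) :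
    d.e ≤ d.X.s ^ (-(4 * K1 + 5)) * (d.ka * cyWt Y.η d.Q0) := by
  obtain ⟨hr, hf, hd, -⟩ := sf_gh_norm H hn' (sf_gh_d_hyp H hD)
  have hs := gn_s_pos d.X
  have ht0 : 0 < d.X.s ^ (-(K1 + 1)) := Real.rpow_pos_of_pos hs _
  have ht1 : 1 ≤ d.X.s ^ (-(K1 + 1)) := by
    have := gn_s_anti d.X (y := -(K1 + 1)) (y' := 0) (by linarith)
    rwa [Real.rpow_zero] at this
  have hka : 0 < d.ka := hsel.cls.2.1.ka_pos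
  have hw0 : 0 < cyWt Y.η d.Q0 := by
    unfold cyWt
    positivity
  have hok : (Y.M.sys c.p).ok (H.mkT c.p (cyEnl d.Q0 (d.X.s ^ (-(K1 + 1))))) (c.W.k (d.γ 0)) := by
    rw [H.ok, H.tq_mk]
    refine ⟨mul_pos ht0 hr, mul_pos ht0 hf, hd.trans ?_⟩
    show d.Q0.f ≤ d.X.s ^ (-(K1 + 1)) * d.Q0.f
    nlinarith
  have hsub : d.gS (d.γ 0) d.m0 ⊆ (Y.M.sys c.p).cell (H.mkT c.p (cyEnl d.Q0 (d.X.s ^ (-(K1 + 1))))) (tmL (c.W.k (d.γ 0)) d.m0) (c.W.k (d.γ 0)) := by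
    intro x hx
    rw [H.cell, H.tq_mk]
    obtain ⟨z1, z2⟩ := sf_gh_sz _ _ _ _ _ (hray x hx)
    exact sf_gh_cell d.Q0 hr hf _ _ (by positivity) ht1 _ z1 z2
  have h1 := hsel.ebd _ hok hsub
  rw [H.wt, H.tq_mk, sf_gh_wt Y.η d.Q0 hr hf _ ht0] at h1
  have e4 : (d.X.s ^ (-(K1 + 1))) ^ 4 ≤ d.X.s ^ (-(4 * K1 + 5)) := by
    rw [← Real.rpow_natCast (d.X.s ^ (-(K1 + 1))) 4, ← Real.rpow_mul hs.le]
    refine gn_s_anti d.X ?_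
    push_cast
    linarith
  calc d.e ≤ d.ka * ((d.X.s ^ (-(K1 + 1))) ^ 4 * cyWt Y.η d.Q0) := h1
    _ = (d.X.s ^ (-(K1 + 1))) ^ 4 * (d.ka * cyWt Y.η d.Q0) := by ring
    _ ≤ _ := mul_le_mul_of_nonneg_right e4 (mul_pos hka hw0).le

/-- **AF** (= `SfGeAf` with the hypotheses `0 ≤ K1`, `S + 1 ≤ K`, `eraw`) -/
theorem sf_gh_ge (H : CyHyp Y) (π : SfPar) (Ls : ℝ) (S C Nh : ℕ) (K1 K : ℝ) (hK1 : 0 ≤ K1) (hK : (S : ℝ) + 1 ≤ K) :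
    ∃ (C' A0 n0 : ℕ) (μ0 : ℝ), ∀ (c : SfCfg Y π.d) (C0 α : ℝ), SfGeIn Y π Ls c S C0 α → α ≤ 1 → μ0 ≤ c.μ →
    ∀ (d : SfGeD c) (φ : SfFrame) (A : ℕ) (τ a1 : ℝ), d.Ok → A0 ≤ A → n0 ≤ d.X.n → c.W.E.n ≤ Nh * d.X.n → τ ≤ π.Γ + 1 / 2 → SfGeSelC Y π d C A τ a1 →
      (Y.M.sys c.p).en (tmL (c.W.k (d.γ 0)) d.m0) (c.W.k (d.γ 0)) (c.W.gb (d.γ 0)) ((d.gS (d.γ 0) d.m0).indicator (c.W.gM (d.γ 0) d.m0)) (c.W.pre (d.γ 0) d.m0) ≤ d.e →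
      SfGeFr Y π d φ → SfGeBd Y π d φ K1 ((S : ℝ) + 1) K →
      Y.af C' A c.p d.X d.Q0 ∧ d.e ≤ d.X.s ^ (-(4 * K1 + 5)) * (d.ka * cyWt Y.η d.Q0) := by
  obtain ⟨C', A0, n0, h⟩ := sf_gh_d H C (⌈K1⌉₊ + 1)
  refine ⟨C', A0, max n0 1, K, fun c C0 α hin _ hμ d φ A τ a1 hok hA hn _ hτ hsel hraw hfr hbd => ?_⟩
  have hn' : 1 ≤ d.X.n := (le_max_right _ _).trans hn
  have hn1 : 1 ≤ c.W.E.n := by
    have hs := hin.ob.2.2.1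
    have h1 := (hs.k_rg (d.γ 1) ((sf_gh_gam d).2 ▸ hok.gj)).2
    have h0 := (hs.k_rg (d.γ 0) ((sf_gh_gam d).1 ▸ hok.gi)).1
    have e : d.X.n = c.W.k (d.γ 1) - c.W.k (d.γ 0) := rfl
    have e2 : c.W.E.kf = c.W.E.k0 + c.W.E.n := rfl
    omega
  have hray := sf_gh_ray hK1 hK hin hμ hok hn' hn1 hfr hbd
  have hD := sf_gh_dok hin hok hτ hsel hfr hraw hray
  exact ⟨h c d A ((le_max_left _ _).trans hn) hA hD, sf_gh_ebd H hK1 hn' hsel hD hray⟩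

/-- **EXIT (AF)** -/
theorem sf_gh_exit (H : CyHyp Y) (π : SfPar) (Ls : ℝ) : SfGeAf Y π Ls := by
  intro S C Nh K1 K hK1 hK
  obtain ⟨C', A0, n0, μ0, h⟩ := sf_gh_ge H π Ls S C Nh K1 K hK1 hK
  exact ⟨C', A0, n0, μ0, fun c C0 α hin hα hμ d φ A τ a1 hok hA hn hN hτ hsel hfr hbd =>
    h c C0 α hin hα hμ d φ A τ a1 hok hA hn hN hτ hsel hsel.eraw hfr hbd⟩

end

end Claimed.Agent.R256
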