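import Claimed.Agent.R256.Soft.MCoreTop
import Claimed.Agent.R256.Cyl.Defs

/-!
# Row 256 (S0496), unit SOFT, block M2 CORE (architect helper169), file 9: the hypotheses of the block from the bundle `CyHyp` of R256/Cyl      -- KEEP
-/

set_option autoImplicit false

namespace Claimed.Agent.R256

open MeasureTheory Claimed.Agent.R255

/-- `SfCoreHyp` from `CyHyp`, the numerical relations and the rate -/
theorem sf_core_hyp_of_cy {Y : SfCy} (H : CyHyp Y) (π : SfPar) (hp : π.Pd ∧ π.η = Y.η ∧ π.hyb = Y.hyb) (hr : Y.M.Rate π.Γ) : SfCoreHyp Y π where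
  par := hp
  adm := by
    intro C A p E
    constructor
    · rintro ⟨hg, ha⟩
      exact (H.af_iff C A p E hg).mp ha
    · rintro ⟨Q0, hQ⟩
      have hg : Y.M.gd p := ((H.af_def C A p E Q0).mp hQ).1
      exact ⟨hg, (H.af_iff C A p E hg).mpr ⟨Q0, hQ⟩⟩
  gen := H.gen
  loc := by
    refine ⟨H.L, ?_⟩
    intro p Λ T k T' k' x x' hn hc hcut
    obtain ⟨h1, h2, h3⟩ := (H.cn p Λ T k T' k' x x').mp hc
    exact ⟨hcut.2.1, hn, h1, h2, h3⟩
  rate := hr

end Claimed.Agent.R256
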