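import Claimed.Agent.R256.Soft.MResMod
import Claimed.Agent.R256.Soft.MCoreCy
import Claimed.Agent.R256.Soft.Entry

/-!
# Row 256 (S0496), unit SOFT, M4 RES, file 7: ASSEMBLY      (architect helper200; block BP-256-SOFT-RES; prefix `sf_res_`)

`sfResCfg` = the configuration behind the shadow of a refinement;   `sf_res_body` = the body of `SfCls.CalRs` for the class of shadows, from `CyHyp Y`, `CyForward Y` and the statement `SfCoreP` of `sf_core_y`;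
`sf_res_main` = the same with CORE discharged (`sf_res_core`).   NO SORRY in the block RES.   The lower bound `1/(S+1) ≤ ε` (to become part of `ob`) is an explicit hypothesis and conclusion; the mesh condition is `CyGap`.
-/

set_option autoImplicit false

namespace Claimed.Agent.R256

open MeasureTheory Claimed.Agent.R255

/-- the statement of `sf_core_y` (block CORE, helper169) -/
def SfCoreP (Y : SfCy) (π : SfPar) (Ls : ℝ) : Prop :=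
  ∀ t h : ℝ, 0 < t → 0 < h → ∃ a ε0 μ0 : ℝ, 0 < a ∧ 0 < ε0 ∧ ∀ C : ℕ, ∃ A n0 : ℕ, ∀ c : SfCfg Y π.d, c.ob C → 1 / ((C : ℝ) + 1) ≤ c.ε → A ≤ c.A → n0 ≤ c.W.E.n →
    SfMD.Ext Y c.p c.W π.p π.d Ls c.ε a → c.ε ≤ ε0 → μ0 ≤ c.μ → c.D.GapK h → c.D.Good π Ls C t

/-- CORE is closed -/
theorem sf_res_core (Y : SfCy) (hY : (∃ η, Y = sfCl η) ∨ ∃ η, Y = sfHy η) (H : CyHyp Y) (π : SfPar) (Ls : ℝ)
    (hpar : π.Pd ∧ π.η = Y.η ∧ π.hyb = Y.hyb) (hr : Y.M.Rate π.Γ) : SfCoreP Y π Ls :=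
  fun t h ht hh => sf_core_y hY π Ls (sf_core_hyp_of_cy H π hpar hr) t h ht hh

section

variable {Y : SfCy} {de : ℝ} (c : SfCfg Y de) {W' : SfMD (Y.M.sys c.p)} {i0 : ℝ} {R : ∀ j, c.W.Lb j → Set (Y.M.sys c.p).X}
  (F : SfRn W' c.W i0 R) (hR : SfRs c.sh i0 R) (hS : c.W.Str (Y.tq c.p)) (hl : ∀ j, Nonempty (W'.Lb j))
  (hne : ∀ j ∈ c.W.G, ∃ l', (sfDocSup Y c.p W' j l').Nonempty) (hsum : (sfResAt c.sh F hR hS hl hne).Sum)

/-- the configuration of the refinement: same parameter, tail order, truncation, fineness -/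
noncomputable def sfResCfg : SfCfg Y de where
  p := c.p
  W := W'
  A := c.A
  ε := c.ε
  μ := c.μ
  D := sfResDoc c.sh F hR hS hl hne
  sh := (sfResAt c.sh F hR hS hl hne).sh de c.ε hsum

theorem sf_res_top_eqns_cite : True := by
  have := @SfCoreP.eq_1
  have := @sfResCfg.eq_1
  trivial

/-! ## LEAF L-256-RES-E1 : sizes, scale, Planck parameter -/

/-- the rays and labels of the new shadow obey every bound of the old ones.   PLAN: `sf_res_scal` (`.s`, `.G`), `c.sh.hG`; `sf_res_ray_eq`, `sf_res_lab_eq`; `hb i _ ρ.1`. -/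
theorem sf_res_size (B : ℝ) (hb : ∀ i ∈ c.D.G, ∀ ρ, (c.D.ray i ρ).size ≤ c.D.s ^ (-B) ∧ (c.D.lab i ρ).size ≤ c.D.s ^ (-B)) :
    ∀ i ∈ (sfResDoc c.sh F hR hS hl hne).G, ∀ ρ, ((sfResDoc c.sh F hR hS hl hne).ray i ρ).size ≤ (sfResDoc c.sh F hR hS hl hne).s ^ (-B) ∧
      ((sfResDoc c.sh F hR hS hl hne).lab i ρ).size ≤ (sfResDoc c.sh F hR hS hl hne).s ^ (-B) := by
  obtain ⟨q1, q2, -, -⟩ := sf_res_scal c.sh F hR hS hl hne
  intro i hi ρ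
  rw [q2] at hi
  have hiW : i ∈ c.W.G := c.sh.hG ▸ hi
  rw [q1]
  have e1 := sf_res_ray_eq c.sh F hR hS hl hne hiW ρ
  have e2 := sf_res_lab_eq c.sh F hR hS hl hne hiW ρ
  rw [e1, e2]
  exact hb i hi _

/-- PLAN: unfold `SfCfg.sc`, `SfCfg.hp`; the fields of `sfResCfg` are explicit (`show`); `sf_res_scal`, `F.hk0`, `F.hq0`. -/
theorem sf_res_sc_hp : (sfResCfg c F hR hS hl hne hsum).sc = c.sc ∧ (sfResCfg c F hR hS hl hne hsum).hp = c.hp := by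
  obtain ⟨q1, -, -, -⟩ := sf_res_scal c.sh F hR hS hl hne
  constructor
  · show max (sfResDoc c.sh F hR hS hl hne).s (1 / ((c.A : ℝ) + 1)) = max c.D.s (1 / ((c.A : ℝ) + 1))
    rw [q1]
  · show Y.H c.p * 2 ^ W'.E.k0 / W'.Q0.f ^ 2 = Y.H c.p * 2 ^ c.W.E.k0 / c.W.Q0.f ^ 2
    rw [F.hk0, F.hq0]

end

/-- a small scale means a large tail order and a small `s`.   PLAN: `SfCfg.sc = max D.s (1/(A+1))`; `c.sh.hs`, `Xp.s`;  `1/(A+1) < 1/(A0+1)` gives `A0 < A` (`one_div_lt_one_div`, casts);  `2⁻¹^n < 2⁻¹^n0` gives `n0 < n` (`pow_lt_pow_iff_right_of_lt_one₀` or by contradiction with `pow_le_pow_of_le_one`). -/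
theorem sf_res_scale {Y : SfCy} {de : ℝ} (c : SfCfg Y de) (A0 n0 : ℕ) (h : c.sc < min (1 / ((A0 : ℝ) + 1)) ((2 : ℝ)⁻¹ ^ n0)) : A0 ≤ c.A ∧ n0 ≤ c.W.E.n := by
  have h1 : 1 / ((c.A : ℝ) + 1) < 1 / ((A0 : ℝ) + 1) := lt_of_le_of_lt (le_max_right _ _) (lt_of_lt_of_le h (min_le_left _ _))
  have h2 : c.D.s < (2 : ℝ)⁻¹ ^ n0 := lt_of_le_of_lt (le_max_left _ _) (lt_of_lt_of_le h (min_le_right _ _))
  constructor
  · by_contra hcon
    have h3 : c.A ≤ A0 := (not_le.1 hcon).le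
    have h4 : (c.A : ℝ) ≤ A0 := by exact_mod_cast h3
    have h5 : 1 / ((A0 : ℝ) + 1) ≤ 1 / ((c.A : ℝ) + 1) := one_div_le_one_div_of_le (by positivity) (by linarith)
    linarith
  · by_contra hcon
    have h3 : c.W.E.n ≤ n0 := (not_le.1 hcon).le
    rw [c.sh.hs] at h2
    have h4 : (2 : ℝ)⁻¹ ^ n0 ≤ (2 : ℝ)⁻¹ ^ c.W.E.n := pow_le_pow_of_le_one (by norm_num) (by norm_num) h3
    have h5 : c.W.E.s = (2 : ℝ)⁻¹ ^ c.W.E.n := rfl
    linarith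

/-- read masses are positive -/
theorem sf_res_tot_pos {Y : SfCy} {p : Y.M.Par} {W : SfMD (Y.M.sys p)} {pe de Ls ε a : ℝ} (h : W.Ext Y p pe de Ls ε a) : ∀ i ∈ W.G, 0 < W.tot i := by
  intro i hi
  refine lt_of_lt_of_le ?_ (h.read i hi)
  have h1 := h.str.valid.e_pos
  have h2 : 0 < W.E.s ^ a := Real.rpow_pos_of_pos (gn_s_pos W.E) _
  have h3 : 0 < W.E.s ^ (-(de * i)) := Real.rpow_pos_of_pos (gn_s_pos W.E) _
  positivity

/-- the support constant of `Good` only enters `hek` and `bdd` -/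
theorem sf_res_good_c0 {D : SfDoc} {π : SfPar} {Ls C C0 t : ℝ} (h : D.Good π Ls C t) (hek : D.s ^ C0 ≤ D.ek ∧ D.ek ≤ D.s ^ (-C0))
    (hb : ∀ i ∈ D.G, ∀ ρ, (D.ray i ρ).size ≤ D.s ^ (-C0) ∧ (D.lab i ρ).size ≤ D.s ^ (-C0)) : D.Good π Ls C0 t :=
  ⟨{ h.1 with hek := hek, bdd := hb }, h.2⟩

/-- the body of `SfCls.CalRs` for the class of shadows (mesh condition in the form `CyGap`; `1/(S+1) ≤ ε` explicit) -/
def SfResP (Y : SfCy) (π : SfPar) (Ls : ℝ) : Prop :=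
    ∀ h t : ℝ, 0 < h → 0 < t → ∃ a : ℝ, 0 < a ∧ ∀ C0 : ℝ, ∀ S : ℕ, ∃ S' : ℕ, ∀ σ' : ℝ, 0 < σ' → ∃ σ : ℝ, 0 < σ ∧
      ∀ c : SfCfg Y π.d, c.ob S → 1 / ((S : ℝ) + 1) ≤ c.ε → c.sc < σ → c.D.Good π Ls C0 a → (SfMD.Ext Y c.p c.W π.p π.d Ls c.ε a ∧ 0 < c.ε ∧ c.ε ≤ a ∧ 1 / a ≤ c.μ) →
      CyGap c.D.G h →
      ∀ i ∈ c.D.G, ∀ (ι : Type) [Finite ι] (cl : c.D.Row i → ι), (Nat.card ι : ℝ) ≤ c.D.s ^ (-a) →
      ∃ (c' : SfCfg Y π.d) (b : ι) (e : c'.D.Rw → c.D.Rw), c'.ob S' ∧ 1 / ((S' : ℝ) + 1) ≤ c'.ε ∧ c'.sc < σ' ∧ c'.μ = c.μ ∧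
        (c'.D.Good π Ls C0 t ∧ (SfMD.Ext Y c'.p c'.W π.p π.d Ls c'.ε t ∧ 0 < c'.ε ∧ c'.ε ≤ t ∧ 1 / t ≤ c'.μ)) ∧ c'.hp = c.hp ∧
        c'.D.G = c.D.G ∧ c'.D.ek = c.D.ek ∧ c'.D.Sub c.D 0 1 sfFrame1 c.D.G 0 e ∧
        (∀ (u : c'.D.Rw) (ρ : c.D.Row i), e u = ⟨i, ρ⟩ → cl ρ = b) ∧
        (∀ l ∈ c.D.G, l < i → ∀ ρ : c.D.Row l, (c'.D.P l).pr (fun ρ' => e ⟨l, ρ'⟩ = ⟨l, ρ⟩) = (c.D.P l).p ρ) ∧
        (∀ ρ : c.D.Row i, cl ρ = b → (c'.D.P i).pr (fun ρ' => e ⟨i, ρ'⟩ = ⟨i, ρ⟩) * (c.D.P i).pr (fun ρ0 => cl ρ0 = b) = (c.D.P i).p ρ) ∧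
        c'.D.mass i = c.D.mass i * (c.D.P i).pr (fun ρ0 => cl ρ0 = b) ∧ (∀ l ∈ c.D.G, l < i → c'.D.mass l = c.D.mass l) ∧
        (∀ u : c'.D.Rw, u.1 ∈ c'.D.G → c'.D.ray u.1 u.2 = c.D.ray (e u).1 (e u).2 ∧ c'.D.lab u.1 u.2 = c.D.lab (e u).1 (e u).2)

theorem sf_res_p_eqns_cite : True := by
  have := @SfResP.eq_1
  trivial

/-- **(RES)** -/
theorem sf_res_body (Y : SfCy) (hY : (∃ η, Y = sfCl η) ∨ ∃ η, Y = sfHy η) (H : CyHyp Y) (hF : CyForward Y) (π : SfPar) (Ls : ℝ)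
    (hp : π.p = Y.M.p0) (hd : π.d = Y.M.d0) (hcore : SfCoreP Y π Ls) :
    SfResP Y π Ls := by
  intro h t hh ht
  obtain ⟨a1, ε0, μ0, ha1, hε0, Hc⟩ := hcore t h ht hh
  have ha2 : 0 < min a1 t := lt_min ha1 ht
  obtain ⟨a3, ha3, Hm⟩ := sf_res_model Y H hF h (min a1 t) hh ha2
  have hμ1 : 0 < 1 / max μ0 1 := by positivity
  have ha : 0 < min a3 (min (min a1 t) (min ε0 (1 / max μ0 1))) := lt_min ha3 (lt_min ha2 (lt_min hε0 hμ1))
  refine ⟨min a3 (min (min a1 t) (min ε0 (1 / max μ0 1))), ha, fun C0 S => ?_⟩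
  set a := min a3 (min (min a1 t) (min ε0 (1 / max μ0 1))) with hadef
  have e3 : a ≤ a3 := min_le_left _ _
  have e2 : a ≤ min a1 t := (min_le_right _ _).trans (min_le_left _ _)
  have eε : a ≤ ε0 := (min_le_right _ _).trans ((min_le_right _ _).trans (min_le_left _ _))
  have eμ : a ≤ 1 / max μ0 1 := (min_le_right _ _).trans ((min_le_right _ _).trans (min_le_right _ _))
  obtain ⟨S', hSS', A0, n0, Hm⟩ := Hm S
  obtain ⟨A1, n1, Hc⟩ := Hc S'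
  refine ⟨S', fun σ' hσ' => ⟨min σ' (min (1 / (((max A0 A1 : ℕ) : ℝ) + 1)) ((2 : ℝ)⁻¹ ^ (max n0 n1))), lt_min hσ' (lt_min (by positivity) (by positivity)), ?_⟩⟩
  intro c hob hεS hsc hgood hmd hgap i hi ι _ cl hcard
  obtain ⟨hext, hε1, hε2, hμ⟩ := hmd
  obtain ⟨hA, hn⟩ := sf_res_scale c (max A0 A1) (max n0 n1) (lt_of_lt_of_le hsc (min_le_right _ _))
  have hS := hext.str
  have hiW : i ∈ c.W.G := c.sh.hG ▸ hi
  have hO := sf_doc_noorph' Y hY c.p c.W hS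
  have hRs : ∀ b : ι, SfRs c.sh i (sfResR c.sh i (fun ρ => cl ρ = b)) := fun b => sf_res_rs c.sh hiW _
  have hcov : ∀ l, (Y.M.sys c.p).en (c.W.T i l) (c.W.k i) (c.W.gb i)
      ((sfResC c.W (fun b : ι => sfResR c.sh i (fun ρ => cl ρ = b)) i l).indicator (c.W.th i l)) (c.W.pre i (c.W.iv i l)) = 0 := by
    intro l
    unfold sfResC
    rw [sf_res_cls_compl c.sh hiW cl l]
    exact sf_res_orph hO hiW l
  have hext3 : c.W.Ext Y c.p Y.M.p0 Y.M.d0 Ls c.ε a3 := by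
    rw [← hp, ← hd]
    exact sf_ext_mono Y c.p c.W _ _ _ _ _ _ e3 hext
  have hcard3 : (Nat.card ι : ℝ) ≤ c.W.E.s ^ (-a3) := by
    rw [c.sh.hs] at hcard
    exact hcard.trans (gn_s_anti c.W.E (by linarith))
  obtain ⟨b, W', ⟨F⟩, hext', hlen', hgen', haf'⟩ := Hm c.p c.W c.A Ls c.ε ((le_max_left _ _).trans hn) ((le_max_left _ _).trans hA) hob.1 hob.2.2.2.1 hob.2.1
    hext3 (c.sh.hG ▸ hgap) i hiW ι (fun b : ι => sfResR c.sh i (fun ρ => cl ρ = b)) (fun b => (hRs b).meas) (fun b => (hRs b).univ)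
    (fun b b' l hbb => sf_res_cls_disj c.sh hiW cl b b' l hbb) hcov hcard3
  rw [← hp, ← hd] at hext'
  have hS' := hext'.str
  have hO' := sf_doc_noorph' Y hY c.p W' hS'
  have hpos' := sf_res_tot_pos hext'
  have hpos := sf_res_tot_pos hext
  have hne : ∀ j ∈ c.W.G, ∃ l', (sfDocSup Y c.p W' j l').Nonempty := fun j hj => sf_res_sup_ne hS' hO' (F.hG ▸ hj) (hpos' j (F.hG ▸ hj))
  have hsum := sf_doc_sum (sfResAt c.sh F (hRs b) hS hS'.lb_ne hne) hS' hpos' hO'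
  obtain ⟨q1, q2, q3, -⟩ := sf_res_scal c.sh F (hRs b) hS hS'.lb_ne hne
  obtain ⟨q5, q6⟩ := sf_res_sc_hp c F (hRs b) hS hS'.lb_ne hne hsum
  have hs0 : 0 < c.D.s := by rw [c.sh.hs]; exact gn_s_pos _
  have hs1 : c.D.s ≤ 1 := by rw [c.sh.hs]; exact gn_s_le_one _
  have hob' : (sfResCfg c F (hRs b) hS hS'.lb_ne hne hsum).ob S' := by
    refine ⟨hlen', haf', hS', hgen', sf_res_size c F (hRs b) hS hS'.lb_ne hne (S' : ℝ) fun j hj ρ => ?_⟩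
    have hle : c.D.s ^ (-(S : ℝ)) ≤ c.D.s ^ (-(S' : ℝ)) :=
      Real.rpow_le_rpow_of_exponent_ge hs0 hs1 (by have : (S : ℝ) ≤ S' := by exact_mod_cast hSS'
                                                   linarith)
    exact ⟨(hob.2.2.2.2 j hj ρ).1.trans hle, (hob.2.2.2.2 j hj ρ).2.trans hle⟩
  have hμ0 : μ0 ≤ c.μ := by
    have h1 : max μ0 1 ≤ 1 / a := by
      rw [le_div_iff₀ ha]
      have := mul_le_mul_of_nonneg_left eμ (show (0 : ℝ) ≤ max μ0 1 by positivity)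
      rwa [mul_one_div_cancel (by positivity)] at this
    exact (le_max_left _ _).trans (h1.trans hμ)
  have hgap' : (sfResDoc c.sh F (hRs b) hS hS'.lb_ne hne).GapK h := by
    intro j hj k hk hjk
    rw [q2] at hj hk
    exact hgap.1 j hj k hk hjk
  have hεS' : 1 / ((S' : ℝ) + 1) ≤ c.ε := by
    refine le_trans (one_div_le_one_div_of_le (by positivity) ?_) hεS
    have : (S : ℝ) ≤ S' := by exact_mod_cast hSS'
    linarith
  have hgood' : (sfResDoc c.sh F (hRs b) hS hS'.lb_ne hne).Good π Ls C0 t := by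
    have g1 := Hc (sfResCfg c F (hRs b) hS hS'.lb_ne hne hsum) hob' hεS' ((le_max_right _ _).trans hA) (by
      show n1 ≤ W'.E.n
      rw [F.hn]
      exact (le_max_right _ _).trans hn) (sf_ext_mono Y c.p W' _ _ _ _ _ _ (min_le_left _ _) hext') (hε2.trans eε) hμ0 hgap'
    refine sf_res_good_c0 g1 ?_ (sf_res_size c F (hRs b) hS hS'.lb_ne hne C0 hgood.1.bdd)
    rw [q1, q3]
    exact hgood.1.hek
  have ht2 : min a1 t ≤ t := min_le_right _ _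
  have hkeep : ∀ ρ : c.D.Row i, sfResKeep c.sh F i ρ ↔ cl ρ = b := fun ρ => by
    rw [sf_res_keep_iff c.sh F (hRs b) hS hiW le_rfl ρ]
    exact sf_res_R_sub c.sh hiW _ ρ
  refine ⟨sfResCfg c F (hRs b) hS hS'.lb_ne hne hsum, b, sfResE c.sh F (hRs b) hS hS'.lb_ne hne, hob', hεS', ?_, rfl, ⟨hgood', ?_, hε1, ?_, ?_⟩, q6, q2, q3,
    sf_res_sub c.sh F (hRs b) hS hS'.lb_ne hne, ?_, ?_, ?_, ?_, ?_, ?_⟩
  · rw [q5]
    exact lt_of_lt_of_le hsc (min_le_left _ _)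
  · exact sf_ext_mono Y c.p W' _ _ _ _ _ _ ht2 hext'
  · exact hε2.trans (e2.trans ht2)
  · refine le_trans ?_ hμ
    exact one_div_le_one_div_of_le ha (e2.trans ht2)
  · rintro ⟨j, ρ'⟩ ρ he
    have hj : j = i := congrArg Sigma.fst he
    subst hj
    have h2 : (ρ' : {ρ : c.D.Row j // sfResKeep c.sh F j ρ}).1 = ρ := eq_of_heq (Sigma.mk.inj he).2
    rw [← h2]
    exact (hkeep _).1 (ρ' : {ρ : c.D.Row j // sfResKeep c.sh F j ρ}).2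
  · intro l hl hli ρ
    have hlW : l ∈ c.W.G := c.sh.hG ▸ hl
    have key := sf_res_law c.sh F (hRs b) hS hS'.lb_ne hne hsum hlW hli.le (hpos l hlW) ρ (sf_res_keep_lt c.sh F (hRs b) hS hlW hli ρ)
    rw [ent_pr_eq_one (c.D.P l) (fun ρ0 _ => sf_res_keep_lt c.sh F (hRs b) hS hlW hli ρ0), mul_one] at key
    exact key
  · intro ρ hρ
    have key := sf_res_law c.sh F (hRs b) hS hS'.lb_ne hne hsum hiW le_rfl (hpos i hiW) ρ ((hkeep ρ).2 hρ)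
    rw [ent_pr_congr (c.D.P i) (F := fun ρ0 => cl ρ0 = b) (fun ρ0 _ => hkeep ρ0)] at key
    exact key
  · have key := sf_res_mass c.sh F (hRs b) hS hS'.lb_ne hne hsum hiW le_rfl
    rw [ent_pr_congr (c.D.P i) (F := fun ρ0 => cl ρ0 = b) (fun ρ0 _ => hkeep ρ0)] at key
    exact key
  · intro l hl hli
    have hlW : l ∈ c.W.G := c.sh.hG ▸ hl
    have key := sf_res_mass c.sh F (hRs b) hS hS'.lb_ne hne hsum hlW hli.le
    rw [ent_pr_eq_one (c.D.P l) (fun ρ0 _ => sf_res_keep_lt c.sh F (hRs b) hS hlW hli ρ0), mul_one] at key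
    exact key
  · rintro ⟨j, ρ'⟩ hj
    have hjW : j ∈ c.W.G := by
      have : j ∈ c.D.G := q2 ▸ hj
      exact c.sh.hG ▸ this
    exact ⟨sf_res_ray_eq c.sh F (hRs b) hS hS'.lb_ne hne hjW ρ', sf_res_lab_eq c.sh F (hRs b) hS hS'.lb_ne hne hjW ρ'⟩

/-- **(RES), closed form**: `sf_res_body` with CORE discharged.   Hypotheses = `CyHyp`, `CyForward`, the numerical relations and the rate. -/
theorem sf_res_main (Y : SfCy) (hY : (∃ η, Y = sfCl η) ∨ ∃ η, Y = sfHy η) (H : CyHyp Y) (hF : CyForward Y) (π : SfPar) (Ls : ℝ)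
    (hpar : π.Pd ∧ π.η = Y.η ∧ π.hyb = Y.hyb) (hr : Y.M.Rate π.Γ) (hp : π.p = Y.M.p0) (hd : π.d = Y.M.d0) : SfResP Y π Ls :=
  sf_res_body Y hY H hF π Ls hp hd (sf_res_core Y hY H π Ls hpar hr)

/-- **(RES)** = the field `CalRs` of the calculus, for the class of shadows -/
theorem sf_res_cal (Y : SfCy) (hY : (∃ η, Y = sfCl η) ∨ ∃ η, Y = sfHy η) (π : SfPar) (Ls : ℝ) (hE : SfEntry Y π Ls) : (sfCls Y π Ls).CalRs π Ls := by
  obtain ⟨H⟩ := hE.hyp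
  have M := sf_res_main Y hY H hE.fwd π Ls hE.par hE.rate hE.exps.2.1 hE.exps.2.2
  intro h t hh ht
  obtain ⟨a, ha, M⟩ := M h t hh ht
  refine ⟨a, ha, fun C0 S => ?_⟩
  obtain ⟨S', M⟩ := M C0 S
  refine ⟨S', fun σ' hσ' => ?_⟩
  obtain ⟨σ, hσ, M⟩ := M σ' hσ'
  refine ⟨min σ σ', lt_min hσ hσ', ?_⟩
  intro c hob hsc hgd hgap i hi ι _ cl hcard
  have hsc' : max c.D.s (max (1 / ((c.A : ℝ) + 1)) (1 / (c.μ + 1))) < min σ σ' := hsc
  have hsc1 : c.sc < σ := by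
    refine lt_of_le_of_lt ?_ (lt_of_lt_of_le hsc' (min_le_left _ _))
    exact max_le (le_max_left _ _) ((le_max_left _ _).trans (le_max_right _ _))
  have hμ : 1 / (c.μ + 1) < σ' :=
    lt_of_le_of_lt ((le_max_right _ _).trans (le_max_right _ _)) (lt_of_lt_of_le hsc' (min_le_right _ _))
  obtain ⟨c', b, e, h1, h2, h3, h4, h5, h6, h7, h8, h9, h10, h11, h12, -⟩ := M c hob.1 hob.2 hsc1 hgd.1 hgd.2 hgap i hi ι cl hcard
  refine ⟨c', b, e, ⟨h1, h2⟩, ?_, h5, h6, h7, h8, h9, h10, h11, h12⟩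
  show max c'.D.s (max (1 / ((c'.A : ℝ) + 1)) (1 / (c'.μ + 1))) < σ'
  rw [h4]
  have h3' : max c'.D.s (1 / ((c'.A : ℝ) + 1)) < σ' := h3
  exact max_lt (lt_of_le_of_lt (le_max_left _ _) h3') (max_lt (lt_of_le_of_lt (le_max_right _ _) h3') hμ)

end Claimed.Agent.R256
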