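import Claimed.Agent.R256.Soft.MGeDocB
import Claimed.Agent.R256.Soft.MResTop

/-!
# Row 256 (S0496), unit SOFT, block M6 GE, sub-block DOC, file 3: ASSEMBLY      (architect helper200; prefix `sf_gd_`)

`sf_gd_main : SfGePre Y π Ls → SfGeDoc Y π Ls` (from `CyHyp`, `CyForward`, the exponents).   Constants:   `a = min a_M t'`;   `ε' = min ε1 (1 / (4 (S+1)))`;   sizes `B = s'^(-K2)`, `K2 = K1 + t' + 2 (2|Ls|+4)/h`;   `hq = s'^μ'`.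
PAPER FREE.   LEAVES `L-256-GD-T*` (Mathlib only): prove IN PLACE, statement verbatim, helper lemmas directly above.   Tool: `sf_ge_pa_num_pw (n) (x) : ((2:ℝ)⁻¹ ^ n) ^ x = 2 ^ (-(x * n))` (`Soft/MGePa.lean`), then compare exponents (`Real.rpow_le_rpow_of_exponent_le`, `Real.rpow_add`).
-/

set_option autoImplicit false

namespace Claimed.Agent.R256

open MeasureTheory Claimed.Agent.R255

/-! ## LEAF L-256-GD-T1 : the enlargement of the root gate -/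

/-- helper of `sf_gd_num_root`: `((1/2)^n)^(-y) = 2^(y n)` -/
theorem sf_gd_num_root_pow (n : ℕ) (y : ℝ) : ((2 : ℝ)⁻¹ ^ n) ^ (-y) = (2 : ℝ) ^ (y * n) := by
  rw [← Real.rpow_natCast, ← Real.rpow_mul (by norm_num), Real.inv_rpow (by norm_num), ← Real.rpow_neg (by norm_num)]
  congr 1
  ring

/-- PLAN: left side `= 2^2 * 2^(ε n / 4)`;  `ε n / 4 ≤ t' x n / 4 ≤ t' n' / 2` (`hε`, `hx`, `n ≥ 0`, `t' > 0`);  `2 ≤ t' n' / 2` (`hn'`: `4 ≤ t' n'`, `div_le_iff₀`);  right side `= 2^(t' n')`. -/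
theorem sf_gd_num_root (n n' : ℕ) (ε x t' : ℝ) (ht' : 0 < t') (hε : ε ≤ t' * x) (hx : x / 2 * n ≤ n') (hn' : 4 / t' ≤ n') :
    4 * ((2 : ℝ)⁻¹ ^ n) ^ (-(ε / 4)) ≤ ((2 : ℝ)⁻¹ ^ n') ^ (-t') := by
  rw [sf_gd_num_root_pow, sf_gd_num_root_pow]
  have h4 : (4 : ℝ) = (2 : ℝ) ^ (2 : ℝ) := by norm_num
  rw [h4, ← Real.rpow_add (by norm_num)]
  refine Real.rpow_le_rpow_of_exponent_le (by norm_num) ?_
  rw [div_le_iff₀ ht'] at hn'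
  have hn0 : (0 : ℝ) ≤ n := Nat.cast_nonneg _
  have h1 : ε * n ≤ t' * x * n := mul_le_mul_of_nonneg_right hε hn0
  have h2 : t' * (x / 2 * n) ≤ t' * n' := mul_le_mul_of_nonneg_left hx ht'.le
  nlinarith

/-! ## LEAF L-256-GD-T2 : the sizes -/

/-- PLAN: `B := ((2:ℝ)⁻¹ ^ n') ^ (-(K1 + t' + 2 * L / h)) = 2^((K1 + t' + 2 L / h) n')`.   `(2⁻¹^n)^(-L) = 2^(L n) ≤ 2^((2 L / h) n')` since `n ≤ (2/h) n'` (`hn`);   `X ≤ 2^(t' n')`;   `32 = 2^5 ≤ 2^(5 n')` (`hn1`), `B^3 = 2^(3 (..) n')` (`← Real.rpow_natCast`, `← Real.rpow_mul`). -/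
theorem sf_gd_num_size (n n' : ℕ) (K1 t' L h X : ℝ) (hK1 : 0 ≤ K1) (ht' : 0 ≤ t') (hL : 0 ≤ L) (hh : 0 < h) (hn : h / 2 * n ≤ n') (hn1 : 1 ≤ n')
    (hX0 : 0 ≤ X) (hX : X ≤ ((2 : ℝ)⁻¹ ^ n') ^ (-t')) (S' : ℕ) (hS : 3 * (K1 + t' + 2 * L / h) + 5 ≤ S') :
    ∃ B : ℝ, 1 ≤ B ∧ ((2 : ℝ)⁻¹ ^ n') ^ (-K1) ≤ B ∧ X * ((2 : ℝ)⁻¹ ^ n) ^ (-L) ≤ B ∧ 32 * B ^ 3 ≤ ((2 : ℝ)⁻¹ ^ n') ^ (-(S' : ℝ)) ∧ B ≤ ((2 : ℝ)⁻¹ ^ n') ^ (-(S' : ℝ)) := by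
  have pw : ∀ (n : ℕ) (x : ℝ), ((2 : ℝ)⁻¹ ^ n) ^ x = 2 ^ (-(x * n)) := by
    intro n x
    rw [← Real.rpow_natCast, ← Real.rpow_mul (by norm_num), Real.inv_rpow (by norm_num), ← Real.rpow_neg (by norm_num)]
    congr 1
    ring
  have mono : ∀ {x y : ℝ}, x ≤ y → (2 : ℝ) ^ x ≤ 2 ^ y := fun h => Real.rpow_le_rpow_of_exponent_le (by norm_num) h
  obtain ⟨K, hK⟩ : ∃ K, K = K1 + t' + 2 * L / h := ⟨_, rfl⟩
  have hLh : 0 ≤ 2 * L / h := by positivity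
  have hK0 : 0 ≤ K := by rw [hK]; positivity
  have hn'0 : (0 : ℝ) ≤ n' := Nat.cast_nonneg _
  have hn'1 : (1 : ℝ) ≤ n' := by exact_mod_cast hn1
  rw [← hK] at hS
  have hLn : L * n ≤ 2 * L / h * n' := by
    have h1 : (n : ℝ) ≤ 2 / h * n' := by
      have : (n : ℝ) = 2 / h * (h / 2 * n) := by field_simp
      rw [this]
      exact mul_le_mul_of_nonneg_left hn (by positivity)
    calc L * n ≤ L * (2 / h * n') := mul_le_mul_of_nonneg_left h1 hL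
      _ = 2 * L / h * n' := by ring
  rw [pw] at hX
  simp only [pw]
  refine ⟨2 ^ (K * n'), ?_, ?_, ?_, ?_, ?_⟩
  · exact Real.one_le_rpow (by norm_num) (mul_nonneg hK0 hn'0)
  · refine mono ?_
    have : K1 * n' ≤ K * n' := mul_le_mul_of_nonneg_right (by rw [hK]; linarith) hn'0
    linarith
  · calc X * 2 ^ (-(-L * n)) ≤ 2 ^ (-(-t' * n')) * 2 ^ (-(-L * n)) := mul_le_mul_of_nonneg_right hX (by positivity)
      _ = 2 ^ (-(-t' * n') + -(-L * n)) := (Real.rpow_add (by norm_num) _ _).symm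
      _ ≤ 2 ^ (K * n') := by
        refine mono ?_
        have : K * n' = K1 * n' + t' * n' + 2 * L / h * n' := by rw [hK]; ring
        have h2 : 0 ≤ K1 * n' := mul_nonneg hK1 hn'0
        linarith
  · have e1 : ((2 : ℝ) ^ (K * n')) ^ 3 = 2 ^ (3 * (K * n')) := by
      rw [← Real.rpow_natCast, ← Real.rpow_mul (by norm_num)]
      congr 1
      push_cast
      ring
    have e2 : (32 : ℝ) = 2 ^ (5 : ℝ) := by
      rw [show (5 : ℝ) = ((5 : ℕ) : ℝ) by norm_num, Real.rpow_natCast]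
      norm_num
    rw [e1, e2, ← Real.rpow_add (by norm_num)]
    refine mono ?_
    have : (3 * K + 5) * n' ≤ S' * n' := mul_le_mul_of_nonneg_right hS hn'0
    nlinarith
  · refine mono ?_
    have : K * n' ≤ S' * n' := mul_le_mul_of_nonneg_right (by linarith) hn'0
    linarith

/-! ## LEAF L-256-GD-T3 : the truncation exponent -/

/-- PLAN: `ε' := min ε1 (1 / (4 (S+1)))`; positivity; `min_le_left`; `ε' ≤ 1/(4 (S+1)) = (1/(S+1))/4 ≤ ε/4`;   `1/ε' ≤ ⌈1/ε'⌉₊ ≤ S' < S' + 1` (`Nat.le_ceil`), `one_div_le` / `one_div_le_one_div_of_le`. -/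
theorem sf_gd_num_eps (ε1 : ℝ) (hε1 : 0 < ε1) (S : ℕ) : ∃ ε' : ℝ, 0 < ε' ∧ ε' ≤ ε1 ∧ (∀ ε : ℝ, 1 / ((S : ℝ) + 1) ≤ ε → ε' ≤ ε / 4) ∧
    ∀ S' : ℕ, ⌈1 / ε'⌉₊ ≤ S' → 1 / ((S' : ℝ) + 1) ≤ ε' := by
  have hS : (0 : ℝ) < (S : ℝ) + 1 := by positivity
  have h0 : 0 < min ε1 (1 / (4 * ((S : ℝ) + 1))) := lt_min hε1 (by positivity)
  refine ⟨min ε1 (1 / (4 * ((S : ℝ) + 1))), h0, min_le_left _ _, ?_, ?_⟩
  · intro ε hε
    have e : 1 / (4 * ((S : ℝ) + 1)) = 1 / ((S : ℝ) + 1) / 4 := by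
      field_simp
    calc min ε1 (1 / (4 * ((S : ℝ) + 1))) ≤ 1 / (4 * ((S : ℝ) + 1)) := min_le_right _ _
      _ = 1 / ((S : ℝ) + 1) / 4 := e
      _ ≤ ε / 4 := by linarith
  · intro S' hS'
    have h1 : 1 / min ε1 (1 / (4 * ((S : ℝ) + 1))) ≤ (S' : ℝ) + 1 := by
      have a1 := Nat.le_ceil (1 / min ε1 (1 / (4 * ((S : ℝ) + 1))))
      have a2 : ((⌈1 / min ε1 (1 / (4 * ((S : ℝ) + 1)))⌉₊ : ℕ) : ℝ) ≤ (S' : ℝ) := by exact_mod_cast hS'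
      linarith
    have hS'0 : (0 : ℝ) < (S' : ℝ) + 1 := by positivity
    rw [div_le_iff₀ h0] at h1
    rw [div_le_iff₀ hS'0]
    linarith

/-- **(GE-DOC)** -/
theorem sf_gd_main (Y : SfCy) (hY : (∃ η, Y = sfCl η) ∨ ∃ η, Y = sfHy η) (H : CyHyp Y) (hF : CyForward Y) (π : SfPar) (Ls : ℝ)
    (hx : π.Γ = Y.M.Gam ∧ π.p = Y.M.p0 ∧ π.d = Y.M.d0) (hP : SfGePre Y π Ls) : SfGeDoc Y π Ls := by
  intro h' aF t' ε1 hh' haF ht' hε1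
  obtain ⟨aM, a1, τ, haM, haM8, ha1, hτ, HM⟩ := sf_gd_model Y H hF π Ls hx hP h' aF hh' haF
  refine ⟨min aM t', a1, τ, lt_min haM ht', ha1, hτ, fun h K1 K hh hK1 S C hK => ?_⟩
  obtain ⟨S1, HM⟩ := HM h hh S C
  obtain ⟨ε', hε0, hε1', hε4, hεS⟩ := sf_gd_num_eps ε1 hε1 S
  refine ⟨max S1 (max ⌈3 * (K1 + t' + 2 * (2 * |Ls| + 4) / h) + 5⌉₊ ⌈1 / ε'⌉₊), fun A' μ' => ?_⟩
  obtain ⟨A, nM, HM⟩ := HM A'
  obtain ⟨μ0, hμ0, Hn1⟩ := sf_ge_pa_num K1 K μ' (2 * |Ls| + 4)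
  obtain ⟨n2, Hn2⟩ := sf_ge_pa_num2 S
  refine ⟨A, max (max nM n2) (max 1 ⌈2 * ((max 1 ⌈4 / t'⌉₊ : ℕ) : ℝ) / h⌉₊), μ0, ?_⟩
  intro c C0 ϰ d φ hij hin hn hμ hd hg1 hg2 hroot hsel haf hL hr0 hF0 hfr hbd
  have hO : SfCyOk Y := sf_cy_ok Y hY
  have hg0 : SfGeo Y := sf_doc_geo Y hY
  have hFb : SfFib Y := sf_ge_fib hY
  have hji : 0 < d.j - d.i := by linarith [hd.hij]
  have hinM : SfGeIn Y π Ls c S C0 (aM * (d.j - d.i)) := sf_gd_in_mono hin (mul_le_mul_of_nonneg_right (min_le_left _ _) hji.le)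
  have hα8 : min aM t' * (d.j - d.i) ≤ (d.j - d.i) / 8 := by
    have := mul_le_mul_of_nonneg_right ((min_le_left aM t').trans haM8) hji.le
    linarith
  obtain ⟨hα01, -, -⟩ := sf_gf_acc hin d hd hα8
  -- depths
  obtain ⟨hnn1, hnn2⟩ := sf_gd_nn hin d hd hα8
  have hnN : max 1 ⌈4 / t'⌉₊ ≤ d.X.n := sf_gd_nlarge hin d hd hα8 h hh hij _ ((le_max_right _ _).trans ((le_max_right _ _).trans hn))
  have hn'1 : 1 ≤ d.X.n := (le_max_left _ _).trans hnN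
  have hn't : 4 / t' ≤ (d.X.n : ℝ) := (Nat.le_ceil _).trans (by exact_mod_cast (le_max_right _ _).trans hnN)
  have hn1 : 1 ≤ c.W.E.n := (le_max_left _ _).trans ((le_max_right _ _).trans hn)
  have hhn : h / 2 * c.W.E.n ≤ d.X.n := le_trans (mul_le_mul_of_nonneg_right (by linarith) (Nat.cast_nonneg _)) hnn1
  -- the model step
  obtain ⟨st', pos', hext', hlen', hgen', haf'⟩ := HM c C0 ϰ ε' d hij hinM ((le_max_left _ _).trans ((le_max_left _ _).trans hn)) hd hg1 hg2 hroot hsel haf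
    hfr.r hfr.f hε0 (hε4 c.ε hin.eps.1)
  -- numerics
  obtain ⟨htr, hΛ1⟩ := Hn2 c.W.E.n d.X.n c.ε ε' ((le_max_right _ _).trans ((le_max_left _ _).trans hn)) hnn2 hin.eps.1 hε0 (hε4 c.ε hin.eps.1)
  obtain ⟨hsm1, hsm2, hsl⟩ := Hn1 c.W.E.n d.X.n c.μ (c.W.f (d.γ 0) / d.Q0.f) hn1 hnn2 hμ (sf_gd_wlow hin hα01 d hd hfr.f)
  have hΛt : 4 * c.W.E.s ^ (-(c.ε / 4)) ≤ d.X.s ^ (-t') :=
    sf_gd_num_root c.W.E.n d.X.n c.ε (d.j - d.i) t' ht' (hin.eps.2.trans (mul_le_mul_of_nonneg_right (min_le_right _ _) hji.le)) hnn1 hn't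
  have hs' : 0 < d.X.s := gn_s_pos d.X
  -- the bundle of the pre-atoms
  have hPa : SfGePaH d φ S K1 K (c.W.E.s ^ (-(c.ε / 4))) ϰ (d.X.s ^ μ') μ' ε' st' pos' :=
    { ob := hin.ob
      gd := hsel.cls.1
      base := fun i hi j hj hij' ρ ρ' hc => ⟨(hin.good.1.base i hi j hj hij' ρ ρ' hc).1, (hin.good.1.base i hi j hj hij' ρ ρ' hc).2.1⟩
      ok := hd
      root := hroot
      fr := hfr
      bd := hbd
      hK := ⟨hK, hK1⟩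
      str := hext'.str
      hq := ⟨Real.rpow_pos_of_pos hs' _, le_rfl⟩
      hn := ⟨hn1, hn'1, hμ0.trans hμ⟩
      hΛ := hΛ1
      sm := by
        rw [c.sh.hs]
        exact ⟨hsm1, hsm2⟩
      sl := by
        rw [c.sh.hs]
        exact hsl
      tr := htr }
  have hS' := hext'.str
  have hOr := sf_doc_noorph' Y hY c.p (d.Wf st' pos') hS'
  have hpos' := sf_res_tot_pos hext'
  have hne : ∀ g ∈ (d.Wf st' pos').G, ∃ l, (sfDocSup Y c.p (d.Wf st' pos') g l).Nonempty := fun g hg => sf_res_sup_ne hS' hOr hg (hpos' g hg)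
  have hsum := sf_doc_sum (sfGdAt hO hg0 hFb hPa hne) hS' hpos' hOr
  -- sizes
  set S' := max S1 (max ⌈3 * (K1 + t' + 2 * (2 * |Ls| + 4) / h) + 5⌉₊ ⌈1 / ε'⌉₊) with hS'def
  have hS'1 : S1 ≤ S' := le_max_left _ _
  have hS'2 : 3 * (K1 + t' + 2 * (2 * |Ls| + 4) / h) + 5 ≤ (S' : ℝ) :=
    (Nat.le_ceil _).trans (by exact_mod_cast (le_max_left _ _).trans (le_max_right _ _))
  have hS'3 : ⌈1 / ε'⌉₊ ≤ S' := (le_max_right _ _).trans (le_max_right _ _)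
  obtain ⟨B, hB1, hB2, hB3, hB4, hB5⟩ := sf_gd_num_size c.W.E.n d.X.n K1 t' (2 * |Ls| + 4) h (4 * c.W.E.s ^ (-(c.ε / 4))) hK1 ht'.le (by positivity) hh hhn hn'1
    (by positivity) hΛt S' hS'2
  have hwid := sf_gd_wid hPa hin hα01
  rw [c.sh.hs] at hwid
  have hsz := sf_gd_size hO hg0 hFb hPa hne hsum hB1 hB2 (fun g' hg' => ⟨(hwid g' hg').1.trans hB3, (hwid g' hg').2.trans hB3⟩)
  refine ⟨sfGdCfg hO hg0 hFb hPa hne hsum A', sfGdE hO hg0 hFb hPa hne, ?_⟩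
  exact
    { ob := ⟨hlen'.trans hS'1, sf_doc_af_mono H haf' hS'1 le_rfl, hS',
        ⟨hgen'.1.trans hS'1, hgen'.2.1.trans hS'1, fun σ hσ => (hgen'.2.2 σ hσ).trans hS'1⟩,
        fun g' hg' ρ => ⟨((hsz g' hg' ρ).1).trans hB4, ((hsz g' hg' ρ).2).trans hB5⟩⟩
      eps := ⟨hεS S' hS'3, hε1'⟩
      hA := rfl
      hμ := rfl
      hn := rfl
      hG := rfl
      ext := hext'
      hp := by
        show Y.H c.p * 2 ^ (c.W.k (d.γ 0)) / d.Q0.f ^ 2 = _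
        rw [sf_ge_gam0]
      hek := rfl
      sub := sf_gd_sub hO hg0 hFb hPa hne hin hL hr0 hF0 ht'.le hΛt
      chn := sf_gd_chn hO hg0 hFb hPa hne }

end Claimed.Agent.R256
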