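import Claimed.Agent.R256.Soft.MGeFrB

/-!
# Row 256 (S0496), unit SOFT, block M6 GE, FRAME, file C: DOC LEVEL = (F2) + (CF)      (architect helper226; block owner helper105; prefix `sf_gf_`, `sfGf`)

Operator free.   `D` = the old shadow (`Good` at a tolerance `t ≤ 1`), `φ` = the frame of a bin (units `len i`, `r j`, `f j`), `D'` = the shadow of the extracted piece.
* `sf_gf_units`       lengths and widths of a good configuration lie in `[s^(|Ls|+2), s^-(|Ls|+2)]`.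
* **(F2)** `sf_gf_cen_size`    ONE row of the gate `i` at the time `φ.T0` + ONE label with parameters `≤ s^-w` in the frame  ⟹  `φ.cen.size ≤ 68 (s^-w)^11`      (`w ≥ C0, |Ls| + 2`)
* **(F2)** `sf_gf_lip`, `sf_gf_lip'`    `φ.ray` is `s^-(44 w + 29)`-Lipschitz on rays of size `≤ 68 (s^-w)^11`.
* `sf_gf_scale`       `s^-(C1 (j-i)) ≤ (len j / len i)^-(2 max C1 0)` if `t ≤ (j-i)/4`.
* `sfGfC π Ls C1`     THE UNIVERSAL SUPPORT POWER `cF C1` of `CalGe`.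
* `sf_gf_ek_low`      `s^(t + p + d) ≤ e/κ` (count at the gate `1`);      `sf_gf_ray_size`  labels `≤ s^-w` ⟹ rays `≤ 32 (s^-w)^3`.
* **(CF)** `sf_gf_cf`, `sf_gf_cf_sub`    `Good π Ls S' t'` + labels of size `≤ s^-(C1 (j-i))` in the frame + UPPER BOUND OF `e/κ` (model level, see below)  ⟹  `Good π Ls (sfGfC π Ls C1) t'`.
THE UPPER BOUND `D'.ek ≤ D'.s^-(sfGfC π Ls C1)` IS NOT DOC LEVEL (`Core.reg` only sees tests of size `≤ s^(-1/t)`, and the tolerances are chosen before `C1`, `C0`).   Model level: `‖psi‖² ≤` mass of the group rows `≤` (`Ext.reg` at the gate `i`)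
`κ_pre * wt` of the centre test of the frame enlarged by `R = s^-(C1 (j-i)) + 1` (`sf_gf_enl`) `= κ_pre * wt Q0' * R^4`, and `R^4 ≤ D'.s^-(8 max C1 0 + 4)` (`sf_gf_R4`).
-/

set_option autoImplicit false

namespace Claimed.Agent.R256

open Claimed.Agent.R255

theorem sf_gf_anti {s x y : ℝ} (h0 : 0 < s) (h1 : s ≤ 1) (h : x ≤ y) : s ^ y ≤ s ^ x :=
  Real.rpow_le_rpow_of_exponent_ge h0 h1 h

theorem sf_gf_one_le {s w : ℝ} (h0 : 0 < s) (h1 : s ≤ 1) (hw : 0 ≤ w) : 1 ≤ s ^ (-w) := by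
  have := sf_gf_anti h0 h1 (show -w ≤ 0 by linarith)
  rwa [Real.rpow_zero] at this

theorem sf_gf_inv {s : ℝ} (h0 : 0 < s) (w : ℝ) : 1 / s ^ (-w) = s ^ w := by
  rw [Real.rpow_neg h0.le, one_div, inv_inv]

/-- numerical constants are absorbed -/
theorem sf_gf_two {s : ℝ} (h0 : 0 < s) (h1 : s ≤ 1 / 2) (n : ℕ) : (2 : ℝ) ^ n ≤ s ^ (-(n : ℝ)) := by
  rw [Real.rpow_neg h0.le, Real.rpow_natCast, ← inv_pow]
  refine pow_le_pow_left₀ (by norm_num) ?_ n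
  rw [le_inv_comm₀ (by norm_num) h0]
  linarith

/-- **units of a good configuration** -/
theorem sf_gf_units {D : SfDoc} {π : SfPar} {Ls C0 t : ℝ} (hg : D.Good π Ls C0 t) (ht : 0 ≤ t ∧ t ≤ 1) {k : ℝ} (hk : k ∈ D.G) :
    (D.s ^ (|Ls| + 2) ≤ D.len k ∧ D.len k ≤ D.s ^ (-(|Ls| + 2))) ∧ (D.s ^ (|Ls| + 2) ≤ D.r k ∧ D.r k ≤ 1) ∧
    (D.s ^ (|Ls| + 2) ≤ D.f k ∧ D.f k ≤ D.s ^ (-(|Ls| + 2))) := by
  obtain ⟨hs0, hs1⟩ := hg.1.hs
  obtain ⟨hk0, hk1⟩ := hg.1.gate.2 k hk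
  have hL := abs_nonneg Ls
  obtain ⟨l1, l2⟩ := hg.1.hlen.2 k hk
  refine ⟨⟨(sf_gf_anti hs0 hs1.le (by linarith)).trans l1, l2.trans (sf_gf_anti hs0 hs1.le (by linarith))⟩, ?_⟩
  rcases eq_or_lt_of_le hk1 with rfl | hlt
  · rw [hg.1.hw.1, hg.1.hw.2.1]
    have h1 : D.s ^ (|Ls| + 2) ≤ 1 := Real.rpow_le_one hs0.le hs1.le (by linarith)
    exact ⟨⟨h1, le_rfl⟩, h1, sf_gf_one_le hs0 hs1.le (by linarith)⟩
  · obtain ⟨w1, w2, w3, w4⟩ := hg.2.wr k hk 1 hg.1.gate.1 hlt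
    rw [hg.1.hw.1, div_one] at w1 w2
    rw [hg.1.hw.2.1, div_one] at w3 w4
    have hb : Ls * (1 - k) ≤ |Ls| := by
      calc Ls * (1 - k) ≤ |Ls| * (1 - k) := mul_le_mul_of_nonneg_right (le_abs_self _) (by linarith)
        _ ≤ |Ls| * 1 := mul_le_mul_of_nonneg_left (by linarith) hL
        _ = |Ls| := mul_one _
    exact ⟨⟨(sf_gf_anti hs0 hs1.le (by linarith)).trans w1, w2⟩, (sf_gf_anti hs0 hs1.le (by linarith)).trans w3,
      w4.trans (sf_gf_anti hs0 hs1.le (by linarith))⟩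

/-- times of rows lie in `[0,1]` -/
theorem sf_gf_time {D : SfDoc} {π : SfPar} {C0 t : ℝ} (hc : D.Core π C0 t) {k : ℝ} (hk : k ∈ D.G) (ρ : D.Row k) :
    0 ≤ (D.lab k ρ).T ∧ (D.lab k ρ).T ≤ 1 ∧ 0 < D.len k ∧ D.len k ≤ 1 := by
  obtain ⟨-, -, -, h1, h2⟩ := hc.own k hk ρ
  have h3 : 0 < D.len k := lt_of_lt_of_le (Real.rpow_pos_of_pos hc.hs.1 _) (hc.hlen.2 k hk).1
  have e : D.T k ρ = (D.lab k ρ).T := rfl
  rw [e] at h1 h2
  exact ⟨h1, by linarith, h3, by linarith⟩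

section F2

variable {D : SfDoc} {π : SfPar} {Ls C0 t : ℝ} (hg : D.Good π Ls C0 t) (ht : 0 ≤ t ∧ t ≤ 1) {i j k : ℝ} (hi : i ∈ D.G) (hj : j ∈ D.G) (hk : k ∈ D.G)
  (φ : SfFrame) (hfr : φ.L = D.len i ∧ φ.r0 = D.r j ∧ φ.F0 = D.f j) (u0 : D.Row i) (hu : (D.lab i u0).T = φ.T0)
  (ρ : D.Row k) (w : ℝ) (hw1 : |Ls| + 2 ≤ w) (hw2 : C0 ≤ w) (hR : (φ.tst (D.lab k ρ)).size ≤ D.s ^ (-w))

include hg ht hi hj hfr hw1 in
/-- the units of the frame of a bin -/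
theorem sf_gf_fr_units : (1 / D.s ^ (-w) ≤ φ.L ∧ φ.L ≤ D.s ^ (-w)) ∧ (1 / D.s ^ (-w) ≤ φ.r0 ∧ φ.r0 ≤ D.s ^ (-w)) ∧
    (1 / D.s ^ (-w) ≤ φ.F0 ∧ φ.F0 ≤ D.s ^ (-w)) := by
  obtain ⟨hs0, hs1⟩ := hg.1.hs
  have hL := abs_nonneg Ls
  obtain ⟨⟨a1, a2⟩, -, -⟩ := sf_gf_units hg ht hi
  obtain ⟨-, ⟨b1, b2⟩, c1, c2⟩ := sf_gf_units hg ht hj
  have e1 : D.s ^ w ≤ D.s ^ (|Ls| + 2) := sf_gf_anti hs0 hs1.le hw1
  have e2 : D.s ^ (-(|Ls| + 2)) ≤ D.s ^ (-w) := sf_gf_anti hs0 hs1.le (by linarith)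
  have e3 : 1 ≤ D.s ^ (-w) := sf_gf_one_le hs0 hs1.le (by linarith)
  rw [sf_gf_inv hs0, hfr.1, hfr.2.1, hfr.2.2]
  exact ⟨⟨e1.trans a1, a2.trans e2⟩, ⟨e1.trans b1, b2.trans e3⟩, e1.trans c1, c2.trans e2⟩

include hg ht hi hj hk hfr hu hw1 hw2 hR in
/-- **(F2)** the centre test of the frame of a bin is polynomial -/
theorem sf_gf_cen_size : φ.cen.size ≤ 68 * (D.s ^ (-w)) ^ 11 := by
  obtain ⟨hs0, hs1⟩ := hg.1.hs
  have hL := abs_nonneg Ls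
  obtain ⟨u1, u2, u3⟩ := sf_gf_fr_units hg ht hi hj φ hfr w hw1
  obtain ⟨t1, t2, -, -⟩ := sf_gf_time hg.1 hi u0
  obtain ⟨t3, t4, -, -⟩ := sf_gf_time hg.1 hk ρ
  refine sf_gf_cen_alg φ (D.lab k ρ) _ (sf_gf_one_le hs0 hs1.le (by linarith)) u1 u2 u3 ?_ ?_ hR
  · rw [← hu, abs_le]
    constructor <;> linarith
  · exact ((hg.1.bdd k hk ρ).2).trans (sf_gf_anti hs0 hs1.le (by linarith))

include hg ht hi hj hk hfr hu hw1 hw2 hR in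
/-- **(F2)** the frame of a bin is Lipschitz on polynomial rays -/
theorem sf_gf_lip (z z' : SfRay) (hz : z.size ≤ 68 * (D.s ^ (-w)) ^ 11) (hz' : z'.size ≤ 68 * (D.s ^ (-w)) ^ 11) :
    (φ.ray z).dist (φ.ray z') ≤ 15 * (68 * (D.s ^ (-w)) ^ 11) ^ 4 * z.dist z' := by
  obtain ⟨hs0, hs1⟩ := hg.1.hs
  have hL := abs_nonneg Ls
  obtain ⟨u1, u2, u3⟩ := sf_gf_fr_units hg ht hi hj φ hfr w hw1
  obtain ⟨t1, t2, -, -⟩ := sf_gf_time hg.1 hi u0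
  have hW : 1 ≤ D.s ^ (-w) := sf_gf_one_le hs0 hs1.le (by linarith)
  have hWW : D.s ^ (-w) ≤ 68 * (D.s ^ (-w)) ^ 11 := by
    have : D.s ^ (-w) ≤ (D.s ^ (-w)) ^ 11 := le_self_pow₀ hW (by norm_num)
    have h0 : 0 ≤ (D.s ^ (-w)) ^ 11 := by positivity
    linarith
  have hinv : 1 / (68 * (D.s ^ (-w)) ^ 11) ≤ 1 / D.s ^ (-w) := one_div_le_one_div_of_le (by linarith) hWW
  refine sf_gf_lip_alg φ _ (hW.trans hWW) (hinv.trans u1.1) (hinv.trans u2.1) (hinv.trans u3.1) ?_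
    (sf_gf_cen_size hg ht hi hj hk φ hfr u0 hu ρ w hw1 hw2 hR) z z' hz hz'
  rw [← hu, abs_le]
  constructor <;> linarith

include hg ht hi hj hk hfr hu hw1 hw2 hR in
/-- **(F2)** the same with the constants absorbed -/
theorem sf_gf_lip' (hs : D.s ≤ 1 / 2) (z z' : SfRay) (hz : z.size ≤ 68 * (D.s ^ (-w)) ^ 11) (hz' : z'.size ≤ 68 * (D.s ^ (-w)) ^ 11) :
    (φ.ray z).dist (φ.ray z') ≤ D.s ^ (-(44 * w + 29)) * z.dist z' := by
  obtain ⟨hs0, hs1⟩ := hg.1.hs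
  refine (sf_gf_lip hg ht hi hj hk φ hfr u0 hu ρ w hw1 hw2 hR z z' hz hz').trans ?_
  have hd : 0 ≤ z.dist z' := by
    unfold SfRay.dist
    exact le_max_of_le_left (abs_nonneg _)
  refine mul_le_mul_of_nonneg_right ?_ hd
  have e1 : (D.s ^ (-w)) ^ 44 = D.s ^ (-(44 * w)) := by
    rw [← Real.rpow_natCast, ← Real.rpow_mul hs0.le]
    congr 1
    push_cast
    ring
  have e2 : D.s ^ (-(44 * w + 29)) = D.s ^ (-((29 : ℕ) : ℝ)) * D.s ^ (-(44 * w)) := by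
    rw [← Real.rpow_add hs0]
    congr 1
    push_cast
    ring
  have e3 := sf_gf_two hs0 hs 29
  have e4 : 0 ≤ D.s ^ (-(44 * w)) := (Real.rpow_pos_of_pos hs0 _).le
  calc 15 * (68 * (D.s ^ (-w)) ^ 11) ^ 4 = (15 * 68 ^ 4) * (D.s ^ (-w)) ^ 44 := by ring
    _ ≤ 2 ^ 29 * D.s ^ (-(44 * w)) := by
        rw [e1]
        exact mul_le_mul_of_nonneg_right (by norm_num) e4
    _ ≤ D.s ^ (-(44 * w + 29)) := by
        rw [e2]
        exact mul_le_mul_of_nonneg_right e3 e4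

end F2

/-- **(SCALE)** -/
theorem sf_gf_scale {D : SfDoc} {π : SfPar} {Ls C0 t : ℝ} (hg : D.Good π Ls C0 t) {i j : ℝ} (hi : i ∈ D.G) (hj : j ∈ D.G) (hij : i < j)
    (ht : t ≤ (j - i) / 4) (C1 : ℝ) : D.s ^ (-(C1 * (j - i))) ≤ (D.len j / D.len i) ^ (-(2 * max C1 0)) := by
  obtain ⟨hs0, hs1⟩ := hg.1.hs
  obtain ⟨a1, -⟩ := hg.1.hlen.2 i hi
  obtain ⟨-, b2⟩ := hg.1.hlen.2 j hj
  have hli : 0 < D.len i := lt_of_lt_of_le (Real.rpow_pos_of_pos hs0 _) a1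
  have hlj : 0 < D.len j := lt_of_lt_of_le (Real.rpow_pos_of_pos hs0 _) (hg.1.hlen.2 j hj).1
  have hq0 : 0 < D.len j / D.len i := div_pos hlj hli
  have hq : D.len j / D.len i ≤ D.s ^ ((j - i) / 2) := by
    rw [div_le_iff₀ hli]
    calc D.len j ≤ D.s ^ (j - t) := b2
      _ ≤ D.s ^ ((j - i) / 2 + (i + t)) := sf_gf_anti hs0 hs1.le (by linarith)
      _ = D.s ^ ((j - i) / 2) * D.s ^ (i + t) := Real.rpow_add hs0 _ _
      _ ≤ D.s ^ ((j - i) / 2) * D.len i := mul_le_mul_of_nonneg_left a1 (Real.rpow_pos_of_pos hs0 _).le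
  have hm : 0 ≤ max C1 0 := le_max_right _ _
  have h1 : (D.s ^ ((j - i) / 2)) ^ (-(2 * max C1 0)) ≤ (D.len j / D.len i) ^ (-(2 * max C1 0)) :=
    Real.rpow_le_rpow_of_nonpos hq0 hq (by linarith)
  refine le_trans ?_ h1
  rw [← Real.rpow_mul hs0.le]
  refine sf_gf_anti hs0 hs1.le ?_
  have h2 : C1 * (j - i) ≤ max C1 0 * (j - i) := mul_le_mul_of_nonneg_right (le_max_left _ _) (by linarith)
  nlinarith

/-- **the universal support power** `cF C1` of `CalGe` -/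
noncomputable def sfGfC (π : SfPar) (Ls C1 : ℝ) : ℝ := 8 * max C1 0 + 3 * |Ls| + |π.p + π.d| + 12

theorem sf_gf_c_eqns_cite : True := by
  have := @sfGfC.eq_1
  trivial

/-- the count at the gate `1` bounds `e/κ` from below -/
theorem sf_gf_ek_low {D : SfDoc} {π : SfPar} {C0 t : ℝ} (h : D.Core π C0 t) : D.s ^ (t + (π.p + π.d)) ≤ D.ek := by
  obtain ⟨hs0, hs1⟩ := h.hs
  have hc := h.cnt 1 h.gate.1
  rw [h.hw.1, h.hw.2.1, Real.one_rpow, Real.one_rpow, mul_one, mul_one, mul_one] at hc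
  have hne : Nonempty (D.Row 1) := by
    by_contra hn
    rw [not_nonempty_iff] at hn
    have := (D.P 1).sum_one
    rw [Finset.univ_eq_empty, Finset.sum_empty] at this
    exact zero_ne_one this
  have h1 : (1 : ℝ) ≤ ((Set.range (D.lab 1)).ncard : ℝ) := by
    have : 0 < (Set.range (D.lab 1)).ncard := (Set.ncard_pos (Set.finite_range _)).2 (Set.range_nonempty _)
    exact_mod_cast this
  have h2 : 1 ≤ D.s ^ (-t) * D.ek * D.s ^ (-(π.p + π.d)) := h1.trans hc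
  have h3 : 0 < D.s ^ (t + (π.p + π.d)) := Real.rpow_pos_of_pos hs0 _
  have h4 : D.s ^ (t + (π.p + π.d)) * (D.s ^ (-t) * D.ek * D.s ^ (-(π.p + π.d))) = D.ek := by
    have : D.s ^ (t + (π.p + π.d)) * D.s ^ (-t) * D.s ^ (-(π.p + π.d)) = 1 := by
      rw [← Real.rpow_add hs0, ← Real.rpow_add hs0]
      have : t + (π.p + π.d) + -t + -(π.p + π.d) = 0 := by ring
      rw [this, Real.rpow_zero]
    calc D.s ^ (t + (π.p + π.d)) * (D.s ^ (-t) * D.ek * D.s ^ (-(π.p + π.d)))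
        = (D.s ^ (t + (π.p + π.d)) * D.s ^ (-t) * D.s ^ (-(π.p + π.d))) * D.ek := by ring
      _ = D.ek := by rw [this, one_mul]
  calc D.s ^ (t + (π.p + π.d)) = D.s ^ (t + (π.p + π.d)) * 1 := (mul_one _).symm
    _ ≤ D.s ^ (t + (π.p + π.d)) * (D.s ^ (-t) * D.ek * D.s ^ (-(π.p + π.d))) := mul_le_mul_of_nonneg_left h2 h3.le
    _ = D.ek := h4

/-- polynomial labels ⟹ polynomial rays -/
theorem sf_gf_ray_size {D : SfDoc} {π : SfPar} {Ls C0 t : ℝ} (hg : D.Good π Ls C0 t) (ht : 0 ≤ t ∧ t ≤ 1) {k : ℝ} (hk : k ∈ D.G) (ρ : D.Row k)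
    (w : ℝ) (hw : |Ls| + 2 ≤ w) (hl : (D.lab k ρ).size ≤ D.s ^ (-w)) : (D.ray k ρ).size ≤ 32 * (D.s ^ (-w)) ^ 3 := by
  obtain ⟨hs0, hs1⟩ := hg.1.hs
  have hL := abs_nonneg Ls
  obtain ⟨-, ⟨b1, b2⟩, c1, c2⟩ := sf_gf_units hg ht hk
  obtain ⟨t1, t2, t3, t4⟩ := sf_gf_time hg.1 hk ρ
  obtain ⟨o1, o2, o3, -, -⟩ := hg.1.own k hk ρ
  have hW : 1 ≤ D.s ^ (-w) := sf_gf_one_le hs0 hs1.le (by linarith)
  have hp : 0 < D.s ^ (|Ls| + 2) := Real.rpow_pos_of_pos hs0 _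
  refine sf_gf_mem_size (D.lab k ρ) (D.len k) (D.ray k ρ) _ hW hl ?_ ⟨t3.le, t4⟩ ?_ ?_ o3
  · rw [abs_le]
    constructor <;> linarith
  · rw [o1]
    exact ⟨by linarith, b2.trans hW⟩
  · rw [o2]
    exact ⟨by linarith, c2.trans (sf_gf_anti hs0 hs1.le (by linarith))⟩

/-- **(CF)** the support power of the extracted piece is universal -/
theorem sf_gf_cf {D' : SfDoc} {π : SfPar} {Ls S' t' C1 : ℝ} (hg : D'.Good π Ls S' t') (ht : 0 ≤ t' ∧ t' ≤ 1) (hs : D'.s ≤ 1 / 2)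
    (hlab : ∀ k ∈ D'.G, ∀ ρ, (D'.lab k ρ).size ≤ D'.s ^ (-(2 * max C1 0)))
    (hek : D'.ek ≤ D'.s ^ (-(sfGfC π Ls C1))) : D'.Good π Ls (sfGfC π Ls C1) t' := by
  obtain ⟨hs0, hs1⟩ := hg.1.hs
  have hL := abs_nonneg Ls
  have hm : 0 ≤ max C1 0 := le_max_right _ _
  have hpd := abs_nonneg (π.p + π.d)
  have hpd' := le_abs_self (π.p + π.d)
  have hb : ∀ k ∈ D'.G, ∀ ρ, (D'.ray k ρ).size ≤ D'.s ^ (-(sfGfC π Ls C1)) ∧ (D'.lab k ρ).size ≤ D'.s ^ (-(sfGfC π Ls C1)) := by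
    intro k hk ρ
    have h1 : (D'.lab k ρ).size ≤ D'.s ^ (-(2 * max C1 0 + |Ls| + 2)) := (hlab k hk ρ).trans (sf_gf_anti hs0 hs1.le (by linarith))
    have h2 := sf_gf_ray_size hg ht hk ρ (2 * max C1 0 + |Ls| + 2) (by linarith) h1
    refine ⟨h2.trans ?_, h1.trans (sf_gf_anti hs0 hs1.le (by unfold sfGfC; linarith))⟩
    have e1 : (D'.s ^ (-(2 * max C1 0 + |Ls| + 2))) ^ 3 = D'.s ^ (-(3 * (2 * max C1 0 + |Ls| + 2))) := by
      rw [← Real.rpow_natCast, ← Real.rpow_mul hs0.le]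
      congr 1
      push_cast
      ring
    have e3 := sf_gf_two hs0 hs 5
    have e4 : 0 ≤ D'.s ^ (-(3 * (2 * max C1 0 + |Ls| + 2))) := (Real.rpow_pos_of_pos hs0 _).le
    calc 32 * (D'.s ^ (-(2 * max C1 0 + |Ls| + 2))) ^ 3 = 2 ^ 5 * D'.s ^ (-(3 * (2 * max C1 0 + |Ls| + 2))) := by rw [e1]; norm_num
      _ ≤ D'.s ^ (-((5 : ℕ) : ℝ)) * D'.s ^ (-(3 * (2 * max C1 0 + |Ls| + 2))) := mul_le_mul_of_nonneg_right e3 e4
      _ = D'.s ^ (-((5 : ℕ) : ℝ) + -(3 * (2 * max C1 0 + |Ls| + 2))) := (Real.rpow_add hs0 _ _).symm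
      _ ≤ D'.s ^ (-(sfGfC π Ls C1)) := sf_gf_anti hs0 hs1.le (by unfold sfGfC; push_cast; linarith)
  have hlow : D'.s ^ (sfGfC π Ls C1) ≤ D'.ek :=
    (sf_gf_anti hs0 hs1.le (by unfold sfGfC; linarith [ht.2])).trans (sf_gf_ek_low hg.1)
  exact ⟨{ hg.1 with hek := ⟨hlow, hek⟩, bdd := hb }, hg.2⟩

/-- the labels of a sub-configuration are the old labels in the frame -/
theorem sf_gf_sub_lab {D' D : SfDoc} {i j t' : ℝ} {φ : SfFrame} {Gk : Finset ℝ} {e : D'.Rw → D.Rw} (hS : D'.Sub D i j φ Gk t' e) (u : D'.Rw)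
    (hu : u.1 ∈ D'.G) : (D'.lab u.1 u.2).size = (φ.tst (D.lab (e u).1 (e u).2)).size := by
  rw [hS.hlab u hu]
  rfl

/-- **(CF)**, form for the glue: `D'` a sub-configuration of `D` on `[i,j]` in the frame `φ`, every label of `D'` has parameters `≤ s^-(C1 (j-i))` (reach clause + `GeHyp.fr_lab`) -/
theorem sf_gf_cf_sub {D' D : SfDoc} {π : SfPar} {Ls C0 t S' t' t'' C1 i j : ℝ} {φ : SfFrame} {Gk : Finset ℝ} {e : D'.Rw → D.Rw}
    (hgD : D.Good π Ls C0 t) (hi : i ∈ D.G) (hj : j ∈ D.G) (hij : i < j) (ht : t ≤ (j - i) / 4) (hL : φ.L = D.len i)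
    (hg : D'.Good π Ls S' t') (ht' : 0 ≤ t' ∧ t' ≤ 1) (hs : D'.s ≤ 1 / 2) (hS : D'.Sub D i j φ Gk t'' e)
    (hreach : ∀ u : D'.Rw, u.1 ∈ D'.G → (φ.tst (D.lab (e u).1 (e u).2)).size ≤ D.s ^ (-(C1 * (j - i))))
    (hek : D'.ek ≤ D'.s ^ (-(sfGfC π Ls C1))) : D'.Good π Ls (sfGfC π Ls C1) t' := by
  refine sf_gf_cf hg ht' hs (fun k hk ρ => ?_) hek
  have h1 := sf_gf_sub_lab hS ⟨k, ρ⟩ hk
  have h2 := hreach ⟨k, ρ⟩ hk
  have h3 := sf_gf_scale hgD hi hj hij ht C1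
  rw [← hL, ← hS.hs] at h3
  exact (h1.le.trans h2).trans h3

/-- the fourth power of the enlargement factor -/
theorem sf_gf_R4 {s' M C1 : ℝ} (h0 : 0 < s') (hs : s' ≤ 1 / 2) (hM0 : 0 ≤ M) (hM : M ≤ s' ^ (-(2 * max C1 0))) :
    (M + 1) ^ 4 ≤ s' ^ (-(8 * max C1 0 + 4)) := by
  have hm : 0 ≤ max C1 0 := le_max_right _ _
  have h1 : 1 ≤ s' ^ (-(2 * max C1 0)) := sf_gf_one_le h0 (by linarith) (by linarith)
  have e3 := sf_gf_two h0 hs 1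
  have h2 : M + 1 ≤ s' ^ (-(2 * max C1 0 + 1)) := by
    calc M + 1 ≤ 2 ^ 1 * s' ^ (-(2 * max C1 0)) := by linarith
      _ ≤ s' ^ (-((1 : ℕ) : ℝ)) * s' ^ (-(2 * max C1 0)) := mul_le_mul_of_nonneg_right e3 (by linarith)
      _ = s' ^ (-(2 * max C1 0 + 1)) := by
          rw [← Real.rpow_add h0]
          congr 1
          push_cast
          ring
  calc (M + 1) ^ 4 ≤ (s' ^ (-(2 * max C1 0 + 1))) ^ 4 := pow_le_pow_left₀ (by linarith) h2 4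
    _ = s' ^ (-(8 * max C1 0 + 4)) := by
        rw [← Real.rpow_natCast, ← Real.rpow_mul h0.le]
        congr 1
        push_cast
        ring

end Claimed.Agent.R256
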