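import Claimed.Agent.R256.Soft.MGeIface
import Claimed.Agent.R256.Soft.MGeFrC

/-!
# Row 256 (S0496), unit SOFT, block M6 GE, FRAME, file D: THE EXITS `SfGeCf`, `SfGeFrm` OF `Soft/MGeIface.lean`      (architect helper226; block owner helper105; prefix `sf_gf_`)

* `sf_gf_cf_exit : SfGeCf π Ls`      with `cK K1 = sfGfC π Ls (K1 / 2) = 4 K1 + 3 |Ls| + |p + d| + 12`.
* `sf_gf_fr`         (F1) for a group: `d.Q0 = sfGfQ (root of c) φ`  ⟹  `SfGeFr Y π d φ`.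
* `sf_gf_xs`         `d.X.s = len j / len i`.
* `sf_gf_bd_lab`, `sf_gf_bd_ray`, `sf_gf_bd_lip`      the three clauses of `SfGeBd`.
* `sf_gf_frm_exit : SfGeFrm Y π Ls`      with `Q0 = sfGfQ (root of c) φ`, `K = sfGfK Ls C0 C1 (S + 1)`, `n0 = 1`.
-/

set_option autoImplicit false

namespace Claimed.Agent.R256

open MeasureTheory Claimed.Agent.R255

/-- **EXIT (CF)** -/
theorem sf_gf_cf_exit (π : SfPar) (Ls : ℝ) : SfGeCf π Ls := by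
  refine ⟨fun K1 => sfGfC π Ls (K1 / 2), fun D S' t' K1 ht0 ht1 hK hs hg hlab hek => ?_⟩
  obtain ⟨hs0, hs1⟩ := hg.1.hs
  have hm : max (K1 / 2) 0 = K1 / 2 := max_eq_left (by linarith)
  refine sf_gf_cf hg ⟨ht0.le, ht1⟩ (by linarith) (fun k hk ρ => ?_) ?_
  · rw [hm]
    have : 2 * (K1 / 2) = K1 := by ring
    rw [this]
    exact hlab k hk ρ
  · refine hek.trans (sf_gf_anti hs0 hs1.le ?_)
    unfold sfGfC
    rw [hm]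
    have h1 := abs_nonneg Ls
    have h2 := abs_nonneg (π.p + π.d)
    linarith

section grp

variable {Y : SfCy} {π : SfPar} {Ls : ℝ} {c : SfCfg Y π.d} {S : ℕ} {C0 α : ℝ}

theorem sf_gf_g0 (d : SfGeD c) : d.γ 0 = d.i := by
  unfold SfGeD.γ
  ring

theorem sf_gf_g1 (d : SfGeD c) : d.γ 1 = d.j := by
  unfold SfGeD.γ
  ring

/-- lengths of the shadow -/
theorem sf_gf_len (hin : SfGeIn Y π Ls c S C0 α) {k : ℝ} (hk : k ∈ c.W.G) :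
    (2 : ℝ)⁻¹ ^ c.W.E.k0 * c.D.len k = (2 : ℝ)⁻¹ ^ c.W.k k := by
  rw [c.sh.hlen k hk, ← pow_add, Nat.add_sub_cancel' (hin.ext.str.k_rg k hk).1]

/-- the scale of the group experiment -/
theorem sf_gf_xs (hin : SfGeIn Y π Ls c S C0 α) (d : SfGeD c) (hd : d.Ok) : d.X.s = c.D.len d.j / c.D.len d.i := by
  have h1 := (hin.ext.str.k_mono d.i hd.gi d.j hd.gj hd.hij).1
  have h2 := (hin.ext.str.k_rg d.i hd.gi).1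
  have e : d.X.s = (2 : ℝ)⁻¹ ^ (c.W.k (d.γ 1) - c.W.k (d.γ 0)) := rfl
  rw [e, sf_gf_g0, sf_gf_g1, c.sh.hlen d.i hd.gi, c.sh.hlen d.j hd.gj, eq_div_iff (by positivity), ← pow_add]
  congr 1
  omega

/-- the frame of a bin has positive units -/
theorem sf_gf_pos (hin : SfGeIn Y π Ls c S C0 α) {i j : ℝ} (hi : i ∈ c.W.G) (hj : j ∈ c.W.G) (φ : SfFrame)
    (hL : φ.L = c.D.len i) (hr : φ.r0 = c.D.r j) (hF : φ.F0 = c.D.f j) : φ.Pos := by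
  have hG := c.sh.hG
  have h1 := hin.good.1.hw.2.2 j (hG ▸ hj)
  refine ⟨?_, hr ▸ h1.1, hF ▸ h1.2⟩
  rw [hL, c.sh.hlen i hi]
  positivity

/-- **(F1) for a group** -/
theorem sf_gf_fr (hin : SfGeIn Y π Ls c S C0 α) (d : SfGeD c) (hd : d.Ok) (φ : SfFrame)
    (hL : φ.L = c.D.len d.i) (hr : φ.r0 = c.D.r d.j) (hF : φ.F0 = c.D.f d.j)
    (hT : ∀ u v : c.D.Rw, d.U v → u.1 = d.i → c.D.Conn u.1 v.1 u.2 v.2 → d.S0 u → (c.D.lab u.1 u.2).T = φ.T0)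
    (hQ : d.Q0 = sfGfQ (tmL c.W.E.k0 c.W.E.i0) ((2 : ℝ)⁻¹ ^ c.W.E.k0) c.W.Q0 φ) : SfGeFr Y π d φ := by
  have hS := hin.ext.str
  have hφ := sf_gf_pos hin hd.gi hd.gj φ hL hr hF
  obtain ⟨q1, q2, q3⟩ := hS.frame
  have hq1 : 0 < c.W.Q0.r := q1 ▸ (q3 1 hS.gate.1).1
  have hq2 : 0 < c.W.Q0.f := q2 ▸ (q3 1 hS.gate.1).2
  have hL0 : (0 : ℝ) < (2 : ℝ)⁻¹ ^ c.W.E.k0 := by positivity
  -- the root time
  have hT0 : tmL (c.W.k (d.γ 0)) d.m0 = tmL c.W.E.k0 c.W.E.i0 + (2 : ℝ)⁻¹ ^ c.W.E.k0 * φ.T0 := by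
    obtain ⟨v, hv⟩ := hd.u_ne
    obtain ⟨⟨k, ρ⟩, hk, hc, hm, hs0⟩ := hd.u_s0 v hv
    have h1 := hT ⟨k, ρ⟩ v hv hk hc hs0
    simp only at hk hm h1
    subst hk
    rw [c.sh.hlab _ hd.gi ρ] at h1
    have h2 : ((sfFrameOf (tmL c.W.E.k0 c.W.E.i0) ((2 : ℝ)⁻¹ ^ c.W.E.k0) c.W.Q0).tst
        (sfTestAt (c.W.T d.i (c.sh.lb d.i ρ)) (Y.tq c.p (c.W.ts d.i (c.sh.lb d.i ρ))))).T
        = (tmL (c.W.k d.i) d.m0 - tmL c.W.E.k0 c.W.E.i0) / (2 : ℝ)⁻¹ ^ c.W.E.k0 := by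
      have : c.W.T d.i (c.sh.lb d.i ρ) = tmL (c.W.k d.i) d.m0 := by
        rw [← hm]
        rfl
      simp only [SfFrame.tst, sfFrameOf, sfTestAt, this]
    rw [h2] at h1
    rw [sf_gf_g0, ← h1]
    field_simp
    ring
  have hLL : (2 : ℝ)⁻¹ ^ c.W.k (d.γ 0) = (2 : ℝ)⁻¹ ^ c.W.E.k0 * φ.L := by
    rw [sf_gf_g0, hL, sf_gf_len hin hd.gi]
  have hfr : d.W.fr = sfFrameOf (tmL c.W.E.k0 c.W.E.i0 + (2 : ℝ)⁻¹ ^ c.W.E.k0 * φ.T0) ((2 : ℝ)⁻¹ ^ c.W.E.k0 * φ.L)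
      (sfGfQ (tmL c.W.E.k0 c.W.E.i0) ((2 : ℝ)⁻¹ ^ c.W.E.k0) c.W.Q0 φ) := by
    rw [← hT0, ← hLL, ← hQ]
    rfl
  refine ⟨?_, ?_, fun z => ?_, fun Q => ?_⟩
  · rw [hQ, sf_gf_comp_r, hr, c.sh.hr d.j hd.gj]
    field_simp
  · rw [hQ, sf_gf_comp_f, hF, c.sh.hf d.j hd.gj]
    field_simp
  · rw [hfr]
    exact sf_gf_comp_ray _ _ _ hL0 hq1 hq2 φ hφ z
  · rw [hfr]
    exact sf_gf_comp_tst _ _ _ hL0 hq1 hq2 φ hφ Q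

/-- accuracy and gap -/
theorem sf_gf_acc (hin : SfGeIn Y π Ls c S C0 α) (d : SfGeD c) (hd : d.Ok) (hα : α ≤ (d.j - d.i) / 8) :
    (0 ≤ α ∧ α ≤ 1) ∧ α ≤ (d.j - d.i) / 4 ∧ d.j - d.i ≤ 1 := by
  have h1 : 0 < 1 / ((S : ℝ) + 1) := by positivity
  have h2 := hin.eps
  have h3 := (hin.ext.str.gate.2 d.i hd.gi).1
  have h4 := (hin.ext.str.gate.2 d.j hd.gj).2
  have h5 := hd.hij
  refine ⟨⟨by linarith, by linarith⟩, by linarith, by linarith⟩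

/-- conversion of the scales -/
theorem sf_gf_conv (hin : SfGeIn Y π Ls c S C0 α) (d : SfGeD c) (hd : d.Ok) (hα : α ≤ (d.j - d.i) / 8) (C1 : ℝ) :
    c.D.s ^ (-(C1 * (d.j - d.i))) ≤ d.X.s ^ (-(2 * |C1| + 1)) := by
  have hG := c.sh.hG
  obtain ⟨-, h2, -⟩ := sf_gf_acc hin d hd hα
  have h := sf_gf_scale hin.good (hG ▸ hd.gi) (hG ▸ hd.gj) hd.hij h2 C1
  rw [← sf_gf_xs hin d hd] at h
  have hs0 : 0 < d.X.s := by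
    have e : d.X.s = (2 : ℝ)⁻¹ ^ d.X.n := rfl
    rw [e]
    positivity
  have hs1 : d.X.s ≤ 1 := by
    have e : d.X.s = (2 : ℝ)⁻¹ ^ d.X.n := rfl
    rw [e]
    exact pow_le_one₀ (by norm_num) (by norm_num)
  refine h.trans (sf_gf_anti hs0 hs1 ?_)
  have : max C1 0 ≤ |C1| := max_le (le_abs_self _) (abs_nonneg _)
  linarith

/-- `SfGeBd.lab` -/
theorem sf_gf_bd_lab (hin : SfGeIn Y π Ls c S C0 α) (d : SfGeD c) (hd : d.Ok) (hα : α ≤ (d.j - d.i) / 8) (C1 : ℝ) (φ : SfFrame)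
    (h2 : ∀ u v : c.D.Rw, d.U v → (u = v ∨ (u.1 < v.1 ∧ c.D.Conn u.1 v.1 u.2 v.2)) → u.1 ∈ d.Gk →
      (φ.tst (c.D.lab u.1 u.2)).size ≤ c.D.s ^ (-(C1 * (d.j - d.i)))) :
    ∀ u, d.chn u → u.1 ∈ d.Gk → (φ.tst (c.D.lab u.1 u.2)).size ≤ d.X.s ^ (-(2 * |C1| + 1)) := by
  intro u hu hk
  refine le_trans ?_ (sf_gf_conv hin d hd hα C1)
  rcases hu.1 with hu | ⟨v, hv, hlt, hc⟩
  · exact h2 u u hu (Or.inl rfl) hk
  · exact h2 u v hv (Or.inr ⟨hlt, hc⟩) hk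

/-- `SfGeBd.ray` -/
theorem sf_gf_bd_ray (hin : SfGeIn Y π Ls c S C0 α) (d : SfGeD c) (hd : d.Ok) (hα : α ≤ (d.j - d.i) / 8) (C1 : ℝ) (φ : SfFrame)
    (h1 : ∀ u v : c.D.Rw, d.U v → u.1 = d.i → c.D.Conn u.1 v.1 u.2 v.2 → d.S0 u → (φ.ray (c.D.ray u.1 u.2)).size ≤ c.D.s ^ (-(C1 * (d.j - d.i)))) :
    ∀ u, d.chn u → u.1 = d.i → (φ.ray (c.D.ray u.1 u.2)).size ≤ d.X.s ^ (-(2 * |C1| + 1)) := by
  intro u hu hk
  refine le_trans ?_ (sf_gf_conv hin d hd hα C1)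
  have hs0 := hu.2 hk
  rcases hu.1 with hu | ⟨v, hv, -, hc⟩
  · have := hd.u_dep u hu
    have h3 := hd.hij
    rw [hk] at this
    linarith
  · exact h1 u v hv hk hc hs0

/-- the exponent of the Lipschitz constant -/
noncomputable def sfGfK (Ls C0 C1 Kr : ℝ) : ℝ := 44 * max (max C0 |C1|) (max (|Ls| + 2) Kr) + 29

theorem sf_gf_d_eqns_cite : True := by
  have := @sfGfK.eq_1
  trivial

/-- `SfGeBd.lip`, with the radius `s^-Kr` -/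
theorem sf_gf_bd_lip (hin : SfGeIn Y π Ls c S C0 α) (hn : 1 ≤ c.W.E.n) (d : SfGeD c) (hd : d.Ok) (hα : α ≤ (d.j - d.i) / 8) (C1 Kr : ℝ) (φ : SfFrame)
    (hL : φ.L = c.D.len d.i) (hr : φ.r0 = c.D.r d.j) (hF : φ.F0 = c.D.f d.j)
    (hT : ∀ u v : c.D.Rw, d.U v → u.1 = d.i → c.D.Conn u.1 v.1 u.2 v.2 → d.S0 u → (c.D.lab u.1 u.2).T = φ.T0)
    (h2 : ∀ u v : c.D.Rw, d.U v → (u = v ∨ (u.1 < v.1 ∧ c.D.Conn u.1 v.1 u.2 v.2)) → u.1 ∈ d.Gk →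
      (φ.tst (c.D.lab u.1 u.2)).size ≤ c.D.s ^ (-(C1 * (d.j - d.i)))) :
    ∀ z z' : SfRay, z.size ≤ c.D.s ^ (-Kr) → z'.size ≤ c.D.s ^ (-Kr) → (φ.ray z).dist (φ.ray z') ≤ c.D.s ^ (-(sfGfK Ls C0 C1 Kr)) * z.dist z' := by
  intro z z' hz hz'
  have hG := c.sh.hG
  obtain ⟨hs0, hs1⟩ := hin.good.1.hs
  obtain ⟨a1, -, a3⟩ := sf_gf_acc hin d hd hα
  obtain ⟨v, hv⟩ := hd.u_ne
  obtain ⟨⟨k, ρ⟩, hk, hc, -, hs00⟩ := hd.u_s0 v hv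
  have hT1 := hT ⟨k, ρ⟩ v hv hk hc hs00
  have hv1 := hd.u_dep v hv
  have hv2 := h2 v v hv (Or.inl rfl) (hv1 ▸ hd.kept.1)
  simp only at hk hT1
  subst hk
  obtain ⟨kv, ρv⟩ := v
  simp only at hv1 hv2
  subst hv1
  set w := max (max C0 |C1|) (max (|Ls| + 2) Kr) with hw
  have w1 : C0 ≤ w := (le_max_left _ _).trans (le_max_left _ _)
  have w2 : |C1| ≤ w := (le_max_right _ _).trans (le_max_left _ _)
  have w3 : |Ls| + 2 ≤ w := (le_max_left _ _).trans (le_max_right _ _)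
  have w4 : Kr ≤ w := (le_max_right _ _).trans (le_max_right _ _)
  have hs2 : c.D.s ≤ 1 / 2 := by
    rw [c.sh.hs]
    have e : c.W.E.s = (2 : ℝ)⁻¹ ^ c.W.E.n := rfl
    rw [e]
    calc (2 : ℝ)⁻¹ ^ c.W.E.n ≤ (2 : ℝ)⁻¹ ^ 1 := pow_le_pow_of_le_one (by norm_num) (by norm_num) hn
      _ = 1 / 2 := by norm_num
  have hC : C1 * (d.j - d.i) ≤ w := by
    have h3 := hd.hij
    calc C1 * (d.j - d.i) ≤ |C1| * (d.j - d.i) := mul_le_mul_of_nonneg_right (le_abs_self _) (by linarith)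
      _ ≤ |C1| * 1 := mul_le_mul_of_nonneg_left a3 (abs_nonneg _)
      _ ≤ w := by linarith
  have hR : (φ.tst (c.D.lab d.j ρv)).size ≤ c.D.s ^ (-w) := hv2.trans (sf_gf_anti hs0 hs1.le (by linarith))
  have hW : 1 ≤ c.D.s ^ (-w) := sf_gf_one_le hs0 hs1.le (by linarith [abs_nonneg Ls])
  have hrad : c.D.s ^ (-Kr) ≤ 68 * (c.D.s ^ (-w)) ^ 11 := by
    have b1 : c.D.s ^ (-Kr) ≤ c.D.s ^ (-w) := sf_gf_anti hs0 hs1.le (by linarith)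
    have b2 : c.D.s ^ (-w) ≤ (c.D.s ^ (-w)) ^ 11 := le_self_pow₀ hW (by norm_num)
    have b3 : 0 ≤ (c.D.s ^ (-w)) ^ 11 := by positivity
    linarith
  exact sf_gf_lip' hin.good a1 (hG ▸ hd.gi) (hG ▸ hd.gj) (hG ▸ hd.gj) φ ⟨hL, hr, hF⟩ ρ hT1 ρv w w3 w1 hR hs2 z z' (hz.trans hrad) (hz'.trans hrad)

end grp

/-- **EXIT (FRAME)** -/
theorem sf_gf_frm_exit (Y : SfCy) (π : SfPar) (Ls : ℝ) : SfGeFrm Y π Ls := by
  intro C1 C0 h _ S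
  refine ⟨sfGfK Ls C0 C1 ((S : ℝ) + 1), 1, ?_, fun c α hin hn i j Gk U S0 m0 φ _ hα hok hL hr hF h1 h2 => ?_⟩
  · unfold sfGfK
    have a1 : (S : ℝ) + 1 ≤ max (max C0 |C1|) (max (|Ls| + 2) ((S : ℝ) + 1)) := (le_max_right _ _).trans (le_max_right _ _)
    have a2 : (0 : ℝ) ≤ S := Nat.cast_nonneg _
    linarith
  · refine ⟨sfGfQ (tmL c.W.E.k0 c.W.E.i0) ((2 : ℝ)⁻¹ ^ c.W.E.k0) c.W.Q0 φ, fun Nr f0 e ka => ?_⟩
    have hd := hok Nr f0 (sfGfQ (tmL c.W.E.k0 c.W.E.i0) ((2 : ℝ)⁻¹ ^ c.W.E.k0) c.W.Q0 φ) e ka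
    exact ⟨sf_gf_fr hin _ hd φ hL hr hF (fun u v hv hu hc hs => (h1 u v hv hu hc hs).1) rfl,
      sf_gf_bd_lab hin _ hd hα C1 φ h2,
      sf_gf_bd_ray hin _ hd hα C1 φ (fun u v hv hu hc hs => (h1 u v hv hu hc hs).2),
      sf_gf_bd_lip hin hn _ hd hα C1 _ φ hL hr hF (fun u v hv hu hc hs => (h1 u v hv hu hc hs).1) h2⟩

end Claimed.Agent.R256
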