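import Claimed.Agent.R256.Soft.MGeTop
import Claimed.Agent.R256.Soft.MGeFrD
import Claimed.Agent.R256.Soft.MGeAf2
import Claimed.Agent.R256.Soft.Entry
import Claimed.Agent.R256.Soft.MGeDocTop
import Claimed.Agent.R256.Soft.MGeStrB
import Claimed.Agent.R256.Soft.MGaTop

/-!
# Row 256 (S0496), unit SOFT, block M6 GE, EXIT: `sf_gt_cal : (sfCls Y π Ls).CalGe π Ls` under `SfEntry`      (helper217)

WIRING ONLY.   `sf_gt_top` (`Soft/MGeTop.lean`) applied to the exits of the sub-blocks: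
 ROOT `sf_ge_root` (`Soft/MGeRoot.lean`, helper137)      FRAME `sf_gf_frm_exit`, CF `sf_gf_cf_exit` (`Soft/MGeFrD.lean`, helper226)      AF `sf_gh_exit` (`Soft/MGeAf2.lean`, helper163)
 SEL `sf_ga_sel` (`Soft/MGaTop.lean`, helper169)      DOC `sf_gd_main` (`Soft/MGeDocTop.lean`, helper200) on PRE `sf_ge_s_pre` (`Soft/MGeStrB.lean`, helper272).
-/

set_option autoImplicit false

namespace Claimed.Agent.R256

open MeasureTheory Claimed.Agent.R255

section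

variable (Y : SfCy) (hY : (∃ η, Y = sfCl η) ∨ ∃ η, Y = sfHy η) (π : SfPar) (Ls : ℝ) (hE : SfEntry Y π Ls)

include hY hE

/-- SEL (helper169) -/
theorem sf_gt_exit_sel : SfGeSel Y π Ls :=
  sf_ga_sel hY π Ls ⟨hE.par, hE.adm, hE.gen, hE.loc, hE.rate⟩

/-- DOC (helper200) -/
theorem sf_gt_exit_doc : SfGeDoc Y π Ls := by
  obtain ⟨H⟩ := hE.hyp
  exact sf_gd_main Y hY H hE.fwd π Ls hE.exps (sf_ge_s_pre (sf_cy_ok Y hY) π Ls)

/-- **EXIT of the block GE** -/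
theorem sf_gt_cal : (sfCls Y π Ls).CalGe π Ls := by
  obtain ⟨H⟩ := hE.hyp
  have hC : SfCoreHyp Y π := ⟨hE.par, hE.adm, hE.gen, hE.loc, hE.rate⟩
  exact sf_gt_top Y hY π Ls hC H (sf_ge_root (sf_cy_ok Y hY) (sf_sep hY) π Ls hC) (sf_gt_exit_sel Y hY π Ls hE) (sf_gf_frm_exit Y π Ls) (sf_gh_exit H π Ls)
    (sf_gt_exit_doc Y hY π Ls hE) (sf_gf_cf_exit π Ls)

end

end Claimed.Agent.R256
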