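import Claimed.Agent.R256.Soft.MPlFloor

/-!
# Row 256 (S0496), unit SOFT, block M7 PL, file 6: THE PLANCK FLOOR FOR DOCUMENTED EXPERIMENTS      (architect helper73; prefix `sf_pl_`)

`W : SfMD P` a documented experiment.   `sfPlPre W i` = the PREFIX EXPERIMENT of the gate `i`: root of `W.E`, final depth `W.k i`, stages before the gate, labels = the labels of the gate.
* `sf_pl_pre_cut`, `sf_pl_pre_valid`      it is a valid experiment with the same root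
* `sf_pl_holder`, `sf_pl_pre_rd`, `sf_pl_pre_low`      read mass (iii) + weight count (i) + Hölder: it is near extremal at its own scale
* `sf_pl_md_gate`      hence (`sf_pl_floor` + `gn_prefix_on`) its common normal width is NOT far above the Planck width of its depth
* **EXIT `sf_pl_md`**   the Planck parameter of the frame is `s^(1 ± t)`-close to `s`, the normal widths of the gates `i ≥ i0` are `s^((1-i)/2 ± t)`.
-/

set_option autoImplicit false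

namespace Claimed.Agent.R256

open MeasureTheory
open scoped ENNReal

section

variable {P : PkSys} (W : SfMD P)

/-- the prefix experiment of a gate -/
noncomputable def sfPlPre (i : ℝ) : Xp P :=
  W.E.pre (W.k i - W.E.k0) (W.E.st.take (W.pos i)) (W.gb i)
    (fun l => W.iv i ((Fintype.equivFin (W.Lb i)).symm l))
    (fun l => W.ts i ((Fintype.equivFin (W.Lb i)).symm l))
    (fun l => W.th i ((Fintype.equivFin (W.Lb i)).symm l))

theorem sf_pl_md_eqns_cite : True := by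
  have := @sfPlPre.eq_1
  trivial

/-- **LEAF PRE-1: the stack is cut at a gate.**   `List.take_append_drop`.   `i = 1` (`Str.k_one`): `take = st` (`List.take_length`), `drop = []`, depths `≤ kf` (`Valid.st_dep`).
`i < 1` (`Str.gate`, `lt_of_le_of_ne`): `Str.stage` gives `σ = st[pos i]` of depth `k i`; `Valid.st_mono` (`List.pairwise_iff_getElem`): earlier stages have depth `≤ σ.k`, later ones `≥ σ.k` (`List.mem_take_iff_getElem`, `List.mem_drop_iff_getElem`).   `Str.k_rg`.   ~100 l. -/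
theorem sf_pl_pre_cut (tq : P.Tst → CyT) (h : W.Str tq) (i : ℝ) (hi : i ∈ W.G) :
    W.E.CutAt (W.k i) (W.E.st.take (W.pos i)) (W.E.st.drop (W.pos i)) := by
  refine ⟨(List.take_append_drop _ _).symm, ?_, ?_, (h.k_rg i hi).1, (h.k_rg i hi).2⟩
  · rcases (h.gate.2 i hi).2.eq_or_lt with rfl | hlt
    · intro σ hσ
      rw [h.k_one.1]
      exact (h.valid.st_dep σ (List.mem_of_mem_take hσ)).2
    · obtain ⟨σ, hσ, hk, -, -⟩ := h.stage i hi hlt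
      obtain ⟨hp, hσ'⟩ := List.getElem?_eq_some_iff.1 hσ
      intro σ' hσ''
      obtain ⟨m, hm, rfl⟩ := List.mem_take_iff_getElem.1 hσ''
      have hm1 : m < W.pos i := lt_of_lt_of_le hm (min_le_left _ _)
      have := List.pairwise_iff_getElem.1 h.valid.st_mono m (W.pos i) (lt_of_lt_of_le hm (min_le_right _ _)) hp hm1
      rw [hσ', hk] at this
      exact this
  · rcases (h.gate.2 i hi).2.eq_or_lt with rfl | hlt
    · intro σ hσ
      rw [h.k_one.2.1, List.drop_length] at hσ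
      exact absurd hσ (List.not_mem_nil)
    · obtain ⟨σ, hσ, hk, -, -⟩ := h.stage i hi hlt
      obtain ⟨hp, hσ'⟩ := List.getElem?_eq_some_iff.1 hσ
      intro σ' hσ''
      obtain ⟨m, hm, rfl⟩ := List.mem_drop_iff_getElem.1 hσ''
      rcases Nat.eq_zero_or_pos m with rfl | hm0
      · simp only [Nat.add_zero]
        rw [hσ', hk]
      · have := List.pairwise_iff_getElem.1 h.valid.st_mono (W.pos i) (W.pos i + m) hp (by omega) (by omega)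
        rw [hσ', hk] at this
        exact this

/-- **LEAF PRE-2: the prefix experiment is valid.**   `gn_pre_valid` with `sf_pl_pre_cut`; `Str.iv_in` (`SfMD.ivs` = `ivs` by `rfl`), `Str.ok`, `hT.wt_pos`, `Str.meas`, `Str.nn`, `Str.supp` (`SfMD.T`), `Str.sum_le` (reindex the sum by `Equiv.sum_comp`).
Length: `List.length_take_le`.   Generations: `gb 1 = bT`; for `i < 1`, `gb i = σ.b` for a stage `σ` (`List.mem_of_getElem?`); `List.mem_of_mem_take`.   ~120 l. -/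
theorem sf_pl_pre_valid (hT : P.Tight) (tq : P.Tst → CyT) (h : W.Str tq) (i : ℝ) (hi : i ∈ W.G) :
    (sfPlPre W i).Valid ∧ (sfPlPre W i).st.length ≤ W.E.st.length ∧ ∀ C, W.E.GenLe C → (sfPlPre W i).GenLe C := by
  refine ⟨?_, ?_, ?_⟩
  · refine gn_pre_valid W.E h.valid (sf_pl_pre_cut W tq h i hi) (W.gb i) _ _ _ (fun l => h.iv_in i hi _) (fun l => h.ok i hi _)
      (fun l => hT.wt_pos _ _ (h.ok i hi _)) (fun l => h.meas i hi _) (fun l => h.nn i hi _) (fun l => h.supp i hi _) (fun m x => ?_)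
    rw [Equiv.sum_comp (Fintype.equivFin (W.Lb i)).symm (fun l => if W.iv i l = m then W.th i l x else 0)]
    exact h.sum_le i hi m x
  · show (W.E.st.take (W.pos i)).length ≤ W.E.st.length
    rw [List.length_take]
    exact min_le_right _ _
  · intro C hC
    refine ⟨hC.1, ?_, fun σ hσ => hC.2.2 σ (List.mem_of_mem_take hσ)⟩
    show W.gb i ≤ C
    rcases (h.gate.2 i hi).2.eq_or_lt with rfl | hlt
    · rw [h.k_one.2.2]
      exact hC.2.1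
    · obtain ⟨σ, hσ, -, hb, -⟩ := h.stage i hi hlt
      rw [← hb]
      exact hC.2.2 σ (List.mem_of_getElem? hσ)

omit W in
/-- **LEAF HOLDER** (real numbers only).   `Real.inner_le_Lp_mul_Lq` with `p = 3/2`, `q = 3`, `f = m / w^(1/3)`, `g = w^(1/3)`: `∑ m ≤ (∑ m^(3/2)/√w)^(2/3) (∑ w)^(1/3)`; raise to the power `3/2` (`Real.rpow_le_rpow`, `Real.mul_rpow`, `← Real.rpow_mul`, `Real.sqrt_eq_rpow`).   ~100 l. -/
theorem sf_pl_holder {ι : Type} [Fintype ι] (m w : ι → ℝ) (hm : ∀ l, 0 ≤ m l) (hw : ∀ l, 0 < w l) :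
    (∑ l, m l) ^ (3 / 2 : ℝ) ≤ (∑ l, m l ^ (3 / 2 : ℝ) / Real.sqrt (w l)) * Real.sqrt (∑ l, w l) := by
  have hpq : (3 / 2 : ℝ).HolderConjugate 3 := by
    rw [Real.holderConjugate_iff]
    constructor <;> norm_num
  have key := Real.inner_le_Lp_mul_Lq_of_nonneg (Finset.univ : Finset ι) (f := fun l => m l / w l ^ (1 / 3 : ℝ))
    (g := fun l => w l ^ (1 / 3 : ℝ)) hpq (fun l _ => div_nonneg (hm l) (Real.rpow_nonneg (hw l).le _))
    (fun l _ => Real.rpow_nonneg (hw l).le _)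
  have e1 : ∀ l, m l / w l ^ (1 / 3 : ℝ) * w l ^ (1 / 3 : ℝ) = m l := fun l =>
    div_mul_cancel₀ _ (Real.rpow_pos_of_pos (hw l) _).ne'
  have e2 : ∀ l, (m l / w l ^ (1 / 3 : ℝ)) ^ (3 / 2 : ℝ) = m l ^ (3 / 2 : ℝ) / Real.sqrt (w l) := fun l => by
    rw [Real.div_rpow (hm l) (Real.rpow_nonneg (hw l).le _), ← Real.rpow_mul (hw l).le, Real.sqrt_eq_rpow]
    norm_num
  have e3 : ∀ l, (w l ^ (1 / 3 : ℝ)) ^ (3 : ℝ) = w l := fun l => by
    rw [← Real.rpow_mul (hw l).le]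
    norm_num
  simp only [e1, e2, e3] at key
  have hS : 0 ≤ ∑ l, m l ^ (3 / 2 : ℝ) / Real.sqrt (w l) :=
    Finset.sum_nonneg fun l _ => div_nonneg (Real.rpow_nonneg (hm l) _) (Real.sqrt_nonneg _)
  have hW : 0 ≤ ∑ l, w l := Finset.sum_nonneg fun l _ => (hw l).le
  have hM : 0 ≤ ∑ l, m l := Finset.sum_nonneg fun l _ => hm l
  have k2 := Real.rpow_le_rpow hM key (by norm_num : (0 : ℝ) ≤ 3 / 2)
  rw [Real.mul_rpow (Real.rpow_nonneg hS _) (Real.rpow_nonneg hW _), ← Real.rpow_mul hS, ← Real.rpow_mul hW] at k2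
  rw [Real.sqrt_eq_rpow]
  convert k2 using 2
  · norm_num
  · norm_num

/-- **LEAF PRE-3: Hölder at a gate.**   `Xp.rd`, `gn_pre_m` (`Xp.at'` = `SfMD.pre`, `SfMD.T`, `SfMD.m` by `rfl`), reindex by `Equiv.sum_comp (Fintype.equivFin _).symm`, `sf_pl_holder` (`gn_en_nonneg`, `Str.nn`, `hT.wt_pos`, `Str.ok`).   ~80 l. -/
theorem sf_pl_pre_rd (hT : P.Tight) (tq : P.Tst → CyT) (h : W.Str tq) (i : ℝ) (hi : i ∈ W.G) :
    W.tot i ^ (3 / 2 : ℝ) ≤ (sfPlPre W i).rd * Real.sqrt (∑ l, P.wt (W.ts i l)) := by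
  have hk := (h.k_rg i hi).1
  have e1 : (sfPlPre W i).rd = ∑ l, W.m i l ^ (3 / 2 : ℝ) / Real.sqrt (P.wt (W.ts i l)) := by
    unfold Xp.rd
    rw [← Equiv.sum_comp (Fintype.equivFin (W.Lb i)).symm]
    refine Finset.sum_congr rfl fun l _ => ?_
    have := gn_pre_m W.E hk (W.E.st.take (W.pos i)) (W.gb i)
      (fun l => W.iv i ((Fintype.equivFin (W.Lb i)).symm l))
      (fun l => W.ts i ((Fintype.equivFin (W.Lb i)).symm l))
      (fun l => W.th i ((Fintype.equivFin (W.Lb i)).symm l)) l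
    unfold sfPlPre
    rw [this.1, this.2]
    rfl
  rw [e1]
  exact sf_pl_holder (W.m i) (fun l => P.wt (W.ts i l)) (fun l => gn_en_nonneg _ _ _ (h.nn i hi l) _)
    (fun l => hT.wt_pos _ _ (h.ok i hi l))

theorem sf_pl_pre_low_aux (e κ rd S tot α β : ℝ) (he : 0 < e) (hκ : 0 < κ) (hrd : 0 ≤ rd)
    (h1 : tot ^ (3 / 2 : ℝ) ≤ rd * Real.sqrt S) (h2 : S ≤ e / κ * 2 ^ β) (h3 : e * 2 ^ α ≤ tot) :
    e * Real.sqrt κ * 2 ^ (3 * α / 2 - β / 2) ≤ rd := by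
  have p2 : ∀ x : ℝ, (0 : ℝ) < 2 ^ x := fun x => Real.rpow_pos_of_pos (by norm_num) x
  have hx : 0 < Real.sqrt e := Real.sqrt_pos.2 he
  have hy : 0 < Real.sqrt κ := Real.sqrt_pos.2 hκ
  have a1 : (e * 2 ^ α) ^ (3 / 2 : ℝ) ≤ tot ^ (3 / 2 : ℝ) :=
    Real.rpow_le_rpow (mul_pos he (p2 α)).le h3 (by norm_num)
  have a2 : (e * 2 ^ α) ^ (3 / 2 : ℝ) = e * Real.sqrt e * 2 ^ (3 * α / 2) := by
    rw [Real.mul_rpow he.le (p2 α).le, ← Real.rpow_mul (by norm_num), Real.sqrt_eq_rpow]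
    have : e ^ (3 / 2 : ℝ) = e * e ^ (1 / 2 : ℝ) := by
      rw [show (3 / 2 : ℝ) = 1 + 1 / 2 by norm_num, Real.rpow_add he, Real.rpow_one]
    rw [this]
    congr 2
    ring
  have a3 : Real.sqrt S ≤ Real.sqrt e / Real.sqrt κ * 2 ^ (β / 2) := by
    refine (Real.sqrt_le_sqrt h2).trans (le_of_eq ?_)
    rw [Real.sqrt_mul (by positivity), Real.sqrt_div he.le, Real.sqrt_eq_rpow (2 ^ β), ← Real.rpow_mul (by norm_num)]
    congr 2
    ring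
  have a4 : e * Real.sqrt e * 2 ^ (3 * α / 2) ≤ rd * (Real.sqrt e / Real.sqrt κ * 2 ^ (β / 2)) := by
    rw [← a2]
    exact a1.trans (h1.trans (mul_le_mul_of_nonneg_left a3 hrd))
  rw [Real.rpow_sub (by norm_num)]
  have hV := p2 (β / 2)
  have a5 : e * Real.sqrt κ * (2 ^ (3 * α / 2) / 2 ^ (β / 2)) = (e * Real.sqrt e * 2 ^ (3 * α / 2)) * (Real.sqrt κ / (Real.sqrt e * 2 ^ (β / 2))) := by
    field_simp
  have a6 : rd = rd * (Real.sqrt e / Real.sqrt κ * 2 ^ (β / 2)) * (Real.sqrt κ / (Real.sqrt e * 2 ^ (β / 2))) := by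
    field_simp
  rw [a5, a6]
  exact mul_le_mul_of_nonneg_right a4 (by positivity)

/-- **LEAF PRE-4: the prefix experiment is near extremal at its own scale** (numerics).   `n_i = k i - k0`.   `rd √(Σ w) ≥ tot^(3/2)` (`sf_pl_pre_rd`), so `rd · (s^-a (e/κ) s^(-(p+d) i))^(1/2) ≥ (s^a e s^(-d i))^(3/2)`, i.e. `rd ≥ s^(2a) e √κ s^((p/2 - d) i)`;
`val = 2^(n_i/2)/(e√κ) rd ≥ 2^(n_i/2 - 2an + (d - p/2) i n)`;   `(d - p/2) i n ≥ (d - p/2) n_i - (3/2) a n` (`hdep`, `|d - p/2| ≤ 3/2`);   `gn_s_rpow`, `Real.sqrt_eq_rpow`, `Real.mul_rpow`, `← Real.rpow_mul`.   ~200 l. -/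
theorem sf_pl_pre_low (hT : P.Tight) (tq : P.Tst → CyT) (h : W.Str tq) (i : ℝ) (hi : i ∈ W.G) (Γ pe de a : ℝ) (hpd : Γ = de + (1 - pe) / 2) (hp : 1 ≤ pe ∧ pe < 3)
    (hd : 0 < de ∧ de ≤ 1) (ha : 0 ≤ a) (hdep : |((W.k i : ℝ) - W.E.k0) - i * W.E.n| ≤ a * W.E.n)
    (hcnt : ∑ l, P.wt (W.ts i l) ≤ W.E.s ^ (-a) * (W.E.e / W.E.ka) * W.E.s ^ (-((pe + de) * i)))
    (hread : W.E.s ^ a * W.E.e * W.E.s ^ (-(de * i)) ≤ W.tot i) :
    (2 : ℝ) ^ (Γ * ((W.k i - W.E.k0 : ℕ) : ℝ) - 4 * a * W.E.n) ≤ (sfPlPre W i).val := by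
  have p2 : ∀ x : ℝ, (0 : ℝ) < 2 ^ x := fun x => Real.rpow_pos_of_pos (by norm_num) x
  have hk := (h.k_rg i hi).1
  have hcast : ((W.k i - W.E.k0 : ℕ) : ℝ) = (W.k i : ℝ) - W.E.k0 := Nat.cast_sub hk
  have he := h.valid.e_pos
  have hκ := h.valid.ka_pos
  have hrd := sf_pl_pre_rd W hT tq h i hi
  have hrd0 : 0 ≤ (sfPlPre W i).rd := by
    unfold Xp.rd
    exact Finset.sum_nonneg fun l _ => div_nonneg (Real.rpow_nonneg (gn_en_nonneg _ _ _ (fun x => h.nn i hi _ x) _) _) (Real.sqrt_nonneg _)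
  obtain ⟨n, hn⟩ : ∃ n : ℝ, n = W.E.n := ⟨_, rfl⟩
  obtain ⟨ni, hni⟩ : ∃ n : ℝ, n = ((W.k i - W.E.k0 : ℕ) : ℝ) := ⟨_, rfl⟩
  have hn0 : 0 ≤ n := hn ▸ Nat.cast_nonneg _
  rw [gn_s_rpow, gn_s_rpow, ← hn] at hcnt hread
  rw [← hcast, ← hni, ← hn] at hdep
  have h2 : ∑ l, P.wt (W.ts i l) ≤ W.E.e / W.E.ka * 2 ^ ((a + (pe + de) * i) * n) := by
    refine hcnt.trans (le_of_eq ?_)
    rw [mul_comm ((2 : ℝ) ^ _) (W.E.e / W.E.ka), mul_assoc, ← Real.rpow_add (by norm_num)]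
    congr 2
    ring
  have h3 : W.E.e * 2 ^ ((de * i - a) * n) ≤ W.tot i := by
    refine le_trans (le_of_eq ?_) hread
    rw [mul_comm ((2 : ℝ) ^ _) W.E.e, mul_assoc, ← Real.rpow_add (by norm_num)]
    congr 2
    ring
  have key := sf_pl_pre_low_aux W.E.e W.E.ka _ _ _ _ _ he hκ hrd0 hrd h2 h3
  have hval : (sfPlPre W i).val = 2 ^ (ni / 2) / (W.E.e * Real.sqrt W.E.ka) * (sfPlPre W i).rd := by
    rw [hni]
    rfl
  rw [hval, ← hni, ← hn]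
  have hy : 0 < Real.sqrt W.E.ka := Real.sqrt_pos.2 hκ
  have k2 : 2 ^ (ni / 2) / (W.E.e * Real.sqrt W.E.ka) * (W.E.e * Real.sqrt W.E.ka * 2 ^ (3 * ((de * i - a) * n) / 2 - ((a + (pe + de) * i) * n) / 2))
      ≤ 2 ^ (ni / 2) / (W.E.e * Real.sqrt W.E.ka) * (sfPlPre W i).rd :=
    mul_le_mul_of_nonneg_left key (div_nonneg (p2 _).le (by positivity))
  refine le_trans ?_ k2
  have e1 : 2 ^ (ni / 2) / (W.E.e * Real.sqrt W.E.ka) * (W.E.e * Real.sqrt W.E.ka * 2 ^ (3 * ((de * i - a) * n) / 2 - ((a + (pe + de) * i) * n) / 2))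
      = 2 ^ (ni / 2 + (3 * ((de * i - a) * n) / 2 - ((a + (pe + de) * i) * n) / 2)) := by
    rw [Real.rpow_add (by norm_num)]
    field_simp
  rw [e1]
  refine Real.rpow_le_rpow_of_exponent_le (by norm_num) ?_
  obtain ⟨hd1, hd2⟩ := abs_le.1 hdep
  have han : 0 ≤ a * n := mul_nonneg ha hn0
  -- `(de - pe/2) (ni - i n) ≤ (3/2) a n`
  have hq : (de - pe / 2) * (ni - i * n) ≤ 3 / 2 * (a * n) := by
    have q1 : |(de - pe / 2) * (ni - i * n)| ≤ 3 / 2 * (a * n) := by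
      rw [abs_mul]
      refine mul_le_mul ?_ hdep (abs_nonneg _) (by norm_num)
      rw [abs_le]
      constructor <;> linarith [hp.1, hp.2, hd.1, hd.2]
    exact (le_abs_self _).trans q1
  rw [hpd]
  nlinarith

end

/-- **the normal width of a gate is not far above the Planck width of its depth** -/
theorem sf_pl_md_gate (η : ℝ) (h0 : 0 < η) (h1 : η < 1) (hG : (cylHyb η).Gen (1 + η / 2)) (L : (cylHyb η).Loc (1 + η / 2)) (hL : SfPlLoc η L)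
    (Γ γ pe de : ℝ) (hΓ : (cylHyb η).Rate Γ) (hγ0 : 0 ≤ γ) (hγ : (cylCl η).Rate γ) (hlt : γ < Γ) (hpd : Γ = de + (1 - pe) / 2) (hp : 1 ≤ pe ∧ pe < 3)
    (hd : 0 < de ∧ de ≤ 1) (ξ i0 : ℝ) (hξ : 0 < ξ) (hi0 : 0 < i0) :
    ∃ a : ℝ, 0 < a ∧ ∀ C : ℕ, ∃ A n0 : ℕ, ∀ (p : ChyPar) (W : SfMD (p.sys η)) (i a' : ℝ), n0 ≤ W.E.n → (cylHyb η).Cls C A p W.E → W.Str (fun Q => Q) →
      i ∈ W.G → i0 ≤ i → 0 ≤ a' → a' ≤ a →
      |((W.k i : ℝ) - W.E.k0) - i * W.E.n| ≤ a' * W.E.n →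
      ∑ l, (p.sys η).wt (W.ts i l) ≤ W.E.s ^ (-a') * (W.E.e / W.E.ka) * W.E.s ^ (-((pe + de) * i)) →
      W.E.s ^ a' * W.E.e * W.E.s ^ (-(de * i)) ≤ W.tot i →
      ((2 : ℝ)⁻¹ ^ (W.k i - W.E.k0)) ^ ξ * W.f i ^ 2 < p.H * 2 ^ W.k i := by
  obtain ⟨τ, hτ, H⟩ := sf_pl_floor η h0 h1 hG L hL Γ γ hΓ hγ0 hγ hlt ξ hξ
  refine ⟨min (τ * i0 / 32) (i0 / 2), by positivity, fun C => ?_⟩
  obtain ⟨A, n0, H2⟩ := gn_prefix_on (cylHyb η) hG.scale (Γ - τ)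
    (fun p E => ∀ l, ChyPar.H p * 2 ^ E.kf ≤ E.s ^ ξ * CyT.f (E.ts l) ^ 2) (fun C ε hε => by
      obtain ⟨A, n0, H1⟩ := H C
      refine ⟨A, n0, fun p E hn hE hP => (H1 p E hn hE hP).trans ?_⟩
      refine Real.rpow_le_rpow_of_exponent_le (by norm_num) ?_
      have : (0 : ℝ) ≤ E.n := Nat.cast_nonneg _
      nlinarith) C (i0 / 2) (τ / 2) (by positivity) (by positivity)
  refine ⟨A, max n0 1, fun p W i a hn hC hS hi hi0' ha haa hdep hcnt hread => ?_⟩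
  by_contra hcon
  push Not at hcon
  have hT := hG.tight p hC.1
  obtain ⟨hV, hlen, hgen⟩ := sf_pl_pre_valid W hT _ hS i hi
  have hlow := sf_pl_pre_low W hT _ hS i hi Γ pe de a hpd hp hd ha hdep hcnt hread
  have hk := hS.k_rg i hi
  have hcast : ((W.k i - W.E.k0 : ℕ) : ℝ) = (W.k i : ℝ) - W.E.k0 := Nat.cast_sub hk.1
  have hn1 : (1 : ℝ) ≤ W.E.n := by exact_mod_cast le_of_max_le_right hn
  have ha1 : a ≤ τ * i0 / 32 := haa.trans (min_le_left _ _)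
  have ha2 : a ≤ i0 / 2 := haa.trans (min_le_right _ _)
  have hd1 := (abs_le.1 hdep).1
  have hnn : i0 / 2 * (W.E.n : ℝ) ≤ ((W.k i - W.E.k0 : ℕ) : ℝ) := by
    rw [hcast]
    nlinarith
  have hkf : (sfPlPre W i).kf = W.k i := Nat.add_sub_of_le hk.1
  have hup := H2 p W.E (sfPlPre W i) (le_of_max_le_left hn) hC hV ⟨rfl, rfl, rfl, rfl, rfl, rfl⟩ (hlen.trans hC.2.2.1) (hgen C hC.2.2.2.1) hnn
    (by
      show W.k i - W.E.k0 ≤ W.E.n
      have := hk.2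
      unfold Xp.kf at this
      omega)
    (fun l => by
      have hkf' : @Xp.kf ((cylHyb η).sys p) (sfPlPre W i) = W.k i := hkf
      rw [hkf']
      have hw := (hS.width i hi ((Fintype.equivFin (W.Lb i)).symm l)).2
      show p.H * 2 ^ W.k i ≤ ((2 : ℝ)⁻¹ ^ (W.k i - W.E.k0)) ^ ξ * CyT.f (W.ts i ((Fintype.equivFin (W.Lb i)).symm l)) ^ 2
      rw [hw]
      exact hcon)
  have h3 := hlow.trans hup
  have h4 := (Real.rpow_le_rpow_left_iff (by norm_num : (1 : ℝ) < 2)).1 h3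
  change _ ≤ (Γ - τ + τ / 2) * ((W.k i - W.E.k0 : ℕ) : ℝ) at h4
  nlinarith

/-- **LEAF MD-NUM** (real numbers only).   Take `Real.logb 2` (or `Real.log`) of everything: `lh = log Hk`, `l0 = log f0`, `li = log fi`:   (A) `lh + n ≤ 2 l0`,  (B) `2 l0 - ξ n < lh + n`,  (C) `lh + ni ≤ 2 li`,  (D) `2 li - ξ ni < lh + ni`.
Then `-(1+ξ) n < lh - 2 l0 ≤ -n`;   `2 (li - l0) ≥ -(1+ξ) n + ni ≥ -((1-i) + ξ + a) n`;   `2 (li - l0) < -n + (1+ξ) ni ≤ (-(1-i) + ξ + 2a) n`.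
Alternatively stay multiplicative: write every power as `2 ^ (x : ℝ)` (`Real.rpow_natCast`, `Real.inv_rpow`, `Real.rpow_neg`, `← Real.rpow_mul`), `fi / f0 = √(fi²/f0²)`.   ~200 l. -/
theorem sf_pl_md_num (n ni : ℕ) (Hk f0 fi i a ξ t : ℝ) (hH : 0 < Hk) (hf0 : 0 < f0) (hfi : 0 < fi) (hξ : 0 < ξ) (hξt : ξ ≤ t) (hξ1 : ξ ≤ 1) (ha : 0 ≤ a) (hat : 2 * a ≤ t)
    (hi : 0 ≤ i ∧ i ≤ 1) (hdep : |(ni : ℝ) - i * n| ≤ a * n)
    (hA : Hk * 2 ^ n ≤ f0 ^ 2) (hB : ((2 : ℝ)⁻¹ ^ n) ^ ξ * f0 ^ 2 < Hk * 2 ^ n) (hC : Hk * 2 ^ ni ≤ fi ^ 2) (hD : ((2 : ℝ)⁻¹ ^ ni) ^ ξ * fi ^ 2 < Hk * 2 ^ ni) :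
    ((2 : ℝ)⁻¹ ^ n) ^ (1 + t) ≤ Hk / f0 ^ 2 ∧ Hk / f0 ^ 2 ≤ (2 : ℝ)⁻¹ ^ n ∧
      ((2 : ℝ)⁻¹ ^ n) ^ ((1 - i) / 2 + t) ≤ fi / f0 ∧ fi / f0 ≤ ((2 : ℝ)⁻¹ ^ n) ^ ((1 - i) / 2 - t) := by
  obtain ⟨c, hc⟩ : ∃ c, c = Real.log 2 := ⟨_, rfl⟩
  have hc0 : 0 < c := hc ▸ Real.log_pos (by norm_num)
  obtain ⟨lh, hlh⟩ : ∃ x, x = Real.log Hk := ⟨_, rfl⟩
  obtain ⟨l0, hl0⟩ : ∃ x, x = Real.log f0 := ⟨_, rfl⟩
  obtain ⟨li, hli⟩ : ∃ x, x = Real.log fi := ⟨_, rfl⟩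
  have p2 : ∀ k : ℕ, (0 : ℝ) < 2 ^ k := fun k => by positivity
  have pi2 : ∀ k : ℕ, (0 : ℝ) < (2 : ℝ)⁻¹ ^ k := fun k => by positivity
  have lpw : ∀ k : ℕ, Real.log ((2 : ℝ) ^ k) = k * c := fun k => by rw [Real.log_pow, hc]
  have lip : ∀ (k : ℕ) (x : ℝ), Real.log (((2 : ℝ)⁻¹ ^ k) ^ x) = -(x * (k * c)) := fun k x => by
    rw [Real.log_rpow (pi2 k), Real.log_pow, Real.log_inv, hc]; ring
  have lip1 : ∀ (k : ℕ), Real.log ((2 : ℝ)⁻¹ ^ k) = -(k * c) := fun k => by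
    rw [Real.log_pow, Real.log_inv, hc]; ring
  have hA' : lh + n * c ≤ 2 * l0 := by
    have := Real.log_le_log (by positivity) hA
    rw [Real.log_mul hH.ne' (p2 n).ne', lpw, Real.log_pow, ← hlh, ← hl0] at this
    simpa using this
  have hB' : -(ξ * (n * c)) + 2 * l0 < lh + n * c := by
    have := Real.log_lt_log (mul_pos (Real.rpow_pos_of_pos (pi2 n) _) (by positivity)) hB
    rw [Real.log_mul hH.ne' (p2 n).ne', lpw, Real.log_mul (Real.rpow_pos_of_pos (pi2 n) _).ne' (by positivity), lip, Real.log_pow, ← hlh, ← hl0] at this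
    simpa using this
  have hC' : lh + ni * c ≤ 2 * li := by
    have := Real.log_le_log (by positivity) hC
    rw [Real.log_mul hH.ne' (p2 ni).ne', lpw, Real.log_pow, ← hlh, ← hli] at this
    simpa using this
  have hD' : -(ξ * (ni * c)) + 2 * li < lh + ni * c := by
    have := Real.log_lt_log (mul_pos (Real.rpow_pos_of_pos (pi2 ni) _) (by positivity)) hD
    rw [Real.log_mul hH.ne' (p2 ni).ne', lpw, Real.log_mul (Real.rpow_pos_of_pos (pi2 ni) _).ne' (by positivity), lip, Real.log_pow, ← hlh, ← hli] at this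
    simpa using this
  obtain ⟨hd1, hd2⟩ := abs_le.1 hdep
  have hn0 : (0 : ℝ) ≤ n := Nat.cast_nonneg _
  have hni0 : (0 : ℝ) ≤ ni := Nat.cast_nonneg _
  have hnc : 0 ≤ (n : ℝ) * c := by positivity
  have ht0 : 0 < t := lt_of_lt_of_le hξ hξt
  -- `ni c` between
  have hlo : (i - a) * (n * c) ≤ ni * c := by nlinarith
  have hhi : ni * c ≤ (i + a) * (n * c) := by nlinarith
  refine ⟨?_, ?_, ?_, ?_⟩
  · rw [← Real.log_le_log_iff (Real.rpow_pos_of_pos (pi2 n) _) (by positivity), lip, Real.log_div hH.ne' (by positivity), Real.log_pow, ← hlh, ← hl0]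
    push_cast
    nlinarith
  · rw [← Real.log_le_log_iff (by positivity) (pi2 n), lip1, Real.log_div hH.ne' (by positivity), Real.log_pow, ← hlh, ← hl0]
    push_cast
    nlinarith
  · rw [← Real.log_le_log_iff (Real.rpow_pos_of_pos (pi2 n) _) (by positivity), lip, Real.log_div hfi.ne' hf0.ne', ← hli, ← hl0]
    have h1 : (ξ + a) * (n * c) ≤ 2 * t * (n * c) := mul_le_mul_of_nonneg_right (by linarith) hnc
    nlinarith
  · rw [← Real.log_le_log_iff (by positivity) (Real.rpow_pos_of_pos (pi2 n) _), lip, Real.log_div hfi.ne' hf0.ne', ← hli, ← hl0]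
    have h0 : 0 ≤ (ni : ℝ) * c := by positivity
    have h1 : (1 + ξ) * (ni * c) ≤ (1 + ξ) * ((i + a) * (n * c)) := mul_le_mul_of_nonneg_left hhi (by linarith)
    have h21 : ξ * i ≤ ξ * 1 := mul_le_mul_of_nonneg_left hi.2 hξ.le
    have h22 : ξ * a ≤ 1 * a := mul_le_mul_of_nonneg_right hξ1 ha
    have h2 : ((1 + ξ) * (i + a)) ≤ i + 2 * t := by
      have : (1 + ξ) * (i + a) = i + a + ξ * i + ξ * a := by ring
      linarith
    have h3 : ((1 + ξ) * (i + a)) * (n * c) ≤ (i + 2 * t) * (n * c) := mul_le_mul_of_nonneg_right h2 hnc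
    have e1 : (1 + ξ) * (ni * c) = ni * c + ξ * (ni * c) := by ring
    have e2 : (1 + ξ) * ((i + a) * (n * c)) = ((1 + ξ) * (i + a)) * (n * c) := by ring
    have e3 : (i + 2 * t) * (n * c) = i * (n * c) + 2 * (t * (n * c)) := by ring
    have e4 : ((1 - i) / 2 - t) * (n * c) = (n * c) / 2 - i * (n * c) / 2 - t * (n * c) := by ring
    linarith

/-- **EXIT (MD)**: the Planck floor for documented hybrid experiments; `V` = the gates at which (i), (iii) and the depths are documented. -/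
theorem sf_pl_md (η : ℝ) (h0 : 0 < η) (h1 : η < 1) (hG : (cylHyb η).Gen (1 + η / 2)) (L : (cylHyb η).Loc (1 + η / 2)) (hL : SfPlLoc η L)
    (Γ γ pe de : ℝ) (hΓ : (cylHyb η).Rate Γ) (hγ0 : 0 ≤ γ) (hγ : (cylCl η).Rate γ) (hlt : γ < Γ) (hpd : Γ = de + (1 - pe) / 2) (hp : 1 ≤ pe ∧ pe < 3)
    (hd : 0 < de ∧ de ≤ 1) (i0 t : ℝ) (hi0 : 0 < i0) (ht : 0 < t) :
    ∃ a : ℝ, 0 < a ∧ ∀ C : ℕ, ∃ A n0 : ℕ, ∀ (p : ChyPar) (W : SfMD (p.sys η)) (V : Finset ℝ) (a' : ℝ), n0 ≤ W.E.n → (cylHyb η).Cls C A p W.E → W.Str (fun Q => Q) →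
      (1 : ℝ) ∈ V → V ⊆ W.G → 0 ≤ a' → a' ≤ a →
      (∀ i ∈ V, |((W.k i : ℝ) - W.E.k0) - i * W.E.n| ≤ a' * W.E.n) →
      (∀ i ∈ V, ∑ l, (p.sys η).wt (W.ts i l) ≤ W.E.s ^ (-a') * (W.E.e / W.E.ka) * W.E.s ^ (-((pe + de) * i))) →
      (∀ i ∈ V, W.E.s ^ a' * W.E.e * W.E.s ^ (-(de * i)) ≤ W.tot i) →
      W.E.s ^ (1 + t) ≤ p.H * 2 ^ W.E.k0 / W.Q0.f ^ 2 ∧ p.H * 2 ^ W.E.k0 / W.Q0.f ^ 2 ≤ W.E.s ∧
      ∀ i ∈ V, i0 ≤ i → W.E.s ^ ((1 - i) / 2 + t) ≤ W.f i / W.Q0.f ∧ W.f i / W.Q0.f ≤ W.E.s ^ ((1 - i) / 2 - t) := by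
  obtain ⟨a1, ha1, H⟩ := sf_pl_md_gate η h0 h1 hG L hL Γ γ pe de hΓ hγ0 hγ hlt hpd hp hd (min t 1) (min i0 1) (by positivity) (by positivity)
  refine ⟨min a1 (t / 2), by positivity, fun C => ?_⟩
  obtain ⟨A, n0, H1⟩ := H C
  refine ⟨A, n0, fun p W V a hn hC hS h1V hV ha haa hdep hcnt hread => ?_⟩
  have hHk : 0 < p.H * 2 ^ W.E.k0 := mul_pos hC.1.H_pos (by positivity)
  have hfr := hS.frame
  have hpow : ∀ i ∈ W.G, p.H * 2 ^ W.k i = p.H * 2 ^ W.E.k0 * 2 ^ (W.k i - W.E.k0) := fun i hi => by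
    rw [mul_assoc, ← pow_add, Nat.add_sub_of_le (hS.k_rg i hi).1]
  have hok : ∀ i ∈ W.G, p.H * 2 ^ W.E.k0 * 2 ^ (W.k i - W.E.k0) ≤ W.f i ^ 2 := fun i hi => by
    obtain ⟨l⟩ := hS.lb_ne i
    have h2 : p.dl (W.k i) ≤ CyT.f (W.ts i l) := (hS.ok i hi l).2.2
    have h3 : CyT.f (W.ts i l) = W.f i := (hS.width i hi l).2
    rw [h3] at h2
    rw [← hpow i hi]
    exact (Real.sqrt_le_iff.1 h2).2
  have hgt : ∀ i ∈ V, min i0 1 ≤ i → ((2 : ℝ)⁻¹ ^ (W.k i - W.E.k0)) ^ (min t 1) * W.f i ^ 2 < p.H * 2 ^ W.E.k0 * 2 ^ (W.k i - W.E.k0) := fun i hi hii => by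
    rw [← hpow i (hV hi)]
    exact H1 p W i a hn hC hS (hV hi) hii ha (haa.trans (min_le_left _ _)) (hdep i hi) (hcnt i hi) (hread i hi)
  have hk1 : W.k 1 - W.E.k0 = W.E.n := by
    rw [hS.k_one.1]
    unfold Xp.kf
    omega
  have key : ∀ i ∈ V, min i0 1 ≤ i → _ := fun i hi hii =>
    sf_pl_md_num W.E.n (W.k i - W.E.k0) (p.H * 2 ^ W.E.k0) W.Q0.f (W.f i) i a (min t 1) t hHk (by rw [hfr.2.1]; exact (hfr.2.2 1 (hV h1V)).2) (hfr.2.2 i (hV hi)).2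
      (by positivity) (min_le_left _ _) (min_le_right _ _) ha (by have := haa.trans (min_le_right _ _); linarith) (hS.gate.2 i (hV hi))
      (by rw [Nat.cast_sub (hS.k_rg i (hV hi)).1]; exact hdep i hi)
      (by have := hok 1 (hV h1V); rwa [hk1, ← hfr.2.1] at this)
      (by have := hgt 1 h1V (min_le_right _ _); rwa [hk1, ← hfr.2.1] at this)
      (hok i (hV hi)) (hgt i hi hii)
  have k1 := key 1 h1V (min_le_right _ _)
  exact ⟨k1.1, k1.2.1, fun i hi hii => (key i hi ((min_le_left _ _).trans hii)).2.2⟩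

end Claimed.Agent.R256
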