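import Claimed.Agent.R256.Soft.Entry
import Claimed.Agent.R256.Soft.MPlMd

/-!
# Row 256 (S0496), unit SOFT, block M7 PL, file 7: THE FIELD `pl` OF THE CALCULUS      (architect helper73; prefix `sf_pl_`)

`sf_pl_cal` = `sf_cal_pl` of `Soft/MCal.lean`: pure glue from `sf_pl_md` (`Soft/MPlMd.lean`).
-/

set_option autoImplicit false

namespace Claimed.Agent.R256

open MeasureTheory Claimed.Agent.R255

/-- **EXIT (PL)** -/
theorem sf_pl_cal (Y : SfCy) (hY : (∃ η, Y = sfCl η) ∨ ∃ η, Y = sfHy η) (π : SfPar) (Ls : ℝ) (hE : SfEntry Y π Ls)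
    (hpl : Y.hyb = true → ∃ γ : ℝ, γ < π.Γ ∧ (cylCl Y.η).Rate γ) : (sfCls Y π Ls).CalPl π Ls := by
  intro hh i0 t hi0 ht
  have hyb : Y.hyb = true := hE.par.2.2 ▸ hh
  obtain ⟨η, rfl⟩ : ∃ η, Y = sfHy η := by
    rcases hY with ⟨η, rfl⟩ | h
    · exact absurd hyb (by simp [sfCl])
    · exact h
  obtain ⟨γ, hγ, hR⟩ := hpl hyb
  obtain ⟨L, hL⟩ := hE.loc
  have hPd := hE.par.1
  have hη : π.η = η := hE.par.2.1
  have hΓ0 : 0 < π.Γ := by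
    have := hPd.2.1
    have := hPd.1.1
    linarith
  obtain ⟨a, ha, H⟩ := sf_pl_md η (hη ▸ hPd.1.1) (hη ▸ hPd.1.2) hE.gen L hL π.Γ (max γ 0) π.p π.d hE.rate (le_max_right _ _)
    (Mdl.bs_rate_mono _ hR (le_max_left _ _)) (max_lt hγ hΓ0) hPd.2.2.1 hPd.2.2.2.1 hPd.2.2.2.2 i0 t hi0 ht
  refine ⟨a, ha, fun C0 C => ?_⟩
  obtain ⟨A, n0, H1⟩ := H C
  refine ⟨min ((2 : ℝ)⁻¹ ^ n0) (1 / ((A : ℝ) + 1)), by positivity, fun c hob hsc hgd => ?_⟩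
  have hsc1 : c.D.s < (2 : ℝ)⁻¹ ^ n0 := lt_of_le_of_lt (le_max_left _ _) (lt_of_lt_of_le hsc (min_le_left _ _))
  have hsc2 : 1 / ((c.A : ℝ) + 1) < 1 / ((A : ℝ) + 1) :=
    lt_of_le_of_lt ((le_max_left _ _).trans (le_max_right _ _)) (lt_of_lt_of_le hsc (min_le_right _ _))
  have hs : c.D.s = c.W.E.s := c.sh.hs
  have hn : n0 ≤ c.W.E.n := by
    rw [hs] at hsc1
    unfold Xp.s at hsc1
    by_contra hcon
    push Not at hcon
    exact absurd hsc1 (not_lt.2 (pow_le_pow_of_le_one (by norm_num) (by norm_num) hcon.le))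
  have hA : A ≤ c.A := by
    by_contra hcon
    push Not at hcon
    have h2 : (c.A : ℝ) + 1 ≤ (A : ℝ) + 1 := by
      have : (c.A : ℝ) ≤ A := by exact_mod_cast hcon.le
      linarith
    exact absurd hsc2 (not_lt.2 (one_div_le_one_div_of_le (by positivity) h2))
  obtain ⟨hlen, haf, hstr, hgen, -⟩ := hob.1
  have hcls : (cylHyb η).Cls C A c.p c.W.E :=
    gn_cls_anti (cylHyb η) hE.gen.scale hA ⟨haf.1, hstr.valid, hlen, hgen, ⟨c.W.Q0, haf.2⟩⟩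
  obtain ⟨hext, -, -, -⟩ := hgd.2
  have key := H1 c.p c.W c.W.G a hn hcls hstr hstr.gate.1 (Finset.Subset.refl _) ha.le le_rfl hext.depth hext.cnt hext.read
  show c.D.s ^ (1 + t) ≤ c.hp ∧ c.hp ≤ c.D.s ∧ ∀ i ∈ c.D.G, i0 ≤ i → c.D.s ^ ((1 - i) / 2 + t) ≤ c.D.f i ∧ c.D.f i ≤ c.D.s ^ ((1 - i) / 2 - t)
  rw [hs, c.sh.hG]
  refine ⟨key.1, key.2.1, fun i hi hii => ?_⟩
  rw [c.sh.hf i hi]
  exact key.2.2 i hi hii

end Claimed.Agent.R256
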