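import Claimed.Agent.R256.Soft.MPr
import Claimed.Agent.R256.Soft.MCoreTop

/-!
# Row 256 (S0496), unit SOFT, M5 PRE (prefix experiments), file 4: EXIT      (architect helper288; block BP-256-SOFT-PRE; prefix `sf_pr_`)

`sf_pr_top` = `sf_pr_cal` with all its inputs discharged (`sf_cy_ok`, `sf_pr_af`, `sf_core_y`): the body of `SfCls.CalPr` for the class of shadows from `SfCoreHyp Y π` alone.
-/

set_option autoImplicit false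

namespace Claimed.Agent.R256

open MeasureTheory Claimed.Agent.R255

/-- CORE in the form used by PRE -/
theorem sf_pr_core (Y : SfCy) (hY : (∃ η, Y = sfCl η) ∨ ∃ η, Y = sfHy η) (π : SfPar) (Ls : ℝ) (hE : SfCoreHyp Y π) : SfPrCore Y π Ls := by
  intro t h ht hh
  obtain ⟨a, ε0, μ0, ha, hε, H⟩ := sf_core_y hY π Ls hE t h ht hh
  refine ⟨a, ε0, μ0, ha, hε, fun C => ?_⟩
  obtain ⟨A, n0, H⟩ := H C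
  exact ⟨A, n0, fun c hob h1 hA hn hext _ h0 hμ hg _ => H c hob h1 hA hn hext h0 hμ hg⟩

/-- **EXIT (M5 PRE)** -/
theorem sf_pr_top (Y : SfCy) (hY : (∃ η, Y = sfCl η) ∨ ∃ η, Y = sfHy η) (π : SfPar) (Ls : ℝ) (hE : SfCoreHyp Y π)
    (i0 h t : ℝ) (h0 : 0 < i0) (hh : 0 < h) (ht : 0 < t) :
    ∃ a : ℝ, 0 < a ∧ ∀ S : ℕ, ∃ S' : ℕ, ∀ σ' : ℝ, 0 < σ' → ∃ σ : ℝ, 0 < σ ∧ ∀ (c : SfCfg Y π.d) (C0 : ℝ),
      c.ob S → 1 / ((S : ℝ) + 1) ≤ c.ε → max c.sc (1 / (c.μ + 1)) < σ → c.D.Good π Ls C0 a →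
      (SfMD.Ext Y c.p c.W π.p π.d Ls c.ε a ∧ 0 < c.ε ∧ c.ε ≤ a ∧ 1 / a ≤ c.μ) → c.D.GapK h → (∀ k ∈ c.D.G, k = 0 ∨ h ≤ k) →
      ∀ i ∈ c.D.G, i0 ≤ i → ∃ (c' : SfCfg Y π.d) (e : c'.D.Rw → c.D.Rw), c'.ob S' ∧ 1 / ((S' : ℝ) + 1) ≤ c'.ε ∧ max c'.sc (1 / (c'.μ + 1)) < σ' ∧
        c'.D.Good π Ls S' t ∧ (SfMD.Ext Y c'.p c'.W π.p π.d Ls c'.ε t ∧ 0 < c'.ε ∧ c'.ε ≤ t ∧ 1 / t ≤ c'.μ) ∧
        c'.D.GapK h ∧ (∀ k ∈ c'.D.G, k = 0 ∨ h ≤ k) ∧ SfPrRel π c' c i e := by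
  have hη : 0 < Y.η ∧ Y.η < 1 := by
    rw [← hE.par.2.1]
    exact hE.par.1.1
  exact sf_pr_cal Y (sf_cy_ok Y hY) (sf_pr_af Y hY hη) π Ls hE.par.2.1 (sf_pr_core Y hY π Ls hE) i0 h t h0 hh ht

end Claimed.Agent.R256
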