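import Claimed.Agent.R256.Soft.Entry
import Claimed.Agent.R256.Soft.MValAux

/-!
# Row 256 (S0496), unit SOFT, M8 VAL      (chief helper19)      leaf L-256-SOFT-VAL
What a good shadow says about its experiment.   `sf_sc_le`: trivial.   `sf_val`: Hölder `(Σ m)^(3/2) ≤ (Σ m^(3/2) w^(-1/2)) (Σ w)^(1/2)` at the final gate; `Σ m = tot 1 = mass 1 * e s^-d ≥ s^t e s^-d` (`SfSh.hmass`, `Core.hmass`);
`Σ w`: `Core.cnt` counts the DISTINCT labels having a row; every label has a row (`Str.ne`, `at_cov`); `w = cyWt η Q0 * (r 1)^(3+η) (f 1)^(1-η)` with `r 1 = f 1 = 1`; `Γ = d + (1-p)/2`.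
`sf_zero_cost`: `Str.ne` gives a row `ρ` with that label (`at_cov`, `Str.final`), `hlab` + `sf_frame_R2`, `sf_frame_R1` (black boxes of `Soft/Frame.lean`) + `r = f = 1`, `len 1 = s`.
-/

set_option autoImplicit false

namespace Claimed.Agent.R256

open MeasureTheory Claimed.Agent.R255

theorem sf_sc_le (Y : SfCy) (de : ℝ) (c : SfCfg Y de) : c.D.s ≤ c.sc := le_max_left _ _

/-- **EXIT (M8 VAL)**: a documented experiment is near extremal (Hölder at the final gate); MODEL LEVEL, from `Ext` (the shadow counts only DISTINCT labels, helper39 (1)) = `sf_val_core` (helper265) -/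
theorem sf_val (Y : SfCy) (π : SfPar) (Ls ε t : ℝ) (hπ : π.Pd) (ht : 0 < t) (p : Y.M.Par) (W : SfMD (Y.M.sys p))
    (hW : W.Ext Y p π.p π.d Ls ε t) : (2 : ℝ) ^ ((π.Γ - 3 * t) * W.E.n) ≤ W.E.val :=
  sf_val_core W _ hW.str π.Γ π.p π.d t hπ.2.2.1 ht (hW.read 1 hW.str.gate.1) (hW.cnt 1 hW.str.gate.1)

/-- the costs of a terminal label that HAS a row in the shadow      (helper31) -/
theorem sf_zc_aux_row (Y : SfCy) (π : SfPar) (C0 t : ℝ) (c : SfCfg Y π.d) (hS : c.W.Str (Y.tq c.p))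
    (hg : c.D.Core π C0 t) (hz : c.D.Zero t) (l : Fin c.W.E.L) (ρ : c.D.Row 1)
    (h1 : c.W.iv 1 (c.sh.lb 1 ρ) = c.W.E.iv l) (h2 : c.W.ts 1 (c.sh.lb 1 ρ) = c.W.E.ts l) :
    sfR2 (sfTestAt (tmL c.W.E.kf (c.W.E.iv l)) (Y.tq c.p (c.W.E.ts l))) (sfTestAt (tmL c.W.E.k0 c.W.E.i0) c.W.Q0) ((2 : ℝ)⁻¹ ^ c.W.E.kf)
        ≤ c.W.E.s ^ (-t) ∧
    sfR1 (sfTestAt (tmL c.W.E.kf (c.W.E.iv l)) (Y.tq c.p (c.W.E.ts l))) (sfTestAt (tmL c.W.E.k0 c.W.E.i0) c.W.Q0) ≤ c.W.E.s ^ (-t) := by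
  have hG1 : (1 : ℝ) ∈ c.W.G := hS.gate.1
  have hD1 : (1 : ℝ) ∈ c.D.G := hg.gate.1
  have hlab := c.sh.hlab 1 hG1 ρ
  have hT : c.W.T 1 (c.sh.lb 1 ρ) = tmL c.W.E.kf (c.W.E.iv l) := by
    show tmL (c.W.k 1) (c.W.iv 1 (c.sh.lb 1 ρ)) = _
    rw [hS.k_one.1, h1]
  rw [hT, h2] at hlab
  set φ : SfFrame := sfFrameOf (tmL c.W.E.k0 c.W.E.i0) ((2 : ℝ)⁻¹ ^ c.W.E.k0) c.W.Q0 with hφd
  set Q : SfTest := sfTestAt (tmL c.W.E.kf (c.W.E.iv l)) (Y.tq c.p (c.W.E.ts l)) with hQ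
  have hpos := hS.frame.2.2 1 hG1
  have hφ : φ.Pos := by
    refine ⟨?_, ?_, ?_⟩
    · show 0 < (2 : ℝ)⁻¹ ^ c.W.E.k0
      positivity
    · show 0 < c.W.Q0.r
      rw [hS.frame.1]; exact hpos.1
    · show 0 < c.W.Q0.f
      rw [hS.frame.2.1]; exact hpos.2
  have hsg : φ.sg = sfTestAt (tmL c.W.E.k0 c.W.E.i0) c.W.Q0 := rfl
  have hL : (2 : ℝ)⁻¹ ^ c.W.E.kf / φ.L = c.D.s := by
    show (2 : ℝ)⁻¹ ^ (c.W.E.k0 + c.W.E.n) / (2 : ℝ)⁻¹ ^ c.W.E.k0 = c.D.s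
    rw [c.sh.hs, pow_add]
    show _ = (2 : ℝ)⁻¹ ^ c.W.E.n
    field_simp
  have e2 := sf_frame_R2 φ hφ Q ((2 : ℝ)⁻¹ ^ c.W.E.kf)
  have e1 := sf_frame_R1 φ hφ Q
  rw [← hlab, hL, hsg] at e2
  rw [← hlab, hsg] at e1
  obtain ⟨or, of, -⟩ := hg.own 1 hD1 ρ
  rw [hg.hw.1] at or
  rw [hg.hw.2.1] at of
  obtain ⟨z2, z1⟩ := hz ρ
  rw [← c.sh.hs, ← e2, ← e1]
  constructor
  · unfold sfR2
    rw [or, of]
    simpa [sfZero, SfTest.beAt] using z2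
  · unfold sfR1
    rw [or, of]
    simpa [sfZero, SfTest.PdAt, SfTest.beAt] using z1

/-- hybrid model: every terminal label has a row of the shadow      (helper31) -/
theorem sf_zc_aux_ex (Y : SfCy) (de : ℝ) (c : SfCfg Y de) (hh : Y.hyb = true) (hS : c.W.Str (Y.tq c.p)) (l : Fin c.W.E.L) :
    ∃ ρ : c.D.Row 1, c.W.iv 1 (c.sh.lb 1 ρ) = c.W.E.iv l ∧ c.W.ts 1 (c.sh.lb 1 ρ) = c.W.E.ts l := by
  obtain ⟨e, he⟩ := hS.final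
  obtain ⟨x, hx⟩ := hS.ne 1 hS.gate.1 (e.symm l)
  obtain ⟨ρ, hρ, -⟩ := (c.sh.at_cov 1 hS.gate.1 (e.symm l) x).1 ⟨hx, fun h => by rw [hh] at h; exact absurd h (by simp)⟩
  have h := he (e.symm l)
  rw [Equiv.apply_symm_apply] at h
  exact ⟨ρ, by rw [hρ]; exact h.1.symm, by rw [hρ]; exact h.2.1.symm⟩

/-- **EXIT (M8 ZC)**: the costs of the CHARGED terminal labels of a zero-cost shadow, relative to the shear of the frame (hybrid model: every label with a retained row has a row of the shadow).      PROVED (helper31, race of L-256-SOFT-VAL #20945). -/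
theorem sf_zero_cost (Y : SfCy) (hY : Y.hyb = true) (π : SfPar) (Ls C0 t : ℝ) (c : SfCfg Y π.d) (C : ℕ) (hc : c.ob C)
    (hg : c.D.Good π Ls C0 t) (hz : c.D.Zero t) (l : Fin c.W.E.L) (hm : c.W.E.m l ≠ 0) :
    sfR2 (sfTestAt (tmL c.W.E.kf (c.W.E.iv l)) (Y.tq c.p (c.W.E.ts l))) (sfTestAt (tmL c.W.E.k0 c.W.E.i0) c.W.Q0) ((2 : ℝ)⁻¹ ^ c.W.E.kf)
        ≤ c.W.E.s ^ (-t) ∧
    sfR1 (sfTestAt (tmL c.W.E.kf (c.W.E.iv l)) (Y.tq c.p (c.W.E.ts l))) (sfTestAt (tmL c.W.E.k0 c.W.E.i0) c.W.Q0) ≤ c.W.E.s ^ (-t) := by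
  obtain ⟨ρ, h1, h2⟩ := sf_zc_aux_ex Y π.d c hY hc.2.2.1 l
  exact sf_zc_aux_row Y π C0 t c hc.2.2.1 hg.1 hz l ρ h1 h2

end Claimed.Agent.R256
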