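import Claimed.Agent.R256.Soft.MCore
import Claimed.Agent.R256.Soft.MVal
import Claimed.Agent.R256.Soft.MCoreDefs
import Claimed.Agent.R256.Soft.MPl
import Claimed.Agent.R256.Soft.MResTop
import Claimed.Agent.R256.Soft.MDocLink
import Claimed.Agent.R256.Soft.MPrTop
import Claimed.Agent.R256.Soft.MGeCal

/-!
# Row 256 (S0496), unit SOFT, M3-M7: the class of shadows satisfies the calculus      (chief helper19)
One theorem per field of `SfCls.Cal`; each is an ARCHITECT BLOCK (own file `Soft/M<Block>*.lean`, prefix `sf_<block>_`; when a block is cut its theorem moves to its own file and this file imports it).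
 `sf_cal_ex`, `sf_cal_dc`   BP-256-SOFT-DOC    `SfExC`, `SfMatC` + M1 DISC (existence of shadows with fine atoms) + `sf_core`
 `sf_cal_rs`, `sf_cal_pr`   BP-256-SOFT-RES    restriction of a gate: `l^3` triangle inequality picks the class, `SfPrepC` re-prepares the later gates, atoms refine the old atoms and keep the old representatives;  prefix: `AdmScale`
 `sf_cal_ge`                BP-256-SOFT-GE     Lemma cyl:group-extraction in cover form + restoration of the root gate (02 l.765-815, l.1195-1215) + `SfPrepC` on the extracted piece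
 `sf_cal_pl`                BP-256-SOFT-PL     Prop. cyl:planck-floor (02 l.817-880)
-/

set_option autoImplicit false

namespace Claimed.Agent.R256

open MeasureTheory Claimed.Agent.R255

section

variable (Y : SfCy) (hY : (∃ η, Y = sfCl η) ∨ ∃ η, Y = sfHy η) (π : SfPar) (Ls : ℝ) (hE : SfEntry Y π Ls)

include hY hE

/-- OWNER helper39 (BP-256-SOFT-DOC #20947), EST 3000 lines (with `sf_cal_dc`). -/
theorem sf_cal_ex : (sfCls Y π Ls).CalEx π Ls :=
  sf_doc_cal_ex Y hY π Ls hE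

/-- OWNER helper39 (BP-256-SOFT-DOC #20947), EST see `sf_cal_ex`. -/
theorem sf_cal_dc : (sfCls Y π Ls).CalDc π Ls :=
  sf_doc_cal_dc Y hY π Ls hE

/-- OWNER: architect post BP-256-SOFT-RES #20948, EST 3500 lines (with `sf_cal_pr`). -/
theorem sf_cal_rs : (sfCls Y π Ls).CalRs π Ls :=
  sf_res_cal Y hY π Ls hE

/-- = `sf_pr_top` (`Soft/MPrTop.lean`, block BP-256-SOFT-PRE, architect helper288); the support constant of the prefix is its package. -/
theorem sf_cal_pr : (sfCls Y π Ls).CalPr π Ls := by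
  intro i0 h t h0 hh ht
  obtain ⟨a, ha, H⟩ := sf_pr_top Y hY π Ls ⟨hE.par, hE.adm, hE.gen, hE.loc, hE.rate⟩ i0 h t h0 hh ht
  refine ⟨a, ha, fun C0 S => ?_⟩
  obtain ⟨S', H⟩ := H S
  refine ⟨(S' : ℝ), S', fun σ' hσ' => ?_⟩
  obtain ⟨σ, hσ, H⟩ := H σ' hσ'
  refine ⟨σ, hσ, fun c hob hsc hgd hgap i hi hi0 => ?_⟩
  have hsc' : max c.sc (1 / (c.μ + 1)) < σ := by
    have e : max c.sc (1 / (c.μ + 1)) = max c.D.s (max (1 / ((c.A : ℝ) + 1)) (1 / (c.μ + 1))) := max_assoc _ _ _
    rw [e]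
    exact hsc
  obtain ⟨c', e, o1, o2, o3, o4, o5, -, -, R⟩ := H c C0 hob.1 hob.2 hsc' hgd.1 hgd.2 hgap.1 hgap.2 i hi hi0
  have hsc'' : max c'.D.s (max (1 / ((c'.A : ℝ) + 1)) (1 / (c'.μ + 1))) < σ' := by
    have e : max c'.sc (1 / (c'.μ + 1)) = max c'.D.s (max (1 / ((c'.A : ℝ) + 1)) (1 / (c'.μ + 1))) := max_assoc _ _ _
    rw [← e]
    exact o3
  exact ⟨c', e, ⟨o1, o2⟩, hsc'', ⟨o4, o5⟩, R.sub, R.inj, fun v _ _ => R.surj v, R.law, R.ray, R.conn, R.idx, R.mass, R.ek, R.hp⟩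

/-- = `sf_gt_cal` (`Soft/MGeCal.lean`, block BP-256-SOFT-GE #20949: design helper105, top helper217). -/
theorem sf_cal_ge : (sfCls Y π Ls).CalGe π Ls :=
  sf_gt_cal Y hY π Ls hE

/-- OWNER: architect post BP-256-SOFT-PL #20950, EST 5000 lines. -/
theorem sf_cal_pl (hpl : Y.hyb = true → ∃ γ : ℝ, γ < π.Γ ∧ (cylCl Y.η).Rate γ) : (sfCls Y π Ls).CalPl π Ls :=
  sf_pl_cal Y hY π Ls hE hpl

omit hY hE in
/-- the number of gates is at most the number of stages plus one (`Str.k_mono`: `pos` is strictly increasing on the gates, `pos ≤ pos 1 = st.length`) -/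
theorem sf_cal_fin_card {P : PkSys} (W : SfMD P) (tq : P.Tst → CyT) (hs : W.Str tq) : W.G.card ≤ W.E.st.length + 1 := by
  have hinj : Set.InjOn W.pos (W.G : Set ℝ) := by
    intro i hi j hj hij
    rcases lt_trichotomy i j with h | h | h
    · exact absurd hij (hs.k_mono i hi j hj h).2.ne
    · exact h
    · exact absurd hij (hs.k_mono j hj i hi h).2.ne'
  have hmaps : ∀ i ∈ W.G, W.pos i ∈ Finset.range (W.E.st.length + 1) := by
    intro i hi
    rw [Finset.mem_range, Nat.lt_succ_iff, ← hs.k_one.2.1]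
    rcases (hs.gate.2 i hi).2.lt_or_eq with h | h
    · exact (hs.k_mono i hi 1 hs.gate.1 h).2.le
    · rw [h]
  have := Finset.card_le_card_of_injOn W.pos hmaps hinj
  simpa using this

/-- OWNER helper226 (leaf L-256-SOFT-FIN), EST 80 lines.   PLAN: one link of `SfSh.conn`: `x ∈ atm u`, `x' ∈ atm v`, `sfCn` gives the same exact index, so the same base ray (`CyHyp.base`, `sf_doc_ray0_base`); `SfSh.small` twice: `bdist ≤ 2 s^μ`;
induction along `Relation.TransGen` (triangle inequality of `bdist`; at most `card G ≤ C + 1` links, by `sfNext`); `1/(μ+1) < σ` gives `μ ≥ N + 1`, `s < σ` gives `2 (C+1) ≤ s^-1`. -/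
theorem sf_cal_fin : (sfCls Y π Ls).CalFin := by
  have hO := sf_cy_ok Y hY
  intro N (C : ℕ)
  have hC0 : (0 : ℝ) < 2 * ((C : ℝ) + 1) := by positivity
  have hN0 : (0 : ℝ) < |N| + 2 := by positivity
  refine ⟨min (1 / (|N| + 2)) (1 / (2 * ((C : ℝ) + 1))), lt_min (by positivity) (by positivity), fun c hob hsc a hmd i hi j hj hij ρ ρ' hc => ?_⟩
  change c.D.Conn i j ρ ρ' at hc
  change i ∈ c.D.G at hi
  change j ∈ c.D.G at hj
  change (c.D.ray i ρ).bdist (c.D.ray j ρ') ≤ c.D.s ^ N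
  change max c.D.s (max (1 / ((c.A : ℝ) + 1)) (1 / (c.μ + 1))) < _ at hsc
  obtain ⟨hob, -⟩ := hob
  obtain ⟨hext, hε0, hεa, haμ⟩ := hmd
  have ha0 : 0 < a := hε0.trans_le hεa
  have hμ0 : 0 < c.μ := lt_of_lt_of_le (by positivity) haμ
  have hs1 : c.D.s < 1 / (2 * ((C : ℝ) + 1)) := (le_max_left _ _).trans_lt (hsc.trans_le (min_le_right _ _))
  have hμ1 : 1 / (c.μ + 1) < 1 / (|N| + 2) :=
    ((le_max_right _ _).trans (le_max_right _ _)).trans_lt (hsc.trans_le (min_le_left _ _))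
  have hμN : N + 1 ≤ c.μ := by
    have := (one_div_lt_one_div (by linarith) hN0).1 hμ1
    have := le_abs_self N
    linarith
  have hstr := hext.str
  have hs0 : 0 < c.D.s := by rw [c.sh.hs]; exact gn_s_pos _
  set e : ℝ := c.D.s ^ c.μ with he
  have he0 : 0 ≤ e := Real.rpow_nonneg hs0.le _
  have hlink : ∀ u v, c.Lk u v → (c.D.ray u.1 u.2).bdist (c.D.ray v.1 v.2) ≤ 2 * e := by
    intro u v hl
    obtain ⟨-, -, -, z, z', d1, d2, hX, hB, hY, -, -⟩ := sf_core_link hO c C hob u v hl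
    have t1 := sf_core_base_tri (c.D.ray u.1 u.2) z (c.D.ray v.1 v.2)
    have t2 := sf_core_base_tri z z' (c.D.ray v.1 v.2)
    have t3 := sf_core_base_zero z z' hX hB hY
    have t4 := (sf_core_base_bd z (c.D.ray u.1 u.2)).trans d1
    have t5 := (sf_core_base_bd z' (c.D.ray v.1 v.2)).trans d2
    rw [sf_core_base_symm] at t4
    linarith
  have key := sf_core_chain_ind c
    (fun n u v => (c.D.ray u.1 u.2).bdist (c.D.ray v.1 v.2) ≤ n * (2 * e))
    (by
      intro u v hl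
      simpa using hlink u v hl)
    (by
      intro n u v w a4 _ hl
      have b4 := hlink v w hl
      have := sf_core_base_tri (c.D.ray u.1 u.2) (c.D.ray v.1 v.2) (c.D.ray w.1 w.2)
      push_cast
      linarith)
    (by
      intro n n' u v hnn a4
      exact a4.trans (mul_le_mul_of_nonneg_right (by exact_mod_cast hnn) (by positivity)))
  rw [c.sh.hG] at hi hj
  refine (key ⟨i, ρ⟩ ⟨j, ρ'⟩ ((sf_core_conn c i hi j hj ρ ρ').1 hc)).trans ?_
  have hcard : (c.W.G.card : ℝ) ≤ (C : ℝ) + 1 := by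
    have h1 := sf_cal_fin_card c.W _ hstr
    have h2 := hob.1
    have h3 : c.W.G.card ≤ C + 1 := by omega
    exact_mod_cast h3
  have h2n : 2 * ((C : ℝ) + 1) ≤ c.D.s ^ (-1 : ℝ) := by
    rw [Real.rpow_neg_one, ← one_div]
    exact ((lt_one_div hs0 hC0).1 hs1).le
  calc (c.W.G.card : ℝ) * (2 * e) ≤ ((C : ℝ) + 1) * (2 * e) := mul_le_mul_of_nonneg_right hcard (by positivity)
    _ = 2 * ((C : ℝ) + 1) * e := by ring
    _ ≤ c.D.s ^ (-1 : ℝ) * e := mul_le_mul_of_nonneg_right h2n he0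
    _ = c.D.s ^ (-1 + c.μ) := by rw [he, ← Real.rpow_add hs0]
    _ ≤ c.D.s ^ N := by
        rw [c.sh.hs]
        exact gn_s_anti _ (by linarith)

omit hY hE in
/-- the model-level accuracy is monotone (`0 < s ≤ 1`, `e, κ > 0`, `wt ≥ 0`).      OWNER: open leaf L-256-SOFT-MDM.   EST 150 lines. -/
theorem sf_md_mono (c : (sfCls Y π Ls).Cfg) (a a' : ℝ) (ha : 0 < a) (haa : a ≤ a') (h : (sfCls Y π Ls).md c a) : (sfCls Y π Ls).md c a' := by
  obtain ⟨h1, h2, h3, h4⟩ := h
  exact ⟨sf_ext_mono _ _ _ _ _ _ _ _ _ haa h1, h2, h3.trans haa, (one_div_le_one_div_of_le ha haa).trans h4⟩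

/-- **EXIT (M1-M7)**: the class of shadows satisfies the calculus.   `hpl` = strict gap (only used by PL, hybrid model). -/
theorem sf_cal (hpl : Y.hyb = true → ∃ γ : ℝ, γ < π.Γ ∧ (cylCl Y.η).Rate γ) : (sfCls Y π Ls).Cal π Ls :=
  ⟨fun c => le_max_left _ _, sf_md_mono Y π Ls, sf_cal_ex Y hY π Ls hE, sf_cal_dc Y hY π Ls hE, sf_cal_rs Y hY π Ls hE, sf_cal_pr Y hY π Ls hE,
    sf_cal_ge Y hY π Ls hE, sf_cal_pl Y hY π Ls hE hpl, sf_cal_fin Y hY π Ls hE⟩

end

end Claimed.Agent.R256
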