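import Claimed.Agent.R256.Soft.Entry
import Claimed.Agent.R256.Soft.MCoreTop

/-!
# Row 256 (S0496), unit SOFT, M2 CORE      (chief helper19)      architect block BP-256-SOFT-CORE
USE: `sf_core` turns `K.md c a` (+ `ob`, small `sc`, `Gap`) into `Good`; so `K.Gd = Good ∧ md` is produced by every M-block from `Ext` alone.
**RIGID**: every shadow (fine atoms, small truncation exponent, large tail order, small scale) of an experiment with `SfMD.Ext` at a package-free accuracy `a` is `Good` at the tolerance `t`.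
Fields and sources:  `hs gate hlen hw hek hmass bdd own grid` = unfolding of `SfSh`, `Str`, `Ext.depth`, `ob`, `af`;   `base normC normH trans split cl*` = geometry of `sfCn` chains (report 874 D7: a chain through `k` cuts is a
correspondence with constant `k²`; `d_ℓ' ≤ f_j`, `q_ℓ = ℓ d_ℓ ≤ ℓ_i f_i` by `ok`);   `reg` = `Ext.reg` on the test enlarged by the atom diameter, divided by `Ext.read`;   `cnt` = `Ext.cnt`;
`sp` = Lemma cyl:rarity (restrict the synthesis at `i` to `S`; `Loc.ker` along the stack; `Rate` on the tail pieces by `TailAdm`; tiny pieces by (cyl:tiny-energy); Hölder + `cnt`; `2d = 2Γ + p - 1`);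
`tp` = causal counting step of Lemma cyl:time-prediction (contraction + locality, one restriction per time);   `Mat` = `Ext.wr`, `Ext.mm` in the frame (`sf_frame_cmp`), TELESCOPED to all pairs of gates (audit 926 D1; `a ≤ t h`).
-/

set_option autoImplicit false

namespace Claimed.Agent.R256

open MeasureTheory Claimed.Agent.R255

/-- **(M2 CORE)**      = `sf_core_y` (`Soft/MCoreTop.lean`, architect helper169) in the vocabulary of the class: `md c a` = `Ext` at `a`, `0 < ε ≤ a`, `1/a ≤ μ`;   the package bounds `ε` from below. -/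
theorem sf_core (Y : SfCy) (hY : (∃ η, Y = sfCl η) ∨ ∃ η, Y = sfHy η) (π : SfPar) (Ls : ℝ) (hE : SfEntry Y π Ls) (t h : ℝ) (ht : 0 < t) (hh : 0 < h) :
    ∃ a : ℝ, 0 < a ∧ ∀ C : ℕ, ∃ A n0 : ℕ, ∀ c : SfCfg Y π.d, (sfCls Y π Ls).ob C c → A ≤ c.A → n0 ≤ c.W.E.n →
      (sfCls Y π Ls).md c a → c.D.Gap h → c.D.Good π Ls C t := by
  obtain ⟨a, ε0, μ0, ha, hε, H⟩ := sf_core_y hY π Ls ⟨hE.par, hE.adm, hE.gen, hE.loc, hE.rate⟩ t h ht hh
  have hm : (0 : ℝ) < 1 / (|μ0| + 1) := by positivity
  refine ⟨min a (min ε0 (1 / (|μ0| + 1))), lt_min ha (lt_min hε hm), fun C => ?_⟩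
  obtain ⟨A, n0, H'⟩ := H C
  refine ⟨A, n0, fun c hob hA hn hmd hg => ?_⟩
  obtain ⟨h1, _, h3, h4⟩ := hmd
  refine H' c hob.1 hob.2 hA hn (sf_ext_mono _ _ _ _ _ _ _ _ _ (min_le_left _ _) h1) (h3.trans ((min_le_right _ _).trans (min_le_left _ _))) ?_ hg.1
  have h5 : min a (min ε0 (1 / (|μ0| + 1))) ≤ 1 / (|μ0| + 1) := (min_le_right _ _).trans (min_le_right _ _)
  have h6 : 1 / (1 / (|μ0| + 1)) ≤ 1 / min a (min ε0 (1 / (|μ0| + 1))) := one_div_le_one_div_of_le (lt_min ha (lt_min hε hm)) h5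
  rw [one_div_one_div] at h6
  linarith [le_abs_self μ0]

end Claimed.Agent.R256
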