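import Claimed.Agent.R256.Soft.MCoreDefs

/-!
# Row 256 (S0496), unit SOFT, block M2 CORE (architect helper169), file 2: SCALARS, OWN, GRID, CNT, CHAINS (trans, split, base, normH, wr, mm)      -- KEEP

PAPER-FREE.  Rules: header of `Soft/MCoreDefs.lean`.   Notation of the plans: `W = c.W`, `E = W.E`, `D = c.D`, `s = E.s = D.s = 2⁻¹^n`, `φ = c.fr` (`T0 = tmL k0 i0`, `L = 2⁻¹^k0`, `r0 = Q0.r`, `F0 = Q0.f`),
`ℓ_i = 2⁻¹^(W.k i)`, `len i = ℓ_i / L`, `Λ = s^(-c.ε)`, `d_i = Y.dl c.p (W.k i)`, `q_i = ℓ_i d_i`.     `ob = ⟨length, af, Str, GenLe, bdd⟩`.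
In a leaf of the form `SfRigid ..`: `refine ⟨a, ε0, μ0, _, _, fun ε1 h1 C => ⟨A, n0, fun c hob hx hA hn hext hε1 hε0 hμ hgap => _⟩⟩` with YOUR constants (`a, ε0, μ0` may depend on `t h Ls π`; `A n0` also on `ε1 C`).
Powers: `gn_s_rpow`, `gn_s_anti`, `gn_s_pos`, `gn_absorb` (`Gen/BasA.lean`).
-/

set_option autoImplicit false

namespace Claimed.Agent.R256

open MeasureTheory Claimed.Agent.R255

variable {Y : SfCy}

/-! ## 0. Kit      (LEAF L-256-SFC-KIT) -/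

theorem sf_core_fr_pos (hO : SfCyOk Y) {de : ℝ} (c : SfCfg Y de) (C : ℕ) (hob : c.ob C) : c.fr.Pos := by
  obtain ⟨-, h1, h2, -, -⟩ := hO.af C c.A c.p c.W.E c.W.Q0 hob.2.1
  exact ⟨by show (0 : ℝ) < (2 : ℝ)⁻¹ ^ c.W.E.k0; positivity, h1, h2⟩

/-- (`SfSh.hlab`, `SfFrame.tst`, `sfTestAt`, `sfFrameOf`) -/
theorem sf_core_T {de : ℝ} (c : SfCfg Y de) (i : ℝ) (hi : i ∈ c.W.G) (ρ : c.D.Row i) :
    c.D.T i ρ = (c.tm i ρ - tmL c.W.E.k0 c.W.E.i0) / (2 : ℝ)⁻¹ ^ c.W.E.k0 := by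
  unfold SfDoc.T
  rw [c.sh.hlab i hi ρ]
  rfl

/-- (`SfSh.hlen`, `Str.k_rg`, `pow_add`) -/
theorem sf_core_len {de : ℝ} (c : SfCfg Y de) (hs : c.W.Str (Y.tq c.p)) (i : ℝ) (hi : i ∈ c.W.G) :
    (2 : ℝ)⁻¹ ^ c.W.k i = (2 : ℝ)⁻¹ ^ c.W.E.k0 * c.D.len i := by
  rw [c.sh.hlen i hi, ← pow_add, Nat.add_sub_cancel' (hs.k_rg i hi).1]

/-- (`SfSh.hray`) -/
theorem sf_core_ray {de : ℝ} (c : SfCfg Y de) (i : ℝ) (hi : i ∈ c.W.G) (ρ : c.D.Row i) : c.D.ray i ρ = c.fray i ρ (c.sh.rp i ρ) := by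
  exact c.sh.hray i hi ρ

/-- the absolute ray of a physical row: base part independent of the time of reading (`SfCyOk.coX coB coY`) -/
theorem sf_core_aray_base (hO : SfCyOk Y) {de : ℝ} (c : SfCfg Y de) (i : ℝ) (ρ : c.D.Row i) (x : (Y.M.sys c.p).X) :
    (c.aray i ρ x).X = (Y.co c.p 0 x).X ∧ (c.aray i ρ x).B = (Y.co c.p 0 x).B ∧ (c.aray i ρ x).Y = (Y.co c.p 0 x).Y := by
  refine ⟨hO.coX _ _ _, ?_, ?_⟩
  · show (Y.co c.p (c.tm i ρ) x).B - c.tm i ρ * (Y.co c.p (c.tm i ρ) x).X = _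
    rw [hO.coB, hO.coX c.p (c.tm i ρ) x]
    ring
  · show (Y.co c.p (c.tm i ρ) x).Y - c.tm i ρ * (Y.co c.p (c.tm i ρ) x).X ^ 2 = _
    rw [hO.coY, hO.coX c.p (c.tm i ρ) x]
    ring

/-- normal part of the absolute ray -/
theorem sf_core_aray_nor {de : ℝ} (c : SfCfg Y de) (i : ℝ) (ρ : c.D.Row i) (x : (Y.M.sys c.p).X) (τ : ℝ) :
    (c.aray i ρ x).N = (Y.co c.p (c.tm i ρ) x).N ∧
      (c.aray i ρ x).Dt τ = (Y.co c.p (c.tm i ρ) x).D + (τ - c.tm i ρ) * (Y.co c.p (c.tm i ρ) x).N := by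
  refine ⟨rfl, ?_⟩
  show (Y.co c.p (c.tm i ρ) x).D - c.tm i ρ * (Y.co c.p (c.tm i ρ) x).N + τ * (Y.co c.p (c.tm i ρ) x).N = _
  ring

/-- membership in a cell = membership of the absolute ray in the test (`SfCyOk.cell`, `cyIn`, `SfTest.Mem`, `sfRayAt`, `sfTestAt`: `z.Bt T = B`, ..) -/
theorem sf_core_cell_mem (hO : SfCyOk Y) (p : Y.M.Par) (Q : (Y.M.sys p).Tst) (T : ℝ) (k : ℕ) (x : (Y.M.sys p).X) :
    x ∈ (Y.M.sys p).cell Q T k ↔ (sfTestAt T (Y.tq p Q)).Mem ((2 : ℝ)⁻¹ ^ k) (sfRayAt T (Y.co p T x)) := by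
  rw [hO.cell]
  generalize Y.co p T x = z
  generalize Y.tq p Q = q
  have e1 : (sfRayAt T z).Bt T = z.B := by
    simp only [sfRayAt, SfRay.Bt]
    ring
  have e2 : (sfRayAt T z).Yt T = z.Y := by
    simp only [sfRayAt, SfRay.Yt]
    ring
  have e3 : (sfRayAt T z).Dt T = z.D := by
    simp only [sfRayAt, SfRay.Dt]
    ring
  unfold SfTest.Mem cyIn cyTilt cyVel cyPos
  have eT : (sfTestAt T q).T = T := rfl
  rw [eT, e1, e2, e3]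
  exact Iff.rfl

/-- **two rays with the same base part in a frame** (`shA`, `shS` depend on the base part only) -/
theorem sf_frame_diff (φ : SfFrame) (hφ : φ.Pos) (z z' : SfRay) (hX : z.X = z'.X) (hB : z.B = z'.B) (hY : z.Y = z'.Y) (τ : ℝ) :
    (φ.ray z).X = (φ.ray z').X ∧ (φ.ray z).B = (φ.ray z').B ∧ (φ.ray z).Y = (φ.ray z').Y ∧
    (φ.ray z').N - (φ.ray z).N = (z'.N - z.N) / φ.F0 ∧
    (φ.ray z').Dt τ - (φ.ray z).Dt τ = (z'.Dt (φ.T0 + φ.L * τ) - z.Dt (φ.T0 + φ.L * τ)) / (φ.L * φ.F0) := by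
  obtain ⟨hL, hr, hF⟩ := hφ
  have hL' := hL.ne'
  have hF' := hF.ne'
  obtain ⟨X, B, Y0, N, D⟩ := z
  obtain ⟨X', B', Y', N', D'⟩ := z'
  simp only at hX hB hY
  subst hX hB hY
  refine ⟨rfl, rfl, rfl, ?_, ?_⟩
  · simp only [SfFrame.ray, SfTest.shA, SfRay.Bt, SfRay.Yt]
    field_simp
    ring
  · simp only [SfFrame.ray, SfTest.shA, SfTest.shS, SfRay.Bt, SfRay.Yt, SfRay.Dt]
    field_simp
    ring

/-- every test is the image of a test (triangular system: `T, x, b, y, K, be, al, c, d, r, f` in this order) -/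
theorem sf_frame_tst_surj (φ : SfFrame) (hφ : φ.Pos) (Q' : SfTest) : ∃ Q : SfTest, φ.tst Q = Q' := by
  obtain ⟨hL, hr, hF⟩ := hφ
  have hL' := hL.ne'
  have hr' := hr.ne'
  have hF' := hF.ne'
  obtain ⟨T', x', b', y', c', d', al', be', K', r', f'⟩ := Q'
  obtain ⟨T, hT⟩ : ∃ T, T = φ.T0 + φ.L * T' := ⟨_, rfl⟩
  obtain ⟨dK, hdK⟩ : ∃ dK, dK = K' * φ.F0 / (φ.L * φ.r0 ^ 2) := ⟨_, rfl⟩
  obtain ⟨dbe, hdbe⟩ : ∃ dbe, dbe = be' * φ.F0 / φ.r0 ^ 2 := ⟨_, rfl⟩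
  obtain ⟨dal, hdal⟩ : ∃ dal, dal = al' * φ.F0 / φ.r0 - 2 * dbe * φ.x0 + 2 * dK * φ.bc T := ⟨_, rfl⟩
  obtain ⟨db, hdb⟩ : ∃ db, db = φ.L * φ.r0 * b' := ⟨_, rfl⟩
  refine ⟨⟨T, φ.x0 + φ.r0 * x', φ.bc T + db, φ.yc T + 2 * φ.x0 * db + φ.L * φ.r0 ^ 2 * y',
    φ.sg.c + (c' * φ.F0 - dal * φ.x0 - dbe * φ.x0 ^ 2 - dK * (φ.yc T - 2 * φ.x0 * φ.bc T)),
    (φ.sg.d + (T - φ.sg.T) * φ.sg.c) + (d' * (φ.L * φ.F0) - dal * φ.bc T - dbe * φ.yc T + dK * φ.bc T ^ 2),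
    φ.sg.al + dal, φ.sg.beAt T + dbe, φ.sg.K + dK, φ.r0 * r', φ.F0 * f'⟩, ?_⟩
  simp only [SfFrame.tst, add_sub_cancel_left, SfTest.mk.injEq]
  refine ⟨?_, ?_, ?_, ?_, ?_, ?_, ?_, ?_, ?_, ?_, ?_⟩
  · rw [hT]
    field_simp
    ring
  · field_simp
  · rw [hdb]
    field_simp
  · have : φ.yc T + 2 * φ.x0 * db + φ.L * φ.r0 ^ 2 * y' - φ.yc T - 2 * φ.x0 * db = φ.L * φ.r0 ^ 2 * y' := by ring
    rw [this]
    field_simp
  · have : c' * φ.F0 - dal * φ.x0 - dbe * φ.x0 ^ 2 - dK * (φ.yc T - 2 * φ.x0 * φ.bc T) + dal * φ.x0 + dbe * φ.x0 ^ 2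
        + dK * (φ.yc T - 2 * φ.x0 * φ.bc T) = c' * φ.F0 := by ring
    rw [this]
    field_simp
  · have : d' * (φ.L * φ.F0) - dal * φ.bc T - dbe * φ.yc T + dK * φ.bc T ^ 2 + dal * φ.bc T + dbe * φ.yc T - dK * φ.bc T ^ 2
        = d' * (φ.L * φ.F0) := by ring
    rw [this]
    field_simp
  · have : dal + 2 * dbe * φ.x0 - 2 * dK * φ.bc T = al' * φ.F0 / φ.r0 := by rw [hdal]; ring
    rw [this]
    field_simp
  · rw [hdbe]
    field_simp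
  · rw [hdK]
    field_simp
  · field_simp
  · field_simp

/-- weights in a frame (`Real.div_rpow`) -/
theorem sf_frame_w (φ : SfFrame) (hφ : φ.Pos) (η : ℝ) (Q : SfTest) (hr : 0 ≤ Q.r) (hf : 0 ≤ Q.f) :
    (φ.tst Q).w η = Q.w η / (φ.r0 ^ (3 + η) * φ.F0 ^ (1 - η)) := by
  obtain ⟨-, h1, h2⟩ := hφ
  show (Q.r / φ.r0) ^ (3 + η) * (Q.f / φ.F0) ^ (1 - η) = Q.r ^ (3 + η) * Q.f ^ (1 - η) / _
  rw [Real.div_rpow hr h1.le, Real.div_rpow hf h2.le, div_mul_div_comm]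

/-- number of gates (`Gap`, gates in `[0,1]`: the map `i ↦ ⌊i / h⌋₊` is injective on `G` with values `≤ 1/h`) -/
theorem sf_core_card (G : Finset ℝ) (h : ℝ) (hh : 0 < h) (h01 : ∀ i ∈ G, 0 ≤ i ∧ i ≤ 1) (hg : ∀ i ∈ G, ∀ j ∈ G, i < j → h ≤ j - i) : (G.card : ℝ) ≤ 1 / h + 1 := by
  have hlt : ∀ i ∈ G, ∀ j ∈ G, i < j → ⌊i / h⌋₊ < ⌊j / h⌋₊ := by
    intro i hi j hj hij
    have h1 : i / h + 1 ≤ j / h := by
      rw [← sub_nonneg]
      have : j / h - (i / h + 1) = (j - i - h) / h := by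
        field_simp
        ring
      rw [this]
      exact div_nonneg (by linarith [hg i hi j hj hij]) hh.le
    have h2 : ⌊i / h⌋₊ + 1 ≤ ⌊j / h⌋₊ := by
      rw [← Nat.floor_add_one (div_nonneg (h01 i hi).1 hh.le)]
      exact Nat.floor_le_floor h1
    omega
  have hinj : Set.InjOn (fun i : ℝ => ⌊i / h⌋₊) G := by
    intro i hi j hj hij
    rcases lt_trichotomy i j with hlt' | heq | hgt
    · exact absurd hij (hlt i hi j hj hlt').ne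
    · exact heq
    · exact absurd hij (hlt j hj i hi hgt).ne'
  have hmap : ∀ i ∈ G, (fun i : ℝ => ⌊i / h⌋₊) i ∈ Finset.range (⌊1 / h⌋₊ + 1) := by
    intro i hi
    rw [Finset.mem_range, Nat.lt_succ_iff]
    exact Nat.floor_le_floor (div_le_div_of_nonneg_right (h01 i hi).2 hh.le)
  have hc := Finset.card_le_card_of_injOn _ hmap hinj
  rw [Finset.card_range] at hc
  have h3 : ((⌊1 / h⌋₊ : ℕ) : ℝ) ≤ 1 / h := Nat.floor_le (by positivity)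
  have h4 : (G.card : ℝ) ≤ ((⌊1 / h⌋₊ + 1 : ℕ) : ℝ) := by exact_mod_cast hc
  push_cast at h4
  linarith

/-! ## 1. Scalars      (LEAF L-256-SFC-SC) -/

/-- **hs, gate, hlen, hw, hek.**   PLAN: `a = t`, `n0 = 1`.   `D.s = E.s = 2⁻¹^n < 1`.   `hG`, `Str.gate`.   `len 1`: `k 1 = kf = k0 + n`.   `len i = 2⁻¹^(k i - k0) = 2^(-(k i - k0))`, `|(k i - k0) - i n| ≤ a n` (`Ext.depth`), `s^y = 2^(-(y n))` (`gn_s_rpow`).
`hw`: `hr`, `hf`, `Str.frame`.   `hek`: `SfCyOk.af` on `hob.2.1`, divide by `ka * cyWt η Q0 > 0`. -/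
theorem sf_core_sc (hO : SfCyOk Y) (π : SfPar) (Ls t h : ℝ) (ht : 0 < t) :
    SfRigid Y π Ls h (fun c C => (0 < c.D.s ∧ c.D.s < 1) ∧ ((1 : ℝ) ∈ c.D.G ∧ ∀ i ∈ c.D.G, 0 ≤ i ∧ i ≤ 1) ∧
      (c.D.len 1 = c.D.s ∧ ∀ i ∈ c.D.G, c.D.s ^ (i + t) ≤ c.D.len i ∧ c.D.len i ≤ c.D.s ^ (i - t)) ∧
      (c.D.r 1 = 1 ∧ c.D.f 1 = 1 ∧ ∀ i ∈ c.D.G, 0 < c.D.r i ∧ 0 < c.D.f i) ∧
      (c.D.s ^ (C : ℝ) ≤ c.D.ek ∧ c.D.ek ≤ c.D.s ^ (-(C : ℝ)))) := by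
  refine ⟨t, 1, 0, ht, one_pos, fun ε1 _ C => ⟨0, 1, fun c hob _ _ hn hext _ _ _ _ => ?_⟩⟩
  have hstr := hext.str
  have hs : c.D.s = c.W.E.s := c.sh.hs
  have hG : c.D.G = c.W.G := c.sh.hG
  have h1G : (1 : ℝ) ∈ c.W.G := hstr.gate.1
  beta_reduce
  rw [hs, hG]
  refine ⟨⟨gn_s_pos _, ?_⟩, hstr.gate, ⟨?_, fun i hi => ?_⟩, ⟨?_, ?_, fun i hi => ?_⟩, ?_⟩
  · unfold Xp.s
    exact pow_lt_one₀ (by norm_num) (by norm_num) (by omega)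
  · rw [c.sh.hlen 1 h1G, hstr.k_one.1]
    unfold Xp.kf Xp.s
    congr 1
    omega
  · have hk := (hstr.k_rg i hi).1
    have hd := abs_le.1 (hext.depth i hi)
    have hlen : c.D.len i = 2 ^ (-((c.W.k i : ℝ) - c.W.E.k0)) := by
      rw [c.sh.hlen i hi, ← Real.rpow_natCast, Real.inv_rpow (by norm_num), ← Real.rpow_neg (by norm_num), Nat.cast_sub hk]
    rw [hlen, gn_s_rpow, gn_s_rpow]
    constructor
    · refine Real.rpow_le_rpow_of_exponent_le (by norm_num) ?_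
      nlinarith [hd.2]
    · refine Real.rpow_le_rpow_of_exponent_le (by norm_num) ?_
      nlinarith [hd.1]
  · rw [c.sh.hr 1 h1G, hstr.frame.1]
    exact div_self (hstr.frame.2.2 1 h1G).1.ne'
  · rw [c.sh.hf 1 h1G, hstr.frame.2.1]
    exact div_self (hstr.frame.2.2 1 h1G).2.ne'
  · rw [c.sh.hr i hi, c.sh.hf i hi, hstr.frame.1, hstr.frame.2.1]
    exact ⟨div_pos (hstr.frame.2.2 i hi).1 (hstr.frame.2.2 1 h1G).1, div_pos (hstr.frame.2.2 i hi).2 (hstr.frame.2.2 1 h1G).2⟩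
  · obtain ⟨-, hr, hf, h1, h2⟩ := hO.af C c.A c.p c.W.E c.W.Q0 hob.2.1
    have hw : 0 < c.W.E.ka * cyWt Y.η c.W.Q0 := by
      refine mul_pos hstr.valid.ka_pos ?_
      unfold cyWt
      exact mul_pos (Real.rpow_pos_of_pos hr _) (Real.rpow_pos_of_pos hf _)
    rw [c.sh.hek, le_div_iff₀ hw, div_le_iff₀ hw]
    exact ⟨h1, h2⟩

/-! ## 2. Weights of sets of rows      (LEAF L-256-SFC-WS) -/

/-- a sum over disjoint sets has at most one term -/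
theorem sf_core_wS_mask_aux {ι X : Type} (R : Finset ι) (A : ι → Set X) (hd : ∀ ρ ∈ R, ∀ ρ' ∈ R, ρ ≠ ρ' → Disjoint (A ρ) (A ρ')) (g : ι → ℝ) (t : ℝ) (ht : 0 ≤ t) (x : X)
    (h0 : ∀ ρ ∈ R, x ∉ A ρ → g ρ = 0) (h1 : ∀ ρ ∈ R, g ρ ≤ t) : ∑ ρ ∈ R, g ρ ≤ t := by
  by_cases hex : ∃ ρ ∈ R, x ∈ A ρ
  · obtain ⟨ρ0, h0R, hx⟩ := hex
    rw [Finset.sum_eq_single_of_mem ρ0 h0R]
    · exact h1 ρ0 h0R
    · intro ρ hρ hne
      exact h0 ρ hρ fun hx' => Set.disjoint_left.1 (hd ρ hρ ρ0 h0R hne) hx' hx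
  · push Not at hex
    rw [Finset.sum_eq_zero fun ρ hρ => h0 ρ hρ (hex ρ hρ)]
    exact ht

/-- the grouping by labels (= `sf_core_wS_le`, stated first because the mask property needs it) -/
theorem sf_core_wS_le_pre {de : ℝ} (c : SfCfg Y de) (hs : c.W.Str (Y.tq c.p)) (i : ℝ) (hi : i ∈ c.W.G) (S : c.D.Row i → Prop) (m : ℕ) (x : (Y.M.sys c.p).X) :
    c.wS i S m x ≤ ∑ l, if c.W.iv i l = m then c.W.th i l x else 0 := by
  classical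
  unfold SfCfg.wS
  rw [← Finset.sum_fiberwise Finset.univ (fun ρ => c.sh.lb i ρ)]
  refine Finset.sum_le_sum fun l _ => ?_
  by_cases hl : c.W.iv i l = m
  · rw [if_pos hl]
    refine sf_core_wS_mask_aux _ (c.sh.atm i) ?_ _ _ (hs.nn i hi l x) x ?_ ?_
    · intro ρ hρ ρ' hρ' hne
      exact c.sh.at_disj i hi ρ ρ' ((Finset.mem_filter.1 hρ).2.trans (Finset.mem_filter.1 hρ').2.symm) hne
    · intro ρ _ hx
      split_ifs
      · exact Set.indicator_of_notMem hx _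
      · rfl
    · intro ρ hρ
      have hlb : c.sh.lb i ρ = l := (Finset.mem_filter.1 hρ).2
      split_ifs
      · rw [hlb]
        exact Set.indicator_le_self' (fun _ _ => hs.nn i hi l x) x
      · exact hs.nn i hi l x
  · rw [if_neg hl]
    refine (Finset.sum_eq_zero fun ρ hρ => ?_).le
    rw [if_neg]
    rintro ⟨-, h⟩
    apply hl
    rw [← (Finset.mem_filter.1 hρ).2]
    exact h

/-- `wS` is a mask.   PLAN: measurable: finite sum of `Measurable.indicator` (`Str.meas`, `at_meas`).   `0 ≤`: `Str.nn`.   `≤ 1`: group the rows by their label: for a fixed label the atoms are disjoint (`at_disj`), so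
`Σ_{ρ : lb ρ = l} 1_{atm ρ} x ≤ 1`; hence `wS x ≤ Σ_l [iv l = m] th l x ≤ 1` (`Str.sum_le`). -/
theorem sf_core_wS_mask {de : ℝ} (c : SfCfg Y de) (hs : c.W.Str (Y.tq c.p)) (i : ℝ) (hi : i ∈ c.W.G) (S : c.D.Row i → Prop) (m : ℕ) : IsMask (c.wS i S m) := by
  classical
  refine ⟨?_, fun x => ⟨?_, (sf_core_wS_le_pre c hs i hi S m x).trans (hs.sum_le i hi m x)⟩⟩
  · unfold SfCfg.wS
    refine Finset.measurable_fun_sum _ fun ρ _ => ?_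
    split_ifs
    · exact (hs.meas i hi _).indicator (c.sh.at_meas i hi ρ)
    · exact measurable_const
  · unfold SfCfg.wS
    refine Finset.sum_nonneg fun ρ _ => ?_
    split_ifs
    · exact Set.indicator_nonneg (fun y _ => hs.nn i hi _ y) x
    · exact le_rfl

/-- `wS ≤` the sum of the weights of the labels of the interval (the grouping of the previous plan) -/
theorem sf_core_wS_le {de : ℝ} (c : SfCfg Y de) (hs : c.W.Str (Y.tq c.p)) (i : ℝ) (hi : i ∈ c.W.G) (S : c.D.Row i → Prop) (m : ℕ) (x : (Y.M.sys c.p).X) :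
    c.wS i S m x ≤ ∑ l, if c.W.iv i l = m then c.W.th i l x else 0 := by
  exact sf_core_wS_le_pre c hs i hi S m x

/-- HYBRID model, all rows: the sum of the weights of the labels of the interval (`at_cov`, `at_disj`: every `x` with `th l x ≠ 0` lies in exactly one atom of the label `l`).
(`hy`: `at_cov` is going to be relaxed in the classical model, helper39; use `at_cov` only through `hy`-robust steps: `th l x ≠ 0 → ∃ ρ, ..` may need `hy`.) -/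
theorem sf_core_wS_all {de : ℝ} (c : SfCfg Y de) (hy : Y.hyb = true) (hs : c.W.Str (Y.tq c.p)) (i : ℝ) (hi : i ∈ c.W.G) (m : ℕ) (x : (Y.M.sys c.p).X) :
    c.wS i (fun _ => True) m x = ∑ l, if c.W.iv i l = m then c.W.th i l x else 0 := by
  classical
  unfold SfCfg.wS
  rw [← Finset.sum_fiberwise Finset.univ (fun ρ => c.sh.lb i ρ)]
  refine Finset.sum_congr rfl fun l _ => ?_
  by_cases hl : c.W.iv i l = m
  · rw [if_pos hl]
    by_cases hth : c.W.th i l x = 0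
    · rw [hth]
      refine Finset.sum_eq_zero fun ρ hρ => ?_
      have hlb : c.sh.lb i ρ = l := (Finset.mem_filter.1 hρ).2
      split_ifs
      · rw [hlb]
        by_cases hx : x ∈ c.sh.atm i ρ
        · rw [Set.indicator_of_mem hx, hth]
        · exact Set.indicator_of_notMem hx _
      · rfl
    · obtain ⟨ρ0, hlb0, hx0⟩ := (c.sh.at_cov i hi l x).1 ⟨hth, fun hf => by rw [hy] at hf; exact absurd hf (by simp)⟩
      have hmem : ρ0 ∈ Finset.univ.filter (fun ρ => c.sh.lb i ρ = l) := Finset.mem_filter.2 ⟨Finset.mem_univ _, hlb0⟩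
      rw [Finset.sum_eq_single_of_mem ρ0 hmem]
      · have him : c.im i ρ0 = m := by
          unfold SfCfg.im
          rw [hlb0]
          exact hl
        rw [if_pos ⟨trivial, him⟩, Set.indicator_of_mem hx0, hlb0]
      · intro ρ hρ hne
        have hlb : c.sh.lb i ρ = l := (Finset.mem_filter.1 hρ).2
        split_ifs
        · exact Set.indicator_of_notMem (fun hx => Set.disjoint_left.1 (c.sh.at_disj i hi ρ ρ0 (hlb.trans hlb0.symm) hne) hx hx0) _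
        · rfl
  · rw [if_neg hl]
    refine Finset.sum_eq_zero fun ρ hρ => ?_
    rw [if_neg]
    rintro ⟨-, h⟩
    apply hl
    rw [← (Finset.mem_filter.1 hρ).2]
    exact h

theorem sf_core_wS_split {de : ℝ} (c : SfCfg Y de) (i : ℝ) (S : c.D.Row i → Prop) (m : ℕ) (x : (Y.M.sys c.p).X) :
    c.wS i (fun _ => True) m x = c.wS i S m x + c.wS i (fun ρ => ¬ S ρ) m x := by
  classical
  unfold SfCfg.wS
  rw [← Finset.sum_add_distrib]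
  refine Finset.sum_congr rfl fun ρ _ => ?_
  by_cases h1 : S ρ <;> by_cases h2 : c.im i ρ = m <;> simp [h1, h2]

theorem sf_core_wS_supp {de : ℝ} (c : SfCfg Y de) (i : ℝ) (S : c.D.Row i → Prop) (m : ℕ) (x : (Y.M.sys c.p).X) (hx : c.wS i S m x ≠ 0) : x ∈ c.aS i S m := by
  classical
  unfold SfCfg.wS at hx
  obtain ⟨ρ, -, hρ⟩ := Finset.exists_ne_zero_of_sum_ne_zero hx
  by_cases h : S ρ ∧ c.im i ρ = m
  · rw [if_pos h] at hρ
    unfold SfCfg.aS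
    exact Set.mem_iUnion.2 ⟨ρ, Set.mem_iUnion.2 ⟨h, Set.mem_of_indicator_ne_zero hρ⟩⟩
  · rw [if_neg h] at hρ
    exact absurd rfl hρ

theorem sf_core_aS_meas {de : ℝ} (c : SfCfg Y de) (i : ℝ) (hi : i ∈ c.W.G) (S : c.D.Row i → Prop) (m : ℕ) : MeasurableSet (c.aS i S m) := by
  unfold SfCfg.aS
  exact MeasurableSet.iUnion fun ρ => MeasurableSet.iUnion fun _ => c.sh.at_meas i hi ρ

/-- **masses of events**: `pr S * tot = Σ_m` energy read by `S`.   PLAN: `FLaw.pr`, `SfSh.law` row by row, `gn_en_sum`; every row lives in exactly one interval `im ρ ∈ ivs` (`Str.iv_in`). -/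
theorem sf_core_pr {de : ℝ} (c : SfCfg Y de) (hs : c.W.Str (Y.tq c.p)) (i : ℝ) (hi : i ∈ c.W.G) (S : c.D.Row i → Prop) :
    (c.D.P i).pr S * c.W.tot i = ∑ m ∈ c.W.ivs i, c.rdE i S m (c.W.pre i m) := by
  classical
  have hth1 : ∀ l x, c.W.th i l x ≤ 1 := fun l x => by
    refine le_trans ?_ (hs.sum_le i hi (c.W.iv i l) x)
    have h1 := Finset.single_le_sum (f := fun l' => if c.W.iv i l' = c.W.iv i l then c.W.th i l' x else 0)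
      (fun l' _ => by
        show 0 ≤ if c.W.iv i l' = c.W.iv i l then c.W.th i l' x else 0
        split_ifs
        · exact hs.nn i hi l' x
        · exact le_rfl) (Finset.mem_univ l)
    simpa using h1
  have hmask : ∀ (m : ℕ) (ρ : c.D.Row i), IsMask (fun x => if S ρ ∧ c.im i ρ = m then (c.sh.atm i ρ).indicator (c.W.th i (c.sh.lb i ρ)) x else 0) := fun m ρ => by
    by_cases h : S ρ ∧ c.im i ρ = m
    · simp only [if_pos h]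
      refine ⟨(hs.meas i hi _).indicator (c.sh.at_meas i hi ρ), fun x => ⟨Set.indicator_nonneg (fun y _ => hs.nn i hi _ y) x, ?_⟩⟩
      exact (Set.indicator_le_self' (fun _ _ => hs.nn i hi _ x) x).trans (hth1 _ x)
    · simp only [if_neg h]
      exact ⟨measurable_const, fun _ => ⟨le_rfl, zero_le_one⟩⟩
  have hzero : ∀ (T : ℝ) (k b : ℕ) (v : (Y.M.sys c.p).Kc), (Y.M.sys c.p).en T k b (fun _ => 0) v = 0 := fun T k b v => by
    unfold PkSys.en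
    simp
  have hrd : ∀ m, c.rdE i S m (c.W.pre i m) = ∑ ρ, (Y.M.sys c.p).en (tmL (c.W.k i) m) (c.W.k i) (c.W.gb i)
      (fun x => if S ρ ∧ c.im i ρ = m then (c.sh.atm i ρ).indicator (c.W.th i (c.sh.lb i ρ)) x else 0) (c.W.pre i m) := fun m => by
    unfold SfCfg.rdE
    have e : c.wS i S m = fun x => ∑ ρ ∈ Finset.univ, if S ρ ∧ c.im i ρ = m then (c.sh.atm i ρ).indicator (c.W.th i (c.sh.lb i ρ)) x else 0 := by
      funext x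
      unfold SfCfg.wS
      rfl
    rw [e, gn_en_sum _ _ _ Finset.univ _ (fun ρ _ => hmask m ρ)]
  rw [Finset.sum_congr rfl fun m _ => hrd m, Finset.sum_comm]
  unfold FLaw.pr
  rw [Finset.sum_mul]
  refine Finset.sum_congr rfl fun ρ _ => ?_
  rw [Finset.sum_eq_single_of_mem (c.im i ρ) (hs.iv_in i hi _)]
  · by_cases hS : S ρ
    · rw [if_pos hS, c.sh.law i hi ρ]
      simp only [hS, true_and, if_true]
      rfl
    · rw [if_neg hS, zero_mul]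
      simp only [hS, false_and, if_false]
      exact (hzero _ _ _ _).symm
  · intro m _ hne
    have e : (fun x => if S ρ ∧ c.im i ρ = m then (c.sh.atm i ρ).indicator (c.W.th i (c.sh.lb i ρ)) x else 0) = fun _ => (0 : ℝ) := by
      funext x
      rw [if_neg]
      rintro ⟨-, h⟩
      exact hne h.symm
    rw [e]
    exact hzero _ _ _ _

/-! ## 3. Read mass      (LEAF L-256-SFC-MASS) -/

/-- **hmass.**   PLAN: `a = t`.   Lower bound = `Ext.read`.   Upper bound: `tot i = pr True * tot i` (`FLaw.sum_one`) `= Σ_m rdE ..` (`sf_core_pr`) `≤ Σ_m ‖pre i m‖²` (`gn_en_le`, `sf_core_wS_mask`, `Tight` from `hE.gen.tight`, `gd` from `SfCyOk.af`) `≤ s^(-a) e s^(-(d i))` (`Ext.en`). -/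
theorem sf_core_mass (hO : SfCyOk Y) (π : SfPar) (Ls : ℝ) (hE : SfCoreHyp Y π) (t h : ℝ) (ht : 0 < t) :
    SfRigid Y π Ls h (fun c _ => ∀ i ∈ c.D.G, c.D.s ^ t ≤ c.D.mass i ∧ c.D.mass i ≤ c.D.s ^ (-t)) := by
  refine ⟨t, 1, 0, ht, one_pos, fun ε1 _ C => ⟨0, 0, fun c hob _ _ _ hext _ _ _ _ => ?_⟩⟩
  have hstr := hext.str
  beta_reduce
  rw [c.sh.hs, c.sh.hG]
  intro i hi
  have he := hstr.valid.e_pos
  have hden : 0 < c.W.E.e * c.W.E.s ^ (-(π.d * i)) := mul_pos he (Real.rpow_pos_of_pos (gn_s_pos _) _)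
  rw [c.sh.hmass i hi, le_div_iff₀ hden, div_le_iff₀ hden]
  constructor
  · have := hext.read i hi
    linarith
  · have hgd := (hO.af C c.A c.p c.W.E c.W.Q0 hob.2.1).1
    have hT := hE.gen.tight c.p hgd
    have h1 : (c.D.P i).pr (fun _ => True) = 1 := by
      unfold FLaw.pr
      simp only [if_true]
      exact (c.D.P i).sum_one
    have h2 := sf_core_pr c hstr i hi (fun _ => True)
    rw [h1, one_mul] at h2
    rw [h2]
    calc ∑ m ∈ c.W.ivs i, c.rdE i (fun _ => True) m (c.W.pre i m) ≤ ∑ m ∈ c.W.ivs i, ‖c.W.pre i m‖ ^ 2 :=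
          Finset.sum_le_sum fun m _ => gn_en_le hT _ _ _ (sf_core_wS_mask c hstr i hi _ m) _
      _ ≤ c.W.E.s ^ (-t) * c.W.E.e * c.W.E.s ^ (-(π.d * i)) := hext.en i hi
      _ = _ := by ring

/-! ## 4. Own, grid      (LEAF L-256-SFC-OWN) -/

/-- the time of a row in the frame: `T = m len - i0` -/
theorem sf_core_own_T {de : ℝ} (c : SfCfg Y de) (hs : c.W.Str (Y.tq c.p)) (i : ℝ) (hi : i ∈ c.W.G) (ρ : c.D.Row i) :
    c.D.T i ρ = (c.im i ρ : ℝ) * c.D.len i - c.W.E.i0 := by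
  rw [sf_core_T c i hi ρ]
  have h1 := sf_core_len c hs i hi
  have hL : (0 : ℝ) < (2 : ℝ)⁻¹ ^ c.W.E.k0 := by positivity
  have e1 : c.tm i ρ = (c.im i ρ : ℝ) * (2 : ℝ)⁻¹ ^ c.W.k i := by
    show tmL (c.W.k i) (c.W.iv i (c.sh.lb i ρ)) = _
    unfold tmL SfCfg.im
    rw [inv_pow, div_eq_mul_inv]
  have e2 : tmL c.W.E.k0 c.W.E.i0 = (c.W.E.i0 : ℝ) * (2 : ℝ)⁻¹ ^ c.W.E.k0 := by
    unfold tmL
    rw [inv_pow, div_eq_mul_inv]
  rw [e1, e2, h1]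
  field_simp

/-- the range of the times -/
theorem sf_core_own_rg {de : ℝ} (c : SfCfg Y de) (hs : c.W.Str (Y.tq c.p)) (i : ℝ) (hi : i ∈ c.W.G) (ρ : c.D.Row i) :
    0 ≤ c.D.T i ρ ∧ c.D.T i ρ + c.D.len i ≤ 1 := by
  rw [sf_core_own_T c hs i hi ρ]
  have hiv := hs.iv_in i hi (c.sh.lb i ρ)
  unfold SfMD.ivs at hiv
  rw [Finset.mem_Ico] at hiv
  obtain ⟨h1, h2⟩ := hiv
  have hlen := c.sh.hlen i hi
  obtain ⟨d, hd⟩ : ∃ d, d = c.W.k i - c.W.E.k0 := ⟨_, rfl⟩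
  rw [← hd] at h1 h2 hlen
  have hp : (0 : ℝ) < 2 ^ d := by positivity
  have h1' : (c.W.E.i0 : ℝ) * 2 ^ d ≤ c.im i ρ := by
    unfold SfCfg.im
    exact_mod_cast h1
  have h2' : (c.im i ρ : ℝ) + 1 ≤ ((c.W.E.i0 : ℝ) + 1) * 2 ^ d := by
    unfold SfCfg.im
    exact_mod_cast h2
  have hl : c.D.len i * 2 ^ d = 1 := by
    rw [hlen, inv_pow]
    exact inv_mul_cancel₀ hp.ne'
  have hl0 : 0 < c.D.len i := by
    rw [hlen]
    positivity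
  constructor
  · have := mul_le_mul_of_nonneg_right h1' hl0.le
    have e : (c.W.E.i0 : ℝ) * 2 ^ d * c.D.len i = c.W.E.i0 := by
      rw [mul_assoc, mul_comm ((2 : ℝ) ^ d), hl, mul_one]
    rw [e] at this
    linarith
  · have := mul_le_mul_of_nonneg_right h2' hl0.le
    have e : ((c.W.E.i0 : ℝ) + 1) * 2 ^ d * c.D.len i = c.W.E.i0 + 1 := by
      rw [mul_assoc, mul_comm ((2 : ℝ) ^ d), hl, mul_one]
    rw [e] at this
    linarith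

/-- **own.**   PLAN: widths: `hlab`, `SfFrame.tst`, `Str.width`, `hr`, `hf`.   `Mem`: `rp_cell`, `sf_core_cell_mem`, `sf_frame_mem φ _ Q ℓ_i z` with `ℓ_i / L = len i` (`sf_core_len`), `sf_core_ray`.
Times: `sf_core_T`, `tm = tmL (k i) m`, `m ∈ ivs = Ico (i0 2^(k i - k0)) ((i0+1) 2^(k i - k0))` (`Str.iv_in`): `T = m / 2^(k i - k0) - i0`, `len = 1 / 2^(k i - k0)`. -/
theorem sf_core_own (hO : SfCyOk Y) (π : SfPar) (Ls h : ℝ) :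
    SfRigid Y π Ls h (fun c _ => ∀ i ∈ c.D.G, ∀ ρ, (c.D.lab i ρ).r = c.D.r i ∧ (c.D.lab i ρ).f = c.D.f i ∧ (c.D.lab i ρ).Mem (c.D.len i) (c.D.ray i ρ) ∧
      0 ≤ c.D.T i ρ ∧ c.D.T i ρ + c.D.len i ≤ 1) := by
  refine ⟨1, 1, 0, one_pos, one_pos, fun ε1 _ C => ⟨0, 0, fun c hob _ _ _ _ _ _ _ _ => ?_⟩⟩
  intro i hi ρ
  rw [c.sh.hG] at hi
  have hs : c.W.Str (Y.tq c.p) := hob.2.2.1
  obtain ⟨w1, w2⟩ := hs.width i hi (c.sh.lb i ρ)
  have hlab := c.sh.hlab i hi ρ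
  refine ⟨?_, ?_, ?_, sf_core_own_rg c hs i hi ρ⟩
  · rw [hlab, c.sh.hr i hi, ← w1]
    rfl
  · rw [hlab, c.sh.hf i hi, ← w2]
    rfl
  · have h1 := (sf_core_cell_mem hO c.p _ _ _ _).1 (c.sh.rp_cell i hi ρ)
    have h2 := (sf_frame_mem c.fr (sf_core_fr_pos hO c C hob) _ _ _).2 h1
    have e : (2 : ℝ)⁻¹ ^ c.W.k i / c.fr.L = c.D.len i := by
      show (2 : ℝ)⁻¹ ^ c.W.k i / (2 : ℝ)⁻¹ ^ c.W.E.k0 = _
      rw [sf_core_len c hs i hi]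
      have hL : (0 : ℝ) < (2 : ℝ)⁻¹ ^ c.W.E.k0 := by positivity
      field_simp
    rw [e] at h2
    rw [hlab, sf_core_ray c i hi ρ]
    exact h2

/-- **grid.**   PLAN: as above `T = m len - i0`; different times have different integers `m`. -/
theorem sf_core_grid (hO : SfCyOk Y) (π : SfPar) (Ls h : ℝ) :
    SfRigid Y π Ls h (fun c _ => ∀ i ∈ c.D.G, ∀ ρ ρ', c.D.T i ρ ≠ c.D.T i ρ' → c.D.len i ≤ |c.D.T i ρ - c.D.T i ρ'|) := by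
  refine ⟨1, 1, 0, one_pos, one_pos, fun ε1 _ C => ⟨0, 0, fun c hob _ _ _ _ _ _ _ _ => ?_⟩⟩
  intro i hi ρ ρ' hne
  rw [c.sh.hG] at hi
  have hs : c.W.Str (Y.tq c.p) := hob.2.2.1
  rw [sf_core_own_T c hs i hi ρ, sf_core_own_T c hs i hi ρ'] at hne ⊢
  have hl0 : 0 < c.D.len i := by
    rw [c.sh.hlen i hi]
    positivity
  have hm : c.im i ρ ≠ c.im i ρ' := by
    intro h'
    apply hne
    rw [h']
  have e : (c.im i ρ : ℝ) * c.D.len i - c.W.E.i0 - ((c.im i ρ' : ℝ) * c.D.len i - c.W.E.i0) = (((c.im i ρ : ℤ) - (c.im i ρ' : ℤ) : ℤ) : ℝ) * c.D.len i := by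
    push_cast
    ring
  rw [e, abs_mul, abs_of_pos hl0]
  have h1 : (1 : ℝ) ≤ |(((c.im i ρ : ℤ) - (c.im i ρ' : ℤ) : ℤ) : ℝ)| := by
    rw [← Int.cast_abs]
    have : (1 : ℤ) ≤ |(c.im i ρ : ℤ) - (c.im i ρ' : ℤ)| := by
      apply Int.one_le_abs
      intro h0
      apply hm
      omega
    exact_mod_cast this
  calc c.D.len i = 1 * c.D.len i := (one_mul _).symm
    _ ≤ _ := mul_le_mul_of_nonneg_right h1 hl0.le

/-! ## 5. Weight count      (LEAF L-256-SFC-CNT) -/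

/-- **cnt.**   PLAN: `a = t`.   `range (lab i)` is the image of `range (lb i)` under `l ↦ φ.tst (sfTestAt (T l) (tq (ts l)))`: `ncard ≤ card (Lb i)` (`Set.ncard_image_le`, `Set.ncard_le_ncard`, `Set.ncard_univ`, `Nat.card_eq_fintype_card`).
`wt (ts l) = (W.r i)^(3+η) (W.f i)^(1-η)` (`SfCyOk.wt`, `cyWt`, `Str.width`), so `Ext.cnt` reads `card * (W.r i)^(3+η) (W.f i)^(1-η) ≤ s^(-a) (e/ka) s^(-((p+d) i))`; divide by `cyWt η Q0` (`Real.div_rpow`, `hr`, `hf`, `hek`; `π.η = Y.η` by `hE.par`). -/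
theorem sf_core_cnt (hO : SfCyOk Y) (π : SfPar) (Ls : ℝ) (hE : SfCoreHyp Y π) (t h : ℝ) (ht : 0 < t) :
    SfRigid Y π Ls h (fun c _ => ∀ i ∈ c.D.G, ((Set.range (c.D.lab i)).ncard : ℝ) * (c.D.r i ^ (3 + π.η) * c.D.f i ^ (1 - π.η))
      ≤ c.D.s ^ (-t) * c.D.ek * c.D.s ^ (-((π.p + π.d) * i))) := by
  refine ⟨t, 1, 0, ht, one_pos, fun ε1 _ C => ⟨0, 0, fun c hob _ _ _ hext _ _ _ _ => ?_⟩⟩
  have hstr := hext.str
  beta_reduce
  rw [c.sh.hs, c.sh.hG]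
  intro i hi
  obtain ⟨-, hr0, hf0, -, -⟩ := hO.af C c.A c.p c.W.E c.W.Q0 hob.2.1
  obtain ⟨hri, hfi⟩ := hstr.frame.2.2 i hi
  have hη : π.η = Y.η := hE.par.2.1
  have hka := hstr.valid.ka_pos
  have hw0 : 0 < cyWt Y.η c.W.Q0 := by
    unfold cyWt
    exact mul_pos (Real.rpow_pos_of_pos hr0 _) (Real.rpow_pos_of_pos hf0 _)
  have hwi : 0 < c.W.r i ^ (3 + Y.η) * c.W.f i ^ (1 - Y.η) := mul_pos (Real.rpow_pos_of_pos hri _) (Real.rpow_pos_of_pos hfi _)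
  -- number of labels
  have hcard : ((Set.range (c.D.lab i)).ncard : ℝ) ≤ (Fintype.card (c.W.Lb i) : ℝ) := by
    have hsub : Set.range (c.D.lab i) ⊆ (fun l => c.fr.tst (sfTestAt (c.W.T i l) (Y.tq c.p (c.W.ts i l)))) '' Set.univ := by
      rintro _ ⟨ρ, rfl⟩
      exact ⟨c.sh.lb i ρ, Set.mem_univ _, (c.sh.hlab i hi ρ).symm⟩
    have h1 := Set.ncard_le_ncard hsub (Set.toFinite _)
    have h2 := Set.ncard_image_le (f := fun l => c.fr.tst (sfTestAt (c.W.T i l) (Y.tq c.p (c.W.ts i l)))) (Set.toFinite (Set.univ : Set (c.W.Lb i)))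
    rw [Set.ncard_univ, Nat.card_eq_fintype_card] at h2
    exact_mod_cast h1.trans h2
  have hsum : ∑ l, (Y.M.sys c.p).wt (c.W.ts i l) = (Fintype.card (c.W.Lb i) : ℝ) * (c.W.r i ^ (3 + Y.η) * c.W.f i ^ (1 - Y.η)) := by
    rw [Finset.sum_congr rfl fun l _ => (by
      rw [hO.wt]
      unfold cyWt
      rw [(hstr.width i hi l).1, (hstr.width i hi l).2] : (Y.M.sys c.p).wt (c.W.ts i l) = c.W.r i ^ (3 + Y.η) * c.W.f i ^ (1 - Y.η)),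
      Finset.sum_const, Finset.card_univ, nsmul_eq_mul]
  have hcnt := hext.cnt i hi
  rw [hsum] at hcnt
  have hD : c.D.r i ^ (3 + π.η) * c.D.f i ^ (1 - π.η) = c.W.r i ^ (3 + Y.η) * c.W.f i ^ (1 - Y.η) / cyWt Y.η c.W.Q0 := by
    rw [c.sh.hr i hi, c.sh.hf i hi, hη, Real.div_rpow hri.le hr0.le, Real.div_rpow hfi.le hf0.le]
    unfold cyWt
    rw [div_mul_div_comm]
  rw [hD, c.sh.hek, ← mul_div_assoc, div_le_iff₀ hw0]
  calc ((Set.range (c.D.lab i)).ncard : ℝ) * (c.W.r i ^ (3 + Y.η) * c.W.f i ^ (1 - Y.η))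
      ≤ (Fintype.card (c.W.Lb i) : ℝ) * (c.W.r i ^ (3 + Y.η) * c.W.f i ^ (1 - Y.η)) := mul_le_mul_of_nonneg_right hcard hwi.le
    _ ≤ c.W.E.s ^ (-t) * (c.W.E.e / c.W.E.ka) * c.W.E.s ^ (-((π.p + π.d) * i)) := hcnt
    _ = _ := by
        field_simp

/-! ## 6. Chains of links      (LEAF L-256-SFC-CHAIN) -/

theorem sf_core_chain_lt {de : ℝ} (c : SfCfg Y de) (u v : Σ i, c.D.Row i) (h : Relation.TransGen c.Lk u v) : u.1 ∈ c.W.G ∧ v.1 ∈ c.W.G ∧ u.1 < v.1 := by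
  induction h with
  | single h => exact ⟨h.1.1, h.1.2.1, h.1.2.2.1⟩
  | tail _ h ih => exact ⟨ih.1, h.1.2.1, ih.2.2.trans h.1.2.2.1⟩

/-- a chain between consecutive gates is one link -/
theorem sf_core_chain_next {de : ℝ} (c : SfCfg Y de) (u v : Σ i, c.D.Row i) (h : Relation.TransGen c.Lk u v) (hn : sfNext c.W.G u.1 v.1) : c.Lk u v := by
  cases h with
  | single h => exact h
  | tail h1 h2 =>
    exfalso
    have h3 := sf_core_chain_lt c _ _ h1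
    exact hn.2.2.2 _ h3.2.1 ⟨h3.2.2, h2.1.2.2.1⟩

/-- a chain passes through every intermediate gate (induction on `TransGen`; the last link starts at the gate preceding `w.1`, which is `≥ j`) -/
theorem sf_core_chain_split {de : ℝ} (c : SfCfg Y de) (u w : Σ i, c.D.Row i) (h : Relation.TransGen c.Lk u w) (j : ℝ) (hj : j ∈ c.W.G) (h1 : u.1 < j) (h2 : j < w.1) :
    ∃ ρ' : c.D.Row j, Relation.TransGen c.Lk u ⟨j, ρ'⟩ ∧ Relation.TransGen c.Lk ⟨j, ρ'⟩ w := by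
  induction h with
  | single h => exact absurd ⟨h1, h2⟩ (h.1.2.2.2 j hj)
  | @tail b w hub hbw ih =>
    rcases lt_trichotomy j b.1 with hlt | heq | hgt
    · obtain ⟨ρ', a1, a2⟩ := ih hlt
      exact ⟨ρ', a1, a2.tail hbw⟩
    · obtain ⟨bi, bρ⟩ := b
      simp only at heq
      subst heq
      exact ⟨bρ, hub, Relation.TransGen.single hbw⟩
    · exact absurd ⟨hgt, h2⟩ (hbw.1.2.2.2 j hj)

theorem sf_core_chain_ind_aux {de : ℝ} (c : SfCfg Y de) (Φ : ℕ → (Σ i, c.D.Row i) → (Σ i, c.D.Row i) → Prop)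
    (h1 : ∀ u v, c.Lk u v → Φ 1 u v) (h2 : ∀ n u v w, Φ n u v → Relation.TransGen c.Lk u v → c.Lk v w → Φ (n + 1) u w)
    (hm : ∀ n n' u v, n ≤ n' → Φ n u v → Φ n' u v) (u v : Σ i, c.D.Row i) (h : Relation.TransGen c.Lk u v) :
    Φ (c.W.G.filter (fun g => u.1 ≤ g ∧ g < v.1)).card u v := by
  induction h with
  | single h =>
    apply hm 1 _ _ _ _ (h1 _ _ h)
    rw [Nat.succ_le_iff, Finset.card_pos]
    exact ⟨u.1, Finset.mem_filter.mpr ⟨h.1.1, le_refl _, h.1.2.2.1⟩⟩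
  | @tail b w hub hbw ih =>
    apply hm _ _ _ _ _ (h2 _ _ _ _ ih hub hbw)
    rw [Nat.succ_le_iff]
    apply Finset.card_lt_card
    have hb := sf_core_chain_lt c _ _ hub
    rw [Finset.ssubset_iff_of_subset]
    · refine ⟨b.1, Finset.mem_filter.mpr ⟨hb.2.1, hb.2.2.le, hbw.1.2.2.1⟩, ?_⟩
      intro hx
      exact lt_irrefl _ (Finset.mem_filter.mp hx).2.2
    · intro g hg
      rw [Finset.mem_filter] at hg ⊢
      exact ⟨hg.1, hg.2.1, hg.2.2.trans hbw.1.2.2.1⟩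
/-- **induction along a chain with a counter**: the number of links is `< card G` (the gates increase strictly: count `(G.filter (fun g => u.1 ≤ g ∧ g < v.1)).card`) -/
theorem sf_core_chain_ind {de : ℝ} (c : SfCfg Y de) (Φ : ℕ → (Σ i, c.D.Row i) → (Σ i, c.D.Row i) → Prop)
    (h1 : ∀ u v, c.Lk u v → Φ 1 u v) (h2 : ∀ n u v w, Φ n u v → Relation.TransGen c.Lk u v → c.Lk v w → Φ (n + 1) u w)
    (hm : ∀ n n' u v, n ≤ n' → Φ n u v → Φ n' u v) (u v : Σ i, c.D.Row i) (h : Relation.TransGen c.Lk u v) : Φ c.W.G.card u v := by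
  exact hm _ _ _ _ (Finset.card_filter_le _ _) (sf_core_chain_ind_aux c Φ h1 h2 hm u v h)

/-- **trans** -/
theorem sf_core_trans (π : SfPar) (Ls h : ℝ) :
    SfRigid Y π Ls h (fun c _ => ∀ i ∈ c.D.G, ∀ j ∈ c.D.G, ∀ k ∈ c.D.G, i < j → j < k → ∀ ρ ρ' ρ'', c.D.Conn i j ρ ρ' → c.D.Conn j k ρ' ρ'' → c.D.Conn i k ρ ρ'') := by
  refine ⟨1, 1, 0, one_pos, one_pos, fun ε1 _ C => ⟨0, 0, fun c _ _ _ _ _ _ _ _ _ => ?_⟩⟩
  intro i hi j hj k hk _ _ ρ ρ' ρ'' a1 a2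
  rw [c.sh.hG] at hi hj hk
  rw [sf_core_conn c i hi j hj] at a1
  rw [sf_core_conn c j hj k hk] at a2
  rw [sf_core_conn c i hi k hk]
  exact a1.trans a2

/-- **split** -/
theorem sf_core_split (π : SfPar) (Ls h : ℝ) :
    SfRigid Y π Ls h (fun c _ => ∀ i ∈ c.D.G, ∀ j ∈ c.D.G, ∀ k ∈ c.D.G, i < j → j < k → ∀ ρ ρ'', c.D.Conn i k ρ ρ'' → ∃ ρ', c.D.Conn i j ρ ρ' ∧ c.D.Conn j k ρ' ρ'') := by
  refine ⟨1, 1, 0, one_pos, one_pos, fun ε1 _ C => ⟨0, 0, fun c _ _ _ _ _ _ _ _ _ => ?_⟩⟩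
  intro i hi j hj k hk hij hjk ρ ρ'' a1
  rw [c.sh.hG] at hi hj hk
  rw [sf_core_conn c i hi k hk] at a1
  obtain ⟨ρ', b1, b2⟩ := sf_core_chain_split c _ _ a1 j hj hij hjk
  exact ⟨ρ', (sf_core_conn c i hi j hj _ _).mpr b1, (sf_core_conn c j hj k hk _ _).mpr b2⟩

/-! ## 7. One link in the frame      (LEAF L-256-SFC-LINK) -/

/-- **one link in frame coordinates.**   `z = fray u x`, `z' = fray v x'` for the witnesses of the link.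
PLAN: witnesses `x, x'`, `sfCn`.   Times: `sf_core_T`, `sf_core_len` (divide the two inequalities of `sfCn` by `L`).   `idx`: `ia_mem` twice, `ia_disj`.   Same base part: `SfCyOk.ixB`, `sf_core_aray_base`, `sf_frame_diff`.
`N`: `sf_frame_diff`, `sf_core_aray_nor`.   `Dt`: `sf_frame_diff` at `τ = D.T v`: `T0 + L τ = tm v` (`sf_core_T`), `z'.Dt (tm v) = D'`, `z.Dt (tm v) = D + (tm v - tm u) N`.   `small` gives the distances to the rays of the rows. -/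
theorem sf_core_link (hO : SfCyOk Y) {de : ℝ} (c : SfCfg Y de) (C : ℕ) (hob : c.ob C) (u v : Σ i, c.D.Row i) (h : c.Lk u v) :
    c.D.T u.1 u.2 ≤ c.D.T v.1 v.2 ∧ c.D.T v.1 v.2 + c.D.len v.1 ≤ c.D.T u.1 u.2 + c.D.len u.1 ∧ c.D.idx u.1 u.2 = c.D.idx v.1 v.2 ∧
    ∃ z z' : SfRay, z.dist (c.D.ray u.1 u.2) ≤ c.D.s ^ c.μ ∧ z'.dist (c.D.ray v.1 v.2) ≤ c.D.s ^ c.μ ∧ z.X = z'.X ∧ z.B = z'.B ∧ z.Y = z'.Y ∧
      |z'.N - z.N| ≤ c.D.s ^ (-c.ε) * (Y.dl c.p (c.W.k v.1) / c.W.Q0.f) ∧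
      |z'.Dt (c.D.T v.1 v.2) - z.Dt (c.D.T v.1 v.2)| ≤ c.D.s ^ (-c.ε) * (c.D.len u.1 * (Y.dl c.p (c.W.k u.1) / c.W.Q0.f)) := by
  obtain ⟨⟨hu, hv, -, -⟩, x, hx, x', hx', g1, g2, g3, g4, g5⟩ := h
  have hφ := sf_core_fr_pos hO c C hob
  obtain ⟨hL, -, hF⟩ := hφ
  have hstr := hob.2.2.1
  change (0 : ℝ) < (2 : ℝ)⁻¹ ^ c.W.E.k0 at hL
  change (0 : ℝ) < c.W.Q0.f at hF
  have hTu := sf_core_T c u.1 hu u.2
  have hTv := sf_core_T c v.1 hv v.2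
  have hlu := sf_core_len c hstr u.1 hu
  have hlv := sf_core_len c hstr v.1 hv
  change c.tm u.1 u.2 ≤ c.tm v.1 v.2 at g1
  change c.tm v.1 v.2 + (2 : ℝ)⁻¹ ^ c.W.k v.1 ≤ c.tm u.1 u.2 + (2 : ℝ)⁻¹ ^ c.W.k u.1 at g2
  change |(Y.co c.p (c.tm v.1 v.2) x').N - (Y.co c.p (c.tm u.1 u.2) x).N| ≤ _ at g4
  change |(Y.co c.p (c.tm v.1 v.2) x').D - (Y.co c.p (c.tm u.1 u.2) x).D
    - (c.tm v.1 v.2 - c.tm u.1 u.2) * (Y.co c.p (c.tm u.1 u.2) x).N| ≤ _ at g5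
  rw [hlu, hlv] at g2
  rw [hlu] at g5
  set L : ℝ := (2 : ℝ)⁻¹ ^ c.W.E.k0 with hLdef
  set T0 : ℝ := tmL c.W.E.k0 c.W.E.i0 with hT0
  refine ⟨?_, ?_, ?_, c.fray u.1 u.2 x, c.fray v.1 v.2 x', ?_, ?_, ?_⟩
  · rw [hTu, hTv]
    exact div_le_div_of_nonneg_right (by linarith) hL.le
  · rw [hTu, hTv]
    have e1 : (c.tm v.1 v.2 - T0) / L + c.D.len v.1 = (c.tm v.1 v.2 + L * c.D.len v.1 - T0) / L := by
      field_simp
      ring
    have e2 : (c.tm u.1 u.2 - T0) / L + c.D.len u.1 = (c.tm u.1 u.2 + L * c.D.len u.1 - T0) / L := by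
      field_simp
      ring
    rw [e1, e2]
    exact div_le_div_of_nonneg_right (by linarith) hL.le
  · by_contra hne
    have hd := c.sh.ia_disj _ _ hne
    have m1 := c.sh.ia_mem u.1 hu u.2 x hx
    have m2 := c.sh.ia_mem v.1 hv v.2 x' hx'
    rw [← g3] at m2
    exact Set.disjoint_left.1 hd m1 m2
  · rw [c.sh.hs]
    exact c.sh.small u.1 hu u.2 x hx
  · rw [c.sh.hs]
    exact c.sh.small v.1 hv v.2 x' hx'
  · obtain ⟨bX, bB, bY⟩ := sf_core_aray_base hO c u.1 u.2 x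
    obtain ⟨bX', bB', bY'⟩ := sf_core_aray_base hO c v.1 v.2 x'
    obtain ⟨iX, iB, iY⟩ := hO.ixB c.p x x' g3
    obtain ⟨d1, d2, d3, d4, d5⟩ := sf_frame_diff c.fr (sf_core_fr_pos hO c C hob) (c.aray u.1 u.2 x) (c.aray v.1 v.2 x')
      (by rw [bX, bX', iX]) (by rw [bB, bB', iB]) (by rw [bY, bY', iY]) (c.D.T v.1 v.2)
    refine ⟨d1, d2, d3, ?_, ?_⟩
    · change |(c.fr.ray (c.aray v.1 v.2 x')).N - (c.fr.ray (c.aray u.1 u.2 x)).N| ≤ _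
      rw [d4, (sf_core_aray_nor c u.1 u.2 x 0).1, (sf_core_aray_nor c v.1 v.2 x' 0).1]
      change |((Y.co c.p (c.tm v.1 v.2) x').N - (Y.co c.p (c.tm u.1 u.2) x).N) / c.W.Q0.f| ≤ _
      rw [abs_div, abs_of_pos hF, c.sh.hs, ← mul_div_assoc]
      exact div_le_div_of_nonneg_right g4 hF.le
    · change |(c.fr.ray (c.aray v.1 v.2 x')).Dt (c.D.T v.1 v.2) - (c.fr.ray (c.aray u.1 u.2 x)).Dt (c.D.T v.1 v.2)| ≤ _
      rw [d5]
      have eT : c.fr.T0 + c.fr.L * c.D.T v.1 v.2 = c.tm v.1 v.2 := by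
        change T0 + L * c.D.T v.1 v.2 = _
        rw [hTv]
        field_simp
        ring
      rw [eT, (sf_core_aray_nor c u.1 u.2 x _).2, (sf_core_aray_nor c v.1 v.2 x' _).2]
      change |((Y.co c.p (c.tm v.1 v.2) x').D + (c.tm v.1 v.2 - c.tm v.1 v.2) * (Y.co c.p (c.tm v.1 v.2) x').N
        - ((Y.co c.p (c.tm u.1 u.2) x).D + (c.tm v.1 v.2 - c.tm u.1 u.2) * (Y.co c.p (c.tm u.1 u.2) x).N)) / (L * c.W.Q0.f)| ≤ _
      rw [abs_div, abs_of_pos (mul_pos hL hF), c.sh.hs, div_le_iff₀ (mul_pos hL hF)]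
      have e3 : (Y.co c.p (c.tm v.1 v.2) x').D + (c.tm v.1 v.2 - c.tm v.1 v.2) * (Y.co c.p (c.tm v.1 v.2) x').N
        - ((Y.co c.p (c.tm u.1 u.2) x).D + (c.tm v.1 v.2 - c.tm u.1 u.2) * (Y.co c.p (c.tm u.1 u.2) x).N)
        = (Y.co c.p (c.tm v.1 v.2) x').D - (Y.co c.p (c.tm u.1 u.2) x).D
          - (c.tm v.1 v.2 - c.tm u.1 u.2) * (Y.co c.p (c.tm u.1 u.2) x).N := by ring
      rw [e3]
      refine g5.trans (le_of_eq ?_)
      field_simp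

/-- `d_i / F0 ≤ D.f i` (`Str.ok`, `Str.width`, `SfCyOk.ok`, `hf`; a gate has a label because it has a row) -/
theorem sf_core_dl_le (hO : SfCyOk Y) {de : ℝ} (c : SfCfg Y de) (C : ℕ) (hob : c.ob C) (i : ℝ) (hi : i ∈ c.W.G) (ρ : c.D.Row i) :
    Y.dl c.p (c.W.k i) / c.W.Q0.f ≤ c.D.f i := by
  have hstr := hob.2.2.1
  obtain ⟨-, -, hF⟩ := sf_core_fr_pos hO c C hob
  change (0 : ℝ) < c.W.Q0.f at hF
  have h1 := (hO.ok c.p _ _).1 (hstr.ok i hi (c.sh.lb i ρ))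
  rw [(hstr.width i hi (c.sh.lb i ρ)).2] at h1
  rw [c.sh.hf i hi]
  exact div_le_div_of_nonneg_right h1.2.2 hF.le

/-! ## 8. base      (LEAF L-256-SFC-BASE) -/

/-- `bdist ≤ dist` -/
theorem sf_core_base_bd (z z' : SfRay) : z.bdist z' ≤ z.dist z' := by
  unfold SfRay.bdist SfRay.dist
  refine max_le (le_max_left _ _) (max_le ?_ ?_)
  · exact le_max_of_le_right (le_max_left _ _)
  · exact le_max_of_le_right (le_max_of_le_right (le_max_left _ _))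

/-- triangle inequality for `bdist` -/
theorem sf_core_base_tri (z z' z'' : SfRay) : z.bdist z'' ≤ z.bdist z' + z'.bdist z'' := by
  have a1 : |z.X - z'.X| ≤ z.bdist z' := le_max_left _ _
  have a2 : |z.B - z'.B| ≤ z.bdist z' := le_max_of_le_right (le_max_left _ _)
  have a3 : |z.Y - z'.Y| ≤ z.bdist z' := le_max_of_le_right (le_max_right _ _)
  have b1 : |z'.X - z''.X| ≤ z'.bdist z'' := le_max_left _ _
  have b2 : |z'.B - z''.B| ≤ z'.bdist z'' := le_max_of_le_right (le_max_left _ _)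
  have b3 : |z'.Y - z''.Y| ≤ z'.bdist z'' := le_max_of_le_right (le_max_right _ _)
  have c1 := abs_sub_le z.X z'.X z''.X
  have c2 := abs_sub_le z.B z'.B z''.B
  have c3 := abs_sub_le z.Y z'.Y z''.Y
  refine max_le (by linarith) (max_le (by linarith) (by linarith))

/-- `bdist` is symmetric -/
theorem sf_core_base_symm (z z' : SfRay) : z.bdist z' = z'.bdist z := by
  unfold SfRay.bdist
  rw [abs_sub_comm z.X, abs_sub_comm z.B, abs_sub_comm z.Y]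

/-- `bdist = 0` for the same base part -/
theorem sf_core_base_zero (z z' : SfRay) (hX : z.X = z'.X) (hB : z.B = z'.B) (hY : z.Y = z'.Y) : z.bdist z' = 0 := by
  unfold SfRay.bdist
  rw [hX, hB, hY]
  simp

/-- **base.**   PLAN: `μ0 = 1/t + 1`, `n0` with `2 (1/h + 1) ≤ 2^n` (`gn_absorb`).   `sf_core_conn`, `sf_core_chain_ind` with
`Φ n u v := T u ≤ T v ∧ T v + len v ≤ T u + len u ∧ idx u = idx v ∧ (ray u).bdist (ray v) ≤ n * (2 s^μ)`  (`sf_core_link`; `bdist ≤ dist`; triangle inequality for `bdist`: three coordinates).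
`card G ≤ 1/h + 1` (`sf_core_card`), `(1/h+1) 2 s^μ ≤ s^(μ-1) ≤ s^(1/t)`. -/
theorem sf_core_base (hO : SfCyOk Y) (π : SfPar) (Ls t h : ℝ) (ht : 0 < t) (hh : 0 < h) :
    SfRigid Y π Ls h (fun c _ => ∀ i ∈ c.D.G, ∀ j ∈ c.D.G, i < j → ∀ ρ ρ', c.D.Conn i j ρ ρ' →
      c.D.T i ρ ≤ c.D.T j ρ' ∧ c.D.T j ρ' + c.D.len j ≤ c.D.T i ρ + c.D.len i ∧ c.D.idx i ρ = c.D.idx j ρ' ∧
        (c.D.ray i ρ).bdist (c.D.ray j ρ') ≤ c.D.s ^ (1 / t)) := by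
  obtain ⟨n0, hn0⟩ := gn_absorb (2 * (1 / h + 1)) 1 one_pos
  refine ⟨1, 1, 1 / t + 1, one_pos, one_pos, fun ε1 _ C => ⟨0, n0, fun c hob _ _ hn hext _ _ hμ hgap => ?_⟩⟩
  have hstr := hext.str
  have hs0 : 0 < c.D.s := by rw [c.sh.hs]; exact gn_s_pos _
  set e : ℝ := c.D.s ^ c.μ with he
  have he0 : 0 ≤ e := Real.rpow_nonneg hs0.le _
  have hlink : ∀ u v, c.Lk u v → c.D.T u.1 u.2 ≤ c.D.T v.1 v.2 ∧ c.D.T v.1 v.2 + c.D.len v.1 ≤ c.D.T u.1 u.2 + c.D.len u.1 ∧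
      c.D.idx u.1 u.2 = c.D.idx v.1 v.2 ∧ (c.D.ray u.1 u.2).bdist (c.D.ray v.1 v.2) ≤ 2 * e := by
    intro u v hl
    obtain ⟨a1, a2, a3, z, z', d1, d2, hX, hB, hY, -, -⟩ := sf_core_link hO c C hob u v hl
    refine ⟨a1, a2, a3, ?_⟩
    have t1 := sf_core_base_tri (c.D.ray u.1 u.2) z (c.D.ray v.1 v.2)
    have t2 := sf_core_base_tri z z' (c.D.ray v.1 v.2)
    have t3 := sf_core_base_zero z z' hX hB hY
    have t4 := (sf_core_base_bd z (c.D.ray u.1 u.2)).trans d1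
    have t5 := (sf_core_base_bd z' (c.D.ray v.1 v.2)).trans d2
    rw [sf_core_base_symm] at t4
    linarith
  have key := sf_core_chain_ind c
    (fun n u v => c.D.T u.1 u.2 ≤ c.D.T v.1 v.2 ∧ c.D.T v.1 v.2 + c.D.len v.1 ≤ c.D.T u.1 u.2 + c.D.len u.1 ∧
      c.D.idx u.1 u.2 = c.D.idx v.1 v.2 ∧ (c.D.ray u.1 u.2).bdist (c.D.ray v.1 v.2) ≤ n * (2 * e))
    (by
      intro u v hl
      simpa using hlink u v hl)
    (by
      rintro n u v w ⟨a1, a2, a3, a4⟩ - hl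
      obtain ⟨b1, b2, b3, b4⟩ := hlink v w hl
      refine ⟨a1.trans b1, b2.trans a2, a3.trans b3, ?_⟩
      have := sf_core_base_tri (c.D.ray u.1 u.2) (c.D.ray v.1 v.2) (c.D.ray w.1 w.2)
      push_cast
      linarith)
    (by
      rintro n n' u v hnn ⟨a1, a2, a3, a4⟩
      refine ⟨a1, a2, a3, a4.trans ?_⟩
      exact mul_le_mul_of_nonneg_right (by exact_mod_cast hnn) (by positivity))
  intro i hi j hj hij ρ ρ' hc
  rw [c.sh.hG] at hi hj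
  obtain ⟨k1, k2, k3, k4⟩ := key ⟨i, ρ⟩ ⟨j, ρ'⟩ ((sf_core_conn c i hi j hj ρ ρ').1 hc)
  refine ⟨k1, k2, k3, k4.trans ?_⟩
  have hcard : (c.W.G.card : ℝ) ≤ 1 / h + 1 :=
    sf_core_card c.W.G h hh hstr.gate.2 (by
      have := hgap
      unfold SfDoc.GapK at this
      rw [c.sh.hG] at this
      exact this)
  have h2n : 2 * (1 / h + 1) ≤ c.D.s ^ (-1 : ℝ) := by
    rw [c.sh.hs, gn_s_rpow]
    have := hn0 c.W.E.n hn
    simpa using this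
  calc (c.W.G.card : ℝ) * (2 * e) ≤ (1 / h + 1) * (2 * e) := mul_le_mul_of_nonneg_right hcard (by positivity)
    _ = 2 * (1 / h + 1) * e := by ring
    _ ≤ c.D.s ^ (-1 : ℝ) * e := mul_le_mul_of_nonneg_right h2n he0
    _ = c.D.s ^ (-1 + c.μ) := by rw [he, ← Real.rpow_add hs0]
    _ ≤ c.D.s ^ (1 / t) := by
        rw [c.sh.hs]
        exact gn_s_anti _ (by linarith)

/-! ## 9. Width ratios      (LEAF L-256-SFC-WR) -/

/-- telescoping along consecutive gates, with the number of gates in `[i, j)` as a counter -/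
theorem sf_core_wr_tel (G : Finset ℝ) (Φ : ℕ → ℝ → ℝ → Prop) (h1 : ∀ i j, sfNext G i j → Φ 1 i j)
    (h2 : ∀ n m i g j, i ∈ G → g ∈ G → j ∈ G → Φ n i g → Φ m g j → Φ (n + m) i j) :
    ∀ n : ℕ, ∀ i ∈ G, ∀ j ∈ G, i < j → (G.filter (fun g => i ≤ g ∧ g < j)).card = n → Φ n i j := by
  intro n
  induction n using Nat.strong_induction_on with
  | _ n ih =>
    intro i hi j hj hij hn
    by_cases hex : ∃ g ∈ G, i < g ∧ g < j
    · obtain ⟨g, hg, hig, hgj⟩ := hex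
      have hsplit : G.filter (fun x => i ≤ x ∧ x < j)
          = G.filter (fun x => i ≤ x ∧ x < g) ∪ G.filter (fun x => g ≤ x ∧ x < j) := by
        ext x
        simp only [Finset.mem_filter, Finset.mem_union]
        constructor
        · rintro ⟨hx, h3, h4⟩
          rcases lt_or_ge x g with h | h
          · exact Or.inl ⟨hx, h3, h⟩
          · exact Or.inr ⟨hx, h, h4⟩
        · rintro (⟨hx, h3, h4⟩ | ⟨hx, h3, h4⟩)
          · exact ⟨hx, h3, h4.trans hgj⟩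
          · exact ⟨hx, hig.le.trans h3, h4⟩
      have hdisj : Disjoint (G.filter (fun x => i ≤ x ∧ x < g)) (G.filter (fun x => g ≤ x ∧ x < j)) := by
        rw [Finset.disjoint_left]
        intro x hx hx'
        simp only [Finset.mem_filter] at hx hx'
        exact absurd hx.2.2 (not_lt.2 hx'.2.1)
      have hcard := Finset.card_union_of_disjoint hdisj
      rw [← hsplit, hn] at hcard
      have p1 : 0 < (G.filter (fun x => i ≤ x ∧ x < g)).card :=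
        Finset.card_pos.2 ⟨i, Finset.mem_filter.2 ⟨hi, le_rfl, hig⟩⟩
      have p2 : 0 < (G.filter (fun x => g ≤ x ∧ x < j)).card :=
        Finset.card_pos.2 ⟨g, Finset.mem_filter.2 ⟨hg, le_rfl, hgj⟩⟩
      rw [hcard]
      exact h2 _ _ i g j hi hg hj (ih _ (by omega) i hi g hg hig rfl) (ih _ (by omega) g hg j hj hgj rfl)
    · have hnext : sfNext G i j := ⟨hi, hj, hij, fun k hk hk' => hex ⟨k, hk, hk'⟩⟩
      have hone : G.filter (fun x => i ≤ x ∧ x < j) = {i} := by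
        ext x
        simp only [Finset.mem_filter, Finset.mem_singleton]
        constructor
        · rintro ⟨hx, h3, h4⟩
          by_contra hne
          exact hex ⟨x, hx, lt_of_le_of_ne h3 (Ne.symm hne), h4⟩
        · rintro rfl
          exact ⟨hi, le_rfl, hij⟩
      rw [hone, Finset.card_singleton] at hn
      rw [← hn]
      exact h1 i j hnext

/-- **Mat.wr for all pairs of gates.**   PLAN: `a = t / (1/h + 1)`.   `D.r i / D.r j = W.r i / W.r j`, same for `f` (`hr`, `hf`).   Strong induction on `(G.filter (fun g => i < g ∧ g < j)).card`: if empty, `sfNext` and `Ext.wr`; otherwise split at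
an intermediate gate `g`: ratios multiply, exponents add: claim with `a * (number of gates in [i, j))` in place of `t`; `card ≤ 1/h + 1` (`sf_core_card`). -/
theorem sf_core_wr (π : SfPar) (Ls t h : ℝ) (ht : 0 < t) (hh : 0 < h) :
    SfRigid Y π Ls h (fun c _ => ∀ i ∈ c.D.G, ∀ j ∈ c.D.G, i < j → c.D.s ^ (Ls * (j - i) + t) ≤ c.D.r i / c.D.r j ∧ c.D.r i / c.D.r j ≤ 1 ∧
      c.D.s ^ (Ls * (j - i) + t) ≤ c.D.f i / c.D.f j ∧ c.D.f i / c.D.f j ≤ c.D.s ^ (-(Ls * (j - i) + t))) := by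
  have hK : 0 < 1 / h + 1 := by positivity
  refine ⟨t / (1 / h + 1), 1, 0, by positivity, one_pos, fun ε1 _ C => ⟨0, 0, fun c hob _ _ _ hext _ _ _ hgap => ?_⟩⟩
  set a : ℝ := t / (1 / h + 1) with ha
  have ha0 : 0 < a := by positivity
  have hstr := hext.str
  have hs0 : 0 < c.W.E.s := gn_s_pos _
  obtain ⟨hQr, hQf, hpos⟩ := hstr.frame
  have hQr0 : 0 < c.W.Q0.r := by rw [hQr]; exact (hpos 1 hstr.gate.1).1
  have hQf0 : 0 < c.W.Q0.f := by rw [hQf]; exact (hpos 1 hstr.gate.1).2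
  have key := sf_core_wr_tel c.W.G
    (fun n i j => c.W.E.s ^ (Ls * (j - i) + a * n) ≤ c.W.r i / c.W.r j ∧ c.W.r i / c.W.r j ≤ 1 ∧
      c.W.E.s ^ (Ls * (j - i) + a * n) ≤ c.W.f i / c.W.f j ∧ c.W.f i / c.W.f j ≤ c.W.E.s ^ (-(Ls * (j - i) + a * n)))
    (by
      intro i j hn
      have := hext.wr i j hn
      simpa using this)
    (by
      rintro n m i g j hi hg hj ⟨a1, a2, a3, a4⟩ ⟨b1, b2, b3, b4⟩
      obtain ⟨ri, fi⟩ := hpos i hi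
      obtain ⟨rg, fg⟩ := hpos g hg
      obtain ⟨rj, fj⟩ := hpos j hj
      have er : c.W.r i / c.W.r j = c.W.r i / c.W.r g * (c.W.r g / c.W.r j) := by field_simp
      have ef : c.W.f i / c.W.f j = c.W.f i / c.W.f g * (c.W.f g / c.W.f j) := by field_simp
      have ee : Ls * (j - i) + a * ((n + m : ℕ) : ℝ) = (Ls * (g - i) + a * n) + (Ls * (j - g) + a * m) := by
        push_cast
        ring
      have ee' : -(Ls * (j - i) + a * ((n + m : ℕ) : ℝ)) = -(Ls * (g - i) + a * n) + -(Ls * (j - g) + a * m) := by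
        rw [ee]
        ring
      refine ⟨?_, ?_, ?_, ?_⟩
      · rw [ee, Real.rpow_add hs0, er]
        exact mul_le_mul a1 b1 (Real.rpow_nonneg hs0.le _) (by positivity)
      · rw [er]
        exact mul_le_one₀ a2 (by positivity) b2
      · rw [ee, Real.rpow_add hs0, ef]
        exact mul_le_mul a3 b3 (Real.rpow_nonneg hs0.le _) (by positivity)
      · rw [ee', Real.rpow_add hs0, ef]
        exact mul_le_mul a4 b4 (by positivity) (Real.rpow_nonneg hs0.le _))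
  intro i hi j hj hij
  rw [c.sh.hG] at hi hj
  obtain ⟨k1, k2, k3, k4⟩ := key _ i hi j hj hij rfl
  set N : ℕ := (c.W.G.filter (fun g => i ≤ g ∧ g < j)).card with hN
  have hcard : (c.W.G.card : ℝ) ≤ 1 / h + 1 :=
    sf_core_card c.W.G h hh hstr.gate.2 (by
      have := hgap
      unfold SfDoc.GapK at this
      rw [c.sh.hG] at this
      exact this)
  have hNle : (N : ℝ) ≤ 1 / h + 1 := le_trans (by exact_mod_cast Finset.card_filter_le _ _) hcard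
  have haN : a * N ≤ t := by
    have := mul_le_mul_of_nonneg_left hNle ha0.le
    have e : a * (1 / h + 1) = t := by
      rw [ha]
      field_simp
    linarith
  have er : c.D.r i / c.D.r j = c.W.r i / c.W.r j := by
    rw [c.sh.hr i hi, c.sh.hr j hj]
    field_simp
  have ef : c.D.f i / c.D.f j = c.W.f i / c.W.f j := by
    rw [c.sh.hf i hi, c.sh.hf j hj]
    field_simp
  rw [er, ef, c.sh.hs]
  exact ⟨(gn_s_anti _ (by linarith)).trans k1, k2, (gn_s_anti _ (by linarith)).trans k3,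
    k4.trans (gn_s_anti _ (by linarith))⟩

/-! ## 10. normH      (LEAF L-256-SFC-NORMH) -/

/-- the normal coordinates are controlled by the distance -/
theorem sf_core_normH_dist (z z' : SfRay) : |z.N - z'.N| ≤ z.dist z' ∧ |z.D - z'.D| ≤ z.dist z' := by
  unfold SfRay.dist
  constructor
  · exact (le_max_left _ _).trans ((le_max_right _ _).trans ((le_max_right _ _).trans (le_max_right _ _)))
  · exact (le_max_right _ _).trans ((le_max_right _ _).trans ((le_max_right _ _).trans (le_max_right _ _)))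

/-- the algebra of one link -/
theorem sf_core_normH_alg {z z' ru rv : SfRay} {δ a b Tv lv τ : ℝ}
    (a1 : |z.N - ru.N| ≤ δ) (a2 : |z.D - ru.D| ≤ δ) (b1 : |z'.N - rv.N| ≤ δ) (b2 : |z'.D - rv.D| ≤ δ)
    (hN : |z'.N - z.N| ≤ a) (hD : |z'.Dt Tv - z.Dt Tv| ≤ b) (hla : lv * a ≤ b) (hlv : 0 ≤ lv) (h0 : 0 ≤ Tv) (h1 : Tv ≤ τ) (h2 : τ ≤ Tv + lv)
    (h3 : Tv + lv ≤ 1) : |rv.N - ru.N| ≤ a + 2 * δ ∧ |rv.Dt τ - ru.Dt τ| ≤ 2 * b + 4 * δ := by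
  have hτ0 : 0 ≤ τ := h0.trans h1
  have hτ1 : τ ≤ 1 := h2.trans h3
  have f1 : |(τ - Tv) * (z'.N - z.N)| ≤ b := by
    rw [abs_mul, abs_of_nonneg (sub_nonneg.2 h1)]
    calc (τ - Tv) * |z'.N - z.N| ≤ lv * a := mul_le_mul (by linarith) hN (abs_nonneg _) hlv
      _ ≤ b := hla
  have f2 : |τ * (z'.N - rv.N)| ≤ δ := by
    rw [abs_mul, abs_of_nonneg hτ0]
    calc τ * |z'.N - rv.N| ≤ 1 * δ := mul_le_mul hτ1 b1 (abs_nonneg _) zero_le_one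
      _ = δ := one_mul _
  have f3 : |τ * (z.N - ru.N)| ≤ δ := by
    rw [abs_mul, abs_of_nonneg hτ0]
    calc τ * |z.N - ru.N| ≤ 1 * δ := mul_le_mul hτ1 a1 (abs_nonneg _) zero_le_one
      _ = δ := one_mul _
  unfold SfRay.Dt at hD ⊢
  rw [abs_le] at a1 a2 b1 b2 hN hD f1 f2 f3
  constructor
  · rw [abs_le]
    constructor <;> linarith [a1.1, a1.2, b1.1, b1.2, hN.1, hN.2]
  · rw [abs_le]
    constructor <;> linarith [a2.1, a2.2, b2.1, b2.2, hD.1, hD.2, f1.1, f1.2, f2.1, f2.2, f3.1, f3.2]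

/-- monotonicity of `d` and of `len d` along the gates -/
theorem sf_core_normH_d (hO : SfCyOk Y) {de : ℝ} (c : SfCfg Y de) (C : ℕ) (hob : c.ob C) (i j : ℝ) (hi : i ∈ c.W.G) (hj : j ∈ c.W.G) (hij : i < j) :
    0 ≤ Y.dl c.p (c.W.k i) / c.W.Q0.f ∧ Y.dl c.p (c.W.k i) / c.W.Q0.f ≤ Y.dl c.p (c.W.k j) / c.W.Q0.f ∧
      c.D.len j * (Y.dl c.p (c.W.k j) / c.W.Q0.f) ≤ c.D.len i * (Y.dl c.p (c.W.k i) / c.W.Q0.f) := by
  have hs : c.W.Str (Y.tq c.p) := hob.2.2.1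
  obtain ⟨hgd, _, hF, _, _⟩ := hO.af _ _ _ _ _ hob.2.1
  have hk := (hs.k_mono i hi j hj hij).1
  refine ⟨div_nonneg (hO.dl0 _ _) hF.le, div_le_div_of_nonneg_right (hO.dl_mono _ hgd _ _ hk) hF.le, ?_⟩
  have h1 := hO.ql_anti _ hgd _ _ hk
  rw [sf_core_len c hs i hi, sf_core_len c hs j hj] at h1
  have hL : (0 : ℝ) < (2 : ℝ)⁻¹ ^ c.W.E.k0 := by positivity
  rw [mul_assoc, mul_assoc] at h1
  have h2 := le_of_mul_le_mul_left h1 hL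
  rw [← mul_div_assoc, ← mul_div_assoc]
  exact div_le_div_of_nonneg_right h2 hF.le

/-- one link -/
theorem sf_core_normH_link (hO : SfCyOk Y) {de : ℝ} (c : SfCfg Y de) (C : ℕ) (hob : c.ob C) (u v : Σ i, c.D.Row i) (h : c.Lk u v) :
    (c.D.T u.1 u.2 ≤ c.D.T v.1 v.2 ∧ c.D.T v.1 v.2 + c.D.len v.1 ≤ c.D.T u.1 u.2 + c.D.len u.1) ∧
    |(c.D.ray v.1 v.2).N - (c.D.ray u.1 u.2).N| ≤ c.D.s ^ (-c.ε) * (Y.dl c.p (c.W.k v.1) / c.W.Q0.f) + 2 * c.D.s ^ c.μ ∧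
    ∀ τ, c.D.T v.1 v.2 ≤ τ → τ ≤ c.D.T v.1 v.2 + c.D.len v.1 →
      |(c.D.ray v.1 v.2).Dt τ - (c.D.ray u.1 u.2).Dt τ| ≤ 2 * (c.D.s ^ (-c.ε) * (c.D.len u.1 * (Y.dl c.p (c.W.k u.1) / c.W.Q0.f))) + 4 * c.D.s ^ c.μ := by
  have hs : c.W.Str (Y.tq c.p) := hob.2.2.1
  have hu : u.1 ∈ c.W.G := h.1.1
  have hv : v.1 ∈ c.W.G := h.1.2.1
  have huv : u.1 < v.1 := h.1.2.2.1
  obtain ⟨t1, t2, _, z, z', hz, hz', _, _, _, hN, hD⟩ := sf_core_link hO c C hob u v h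
  obtain ⟨_, _, d3⟩ := sf_core_normH_d hO c C hob u.1 v.1 hu hv huv
  obtain ⟨o1, o2⟩ := sf_core_own_rg c hs v.1 hv v.2
  obtain ⟨a1, a2⟩ := sf_core_normH_dist z (c.D.ray u.1 u.2)
  obtain ⟨b1, b2⟩ := sf_core_normH_dist z' (c.D.ray v.1 v.2)
  have a1' := a1.trans hz
  have a2' := a2.trans hz
  have b1' := b1.trans hz'
  have b2' := b2.trans hz'
  have hΛ : 0 ≤ c.D.s ^ (-c.ε) := by
    rw [c.sh.hs]
    exact Real.rpow_nonneg (gn_s_pos _).le _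
  have hlv : 0 ≤ c.D.len v.1 := by
    rw [c.sh.hlen v.1 hv]
    positivity
  have hla : c.D.len v.1 * (c.D.s ^ (-c.ε) * (Y.dl c.p (c.W.k v.1) / c.W.Q0.f)) ≤ c.D.s ^ (-c.ε) * (c.D.len u.1 * (Y.dl c.p (c.W.k u.1) / c.W.Q0.f)) := by
    calc c.D.len v.1 * (c.D.s ^ (-c.ε) * (Y.dl c.p (c.W.k v.1) / c.W.Q0.f)) = c.D.s ^ (-c.ε) * (c.D.len v.1 * (Y.dl c.p (c.W.k v.1) / c.W.Q0.f)) := by ring
      _ ≤ _ := mul_le_mul_of_nonneg_left d3 hΛ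
  refine ⟨⟨t1, t2⟩, (sf_core_normH_alg a1' a2' b1' b2' hN hD hla hlv o1 le_rfl (by linarith) o2).1, fun τ h1 h2 => ?_⟩
  exact (sf_core_normH_alg a1' a2' b1' b2' hN hD hla hlv o1 h1 h2 o2).2

/-- a chain -/
theorem sf_core_normH_chain (hO : SfCyOk Y) {de : ℝ} (c : SfCfg Y de) (C : ℕ) (hob : c.ob C) (u v : Σ i, c.D.Row i) (h : Relation.TransGen c.Lk u v) :
    (c.D.T u.1 u.2 ≤ c.D.T v.1 v.2 ∧ c.D.T v.1 v.2 + c.D.len v.1 ≤ c.D.T u.1 u.2 + c.D.len u.1) ∧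
    |(c.D.ray v.1 v.2).N - (c.D.ray u.1 u.2).N| ≤ (c.W.G.card : ℝ) * (c.D.s ^ (-c.ε) * (Y.dl c.p (c.W.k v.1) / c.W.Q0.f) + 2 * c.D.s ^ c.μ) ∧
    ∀ τ, c.D.T v.1 v.2 ≤ τ → τ ≤ c.D.T v.1 v.2 + c.D.len v.1 →
      |(c.D.ray v.1 v.2).Dt τ - (c.D.ray u.1 u.2).Dt τ|
        ≤ (c.W.G.card : ℝ) * (2 * (c.D.s ^ (-c.ε) * (c.D.len u.1 * (Y.dl c.p (c.W.k u.1) / c.W.Q0.f))) + 4 * c.D.s ^ c.μ) := by
  have hs : c.W.Str (Y.tq c.p) := hob.2.2.1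
  obtain ⟨_, _, hF, _, _⟩ := hO.af _ _ _ _ _ hob.2.1
  have hΛ : 0 ≤ c.D.s ^ (-c.ε) := by
    rw [c.sh.hs]
    exact Real.rpow_nonneg (gn_s_pos _).le _
  have hδ : 0 ≤ c.D.s ^ c.μ := by
    rw [c.sh.hs]
    exact Real.rpow_nonneg (gn_s_pos _).le _
  have hd0 : ∀ k, 0 ≤ Y.dl c.p k / c.W.Q0.f := fun k => div_nonneg (hO.dl0 _ _) hF.le
  refine sf_core_chain_ind c (fun n u v =>
    (u.1 ∈ c.W.G ∧ c.D.T u.1 u.2 ≤ c.D.T v.1 v.2 ∧ c.D.T v.1 v.2 + c.D.len v.1 ≤ c.D.T u.1 u.2 + c.D.len u.1) ∧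
    |(c.D.ray v.1 v.2).N - (c.D.ray u.1 u.2).N| ≤ (n : ℝ) * (c.D.s ^ (-c.ε) * (Y.dl c.p (c.W.k v.1) / c.W.Q0.f) + 2 * c.D.s ^ c.μ) ∧
    ∀ τ, c.D.T v.1 v.2 ≤ τ → τ ≤ c.D.T v.1 v.2 + c.D.len v.1 →
      |(c.D.ray v.1 v.2).Dt τ - (c.D.ray u.1 u.2).Dt τ|
        ≤ (n : ℝ) * (2 * (c.D.s ^ (-c.ε) * (c.D.len u.1 * (Y.dl c.p (c.W.k u.1) / c.W.Q0.f))) + 4 * c.D.s ^ c.μ)) ?_ ?_ ?_ u v h |>.imp (fun x => x.2) id
  · intro u v huv
    obtain ⟨l1, l2, l3⟩ := sf_core_normH_link hO c C hob u v huv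
    refine ⟨⟨huv.1.1, l1⟩, ?_, ?_⟩
    · rw [Nat.cast_one, one_mul]
      exact l2
    · intro τ h1 h2
      rw [Nat.cast_one, one_mul]
      exact l3 τ h1 h2
  · intro n u v w hΦ htg hvw
    obtain ⟨⟨hu, p1, p2⟩, pN, pD⟩ := hΦ
    obtain ⟨⟨l1, l1'⟩, l2, l3⟩ := sf_core_normH_link hO c C hob v w hvw
    obtain ⟨_, hv, huv⟩ := sf_core_chain_lt c u v htg
    have hw : w.1 ∈ c.W.G := hvw.1.2.1
    have hvw' : v.1 < w.1 := hvw.1.2.2.1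
    obtain ⟨_, e2, _⟩ := sf_core_normH_d hO c C hob v.1 w.1 hv hw hvw'
    obtain ⟨_, _, e3⟩ := sf_core_normH_d hO c C hob u.1 v.1 hu hv huv
    refine ⟨⟨hu, p1.trans l1, l1'.trans p2⟩, ?_, ?_⟩
    · have t1 : |(c.D.ray w.1 w.2).N - (c.D.ray u.1 u.2).N| ≤ |(c.D.ray w.1 w.2).N - (c.D.ray v.1 v.2).N| + |(c.D.ray v.1 v.2).N - (c.D.ray u.1 u.2).N| :=
        abs_sub_le _ _ _
      have t2 : (n : ℝ) * (c.D.s ^ (-c.ε) * (Y.dl c.p (c.W.k v.1) / c.W.Q0.f) + 2 * c.D.s ^ c.μ)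
          ≤ (n : ℝ) * (c.D.s ^ (-c.ε) * (Y.dl c.p (c.W.k w.1) / c.W.Q0.f) + 2 * c.D.s ^ c.μ) :=
        mul_le_mul_of_nonneg_left (by linarith [mul_le_mul_of_nonneg_left e2 hΛ]) (Nat.cast_nonneg _)
      rw [Nat.cast_add, Nat.cast_one, add_mul, one_mul]
      linarith
    · intro τ h1 h2
      have t1 : |(c.D.ray w.1 w.2).Dt τ - (c.D.ray u.1 u.2).Dt τ| ≤ |(c.D.ray w.1 w.2).Dt τ - (c.D.ray v.1 v.2).Dt τ| + |(c.D.ray v.1 v.2).Dt τ - (c.D.ray u.1 u.2).Dt τ| :=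
        abs_sub_le _ _ _
      have t2 := l3 τ h1 h2
      have t3 := pD τ (l1.trans h1) (h2.trans l1')
      have t4 := mul_le_mul_of_nonneg_left e3 hΛ
      rw [Nat.cast_add, Nat.cast_one, add_mul, one_mul]
      linarith
  · intro n n' u v hnn hΦ
    obtain ⟨p0, pN, pD⟩ := hΦ
    have hc : (n : ℝ) ≤ n' := by exact_mod_cast hnn
    have hlu : 0 ≤ c.D.len u.1 := by
      rw [c.sh.hlen u.1 p0.1]
      positivity
    refine ⟨p0, pN.trans (mul_le_mul_of_nonneg_right hc ?_), fun τ h1 h2 => (pD τ h1 h2).trans (mul_le_mul_of_nonneg_right hc ?_)⟩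
    · have := mul_nonneg hΛ (hd0 (c.W.k v.1))
      linarith
    · have := mul_nonneg hΛ (mul_nonneg hlu (hd0 (c.W.k u.1)))
      linarith

/-- **normH.**   PLAN.  `Kg = 1/h + 1`.   `sf_core_chain_ind` with
`Φ n u v := nested times ∧ |ray v .N - ray u .N| ≤ n (Λ d_v/F0 + 2 s^μ) ∧ ∀ τ, T v ≤ τ → τ ≤ T v + len v → |(ray v).Dt τ - (ray u).Dt τ| ≤ n (2 Λ len u d_u/F0 + 4 s^μ)`.
One link (`sf_core_link`): `z'.Dt τ - z.Dt τ = (z'.Dt (T v) - z.Dt (T v)) + (τ - T v)(z'.N - z.N)`, `len v d_v ≤ len u d_u` (`SfCyOk.ql_anti` + `sf_core_len`), `0 ≤ τ ≤ 1` (`sf_core_own`): the representatives cost `s^μ (1 + τ)` each.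
Composition: `d_v ≤ d_w` (`dl_mono`, `Str.k_mono`), `len v d_v ≤ len u d_u`, the interval of `w` is inside that of `v`.
End: `d_j/F0 ≤ D.f j`, `d_i/F0 ≤ D.f i` (`sf_core_dl_le`);  `s^μ ≤ s^2 D.f j`, `s^μ ≤ s^2 len i D.f i` because `D.f g ≥ s^(|Ls| + 1)` (`sf_core_wr` with `j = 1`, `D.f 1 = 1`; for `g = 1` trivial), `len i ≥ s^2` (`sf_core_sc`): `μ0 = |Ls| + 5`;
`ε0 = t/2`, `n0` with `4 Kg + 4 ≤ 2^(t n / 2)`.      You may use the statements `sf_core_wr`, `sf_core_sc`, `sf_core_own` through `sf_rigid_and`. -/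
theorem sf_core_normH (hO : SfCyOk Y) (π : SfPar) (Ls t h : ℝ) (ht : 0 < t) (hh : 0 < h) :
    SfRigid Y π Ls h (fun c _ => π.hyb = true → ∀ i ∈ c.D.G, ∀ j ∈ c.D.G, i < j → ∀ ρ ρ', c.D.Conn i j ρ ρ' →
      |(c.D.ray j ρ').N - (c.D.ray i ρ).N| ≤ c.D.s ^ (-t) * c.D.f j ∧
        |(c.D.ray j ρ').Dt (c.D.T j ρ') - (c.D.ray i ρ).Dt (c.D.T j ρ')| ≤ c.D.s ^ (-t) * (c.D.len i * c.D.f i)) := by
  obtain ⟨a, ε0, μ0, ha, hε, H⟩ := sf_rigid_and (sf_core_wr (Y := Y) π Ls 1 h one_pos hh) (sf_core_sc hO π Ls 1 h one_pos)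
  refine ⟨a, min ε0 (t / 2), max μ0 (|Ls| + 3), ha, lt_min hε (by linarith), fun ε1 h1 C => ?_⟩
  obtain ⟨A, n0, K⟩ := H ε1 h1 C
  obtain ⟨n1, hn1⟩ := gn_absorb (6 * (1 / h + 1)) (t / 2) (by linarith)
  refine ⟨A, max n0 n1, fun c hob hx hA hn hext hε1 hε0 hμ hgap => ?_⟩
  obtain ⟨hwr, hsc⟩ := K c hob hx hA ((le_max_left _ _).trans hn) hext hε1 (hε0.trans (min_le_left _ _)) ((le_max_left _ _).trans hμ) hgap
  obtain ⟨⟨hs0, hs1⟩, ⟨hg1, hg01⟩, ⟨_, hlen⟩, ⟨_, hf1, hrf⟩, _⟩ := hsc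
  intro _ i hi j hj hij ρ ρ' hconn
  have hG := c.sh.hG
  have hiW : i ∈ c.W.G := hG ▸ hi
  have hjW : j ∈ c.W.G := hG ▸ hj
  have hs : c.W.Str (Y.tq c.p) := hob.2.2.1
  have htg := (sf_core_conn c i hiW j hjW ρ ρ').1 hconn
  obtain ⟨_, cN, cD⟩ := sf_core_normH_chain hO c C hob ⟨i, ρ⟩ ⟨j, ρ'⟩ htg
  have cD' := cD (c.D.T j ρ') le_rfl (by
    have : 0 ≤ c.D.len j := by
      rw [c.sh.hlen j hjW]
      positivity
    show c.D.T j ρ' ≤ c.D.T j ρ' + c.D.len j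
    linarith)
  have hcard : (c.W.G.card : ℝ) ≤ 1 / h + 1 := by
    refine sf_core_card c.W.G h hh hs.gate.2 ?_
    intro i' hi' j' hj' hij'
    exact hgap i' (hG ▸ hi') j' (hG ▸ hj') hij'
  -- powers of `s`
  have hse : c.D.s = c.W.E.s := c.sh.hs
  obtain ⟨R, hR⟩ : ∃ R, R = c.D.s ^ (-(t / 2)) := ⟨_, rfl⟩
  have hRR : R * R = c.D.s ^ (-t) := by
    rw [hR, ← Real.rpow_add hs0]
    congr 1
    ring
  have hR6 : 6 * (1 / h + 1) ≤ R := by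
    rw [hR, hse, gn_s_rpow]
    have := hn1 c.W.E.n ((le_max_right _ _).trans hn)
    have e : -(-(t / 2) * (c.W.E.n : ℝ)) = t / 2 * c.W.E.n := by ring
    rw [e]
    exact this
  have hR1 : 1 ≤ R := by
    rw [hR, hse]
    have := gn_s_anti c.W.E (y := -(t / 2)) (y' := 0) (by linarith)
    rwa [Real.rpow_zero] at this
  have hΛR : c.D.s ^ (-c.ε) ≤ R := by
    rw [hR, hse]
    exact gn_s_anti c.W.E (by linarith [hε0.trans (min_le_right _ _)])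
  have hΛ0 : 0 ≤ c.D.s ^ (-c.ε) := Real.rpow_nonneg hs0.le _
  have hδ0 : 0 ≤ c.D.s ^ c.μ := Real.rpow_nonneg hs0.le _
  have hK0 : 0 ≤ 1 / h + 1 := by positivity
  -- lower bounds of the widths
  have hfl : ∀ g ∈ c.D.G, c.D.s ^ (|Ls| + 1) ≤ c.D.f g := by
    intro g hg
    obtain ⟨g0, g1⟩ := hg01 g hg
    rcases g1.lt_or_eq with hlt | heq
    · have := (hwr g hg 1 hg1 hlt).2.2.1
      rw [hf1, div_one] at this
      refine le_trans ?_ this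
      rw [hse]
      refine gn_s_anti c.W.E ?_
      have : Ls * (1 - g) ≤ |Ls| * 1 := by
        calc Ls * (1 - g) ≤ |Ls| * (1 - g) := mul_le_mul_of_nonneg_right (le_abs_self _) (by linarith)
          _ ≤ |Ls| * 1 := mul_le_mul_of_nonneg_left (by linarith) (abs_nonneg _)
      linarith
    · rw [heq, hf1, hse]
      have := gn_s_anti c.W.E (y := 0) (y' := |Ls| + 1) (by positivity)
      rwa [Real.rpow_zero] at this
  have hll : c.D.s ^ (2 : ℝ) ≤ c.D.len i := by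
    refine le_trans ?_ (hlen i hi).1
    rw [hse]
    exact gn_s_anti c.W.E (by linarith [(hg01 i hi).2])
  have hμ' : |Ls| + 3 ≤ c.μ := (le_max_right _ _).trans hμ
  have hδj : c.D.s ^ c.μ ≤ c.D.f j := by
    refine le_trans ?_ (hfl j hj)
    rw [hse]
    exact gn_s_anti c.W.E (by linarith)
  have hδi : c.D.s ^ c.μ ≤ c.D.len i * c.D.f i := by
    have e : c.D.s ^ (|Ls| + 3) = c.D.s ^ (2 : ℝ) * c.D.s ^ (|Ls| + 1) := by
      rw [← Real.rpow_add hs0]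
      congr 1
      ring
    calc c.D.s ^ c.μ ≤ c.D.s ^ (|Ls| + 3) := by
          rw [hse]
          exact gn_s_anti c.W.E hμ'
      _ = c.D.s ^ (2 : ℝ) * c.D.s ^ (|Ls| + 1) := e
      _ ≤ c.D.len i * c.D.f i := mul_le_mul hll (hfl i hi) (Real.rpow_nonneg hs0.le _) ((Real.rpow_nonneg hs0.le _).trans hll)
  have hdj := sf_core_dl_le hO c C hob j hjW ρ'
  have hdi := sf_core_dl_le hO c C hob i hiW ρ
  have hfj0 : 0 < c.D.f j := (hrf j hj).2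
  have hfi0 : 0 < c.D.f i := (hrf i hi).2
  have hli0 : 0 ≤ c.D.len i := (Real.rpow_nonneg hs0.le _).trans hll
  obtain ⟨_, _, hF, _, _⟩ := hO.af _ _ _ _ _ hob.2.1
  have hd0 : ∀ k, 0 ≤ Y.dl c.p k / c.W.Q0.f := fun k => div_nonneg (hO.dl0 _ _) hF.le
  constructor
  · refine cN.trans ?_
    show (c.W.G.card : ℝ) * (c.D.s ^ (-c.ε) * (Y.dl c.p (c.W.k j) / c.W.Q0.f) + 2 * c.D.s ^ c.μ) ≤ _
    have s1 : c.D.s ^ (-c.ε) * (Y.dl c.p (c.W.k j) / c.W.Q0.f) + 2 * c.D.s ^ c.μ ≤ 3 * R * c.D.f j := by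
      have := mul_le_mul hΛR hdj (hd0 _) (by linarith)
      have hRf : c.D.f j ≤ R * c.D.f j := le_mul_of_one_le_left hfj0.le hR1
      linarith
    have s0 : 0 ≤ c.D.s ^ (-c.ε) * (Y.dl c.p (c.W.k j) / c.W.Q0.f) + 2 * c.D.s ^ c.μ := by
      have := mul_nonneg hΛ0 (hd0 (c.W.k j))
      linarith
    calc (c.W.G.card : ℝ) * (c.D.s ^ (-c.ε) * (Y.dl c.p (c.W.k j) / c.W.Q0.f) + 2 * c.D.s ^ c.μ)
        ≤ (1 / h + 1) * (3 * R * c.D.f j) := mul_le_mul hcard s1 s0 hK0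
      _ = (3 * (1 / h + 1)) * R * c.D.f j := by ring
      _ ≤ R * R * c.D.f j := by
          refine mul_le_mul_of_nonneg_right (mul_le_mul_of_nonneg_right ?_ (by linarith)) hfj0.le
          linarith
      _ = _ := by rw [hRR]
  · refine cD'.trans ?_
    show (c.W.G.card : ℝ) * (2 * (c.D.s ^ (-c.ε) * (c.D.len i * (Y.dl c.p (c.W.k i) / c.W.Q0.f))) + 4 * c.D.s ^ c.μ) ≤ _
    have hlf0 : 0 ≤ c.D.len i * c.D.f i := mul_nonneg hli0 hfi0.le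
    have s1 : 2 * (c.D.s ^ (-c.ε) * (c.D.len i * (Y.dl c.p (c.W.k i) / c.W.Q0.f))) + 4 * c.D.s ^ c.μ ≤ 6 * R * (c.D.len i * c.D.f i) := by
      have h2 : c.D.len i * (Y.dl c.p (c.W.k i) / c.W.Q0.f) ≤ c.D.len i * c.D.f i := mul_le_mul_of_nonneg_left hdi hli0
      have := mul_le_mul hΛR h2 (mul_nonneg hli0 (hd0 _)) (by linarith)
      have hRf : c.D.len i * c.D.f i ≤ R * (c.D.len i * c.D.f i) := le_mul_of_one_le_left hlf0 hR1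
      linarith
    have s0 : 0 ≤ 2 * (c.D.s ^ (-c.ε) * (c.D.len i * (Y.dl c.p (c.W.k i) / c.W.Q0.f))) + 4 * c.D.s ^ c.μ := by
      have := mul_nonneg hΛ0 (mul_nonneg hli0 (hd0 (c.W.k i)))
      linarith
    calc (c.W.G.card : ℝ) * (2 * (c.D.s ^ (-c.ε) * (c.D.len i * (Y.dl c.p (c.W.k i) / c.W.Q0.f))) + 4 * c.D.s ^ c.μ)
        ≤ (1 / h + 1) * (6 * R * (c.D.len i * c.D.f i)) := mul_le_mul hcard s1 s0 hK0
      _ = (6 * (1 / h + 1)) * R * (c.D.len i * c.D.f i) := by ring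
      _ ≤ R * R * (c.D.len i * c.D.f i) := by
          refine mul_le_mul_of_nonneg_right (mul_le_mul_of_nonneg_right hR6 (by linarith)) hlf0
      _ = _ := by rw [hRR]

/-! ## 11. (M)      (LEAVES L-256-SFC-MM1, L-256-SFC-MM2) -/

/-- the base distance is at most the distance -/
theorem sf_core_mm1_bdist (z z' : SfRay) : z.bdist z' ≤ z.dist z' := by
  unfold SfRay.bdist SfRay.dist
  refine max_le (le_max_left _ _) (max_le ?_ ?_)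
  · exact (le_max_left _ _).trans (le_max_right _ _)
  · exact (le_max_left _ _).trans ((le_max_right _ _).trans (le_max_right _ _))

/-- **(M) for one link, in the frame.**   PLAN: witnesses `x ∈ atm u`, `x' ∈ atm v` of the link; `th ≠ 0` by `at_cov`; `Ext.mm`; `hlab`; `sf_frame_cmp φ _ Q Q' z t` with `t = tm u` (`(t - T0)/L = D.T u`, `(φ.tst Q).beAt (D.T u) = (φ.tst Q).be` for the own time),
`z = aray u x`; `D.f j / D.r j ^ 2 = (W.f j / W.r j ^ 2) r0² / F0`, `len i = ℓ_i / L`.   The ray is `fray u x` (`small`; `bdist ≤ dist`). -/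
theorem sf_core_mm1 (hO : SfCyOk Y) {de : ℝ} (c : SfCfg Y de) (C : ℕ) (hob : c.ob C) (pe Ls a : ℝ) (hext : SfMD.Ext Y c.p c.W pe de Ls c.ε a)
    (u v : Σ i, c.D.Row i) (h : c.Lk u v) :
    |(c.D.lab u.1 u.2).be - (c.D.lab v.1 v.2).beAt (c.D.T u.1 u.2)| + c.D.len u.1 * |(c.D.lab u.1 u.2).K - (c.D.lab v.1 v.2).K|
        ≤ c.D.f v.1 / c.D.r v.1 ^ 2 * c.D.s ^ (-(Ls * (v.1 - u.1) + a)) ∧
    ∃ z : SfRay, z.bdist (c.D.ray u.1 u.2) ≤ c.D.s ^ c.μ ∧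
      |(c.D.lab u.1 u.2).Pd z - (c.D.lab v.1 v.2).Pd z| ≤ c.D.f v.1 / c.D.r v.1 * c.D.s ^ (-(Ls * (v.1 - u.1) + a)) := by
  obtain ⟨hn, x, hx, x', hx', hcn⟩ := h
  have hu : u.1 ∈ c.W.G := hn.1
  have hv : v.1 ∈ c.W.G := hn.2.1
  have hs : c.W.Str (Y.tq c.p) := hob.2.2.1
  have hφ := sf_core_fr_pos hO c C hob
  obtain ⟨hL, hr0, hF0⟩ := hφ
  have t1 : c.W.th u.1 (c.sh.lb u.1 u.2) x ≠ 0 := ((c.sh.at_cov u.1 hu _ x).2 ⟨u.2, rfl, hx⟩).1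
  have t2 : c.W.th v.1 (c.sh.lb v.1 v.2) x' ≠ 0 := ((c.sh.at_cov v.1 hv _ x').2 ⟨v.2, rfl, hx'⟩).1
  obtain ⟨m1, m2⟩ := hext.mm u.1 v.1 hn _ _ x x' t1 t2 hcn
  obtain ⟨Q, hQ⟩ : ∃ Q, Q = sfTestAt (c.W.T u.1 (c.sh.lb u.1 u.2)) (Y.tq c.p (c.W.ts u.1 (c.sh.lb u.1 u.2))) := ⟨_, rfl⟩
  obtain ⟨Q', hQ'⟩ : ∃ Q', Q' = sfTestAt (c.W.T v.1 (c.sh.lb v.1 v.2)) (Y.tq c.p (c.W.ts v.1 (c.sh.lb v.1 v.2))) := ⟨_, rfl⟩
  have hQT : Q.T = c.W.T u.1 (c.sh.lb u.1 u.2) := by rw [hQ]; rfl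
  have hQK : Q.K = (Y.tq c.p (c.W.ts u.1 (c.sh.lb u.1 u.2))).K := by rw [hQ]; rfl
  have hQK' : Q'.K = (Y.tq c.p (c.W.ts v.1 (c.sh.lb v.1 v.2))).K := by rw [hQ']; rfl
  rw [← hQ, ← hQ', ← hQT, ← hQK, ← hQK'] at m1
  rw [← hQ, ← hQ'] at m2
  have lu : c.D.lab u.1 u.2 = c.fr.tst Q := by rw [hQ]; exact c.sh.hlab u.1 hu u.2
  have lv : c.D.lab v.1 v.2 = c.fr.tst Q' := by rw [hQ']; exact c.sh.hlab v.1 hv v.2
  obtain ⟨z0, hz0⟩ : ∃ z0, z0 = sfRayAt (c.W.T u.1 (c.sh.lb u.1 u.2)) (Y.co c.p (c.W.T u.1 (c.sh.lb u.1 u.2)) x) := ⟨_, rfl⟩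
  rw [← hz0] at m2
  obtain ⟨c1, c2, c3⟩ := sf_frame_cmp c.fr ⟨hL, hr0, hF0⟩ Q Q' z0 Q.T
  have hT : c.D.T u.1 u.2 = (Q.T - c.fr.T0) / c.fr.L := by
    unfold SfDoc.T
    rw [lu]
    rfl
  have b1 : (c.fr.tst Q).beAt ((Q.T - c.fr.T0) / c.fr.L) = (c.fr.tst Q).be := by
    unfold SfTest.beAt
    have : (c.fr.tst Q).T = (Q.T - c.fr.T0) / c.fr.L := rfl
    rw [this, sub_self, zero_mul, add_zero]
  have b2 : Q.beAt Q.T = Q.be := by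
    unfold SfTest.beAt
    rw [sub_self, zero_mul, add_zero]
  rw [b1, b2] at c1
  have hlen : c.fr.L * c.D.len u.1 = (2 : ℝ)⁻¹ ^ c.W.k u.1 := (sf_core_len c hs u.1 hu).symm
  have hDs : c.D.s = c.W.E.s := c.sh.hs
  have hDf : c.D.f v.1 = c.W.f v.1 / c.fr.F0 := c.sh.hf v.1 hv
  have hDr : c.D.r v.1 = c.W.r v.1 / c.fr.r0 := c.sh.hr v.1 hv
  obtain ⟨hWr, hWf⟩ := hs.frame.2.2 v.1 hv
  obtain ⟨S, hS⟩ : ∃ S, S = c.W.E.s ^ (-(Ls * (v.1 - u.1) + a)) := ⟨_, rfl⟩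
  rw [← hS] at m1 m2
  rw [hDs, ← hS]
  constructor
  · rw [lu, lv, hT, c1, c2, hDf, hDr]
    have hk : 0 < c.fr.r0 ^ 2 / c.fr.F0 := by positivity
    have e1 : |(Q.be - Q'.beAt Q.T) * c.fr.r0 ^ 2 / c.fr.F0| = |Q.be - Q'.beAt Q.T| * (c.fr.r0 ^ 2 / c.fr.F0) := by
      rw [mul_div_assoc, abs_mul, abs_of_pos hk]
    have e2 : c.D.len u.1 * |(Q.K - Q'.K) * c.fr.L * c.fr.r0 ^ 2 / c.fr.F0| = (2 : ℝ)⁻¹ ^ c.W.k u.1 * |Q.K - Q'.K| * (c.fr.r0 ^ 2 / c.fr.F0) := by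
      rw [mul_div_assoc, abs_mul, abs_of_pos hk, abs_mul, abs_of_pos hL, ← hlen]
      ring
    rw [e1, e2, ← add_mul]
    have e3 : c.W.f v.1 / c.fr.F0 / (c.W.r v.1 / c.fr.r0) ^ 2 * S = c.W.f v.1 / c.W.r v.1 ^ 2 * S * (c.fr.r0 ^ 2 / c.fr.F0) := by
      field_simp
    rw [e3]
    exact mul_le_mul_of_nonneg_right m1 hk.le
  · refine ⟨c.fr.ray z0, ?_, ?_⟩
    · refine (sf_core_mm1_bdist _ _).trans ?_
      have := c.sh.small u.1 hu u.2 x hx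
      rw [hz0]
      exact this
    · rw [lu, lv, c3, hDf, hDr]
      have hk : 0 < c.fr.r0 / c.fr.F0 := by positivity
      have e1 : |(Q.Pd z0 - Q'.Pd z0) * c.fr.r0 / c.fr.F0| = |Q.Pd z0 - Q'.Pd z0| * (c.fr.r0 / c.fr.F0) := by
        rw [mul_div_assoc, abs_mul, abs_of_pos hk]
      have e3 : c.W.f v.1 / c.fr.F0 / (c.W.r v.1 / c.fr.r0) * S = c.W.f v.1 / c.W.r v.1 * S * (c.fr.r0 / c.fr.F0) := by
        field_simp
      rw [e1, e3]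
      exact mul_le_mul_of_nonneg_right m2 hk.le

theorem sf_core_mm_bd_tri (z z' z'' : SfRay) : z.bdist z'' ≤ z.bdist z' + z'.bdist z'' := by
  unfold SfRay.bdist
  have h1 : |z.X - z''.X| ≤ |z.X - z'.X| + |z'.X - z''.X| := abs_sub_le _ _ _
  have h2 : |z.B - z''.B| ≤ |z.B - z'.B| + |z'.B - z''.B| := abs_sub_le _ _ _
  have h3 : |z.Y - z''.Y| ≤ |z.Y - z'.Y| + |z'.Y - z''.Y| := abs_sub_le _ _ _
  refine max_le ?_ (max_le ?_ ?_)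
  · exact h1.trans (add_le_add (le_max_left _ _) (le_max_left _ _))
  · exact h2.trans (add_le_add ((le_max_left _ _).trans (le_max_right _ _)) ((le_max_left _ _).trans (le_max_right _ _)))
  · exact h3.trans (add_le_add ((le_max_right _ _).trans (le_max_right _ _)) ((le_max_right _ _).trans (le_max_right _ _)))

theorem sf_core_mm_bd_comm (z z' : SfRay) : z.bdist z' = z'.bdist z := by
  unfold SfRay.bdist
  rw [abs_sub_comm z.X, abs_sub_comm z.B, abs_sub_comm z.Y]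

theorem sf_core_mm_a1 (Q Q' Q'' : SfTest) (l l' : ℝ) (hl' : 0 < l') (hll : l' ≤ l) (hT : |Q.T - Q'.T| ≤ l) :
    |Q.be - Q''.beAt Q.T| + l * |Q.K - Q''.K| ≤ (|Q.be - Q'.beAt Q.T| + l * |Q.K - Q'.K|)
      + 2 * (l / l') * (|Q'.be - Q''.beAt Q'.T| + l' * |Q'.K - Q''.K|) := by
  have e1 : Q.be - Q''.beAt Q.T = (Q.be - Q'.beAt Q.T) + (Q'.be - Q''.beAt Q'.T) + (Q.T - Q'.T) * (Q'.K - Q''.K) := by
    unfold SfTest.beAt; ring
  have e2 : Q.K - Q''.K = (Q.K - Q'.K) + (Q'.K - Q''.K) := by ring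
  have b1 : |Q.be - Q''.beAt Q.T| ≤ |Q.be - Q'.beAt Q.T| + |Q'.be - Q''.beAt Q'.T| + l * |Q'.K - Q''.K| := by
    rw [e1]
    refine (abs_add_le _ _).trans ?_
    refine add_le_add (abs_add_le _ _) ?_
    rw [abs_mul]
    exact mul_le_mul_of_nonneg_right hT (abs_nonneg _)
  have b2 : |Q.K - Q''.K| ≤ |Q.K - Q'.K| + |Q'.K - Q''.K| := by rw [e2]; exact abs_add_le _ _
  have hl : 0 < l := hl'.trans_le hll
  have r1 : 1 ≤ l / l' := by rw [le_div_iff₀ hl']; linarith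
  have r2 : l / l' * l' = l := by field_simp
  obtain ⟨A, hA⟩ : ∃ A, A = |Q'.be - Q''.beAt Q'.T| := ⟨_, rfl⟩
  obtain ⟨B, hB⟩ : ∃ B, B = |Q'.K - Q''.K| := ⟨_, rfl⟩
  obtain ⟨q, hq⟩ : ∃ q, q = l / l' := ⟨_, rfl⟩
  rw [← hA, ← hB] at b1 ⊢
  rw [← hB] at b2
  rw [← hq] at r1 r2 ⊢
  have hA0 : 0 ≤ A := hA ▸ abs_nonneg _
  have hB0 : 0 ≤ B := hB ▸ abs_nonneg _
  have e3 : 2 * q * (A + l' * B) = 2 * q * A + 2 * l * B := by
    rw [← r2]; ring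
  rw [e3]
  have b3 : l * |Q.K - Q''.K| ≤ l * (|Q.K - Q'.K| + B) := mul_le_mul_of_nonneg_left b2 hl.le
  have b4 : A ≤ 2 * q * A := by nlinarith
  nlinarith

theorem sf_core_mm_a2 (Q Q' : SfTest) (z z' : SfRay) (δ l : ℝ) (hd : z.bdist z' ≤ δ) (hT0 : 0 ≤ Q.T) (hT1 : Q.T ≤ 1) (hl : 0 < l) (hl1 : l ≤ 1) :
    |(Q.Pd z - Q'.Pd z) - (Q.Pd z' - Q'.Pd z')| * l ≤ 4 * δ * (|Q.be - Q'.beAt Q.T| + l * |Q.K - Q'.K|) := by
  have e : (Q.Pd z - Q'.Pd z) - (Q.Pd z' - Q'.Pd z')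
      = 2 * ((Q.be - Q'.beAt Q.T) - Q.T * (Q.K - Q'.K)) * (z.X - z'.X) - 2 * (Q.K - Q'.K) * (z.B - z'.B) := by
    unfold SfTest.Pd SfTest.beAt SfRay.Bt; ring
  have hX : |z.X - z'.X| ≤ δ := (le_max_left _ _).trans hd
  have hB : |z.B - z'.B| ≤ δ := ((le_max_left _ _).trans (le_max_right _ _)).trans hd
  have hδ : 0 ≤ δ := (abs_nonneg _).trans hX
  obtain ⟨A, hA⟩ : ∃ A, A = Q.be - Q'.beAt Q.T := ⟨_, rfl⟩
  obtain ⟨B, hBB⟩ : ∃ B, B = Q.K - Q'.K := ⟨_, rfl⟩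
  rw [e, ← hA, ← hBB]
  have c1 : |A - Q.T * B| ≤ |A| + |B| := by
    refine (abs_sub _ _).trans ?_
    rw [abs_mul, abs_of_nonneg hT0]
    have := mul_le_mul_of_nonneg_right hT1 (abs_nonneg B)
    linarith
  have c2 : |2 * (A - Q.T * B) * (z.X - z'.X) - 2 * B * (z.B - z'.B)| ≤ 2 * (|A| + |B|) * δ + 2 * |B| * δ := by
    refine (abs_sub _ _).trans ?_
    rw [abs_mul, abs_mul, abs_mul, abs_mul, abs_two]
    have hA0 := abs_nonneg A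
    have hB0 := abs_nonneg B
    refine add_le_add ?_ ?_
    · exact mul_le_mul (by linarith) hX (abs_nonneg _) (by positivity)
    · exact mul_le_mul le_rfl hB (abs_nonneg _) (by positivity)
  have hA0 := abs_nonneg A
  have hB0 := abs_nonneg B
  calc _ ≤ (2 * (|A| + |B|) * δ + 2 * |B| * δ) * l := mul_le_mul_of_nonneg_right c2 hl.le
    _ = 2 * δ * (l * |A| + 2 * (l * |B|)) := by ring
    _ ≤ 2 * δ * (|A| + 2 * (l * |B|)) := by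
        have : l * |A| ≤ |A| := by nlinarith
        exact mul_le_mul_of_nonneg_left (by linarith) (by positivity)
    _ ≤ 4 * δ * (|A| + l * |B|) := by
        have : 0 ≤ δ * |A| := by positivity
        nlinarith

theorem sf_core_mm_num (s X Y' Fg Fp E1 e3 e4 E2 hh : ℝ) (n : ℕ) (hs : 0 < s) (hs1 : s ≤ 1) (h2 : 2 ≤ s ^ (-hh)) (hFp : 0 ≤ Fp)
    (hX : X ≤ n * Fg * s ^ (-E1)) (hF : Fg ≤ s ^ (-e3) * Fp) (hY : Y' ≤ 2 * (Fp * s ^ (-e4))) (hE : E1 + e3 ≤ E2) (hE' : e4 + hh ≤ E2) :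
    X + Y' ≤ ((n + 1 : ℕ) : ℝ) * Fp * s ^ (-E2) := by
  have p1 : 0 < s ^ (-E1) := Real.rpow_pos_of_pos hs _
  have p4 : 0 < s ^ (-e4) := Real.rpow_pos_of_pos hs _
  have a1 : X ≤ n * Fp * s ^ (-E2) := by
    calc X ≤ n * Fg * s ^ (-E1) := hX
      _ ≤ n * (s ^ (-e3) * Fp) * s ^ (-E1) := by gcongr
      _ = n * Fp * (s ^ (-e3) * s ^ (-E1)) := by ring
      _ = n * Fp * s ^ (-(E1 + e3)) := by rw [← Real.rpow_add hs]; congr 2; ring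
      _ ≤ n * Fp * s ^ (-E2) := by
          refine mul_le_mul_of_nonneg_left ?_ (by positivity)
          exact Real.rpow_le_rpow_of_exponent_ge hs hs1 (by linarith)
  have a2 : Y' ≤ Fp * s ^ (-E2) := by
    calc Y' ≤ 2 * (Fp * s ^ (-e4)) := hY
      _ ≤ s ^ (-hh) * (Fp * s ^ (-e4)) := by gcongr
      _ = Fp * (s ^ (-hh) * s ^ (-e4)) := by ring
      _ = Fp * s ^ (-(e4 + hh)) := by rw [← Real.rpow_add hs]; congr 2; ring
      _ ≤ Fp * s ^ (-E2) := by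
          refine mul_le_mul_of_nonneg_left ?_ hFp
          exact Real.rpow_le_rpow_of_exponent_ge hs hs1 (by linarith)
  push_cast
  nlinarith

theorem sf_core_mm_e0 (s x : ℝ) (hs : 0 < s) (hs1 : s < 1) (h : s ^ x ≤ 1) : 0 ≤ x := by
  by_contra hx
  push Not at hx
  exact absurd h (not_le.2 (Real.one_lt_rpow_of_pos_of_lt_one_of_neg hs hs1 hx))

theorem sf_core_mm_F (s e rg rp fg fp : ℝ) (hs : 0 < s) (hrg : 0 < rg) (hrp : 0 < rp) (hfg : 0 < fg) (hfp : 0 < fp)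
    (h1 : s ^ e ≤ rg / rp) (h2 : fg / fp ≤ s ^ (-e)) :
    fg / rg ^ 2 ≤ s ^ (-(3 * e)) * (fp / rp ^ 2) ∧ fg / rg ≤ s ^ (-(2 * e)) * (fp / rp) := by
  obtain ⟨q, hq⟩ : ∃ q, q = s ^ e := ⟨_, rfl⟩
  have hq0 : 0 < q := hq ▸ Real.rpow_pos_of_pos hs _
  have e1 : s ^ (-e) = q⁻¹ := by rw [Real.rpow_neg hs.le, hq]
  have e2 : s ^ (-(2 * e)) = (q ^ 2)⁻¹ := by
    rw [Real.rpow_neg hs.le, hq, ← Real.rpow_natCast, ← Real.rpow_mul hs.le]; congr 2; push_cast; ring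
  have e3 : s ^ (-(3 * e)) = (q ^ 3)⁻¹ := by
    rw [Real.rpow_neg hs.le, hq, ← Real.rpow_natCast, ← Real.rpow_mul hs.le]; congr 2; push_cast; ring
  rw [← hq, le_div_iff₀ hrp] at h1
  rw [e1, div_le_iff₀ hfp] at h2
  have h2' : q * fg ≤ fp := by
    have := mul_le_mul_of_nonneg_left h2 hq0.le
    rwa [← mul_assoc, mul_inv_cancel₀ hq0.ne', one_mul] at this
  have h1' : (q * rp) ^ 2 ≤ rg ^ 2 := pow_le_pow_left₀ (by positivity) h1 2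
  rw [e2, e3]
  constructor
  · rw [div_le_iff₀ (by positivity), inv_mul_eq_div, div_mul_eq_mul_div, le_div_iff₀ (by positivity), div_mul_eq_mul_div, le_div_iff₀ (by positivity)]
    calc fg * q ^ 3 * rp ^ 2 = (q * fg) * (q * rp) ^ 2 := by ring
      _ ≤ fp * rg ^ 2 := mul_le_mul h2' h1' (by positivity) hfp.le
  · rw [div_le_iff₀ (by positivity), inv_mul_eq_div, div_mul_eq_mul_div, le_div_iff₀ (by positivity), div_mul_eq_mul_div, le_div_iff₀ (by positivity)]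
    calc fg * q ^ 2 * rp = (q * fg) * (q * rp) := by ring
      _ ≤ fp * rg := mul_le_mul h2' h1 (by positivity) hfp.le

theorem sf_core_mm_fin (s X F E t : ℝ) (n : ℕ) (hs : 0 < s) (hF : 0 ≤ F) (hX : X ≤ n * F * s ^ (-E)) (hn : (n : ℝ) ≤ s ^ (-t)) :
    X ≤ F * s ^ (-(E + t)) := by
  have p1 : 0 < s ^ (-E) := Real.rpow_pos_of_pos hs _
  calc X ≤ n * F * s ^ (-E) := hX
    _ ≤ s ^ (-t) * F * s ^ (-E) := by gcongr
    _ = F * (s ^ (-E) * s ^ (-t)) := by ring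
    _ = F * s ^ (-(E + t)) := by rw [← Real.rpow_add hs]; congr 2; ring

theorem sf_core_mm_lk (D : SfDoc) (Ls t1 : ℝ) (hs0 : 0 < D.s) (hs2 : D.s ≤ 1 / 2) (ht0 : 0 < t1) (ht1 : t1 ≤ 1)
    (hG : (1 : ℝ) ∈ D.G ∧ ∀ i ∈ D.G, 0 ≤ i ∧ i ≤ 1)
    (hlen : ∀ i ∈ D.G, D.s ^ (i + t1) ≤ D.len i ∧ D.len i ≤ D.s ^ (i - t1))
    (hw : D.r 1 = 1 ∧ D.f 1 = 1 ∧ ∀ i ∈ D.G, 0 < D.r i ∧ 0 < D.f i)
    (hwr : ∀ i ∈ D.G, ∀ j ∈ D.G, i < j → D.s ^ (Ls * (j - i) + t1) ≤ D.r i / D.r j ∧ D.r i / D.r j ≤ 1 ∧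
      D.s ^ (Ls * (j - i) + t1) ≤ D.f i / D.f j ∧ D.f i / D.f j ≤ D.s ^ (-(Ls * (j - i) + t1)))
    (hown : ∀ i ∈ D.G, ∀ ρ, 0 ≤ D.T i ρ ∧ D.T i ρ + D.len i ≤ 1)
    (g : ℝ) (hg : g ∈ D.G) (gp : ℝ) (hgp : gp ∈ D.G) (ρ : D.Row g) (ρ' : D.Row gp) (X : ℝ) (hX : 0 ≤ X)
    (hM : |(D.lab g ρ).be - (D.lab gp ρ').beAt (D.T g ρ)| + D.len g * |(D.lab g ρ).K - (D.lab gp ρ').K| ≤ D.f gp / D.r gp ^ 2 * X)
    (zs : SfRay) (hP : |(D.lab g ρ).Pd zs - (D.lab gp ρ').Pd zs| ≤ D.f gp / D.r gp * X)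
    (z0 : SfRay) (hd : z0.bdist zs ≤ 2 * D.s ^ (|Ls| + 6)) :
    |(D.lab g ρ).Pd z0 - (D.lab gp ρ').Pd z0| ≤ 2 * (D.f gp / D.r gp * X) := by
  have hs1 : D.s ≤ 1 := by linarith
  have hl0 : 0 < D.len g := (Real.rpow_pos_of_pos hs0 _).trans_le (hlen g hg).1
  have hl1 : D.len g ≤ 1 := by have := hown g hg ρ; linarith
  obtain ⟨hr0, hf0⟩ := hw.2.2 gp hgp
  have hr : D.s ^ (|Ls| + t1) ≤ D.r gp := by
    rcases (hG.2 gp hgp).2.lt_or_eq with h1 | h1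
    · have := (hwr gp hgp 1 hG.1 h1).1
      rw [hw.1, div_one] at this
      refine le_trans (Real.rpow_le_rpow_of_exponent_ge hs0 hs1 ?_) this
      have b1 : Ls * (1 - gp) ≤ |Ls| * 1 :=
        (mul_le_mul_of_nonneg_right (le_abs_self Ls) (by linarith)).trans
          (mul_le_mul_of_nonneg_left (by linarith [(hG.2 gp hgp).1]) (abs_nonneg _))
      linarith
    · rw [h1, hw.1]
      exact Real.rpow_le_one hs0.le hs1 (by positivity)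
  have hlr : 4 * (2 * D.s ^ (|Ls| + 6)) ≤ D.len g * D.r gp := by
    have c1 : D.s ^ (g + t1) * D.s ^ (|Ls| + t1) ≤ D.len g * D.r gp :=
      mul_le_mul (hlen g hg).1 hr (Real.rpow_pos_of_pos hs0 _).le hl0.le
    have c2 : D.s ^ (|Ls| + 3) ≤ D.s ^ (g + t1) * D.s ^ (|Ls| + t1) := by
      rw [← Real.rpow_add hs0]
      exact Real.rpow_le_rpow_of_exponent_ge hs0 hs1 (by linarith [(hG.2 g hg).2])
    have c3 : D.s ^ (|Ls| + 6) = D.s ^ (|Ls| + 3) * D.s ^ 3 := by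
      rw [← Real.rpow_natCast, ← Real.rpow_add hs0]; congr 1; push_cast; ring
    have c4 : D.s ^ 3 ≤ (1 / 2) ^ 3 := pow_le_pow_left₀ hs0.le hs2 3
    have c5 : 0 < D.s ^ (|Ls| + 3) := Real.rpow_pos_of_pos hs0 _
    rw [c3]
    nlinarith
  have k := sf_core_mm_a2 (D.lab g ρ) (D.lab gp ρ') z0 zs _ (D.len g) hd (hown g hg ρ).1 (by have := hown g hg ρ; unfold SfDoc.T at this; linarith) hl0 hl1
  have hM' : |(D.lab g ρ).be - (D.lab gp ρ').beAt (D.lab g ρ).T| + D.len g * |(D.lab g ρ).K - (D.lab gp ρ').K| ≤ D.f gp / D.r gp ^ 2 * X := hM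
  have hM0 : 0 ≤ |(D.lab g ρ).be - (D.lab gp ρ').beAt (D.lab g ρ).T| + D.len g * |(D.lab g ρ).K - (D.lab gp ρ').K| := by positivity
  have k2 : |((D.lab g ρ).Pd z0 - (D.lab gp ρ').Pd z0) - ((D.lab g ρ).Pd zs - (D.lab gp ρ').Pd zs)| * D.len g ≤ (D.f gp / D.r gp * X) * D.len g := by
    refine k.trans ?_
    calc _ ≤ (D.len g * D.r gp) * (D.f gp / D.r gp ^ 2 * X) := mul_le_mul hlr hM' hM0 (by positivity)
      _ = (D.f gp / D.r gp * X) * D.len g := by field_simp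
  have k3 := le_of_mul_le_mul_right k2 hl0
  have k4 := abs_sub_abs_le_abs_sub ((D.lab g ρ).Pd z0 - (D.lab gp ρ').Pd z0) ((D.lab g ρ).Pd zs - (D.lab gp ρ').Pd zs)
  linarith

theorem sf_core_mm_one (D : SfDoc) (Ls t1 a h μ : ℝ) (hs0 : 0 < D.s) (hs2 : D.s ≤ 1 / 2) (ht0 : 0 < t1) (ht1 : t1 ≤ 1)
    (hG : (1 : ℝ) ∈ D.G ∧ ∀ i ∈ D.G, 0 ≤ i ∧ i ≤ 1)
    (hlen : ∀ i ∈ D.G, D.s ^ (i + t1) ≤ D.len i ∧ D.len i ≤ D.s ^ (i - t1))
    (hw : D.r 1 = 1 ∧ D.f 1 = 1 ∧ ∀ i ∈ D.G, 0 < D.r i ∧ 0 < D.f i)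
    (hwr : ∀ i ∈ D.G, ∀ j ∈ D.G, i < j → D.s ^ (Ls * (j - i) + t1) ≤ D.r i / D.r j ∧ D.r i / D.r j ≤ 1 ∧
      D.s ^ (Ls * (j - i) + t1) ≤ D.f i / D.f j ∧ D.f i / D.f j ≤ D.s ^ (-(Ls * (j - i) + t1)))
    (hown : ∀ i ∈ D.G, ∀ ρ, 0 ≤ D.T i ρ ∧ D.T i ρ + D.len i ≤ 1)
    (h2 : 2 ≤ D.s ^ (-(h / 4))) (hth : 28 * t1 ≤ h) (ha : a ≤ h / 4) (hμ : |Ls| + 6 ≤ μ)
    (g : ℝ) (hg : g ∈ D.G) (gp : ℝ) (hgp : gp ∈ D.G) (hlt : g < gp) (hgap : h ≤ gp - g) (ρ : D.Row g) (ρ' : D.Row gp)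
    (hM : |(D.lab g ρ).be - (D.lab gp ρ').beAt (D.T g ρ)| + D.len g * |(D.lab g ρ).K - (D.lab gp ρ').K|
      ≤ D.f gp / D.r gp ^ 2 * D.s ^ (-(Ls * (gp - g) + a)))
    (zs : SfRay) (hzs : zs.bdist (D.ray g ρ) ≤ D.s ^ μ)
    (hP : |(D.lab g ρ).Pd zs - (D.lab gp ρ').Pd zs| ≤ D.f gp / D.r gp * D.s ^ (-(Ls * (gp - g) + a))) :
    |(D.lab g ρ).be - (D.lab gp ρ').beAt (D.T g ρ)| + D.len g * |(D.lab g ρ).K - (D.lab gp ρ').K|
      ≤ ((1 : ℕ) : ℝ) * (D.f gp / D.r gp ^ 2) * D.s ^ (-((3 * Ls + 1) * (gp - g))) ∧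
    |(D.lab g ρ).Pd (D.ray g ρ) - (D.lab gp ρ').Pd (D.ray g ρ)|
      ≤ ((1 : ℕ) : ℝ) * (D.f gp / D.r gp) * D.s ^ (-((3 * Ls + 1) * (gp - g))) := by
  have hs1 : D.s ≤ 1 := by linarith
  have hs1' : D.s < 1 := by linarith
  obtain ⟨hr0, hf0⟩ := hw.2.2 gp hgp
  have he : 0 ≤ Ls * (gp - g) + t1 := sf_core_mm_e0 D.s _ hs0 hs1' ((hwr g hg gp hgp hlt).1.trans (hwr g hg gp hgp hlt).2.1)
  have hX0 : 0 < D.s ^ (-(Ls * (gp - g) + a)) := Real.rpow_pos_of_pos hs0 _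
  have hE : (Ls * (gp - g) + a) + h / 4 ≤ (3 * Ls + 1) * (gp - g) := by
    have : (3 * Ls + 1) * (gp - g) = 3 * (Ls * (gp - g)) + (gp - g) := by ring
    rw [this]; linarith
  constructor
  · have k := sf_core_mm_num D.s 0 _ 0 (D.f gp / D.r gp ^ 2) ((3 * Ls + 1) * (gp - g)) 0 (Ls * (gp - g) + a) ((3 * Ls + 1) * (gp - g)) (h / 4) 0
      hs0 hs1 h2 (by positivity) (by simp) (by positivity) (hM.trans (by
        have : 0 ≤ D.f gp / D.r gp ^ 2 * D.s ^ (-(Ls * (gp - g) + a)) := by positivity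
        linarith)) (by linarith) hE
    simpa using k
  · have hd : (D.ray g ρ).bdist zs ≤ 2 * D.s ^ (|Ls| + 6) := by
      rw [sf_core_mm_bd_comm]
      have c1 : D.s ^ μ ≤ D.s ^ (|Ls| + 6) := Real.rpow_le_rpow_of_exponent_ge hs0 hs1 hμ
      have c2 : 0 < D.s ^ (|Ls| + 6) := Real.rpow_pos_of_pos hs0 _
      linarith
    have k0 := sf_core_mm_lk D Ls t1 hs0 hs2 ht0 ht1 hG hlen hw hwr hown g hg gp hgp ρ ρ' _ hX0.le hM zs hP _ hd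
    have k := sf_core_mm_num D.s 0 _ 0 (D.f gp / D.r gp) ((3 * Ls + 1) * (gp - g)) 0 (Ls * (gp - g) + a) ((3 * Ls + 1) * (gp - g)) (h / 4) 0
      hs0 hs1 h2 (by positivity) (by simp) (by positivity) k0 (by linarith) hE
    simpa using k

theorem sf_core_mm_step (D : SfDoc) (Ls t1 a h μ : ℝ) (hs0 : 0 < D.s) (hs2 : D.s ≤ 1 / 2) (ht0 : 0 < t1) (ht1 : t1 ≤ 1)
    (hG : (1 : ℝ) ∈ D.G ∧ ∀ i ∈ D.G, 0 ≤ i ∧ i ≤ 1)
    (hlen : ∀ i ∈ D.G, D.s ^ (i + t1) ≤ D.len i ∧ D.len i ≤ D.s ^ (i - t1))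
    (hw : D.r 1 = 1 ∧ D.f 1 = 1 ∧ ∀ i ∈ D.G, 0 < D.r i ∧ 0 < D.f i)
    (hwr : ∀ i ∈ D.G, ∀ j ∈ D.G, i < j → D.s ^ (Ls * (j - i) + t1) ≤ D.r i / D.r j ∧ D.r i / D.r j ≤ 1 ∧
      D.s ^ (Ls * (j - i) + t1) ≤ D.f i / D.f j ∧ D.f i / D.f j ≤ D.s ^ (-(Ls * (j - i) + t1)))
    (hown : ∀ i ∈ D.G, ∀ ρ, 0 ≤ D.T i ρ ∧ D.T i ρ + D.len i ≤ 1)
    (h2 : 2 ≤ D.s ^ (-(h / 4))) (hth : 28 * t1 ≤ h) (ha : a ≤ h / 4) (hμ : |Ls| + 6 ≤ μ) (htL : |Ls| + 6 ≤ 1 / t1)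
    (i : ℝ) (hi : i ∈ D.G) (g : ℝ) (hg : g ∈ D.G) (gp : ℝ) (hgp : gp ∈ D.G) (hig : i < g) (hlt : g < gp) (hgap : h ≤ gp - g)
    (ρ0 : D.Row i) (ρ : D.Row g) (ρ' : D.Row gp)
    (hT1 : D.T i ρ0 ≤ D.T g ρ) (hT2 : D.T g ρ + D.len g ≤ D.T i ρ0 + D.len i) (hbd : (D.ray i ρ0).bdist (D.ray g ρ) ≤ D.s ^ (1 / t1))
    (n : ℕ)
    (hA : |(D.lab i ρ0).be - (D.lab g ρ).beAt (D.T i ρ0)| + D.len i * |(D.lab i ρ0).K - (D.lab g ρ).K|
      ≤ (n : ℝ) * (D.f g / D.r g ^ 2) * D.s ^ (-((3 * Ls + 1) * (g - i))))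
    (hB : |(D.lab i ρ0).Pd (D.ray i ρ0) - (D.lab g ρ).Pd (D.ray i ρ0)| ≤ (n : ℝ) * (D.f g / D.r g) * D.s ^ (-((3 * Ls + 1) * (g - i))))
    (hM : |(D.lab g ρ).be - (D.lab gp ρ').beAt (D.T g ρ)| + D.len g * |(D.lab g ρ).K - (D.lab gp ρ').K|
      ≤ D.f gp / D.r gp ^ 2 * D.s ^ (-(Ls * (gp - g) + a)))
    (zs : SfRay) (hzs : zs.bdist (D.ray g ρ) ≤ D.s ^ μ)
    (hP : |(D.lab g ρ).Pd zs - (D.lab gp ρ').Pd zs| ≤ D.f gp / D.r gp * D.s ^ (-(Ls * (gp - g) + a))) :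
    |(D.lab i ρ0).be - (D.lab gp ρ').beAt (D.T i ρ0)| + D.len i * |(D.lab i ρ0).K - (D.lab gp ρ').K|
      ≤ ((n + 1 : ℕ) : ℝ) * (D.f gp / D.r gp ^ 2) * D.s ^ (-((3 * Ls + 1) * (gp - i))) ∧
    |(D.lab i ρ0).Pd (D.ray i ρ0) - (D.lab gp ρ').Pd (D.ray i ρ0)|
      ≤ ((n + 1 : ℕ) : ℝ) * (D.f gp / D.r gp) * D.s ^ (-((3 * Ls + 1) * (gp - i))) := by
  have hs1 : D.s ≤ 1 := by linarith
  have hs1' : D.s < 1 := by linarith
  obtain ⟨hr0, hf0⟩ := hw.2.2 gp hgp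
  obtain ⟨hrg, hfg⟩ := hw.2.2 g hg
  have he : 0 ≤ Ls * (gp - g) + t1 := sf_core_mm_e0 D.s _ hs0 hs1' ((hwr g hg gp hgp hlt).1.trans (hwr g hg gp hgp hlt).2.1)
  have he' : 0 ≤ Ls * (g - i) + t1 := sf_core_mm_e0 D.s _ hs0 hs1' ((hwr i hi g hg hig).1.trans (hwr i hi g hg hig).2.1)
  have hX0 : 0 < D.s ^ (-(Ls * (gp - g) + a)) := Real.rpow_pos_of_pos hs0 _
  obtain ⟨hF2, hF1⟩ := sf_core_mm_F D.s (Ls * (gp - g) + t1) (D.r g) (D.r gp) (D.f g) (D.f gp) hs0 hrg hr0 hfg hf0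
    (hwr g hg gp hgp hlt).1 (hwr g hg gp hgp hlt).2.2.2
  have x1 : (3 * Ls + 1) * (gp - i) = 3 * (Ls * (g - i)) + 3 * (Ls * (gp - g)) + (g - i) + (gp - g) := by ring
  have x2 : (3 * Ls + 1) * (g - i) = 3 * (Ls * (g - i)) + (g - i) := by ring
  have hlg0 : 0 < D.len g := (Real.rpow_pos_of_pos hs0 _).trans_le (hlen g hg).1
  constructor
  · have k1 := sf_core_mm_a1 (D.lab i ρ0) (D.lab g ρ) (D.lab gp ρ') (D.len i) (D.len g) hlg0 (by linarith)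
      (by
        have e1 : D.T i ρ0 = (D.lab i ρ0).T := rfl
        have e2 : D.T g ρ = (D.lab g ρ).T := rfl
        rw [abs_le]; constructor <;> linarith)
    have hq : D.len i / D.len g ≤ D.s ^ (-((g - i) + 2 * t1)) := by
      rw [div_le_iff₀ hlg0]
      calc D.len i ≤ D.s ^ (i - t1) := (hlen i hi).2
        _ = D.s ^ (-((g - i) + 2 * t1)) * D.s ^ (g + t1) := by rw [← Real.rpow_add hs0]; congr 1; ring
        _ ≤ D.s ^ (-((g - i) + 2 * t1)) * D.len g := mul_le_mul_of_nonneg_left (hlen g hg).1 (Real.rpow_pos_of_pos hs0 _).le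
    have hM0 : 0 ≤ |(D.lab g ρ).be - (D.lab gp ρ').beAt (D.T g ρ)| + D.len g * |(D.lab g ρ).K - (D.lab gp ρ').K| := by positivity
    have hY : 2 * (D.len i / D.len g) * (|(D.lab g ρ).be - (D.lab gp ρ').beAt (D.T g ρ)| + D.len g * |(D.lab g ρ).K - (D.lab gp ρ').K|)
        ≤ 2 * (D.f gp / D.r gp ^ 2 * D.s ^ (-((g - i) + 2 * t1 + (Ls * (gp - g) + a)))) := by
      rw [mul_assoc]
      refine mul_le_mul_of_nonneg_left ?_ (by norm_num)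
      calc _ ≤ D.s ^ (-((g - i) + 2 * t1)) * (D.f gp / D.r gp ^ 2 * D.s ^ (-(Ls * (gp - g) + a))) :=
            mul_le_mul hq hM hM0 (Real.rpow_pos_of_pos hs0 _).le
        _ = D.f gp / D.r gp ^ 2 * (D.s ^ (-((g - i) + 2 * t1)) * D.s ^ (-(Ls * (gp - g) + a))) := by ring
        _ = _ := by rw [← Real.rpow_add hs0]; congr 2; ring
    have k := sf_core_mm_num D.s _ _ (D.f g / D.r g ^ 2) (D.f gp / D.r gp ^ 2) ((3 * Ls + 1) * (g - i)) (3 * (Ls * (gp - g) + t1))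
      ((g - i) + 2 * t1 + (Ls * (gp - g) + a)) ((3 * Ls + 1) * (gp - i)) (h / 4) n
      hs0 hs1 h2 (by positivity) hA hF2 hY (by rw [x1, x2]; linarith) (by rw [x1]; linarith)
    exact k1.trans k
  · have hd : (D.ray i ρ0).bdist zs ≤ 2 * D.s ^ (|Ls| + 6) := by
      refine (sf_core_mm_bd_tri _ (D.ray g ρ) _).trans ?_
      rw [sf_core_mm_bd_comm (D.ray g ρ)]
      have c1 : D.s ^ μ ≤ D.s ^ (|Ls| + 6) := Real.rpow_le_rpow_of_exponent_ge hs0 hs1 hμ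
      have c2 : D.s ^ (1 / t1) ≤ D.s ^ (|Ls| + 6) := Real.rpow_le_rpow_of_exponent_ge hs0 hs1 htL
      linarith
    have k0 := sf_core_mm_lk D Ls t1 hs0 hs2 ht0 ht1 hG hlen hw hwr hown g hg gp hgp ρ ρ' _ hX0.le hM zs hP _ hd
    have k := sf_core_mm_num D.s _ _ (D.f g / D.r g) (D.f gp / D.r gp) ((3 * Ls + 1) * (g - i)) (2 * (Ls * (gp - g) + t1))
      (Ls * (gp - g) + a) ((3 * Ls + 1) * (gp - i)) (h / 4) n
      hs0 hs1 h2 (by positivity) hB hF1 k0 (by rw [x1, x2]; linarith) (by rw [x1]; linarith)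
    refine le_trans ?_ k
    have e : (D.lab i ρ0).Pd (D.ray i ρ0) - (D.lab gp ρ').Pd (D.ray i ρ0)
        = ((D.lab i ρ0).Pd (D.ray i ρ0) - (D.lab g ρ).Pd (D.ray i ρ0)) + ((D.lab g ρ).Pd (D.ray i ρ0) - (D.lab gp ρ').Pd (D.ray i ρ0)) := by ring
    rw [e]
    exact abs_add_le _ _

/-- **Mat.mm for all pairs of gates** (telescoping).   PLAN.  Write `Δ(Q,Q')(τ) = Q.beAt τ - Q'.beAt τ`, `κ(Q,Q') = Q.K - Q'.K`: both additive along a chain, `Δ(τ') = Δ(τ) + (τ' - τ) κ`;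
`Q.Pd z - Q'.Pd z = (al - al') + 2 Δ(0) z.X - 2 κ z.B` is additive and changes by `≤ 2 (|Δ(0)| + |κ|) δ` if the base part of `z` moves by `δ`; `|Δ(0)| ≤ |Δ(τ)| + |κ|` for `0 ≤ τ ≤ 1`.
`sf_core_chain_ind` with `Φ n u v :=` the two inequalities of the statement for `(u, v)` with the factor `n` and the exponent `(3 Ls + 1)(v.1 - u.1) + n b`, `b` = a small multiple of `a` (plus nested times and `bdist (ray u) (ray v) ≤ 2 n s^μ`).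
Step `u → v → w` (`g = v.1`, `g⁺ = w.1`, `i = u.1`): `sf_core_mm1` for `(v,w)`;  move the time from `T v` to `T u`: `|T u - T v| ≤ len i`, cost `(len i / len g) ≤ s^(-(g - i) - 2a)` (`sf_core_sc`);
for `(u,v)`: `f_g / r_g² ≤ (f_{g⁺} / r_{g⁺}²) s^(-3 (Ls (g⁺ - g) + a'))`, `f_g / r_g ≤ (f_{g⁺}/r_{g⁺}) s^(-2 (..))` (`sf_core_wr`).
`Ls ≥ - a / h` (from `Ext.wr`: `s^(Ls (j-i) + a) ≤ 1`), so negative `Ls` costs only `O(a/h)` in the exponents.   The movement of the ray costs `s^μ` times `(f/r²) s^(-(3 Ls + 3))`: `μ0 = 3 |Ls| + 6 + ..`.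
Constants: `a` a small multiple of `t h²`, `n0` absorbs `Kg = 1/h + 1`.      You may use `sf_core_wr`, `sf_core_sc`, `sf_core_own`, `sf_core_base` through `sf_rigid_and`. -/
theorem sf_core_mm (hO : SfCyOk Y) (π : SfPar) (Ls t h : ℝ) (ht : 0 < t) (hh : 0 < h) :
    SfRigid Y π Ls h (fun c _ => ∀ i ∈ c.D.G, ∀ j ∈ c.D.G, i < j → ∀ ρ ρ', c.D.Conn i j ρ ρ' →
      |(c.D.lab i ρ).be - (c.D.lab j ρ').beAt (c.D.T i ρ)| + c.D.len i * |(c.D.lab i ρ).K - (c.D.lab j ρ').K|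
          ≤ c.D.f j / c.D.r j ^ 2 * c.D.s ^ (-((3 * Ls + 1) * (j - i) + t)) ∧
      |(c.D.lab i ρ).Pd (c.D.ray i ρ) - (c.D.lab j ρ').Pd (c.D.ray i ρ)| ≤ c.D.f j / c.D.r j * c.D.s ^ (-((3 * Ls + 1) * (j - i) + t))) := by
  obtain ⟨t1, ht0, ht1, hth, htL⟩ : ∃ t1 : ℝ, 0 < t1 ∧ t1 ≤ 1 ∧ 28 * t1 ≤ h ∧ |Ls| + 6 ≤ 1 / t1 := by
    have hL : 0 < |Ls| + 6 := by positivity
    refine ⟨min 1 (min (h / 28) (1 / (|Ls| + 6))), lt_min one_pos (lt_min (by positivity) (by positivity)), min_le_left _ _, ?_, ?_⟩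
    · have : min 1 (min (h / 28) (1 / (|Ls| + 6))) ≤ h / 28 := (min_le_right _ _).trans (min_le_left _ _)
      linarith
    · have h1 : min 1 (min (h / 28) (1 / (|Ls| + 6))) ≤ 1 / (|Ls| + 6) := (min_le_right _ _).trans (min_le_right _ _)
      have h0 : 0 < min 1 (min (h / 28) (1 / (|Ls| + 6))) := lt_min one_pos (lt_min (by positivity) (by positivity))
      rw [le_div_iff₀ h0]
      rw [le_div_iff₀ hL] at h1
      linarith
  obtain ⟨a1, ε0, μ0, ha1, hε0, H⟩ := sf_rigid_and (sf_core_wr (Y := Y) π Ls t1 h ht0 hh) (sf_rigid_and (sf_core_sc hO π Ls t1 h ht0)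
    (sf_rigid_and (sf_core_own hO π Ls h) (sf_core_base hO π Ls t1 h ht0 hh)))
  refine ⟨min a1 (h / 4), ε0, max μ0 (|Ls| + 6), lt_min ha1 (by positivity), hε0, fun ε1 h1 C => ?_⟩
  obtain ⟨A, n1, H1⟩ := H ε1 h1 C
  obtain ⟨n2, hn2⟩ := gn_absorb 2 (h / 4) (by positivity)
  obtain ⟨n3, hn3⟩ := gn_absorb (1 / h + 1) t ht
  refine ⟨A, max n1 (max n2 (max n3 1)), fun c hob hx hA hn hext hε1 hε0' hμ hgap => ?_⟩
  obtain ⟨hwr, hsc, hown, hbase⟩ := H1 c hob hx hA (le_of_max_le_left hn) (sf_ext_mono _ _ _ _ _ _ _ _ _ (min_le_left _ _) hext) hε1 hε0'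
    (le_of_max_le_left hμ) hgap
  obtain ⟨⟨hs0, hs1⟩, hG, ⟨-, hlen⟩, hw, -⟩ := hsc
  have hown' : ∀ i ∈ c.D.G, ∀ ρ, 0 ≤ c.D.T i ρ ∧ c.D.T i ρ + c.D.len i ≤ 1 := fun i hi ρ => (hown i hi ρ).2.2.2
  have hμ' : |Ls| + 6 ≤ c.μ := le_of_max_le_right hμ
  have hnn2 : n2 ≤ c.W.E.n := le_of_max_le_left (le_of_max_le_right hn)
  have hnn3 : n3 ≤ c.W.E.n := le_of_max_le_left (le_of_max_le_right (le_of_max_le_right hn))
  have hnn1 : 1 ≤ c.W.E.n := le_of_max_le_right (le_of_max_le_right (le_of_max_le_right hn))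
  have h2 : 2 ≤ c.D.s ^ (-(h / 4)) := by
    rw [c.sh.hs, gn_s_rpow]
    have := hn2 _ hnn2
    rwa [show -(-(h / 4) * (c.W.E.n : ℝ)) = h / 4 * c.W.E.n by ring]
  have h3 : 1 / h + 1 ≤ c.D.s ^ (-t) := by
    rw [c.sh.hs, gn_s_rpow]
    have := hn3 _ hnn3
    rwa [show -(-t * (c.W.E.n : ℝ)) = t * c.W.E.n by ring]
  have hs2 : c.D.s ≤ 1 / 2 := by
    have e : c.D.s = c.D.s ^ (1 : ℝ) := (Real.rpow_one _).symm
    rw [e, c.sh.hs, gn_s_rpow]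
    have : (2 : ℝ) ^ (-(1 * (c.W.E.n : ℝ))) ≤ 2 ^ (-(1 : ℝ)) := by
      refine Real.rpow_le_rpow_of_exponent_le (by norm_num) ?_
      have : (1 : ℝ) ≤ c.W.E.n := by exact_mod_cast hnn1
      linarith
    refine this.trans ?_
    rw [Real.rpow_neg (by norm_num), Real.rpow_one]
    norm_num
  have hcard : (c.W.G.card : ℝ) ≤ c.D.s ^ (-t) := by
    refine le_trans ?_ h3
    refine sf_core_card c.W.G h hh ?_ ?_
    · intro i hi
      exact hG.2 i (c.sh.hG ▸ hi)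
    · intro i hi j hj hij
      exact hgap i (c.sh.hG ▸ hi) j (c.sh.hG ▸ hj) hij
  have hlink : ∀ u v : Σ i, c.D.Row i, c.Lk u v → u.1 ∈ c.D.G ∧ v.1 ∈ c.D.G ∧ u.1 < v.1 ∧ h ≤ v.1 - u.1 := by
    intro u v hl
    obtain ⟨⟨k1, k2, k3, -⟩, -⟩ := hl
    have k1' : u.1 ∈ c.D.G := c.sh.hG ▸ k1
    have k2' : v.1 ∈ c.D.G := c.sh.hG ▸ k2
    exact ⟨k1', k2', k3, hgap _ k1' _ k2' k3⟩
  have key := sf_core_chain_ind c (fun n u v => v.1 ∈ c.D.G ∧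
      |(c.D.lab u.1 u.2).be - (c.D.lab v.1 v.2).beAt (c.D.T u.1 u.2)| + c.D.len u.1 * |(c.D.lab u.1 u.2).K - (c.D.lab v.1 v.2).K|
        ≤ (n : ℝ) * (c.D.f v.1 / c.D.r v.1 ^ 2) * c.D.s ^ (-((3 * Ls + 1) * (v.1 - u.1))) ∧
      |(c.D.lab u.1 u.2).Pd (c.D.ray u.1 u.2) - (c.D.lab v.1 v.2).Pd (c.D.ray u.1 u.2)|
        ≤ (n : ℝ) * (c.D.f v.1 / c.D.r v.1) * c.D.s ^ (-((3 * Ls + 1) * (v.1 - u.1)))) ?_ ?_ ?_
  · intro i hi j hj hij ρ ρ' hconn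
    have hch := (sf_core_conn c i (c.sh.hG ▸ hi) j (c.sh.hG ▸ hj) ρ ρ').1 hconn
    obtain ⟨-, k1, k2⟩ := key ⟨i, ρ⟩ ⟨j, ρ'⟩ hch
    obtain ⟨hr0, hf0⟩ := hw.2.2 j hj
    exact ⟨sf_core_mm_fin _ _ _ _ _ _ hs0 (by positivity) k1 hcard, sf_core_mm_fin _ _ _ _ _ _ hs0 (by positivity) k2 hcard⟩
  · intro u v hl
    obtain ⟨k1, k2, k3, k4⟩ := hlink u v hl
    obtain ⟨m1, zs, m2, m3⟩ := sf_core_mm1 hO c C hob π.p Ls _ hext u v hl
    exact ⟨k2, sf_core_mm_one c.D Ls t1 _ h c.μ hs0 hs2 ht0 ht1 hG hlen hw hwr hown' h2 hth (min_le_right _ _) hμ' u.1 k1 v.1 k2 k3 k4 u.2 v.2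
      m1 zs m2 m3⟩
  · intro n u v w hΦ hch hl
    obtain ⟨k1, k2, k3, k4⟩ := hlink v w hl
    obtain ⟨m1, zs, m2, m3⟩ := sf_core_mm1 hO c C hob π.p Ls _ hext v w hl
    obtain ⟨j1, j2, j3⟩ := sf_core_chain_lt c u v hch
    have j1' : u.1 ∈ c.D.G := c.sh.hG ▸ j1
    obtain ⟨b1, b2, -, b4⟩ := hbase u.1 j1' v.1 k1 j3 u.2 v.2 ((sf_core_conn c u.1 j1 v.1 j2 u.2 v.2).2 hch)
    have := sf_core_mm_step c.D Ls t1 _ h c.μ hs0 hs2 ht0 ht1 hG hlen hw hwr hown' h2 hth (min_le_right _ _) hμ' htL u.1 j1' v.1 k1 w.1 k2 j3 k3 k4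
      u.2 v.2 w.2 b1 b2 b4 n hΦ.2.1 hΦ.2.2 m1 zs m2 m3
    exact ⟨k2, this⟩
  · intro n n' u v hnn hΦ
    obtain ⟨k0, k1, k2⟩ := hΦ
    obtain ⟨hr0, hf0⟩ := hw.2.2 v.1 k0
    have hc : (n : ℝ) ≤ n' := by exact_mod_cast hnn
    have p0 : 0 < c.D.s ^ (-((3 * Ls + 1) * (v.1 - u.1))) := Real.rpow_pos_of_pos hs0 _
    refine ⟨k0, k1.trans ?_, k2.trans ?_⟩
    · gcongr
    · gcongr

end Claimed.Agent.R256
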