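import Claimed.Agent.R256.Soft.MCoreGeo

/-!
# Row 256 (S0496), unit SOFT, block M2 CORE (architect helper169), file 3: THE HYPOTHESES AS A RIGID PROPERTY; THE STACK BETWEEN TWO GATES      -- KEEP

`sf_rigid_hyp`: the hypotheses of the pattern are themselves rigid, so a leaf may write
`sf_rigid_mono (sf_rigid_and (sf_rigid_hyp ..) (sf_rigid_and (sf_core_sc ..) (sf_core_base ..))) (fun c C ⟨⟨hob, hx, hext, hε, hε0, hμ, hgap⟩, hsc, hbase⟩ => ..)`
when no new constant `A`, `n0` is needed.   If a new `n0` is needed: `obtain ⟨a, ε0, μ0, ha, hε, H⟩ :=` the combined rigid statement, `refine ⟨a, ε0, μ0, ha, hε, fun ε1 h1 C => ?_⟩`, `obtain ⟨A, n0, H'⟩ := H ε1 h1 C`, `refine ⟨A, max n0 n1, ..⟩`.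
-/

set_option autoImplicit false

namespace Claimed.Agent.R256

open MeasureTheory Claimed.Agent.R255

variable {Y : SfCy}

theorem sf_rigid_hyp (π : SfPar) (Ls h a ε0 μ0 : ℝ) (ha : 0 < a) (hε : 0 < ε0) :
    SfRigid Y π Ls h (fun c C => c.ob C ∧ c.Xtra ∧ SfMD.Ext Y c.p c.W π.p π.d Ls c.ε a ∧ 0 < c.ε ∧ c.ε ≤ ε0 ∧ μ0 ≤ c.μ ∧ c.D.GapK h) :=
  ⟨a, ε0, μ0, ha, hε, fun _ h1 _ => ⟨0, 0, fun _ a1 a2 _ _ a5 a6 a7 a8 a9 => ⟨a1, a2, a5, h1.trans_le a6, a7, a8, a9⟩⟩⟩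

/-! ## The stack between two gates      (LEAF L-256-SFC-STK) -/

namespace SfMD

variable {P : PkSys} (W : SfMD P)

/-- the mask of the gate `i` on the interval `m` -/
noncomputable def gM (i : ℝ) (m : ℕ) (x : P.X) : ℝ := ∑ l, if W.iv i l = m then W.th i l x else 0

/-- the stage of the gate `i` -/
noncomputable def stg (i : ℝ) : Stg P := ⟨W.k i, W.gb i, W.gM i⟩

end SfMD

theorem sf_mcore_pat_eqns_cite : True := by
  have := @SfMD.gM.eq_1
  have := @SfMD.stg.eq_1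
  trivial

section

variable {de : ℝ} (c : SfCfg Y de)

/-- (`Str.stage`; `Stg` has three fields; `funext`) -/
theorem sf_core_stage (hs : c.W.Str (Y.tq c.p)) (i : ℝ) (hi : i ∈ c.W.G) (h1 : i < 1) : c.W.E.st[c.W.pos i]? = some (c.W.stg i) := by
  obtain ⟨σ, h2, h3, h4, h5⟩ := hs.stage i hi h1
  rw [h2]
  congr 1
  obtain ⟨k, b, M⟩ := σ
  simp only at h3 h4 h5
  subst h3 h4
  have : M = c.W.gM i := by
    funext m x
    exact h5 m x
  rw [this]
  rfl

/-- (`sf_core_stage` for `j < 1`, `Str.k_one` for `j = 1`) -/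
theorem sf_core_pos_le (hs : c.W.Str (Y.tq c.p)) (j : ℝ) (hj : j ∈ c.W.G) : c.W.pos j ≤ c.W.E.st.length := by
  rcases lt_or_eq_of_le (hs.gate.2 j hj).2 with h | h
  · obtain ⟨h2, _⟩ := List.getElem?_eq_some_iff.1 (sf_core_stage c hs j hj h)
    exact h2.le
  · rw [h, hs.k_one.2.1]

theorem sf_core_take_aux {α : Type} (l : List α) (a b : ℕ) (x : α) (hx : l[a]? = some x) (hab : a < b) :
    l.take b = l.take a ++ x :: (l.take b).drop (a + 1) := by
  have h1 : (l.take b)[a]? = some x := by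
    rw [List.getElem?_take_of_lt hab]
    exact hx
  obtain ⟨h2, h3⟩ := List.getElem?_eq_some_iff.1 h1
  have h4 : (l.take b).take a = l.take a := by
    rw [List.take_take, min_eq_left hab.le]
  calc l.take b = (l.take b).take a ++ (l.take b).drop a := (List.take_append_drop a _).symm
    _ = l.take a ++ x :: (l.take b).drop (a + 1) := by
      rw [h4, List.drop_eq_getElem_cons h2, h3]

/-- (`List.take_append_drop`, `List.drop_eq_getElem_cons`; `pos i < pos j ≤ length` by `Str.k_mono`) -/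
theorem sf_core_take (hs : c.W.Str (Y.tq c.p)) (i : ℝ) (hi : i ∈ c.W.G) (j : ℝ) (hj : j ∈ c.W.G) (hij : i < j) :
    c.W.E.st.take (c.W.pos j) = c.W.E.st.take (c.W.pos i) ++ c.W.stg i :: c.mid i j :=
  sf_core_take_aux _ _ _ _ (sf_core_stage c hs i hi (hij.trans_le (hs.gate.2 j hj).2)) (hs.k_mono i hi j hj hij).2

theorem sf_core_mid_split (hs : c.W.Str (Y.tq c.p)) (i : ℝ) (hi : i ∈ c.W.G) (g : ℝ) (hg : g ∈ c.W.G) (j : ℝ) (hj : j ∈ c.W.G) (hig : i < g) (hgj : g < j) :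
    c.mid i j = c.mid i g ++ c.W.stg g :: c.mid g j := by
  have h1 := sf_core_take c hs g hg j hj hgj
  have h2 : c.W.pos i + 1 ≤ (c.W.E.st.take (c.W.pos g)).length := by
    rw [List.length_take, min_eq_left (sf_core_pos_le c hs g hg)]
    exact (hs.k_mono i hi g hg hig).2
  show (c.W.E.st.take (c.W.pos j)).drop (c.W.pos i + 1) = _
  rw [h1, List.drop_append_of_le_length h2]
  rfl

/-- (`Valid.st_mono` on `sf_core_take`: `List.pairwise_append`) -/
theorem sf_core_take_le (hs : c.W.Str (Y.tq c.p)) (i : ℝ) (hi : i ∈ c.W.G) : ∀ σ ∈ c.W.E.st.take (c.W.pos i), σ.k ≤ c.W.k i := by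
  intro σ hσ
  rcases lt_or_eq_of_le (hs.gate.2 i hi).2 with h | h
  · have h1 := sf_core_take c hs i hi 1 hs.gate.1 h
    rw [hs.k_one.2.1, List.take_length] at h1
    have h2 := hs.valid.st_mono
    rw [h1, List.pairwise_append] at h2
    exact h2.2.2 σ hσ (c.W.stg i) List.mem_cons_self
  · rw [h, hs.k_one.1]
    exact (hs.valid.st_dep σ (List.mem_of_mem_take hσ)).2

/-- the stack between two gates (`Valid.st_mono`, `st_dep`, `st_meas`, `st_bd`, `GenLe`; for `j < 1` the depth of a stage before the position `pos j` is `≤ k j`, for `j = 1` it is `≤ kf = k 1`) -/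
theorem sf_core_mid_ok (C : ℕ) (hob : c.ob C) (i : ℝ) (hi : i ∈ c.W.G) (j : ℝ) (hj : j ∈ c.W.G) (hij : i < j) : StOk (c.W.k i) (c.W.k j) C C (c.mid i j) := by
  obtain ⟨hlen, -, hs, hgen, -⟩ := hob
  have hsub : (c.mid i j).Sublist c.W.E.st := (List.drop_sublist _ _).trans (List.take_sublist _ _)
  have hmem : ∀ σ ∈ c.mid i j, σ ∈ c.W.E.st := fun σ hσ => hsub.subset hσ
  have h1 := sf_core_take c hs i hi j hj hij
  refine ⟨hsub.length_le.trans hlen, fun σ hσ => ⟨?_, ?_⟩, hs.valid.st_mono.sublist hsub, fun σ hσ => hgen.2.2 σ (hmem σ hσ),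
    fun σ hσ m => ⟨hs.valid.st_meas σ (hmem σ hσ) m, hs.valid.st_bd σ (hmem σ hσ) m⟩⟩
  · have h2 : (c.W.E.st.take (c.W.pos j)).Pairwise fun σ σ' => σ.k ≤ σ'.k := hs.valid.st_mono.sublist (List.take_sublist _ _)
    rw [h1, List.pairwise_append, List.pairwise_cons] at h2
    exact h2.2.1.1 σ hσ
  · exact sf_core_take_le c hs j hj σ (List.mem_of_mem_drop hσ)

/-- generations of the gates (`GenLe`, `sf_core_stage`, `Str.k_one`) -/
theorem sf_core_gb_le (C : ℕ) (hob : c.ob C) (i : ℝ) (hi : i ∈ c.W.G) : c.W.gb i ≤ C := by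
  obtain ⟨-, -, hs, hgen, -⟩ := hob
  rcases lt_or_eq_of_le (hs.gate.2 i hi).2 with h | h
  · exact hgen.2.2 (c.W.stg i) (List.mem_of_getElem? (sf_core_stage c hs i hi h))
  · rw [h, hs.k_one.2.2]
    exact hgen.2.1

/-- the mask of a gate is a mask (`Str.meas`, `nn`, `sum_le`) -/
theorem sf_core_gM_mask (hs : c.W.Str (Y.tq c.p)) (i : ℝ) (hi : i ∈ c.W.G) (m : ℕ) : IsMask (c.W.gM i m) := by
  refine ⟨?_, fun x => ⟨?_, hs.sum_le i hi m x⟩⟩
  · unfold SfMD.gM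
    refine Finset.measurable_sum _ fun l _ => ?_
    by_cases h : c.W.iv i l = m
    · simp only [if_pos h]
      exact hs.meas i hi l
    · simp only [if_neg h]
      exact measurable_const
  · unfold SfMD.gM
    refine Finset.sum_nonneg fun l _ => ?_
    split_ifs
    · exact hs.nn i hi l x
    · exact le_rfl

/-- **the state entering the gate `j` in terms of the state entering the gate `i`** (`sf_core_take`, `gn_run_append`, `Xp.run`, `gn_run_anc` with `sf_core_take_le`) -/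
theorem sf_core_pre_split (hs : c.W.Str (Y.tq c.p)) (i : ℝ) (hi : i ∈ c.W.G) (j : ℝ) (hj : j ∈ c.W.G) (hij : i < j) (m' : ℕ) :
    c.W.pre j m' = Xp.run (c.W.k j) m' (c.mid i j) ((Y.M.sys c.p).tz (tmL (c.W.k i) (ancI (c.W.k j) (c.W.k i) m')) (c.W.k i) (c.W.gb i)
      (c.W.gM i (ancI (c.W.k j) (c.W.k i) m')) (c.W.pre i (ancI (c.W.k j) (c.W.k i) m'))) := by
  unfold SfMD.pre
  rw [sf_core_take c hs i hi j hj hij, gn_run_append, gn_run_anc (hs.k_mono i hi j hj hij).1 m' _ (sf_core_take_le c hs i hi)]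
  rfl

/-- **the run between two gates passes through an intermediate gate** (`sf_core_mid_split`, `gn_run_append`, `gn_run_anc` with `sf_core_mid_ok`) -/
theorem sf_core_run_split (C : ℕ) (hob : c.ob C) (i : ℝ) (hi : i ∈ c.W.G) (g : ℝ) (hg : g ∈ c.W.G) (j : ℝ) (hj : j ∈ c.W.G) (hig : i < g) (hgj : g < j) (m' : ℕ)
    (φ : (Y.M.sys c.p).Kc) :
    Xp.run (c.W.k j) m' (c.mid i j) φ = Xp.run (c.W.k j) m' (c.mid g j) ((Y.M.sys c.p).tz (tmL (c.W.k g) (ancI (c.W.k j) (c.W.k g) m')) (c.W.k g) (c.W.gb g)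
      (c.W.gM g (ancI (c.W.k j) (c.W.k g) m')) (Xp.run (c.W.k g) (ancI (c.W.k j) (c.W.k g) m') (c.mid i g) φ)) := by
  have hs := hob.2.2.1
  rw [sf_core_mid_split c hs i hi g hg j hj hig hgj, gn_run_append,
    gn_run_anc (hs.k_mono g hg j hj hgj).1 m' _ (fun σ hσ => ((sf_core_mid_ok c C hob i hi g hg hig).dep σ hσ).2)]
  rfl

/-- the ancestor of an interval of the gate `j` is an interval of the gate `i` (`gn_mem_ivs`, `gn_anc_anc`, `Str.k_rg`, `Str.k_mono`; `SfMD.ivs = ivs k0 i0 (k i)`) -/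
theorem sf_core_anc_mem (hs : c.W.Str (Y.tq c.p)) (i : ℝ) (hi : i ∈ c.W.G) (j : ℝ) (hj : j ∈ c.W.G) (hij : i < j) (m' : ℕ) (hm : m' ∈ c.W.ivs j) :
    ancI (c.W.k j) (c.W.k i) m' ∈ c.W.ivs i := by
  have h1 : ancI (c.W.k j) c.W.E.k0 m' = c.W.E.i0 := (gn_mem_ivs c.W.E.k0 c.W.E.i0 (c.W.k j) m').1 hm
  refine (gn_mem_ivs c.W.E.k0 c.W.E.i0 (c.W.k i) _).2 ?_
  rw [gn_anc_anc (hs.k_rg i hi).1 (hs.k_mono i hi j hj hij).1]
  exact h1

end

/-- additivity of `tz` in the mask (`gn_mulR_sum` with `J = Finset.univ : Finset (Fin 2)` or directly `Lp` ext with `gn_mulR_coe`; `map_add`) -/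
theorem sf_tz_add_mask {P : PkSys} (T : ℝ) (k b : ℕ) {M1 M2 : P.X → ℝ} (h1 : IsMask M1) (h2 : IsMask M2) (h12 : IsMask (fun x => M1 x + M2 x)) (v : P.Kc) :
    P.tz T k b (fun x => M1 x + M2 x) v = P.tz T k b M1 v + P.tz T k b M2 v := by
  unfold PkSys.tz
  rw [← map_add]
  congr 1
  apply Lp.ext
  filter_upwards [gn_mulR_coe k h12 (P.An T k b v), gn_mulR_coe k h1 (P.An T k b v), gn_mulR_coe k h2 (P.An T k b v),
    Lp.coeFn_add (P.mulR k M1 (P.An T k b v)) (P.mulR k M2 (P.An T k b v))] with x a1 a2 a3 a4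
  rw [a1, a4, Pi.add_apply, a2, a3, ← add_smul]
  push_cast
  rfl

/-- dyadic intervals are nested: `(m'+1) / 2^k' ≤ (⌊m' / 2^(k'-k)⌋ + 1) / 2^k` (`Nat.lt_succ_iff`, `Nat.div_add_mod`, `Nat.lt_div_mul_add`) -/
theorem sf_anc_nest {k k' : ℕ} (h : k ≤ k') (m' : ℕ) : tmL k' m' + (2 : ℝ)⁻¹ ^ k' ≤ tmL k (ancI k' k m') + (2 : ℝ)⁻¹ ^ k := by
  obtain ⟨d, rfl⟩ := Nat.exists_eq_add_of_le h
  unfold tmL ancI
  have hd : k + d - k = d := by omega
  rw [hd]
  have h1 : m' + 1 ≤ (m' / 2 ^ d + 1) * 2 ^ d := by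
    have hp : 0 < 2 ^ d := by positivity
    have h3 := Nat.div_add_mod m' (2 ^ d)
    have h4 := Nat.mod_lt m' hp
    have h5 : (m' / 2 ^ d + 1) * 2 ^ d = 2 ^ d * (m' / 2 ^ d) + 2 ^ d := by ring
    omega
  have h2 : ((m' : ℝ) + 1) ≤ (((m' / 2 ^ d : ℕ) : ℝ) + 1) * 2 ^ d := by exact_mod_cast h1
  have hk : (0 : ℝ) < 2 ^ k := by positivity
  have hdd : (0 : ℝ) < 2 ^ d := by positivity
  rw [inv_pow, inv_pow, pow_add]
  have e1 : (m' : ℝ) / (2 ^ k * 2 ^ d) + (2 ^ k * 2 ^ d)⁻¹ = ((m' : ℝ) + 1) / (2 ^ k * 2 ^ d) := by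
    field_simp
  have e2 : ((m' / 2 ^ d : ℕ) : ℝ) / 2 ^ k + (2 ^ k)⁻¹ = ((((m' / 2 ^ d : ℕ) : ℝ) + 1) * 2 ^ d) / (2 ^ k * 2 ^ d) := by
    field_simp
  rw [e1, e2]
  exact div_le_div_of_nonneg_right h2 (by positivity)

/-- sums over the intervals of a deeper cut (every interval of depth `k` has `2^(k'-k)` descendants: `Finset.sum_fiberwise_of_maps_to`, fibre `= ivs k m k'`, `gn_mem_ivs`, `gn_anc_anc`, `gn_ivs_card`) -/
theorem sf_ivs_fiber (k0 i0 k k' : ℕ) (h0 : k0 ≤ k) (h : k ≤ k') (f : ℕ → ℝ) :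
    ∑ m' ∈ ivs k0 i0 k', f (ancI k' k m') = 2 ^ (k' - k) * ∑ m ∈ ivs k0 i0 k, f m := by
  have hmap : ∀ m' ∈ ivs k0 i0 k', ancI k' k m' ∈ ivs k0 i0 k := by
    intro m' hm
    rw [gn_mem_ivs] at hm ⊢
    rw [gn_anc_anc h0 h]
    exact hm
  rw [← Finset.sum_fiberwise_of_maps_to hmap, Finset.mul_sum]
  refine Finset.sum_congr rfl fun m hm => ?_
  have hfib : (ivs k0 i0 k').filter (fun m' => ancI k' k m' = m) = ivs k m k' := by
    ext m'
    rw [Finset.mem_filter, gn_mem_ivs, gn_mem_ivs]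
    constructor
    · exact fun hh => hh.2
    · intro hh
      refine ⟨?_, hh⟩
      rw [← gn_anc_anc h0 h, hh]
      exact (gn_mem_ivs _ _ _ _).1 hm
  rw [Finset.sum_congr rfl (fun m' hm' => by rw [(Finset.mem_filter.1 hm').2] : ∀ m' ∈ (ivs k0 i0 k').filter (fun m' => ancI k' k m' = m), f (ancI k' k m') = f m),
    Finset.sum_const, hfib, gn_ivs_card, nsmul_eq_mul]
  push_cast
  rfl

end Claimed.Agent.R256
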