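import Claimed.Agent.R256.Soft.MCorePat

/-!
# Row 256 (S0496), unit SOFT, block M2 CORE (architect helper169), file 4: REG      -- KEEP

PAPER-FREE.  Rules: header of `Soft/MCoreDefs.lean`; notation: header of `Soft/MCoreGeo.lean`.
The event `{ρ : T ρ = Q.T, ray ρ ∈ Q}` lives on ONE interval `m`; its atoms lie in the cell of the absolute test that corresponds to `Q` with doubled widths; `Ext.reg` there; divide by `Ext.read`.
-/

set_option autoImplicit false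

namespace Claimed.Agent.R256

open MeasureTheory Claimed.Agent.R255

variable {Y : SfCy}

/-- the test with doubled widths -/
def SfTest.dbl (Q : SfTest) : SfTest := { Q with r := 2 * Q.r, f := 2 * Q.f }

theorem sf_mcore_reg_eqns_cite : True := by
  have := @SfTest.dbl.eq_1
  trivial

/-- **(LEAF L-256-SFC-PERT) perturbation of a ray in a test.**   PLAN (`T = Q.T ∈ [0,1]`, every difference of coordinates is `≤ δ ≤ 1` by `SfRay.dist`, every parameter of `Q` is `≤ M` by `SfTest.size`):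
`|X| ≤ 2M`, `|X'| ≤ 3M`, `|Bt| ≤ 2M`, `|Bt'| ≤ 4M`;   `|dBt| ≤ 2δ`, `|dYt| ≤ δ + δ (|X| + |X'|) ≤ 6Mδ`, `|dDt| ≤ 2δ`, `|X' Bt' - X Bt| ≤ 8Mδ`, `|X'² - X²| ≤ 5Mδ`, `|Bt'² - Bt²| ≤ 12Mδ`.
(1) `r + δ ≤ 2r`.  (2) `l r + 2δ ≤ 2 l r`.  (3) `l r² + 10Mδ ≤ 4 l r²`.  (4) `f + 29M²δ ≤ 2f`.  (5) `l f + 22M²δ ≤ 2 l f`. -/
theorem sf_core_pert (Q : SfTest) (l M δ : ℝ) (z z' : SfRay) (hM : 1 ≤ M) (hl : 0 < l) (hl1 : l ≤ 1) (hT : 0 ≤ Q.T ∧ Q.T ≤ 1) (hr : 0 < Q.r ∧ Q.r ≤ M) (hf : 0 < Q.f)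
    (hsz : Q.size ≤ M) (hz : Q.Mem l z) (hd : z'.dist z ≤ δ) (hδ1 : δ ≤ 1)
    (h1 : 100 * M ^ 2 * δ ≤ l * Q.r) (h2 : 100 * M ^ 2 * δ ≤ l * Q.r ^ 2) (h3 : 100 * M ^ 2 * δ ≤ l * Q.f) : Q.dbl.Mem l z' := by
  have habs : ∀ u v U V : ℝ, |u| ≤ U → |v| ≤ V → |u * v| ≤ U * V := by
    intro u v U V hu hv
    rw [abs_mul]
    exact mul_le_mul hu hv (abs_nonneg _) ((abs_nonneg _).trans hu)
  obtain ⟨T, x, b, y, c, d, al, be, K, r, f⟩ := Q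
  obtain ⟨X, B, Yc, N, D⟩ := z
  obtain ⟨X', B', Yc', N', D'⟩ := z'
  simp only [SfTest.size, max_le_iff] at hsz
  obtain ⟨hx, hb, hy, hc, hd', hal, hbe, hK⟩ := hsz
  simp only [SfRay.dist, max_le_iff] at hd
  obtain ⟨dX, dB, dY, dN, dD⟩ := hd
  simp only [SfTest.Mem, SfRay.Bt, SfRay.Yt, SfRay.Dt] at hz
  obtain ⟨m1, m2, m3, m4, m5⟩ := hz
  simp only at hT hr hf h1 h2 h3
  obtain ⟨hT0, hT1⟩ := hT
  obtain ⟨hr0, hrM⟩ := hr
  have hδ0 : 0 ≤ δ := (abs_nonneg _).trans dX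
  have hM0 : 0 ≤ M := by linarith
  have hMδ : δ ≤ M * δ := by nlinarith
  have hM2δ : M * δ ≤ M ^ 2 * δ := by nlinarith
  have hlr : l * r ≤ r := by nlinarith
  have hlf : l * f ≤ f := by nlinarith
  have hTabs : |T| ≤ 1 := by rw [abs_of_nonneg hT0]; exact hT1
  -- sizes
  have sX : |X| ≤ 2 * M := by
    have : |X| ≤ |X - x| + |x| := by
      have := abs_add_le (X - x) x
      simpa using this
    linarith
  have sX' : |X'| ≤ 3 * M := by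
    have : |X'| ≤ |X' - X| + |X| := by
      have := abs_add_le (X' - X) X
      simpa using this
    linarith
  have sBt : |B + T * X| ≤ 2 * M := by
    have : |B + T * X| ≤ |B + T * X - b| + |b| := by
      have := abs_add_le (B + T * X - b) b
      simpa using this
    linarith
  -- differences
  have eBt : |(B' + T * X') - (B + T * X)| ≤ 2 * δ := by
    have e : (B' + T * X') - (B + T * X) = (B' - B) + T * (X' - X) := by ring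
    rw [e]
    have := habs T (X' - X) 1 δ hTabs dX
    have := abs_add_le (B' - B) (T * (X' - X))
    linarith
  have sBt' : |B' + T * X'| ≤ 4 * M := by
    have : |B' + T * X'| ≤ |(B' + T * X') - (B + T * X)| + |B + T * X| := by
      have := abs_add_le ((B' + T * X') - (B + T * X)) (B + T * X)
      simpa using this
    linarith
  have eXX : |X' ^ 2 - X ^ 2| ≤ 5 * (M * δ) := by
    have e : X' ^ 2 - X ^ 2 = (X' - X) * (X' + X) := by ring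
    rw [e]
    have h5 : |X' + X| ≤ 5 * M := by
      have := abs_add_le X' X
      linarith
    have := habs (X' - X) (X' + X) δ (5 * M) dX h5
    linarith
  have eYt : |(Yc' + T * X' ^ 2) - (Yc + T * X ^ 2)| ≤ 6 * (M * δ) := by
    have e : (Yc' + T * X' ^ 2) - (Yc + T * X ^ 2) = (Yc' - Yc) + T * (X' ^ 2 - X ^ 2) := by ring
    rw [e]
    have := habs T (X' ^ 2 - X ^ 2) 1 _ hTabs eXX
    have := abs_add_le (Yc' - Yc) (T * (X' ^ 2 - X ^ 2))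
    linarith
  have eDt : |(D' + T * N') - (D + T * N)| ≤ 2 * δ := by
    have e : (D' + T * N') - (D + T * N) = (D' - D) + T * (N' - N) := by ring
    rw [e]
    have := habs T (N' - N) 1 δ hTabs dN
    have := abs_add_le (D' - D) (T * (N' - N))
    linarith
  have eXB : |X' * (B' + T * X') - X * (B + T * X)| ≤ 8 * (M * δ) := by
    have e : X' * (B' + T * X') - X * (B + T * X) = X' * ((B' + T * X') - (B + T * X)) + (X' - X) * (B + T * X) := by ring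
    rw [e]
    have a1 := habs X' ((B' + T * X') - (B + T * X)) _ _ sX' eBt
    have a2 := habs (X' - X) (B + T * X) _ _ dX sBt
    have := abs_add_le (X' * ((B' + T * X') - (B + T * X))) ((X' - X) * (B + T * X))
    linarith
  have eBB : |(B' + T * X') ^ 2 - (B + T * X) ^ 2| ≤ 12 * (M * δ) := by
    have e : (B' + T * X') ^ 2 - (B + T * X) ^ 2 = ((B' + T * X') - (B + T * X)) * ((B' + T * X') + (B + T * X)) := by ring
    rw [e]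
    have h6 : |(B' + T * X') + (B + T * X)| ≤ 6 * M := by
      have := abs_add_le (B' + T * X') (B + T * X)
      linarith
    have := habs _ _ _ _ eBt h6
    linarith
  obtain ⟨Bt, hBt⟩ : ∃ w, w = B + T * X := ⟨_, rfl⟩
  obtain ⟨Bt', hBt'⟩ : ∃ w, w = B' + T * X' := ⟨_, rfl⟩
  obtain ⟨Yt, hYt⟩ : ∃ w, w = Yc + T * X ^ 2 := ⟨_, rfl⟩
  obtain ⟨Yt', hYt'⟩ : ∃ w, w = Yc' + T * X' ^ 2 := ⟨_, rfl⟩
  obtain ⟨Dt, hDt⟩ : ∃ w, w = D + T * N := ⟨_, rfl⟩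
  obtain ⟨Dt', hDt'⟩ : ∃ w, w = D' + T * N' := ⟨_, rfl⟩
  simp only [SfTest.Mem, SfRay.Bt, SfRay.Yt, SfRay.Dt, SfTest.dbl]
  rw [← hBt', ← hYt', ← hDt']
  rw [← hBt] at m2 m3 m4 m5
  rw [← hYt] at m3 m4 m5
  rw [← hDt] at m5
  rw [← hBt, ← hBt'] at eBt eXB eBB
  rw [← hYt, ← hYt'] at eYt
  rw [← hDt, ← hDt'] at eDt
  refine ⟨?_, ?_, ?_, ?_, ?_⟩
  · have : |X' - x| ≤ |X' - X| + |X - x| := by
      have := abs_add_le (X' - X) (X - x)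
      simpa using this
    linarith
  · have : |Bt' - b| ≤ |Bt' - Bt| + |Bt - b| := by
      have := abs_add_le (Bt' - Bt) (Bt - b)
      simpa using this
    linarith
  · have e : Yt' - y - 2 * x * (Bt' - b) = (Yt - y - 2 * x * (Bt - b)) + ((Yt' - Yt) - 2 * (x * (Bt' - Bt))) := by ring
    rw [e]
    have a1 := habs x (Bt' - Bt) _ _ hx eBt
    have a2 := abs_add_le (Yt - y - 2 * x * (Bt - b)) ((Yt' - Yt) - 2 * (x * (Bt' - Bt)))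
    have a3 := abs_sub (Yt' - Yt) (2 * (x * (Bt' - Bt)))
    have a4 : |2 * (x * (Bt' - Bt))| = 2 * |x * (Bt' - Bt)| := by rw [abs_mul, abs_two]
    have a5 : 0 ≤ l * r ^ 2 := by positivity
    have a6 : l * (2 * r) ^ 2 = 4 * (l * r ^ 2) := by ring
    linarith
  · have e : N' - c - al * X' - be * X' ^ 2 - K * (Yt' - 2 * X' * Bt')
        = (N - c - al * X - be * X ^ 2 - K * (Yt - 2 * X * Bt))
          + ((N' - N) + (-(al * (X' - X)) + (-(be * (X' ^ 2 - X ^ 2)) + (-(K * (Yt' - Yt)) + 2 * (K * (X' * Bt' - X * Bt)))))) := by ring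
    rw [e]
    have a1 := habs al (X' - X) _ _ hal dX
    have a2 := habs be (X' ^ 2 - X ^ 2) _ _ hbe eXX
    have a3 := habs K (Yt' - Yt) _ _ hK eYt
    have a4 := habs K (X' * Bt' - X * Bt) _ _ hK eXB
    have b0 := abs_add_le (N - c - al * X - be * X ^ 2 - K * (Yt - 2 * X * Bt)) ((N' - N) + (-(al * (X' - X)) + (-(be * (X' ^ 2 - X ^ 2)) + (-(K * (Yt' - Yt)) + 2 * (K * (X' * Bt' - X * Bt))))))
    have b1 := abs_add_le (N' - N) (-(al * (X' - X)) + (-(be * (X' ^ 2 - X ^ 2)) + (-(K * (Yt' - Yt)) + 2 * (K * (X' * Bt' - X * Bt)))))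
    have b2 := abs_add_le (-(al * (X' - X))) (-(be * (X' ^ 2 - X ^ 2)) + (-(K * (Yt' - Yt)) + 2 * (K * (X' * Bt' - X * Bt))))
    have b3 := abs_add_le (-(be * (X' ^ 2 - X ^ 2))) (-(K * (Yt' - Yt)) + 2 * (K * (X' * Bt' - X * Bt)))
    have b4 := abs_add_le (-(K * (Yt' - Yt))) (2 * (K * (X' * Bt' - X * Bt)))
    rw [abs_neg] at b2 b3 b4
    have b5 : |2 * (K * (X' * Bt' - X * Bt))| = 2 * |K * (X' * Bt' - X * Bt)| := by rw [abs_mul, abs_two]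
    have q1 : M * (5 * (M * δ)) = 5 * (M ^ 2 * δ) := by ring
    have q2 : M * (6 * (M * δ)) = 6 * (M ^ 2 * δ) := by ring
    have q3 : M * (8 * (M * δ)) = 8 * (M ^ 2 * δ) := by ring
    linarith
  · have e : Dt' - d - al * Bt' - be * Yt' + K * Bt' ^ 2
        = (Dt - d - al * Bt - be * Yt + K * Bt ^ 2)
          + ((Dt' - Dt) + (-(al * (Bt' - Bt)) + (-(be * (Yt' - Yt)) + K * (Bt' ^ 2 - Bt ^ 2)))) := by ring
    rw [e]
    have a1 := habs al (Bt' - Bt) _ _ hal eBt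
    have a2 := habs be (Yt' - Yt) _ _ hbe eYt
    have a3 := habs K (Bt' ^ 2 - Bt ^ 2) _ _ hK eBB
    have b0 := abs_add_le (Dt - d - al * Bt - be * Yt + K * Bt ^ 2) ((Dt' - Dt) + (-(al * (Bt' - Bt)) + (-(be * (Yt' - Yt)) + K * (Bt' ^ 2 - Bt ^ 2))))
    have b1 := abs_add_le (Dt' - Dt) (-(al * (Bt' - Bt)) + (-(be * (Yt' - Yt)) + K * (Bt' ^ 2 - Bt ^ 2)))
    have b2 := abs_add_le (-(al * (Bt' - Bt))) (-(be * (Yt' - Yt)) + K * (Bt' ^ 2 - Bt ^ 2))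
    have b3 := abs_add_le (-(be * (Yt' - Yt))) (K * (Bt' ^ 2 - Bt ^ 2))
    rw [abs_neg] at b2 b3
    have q2 : M * (6 * (M * δ)) = 6 * (M ^ 2 * δ) := by ring
    have q3 : M * (12 * (M * δ)) = 12 * (M ^ 2 * δ) := by ring
    linarith

/-- **(LEAF L-256-SFC-RCELL) a test of the frame is a cell.**   PLAN: `sf_frame_tst_surj c.fr _ Q'` gives `Qa : SfTest` with `c.fr.tst Qa = Q'`; from the `T` component and `hT`: `Qa.T = tmL (k i) m`;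
`q : CyT := ⟨Qa.x, Qa.b, Qa.y, Qa.r, Qa.f, Qa.c, Qa.d, Qa.al, Qa.be, Qa.K⟩`, `sfTestAt (tmL ..) q = Qa`; `SfCyOk.tq_surj` gives the test.   `ok`: `SfCyOk.ok`, `Qa.r = Q'.r r0`, `Qa.f = Q'.f F0`.   `wt`: `SfCyOk.wt`, `sf_frame_w`.
Cell: `sf_core_cell_mem`, `sf_frame_mem` with `ℓ_i / L = len i` (`sf_core_len`). -/
theorem sf_core_reg_cell (hO : SfCyOk Y) {de : ℝ} (c : SfCfg Y de) (C : ℕ) (hob : c.ob C) (i : ℝ) (hi : i ∈ c.W.G) (Q' : SfTest) (hr : 0 < Q'.r) (hf : 0 < Q'.f)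
    (hdl : Y.dl c.p (c.W.k i) / c.W.Q0.f ≤ Q'.f) (m : ℕ) (hT : Q'.T = (tmL (c.W.k i) m - tmL c.W.E.k0 c.W.E.i0) / (2 : ℝ)⁻¹ ^ c.W.E.k0) :
    ∃ Qa : (Y.M.sys c.p).Tst, (Y.M.sys c.p).ok Qa (c.W.k i) ∧ (Y.M.sys c.p).wt Qa = Q'.w Y.η * cyWt Y.η c.W.Q0 ∧
      ∀ x, x ∈ (Y.M.sys c.p).cell Qa (tmL (c.W.k i) m) (c.W.k i) ↔
        Q'.Mem (c.D.len i) (c.fr.ray (sfRayAt (tmL (c.W.k i) m) (Y.co c.p (tmL (c.W.k i) m) x))) := by
  have hφ : c.fr.Pos := sf_core_fr_pos hO c C hob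
  have hs : c.W.Str (Y.tq c.p) := hob.2.2.1
  obtain ⟨hL, hr0, hF0⟩ := hφ
  have eT0 : c.fr.T0 = tmL c.W.E.k0 c.W.E.i0 := rfl
  have eL : c.fr.L = (2 : ℝ)⁻¹ ^ c.W.E.k0 := rfl
  have er0 : c.fr.r0 = c.W.Q0.r := rfl
  have eF0 : c.fr.F0 = c.W.Q0.f := rfl
  obtain ⟨Qs, hQs⟩ := sf_frame_tst_surj c.fr ⟨hL, hr0, hF0⟩ Q'
  have hTs : Qs.T = tmL (c.W.k i) m := by
    have h1 : (c.fr.tst Qs).T = (Qs.T - c.fr.T0) / c.fr.L := rfl
    rw [hQs, hT, eT0, eL] at h1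
    rw [eL] at hL
    have h2 := (div_left_inj' hL.ne').mp h1
    linarith
  have hrs : Q'.r = Qs.r / c.fr.r0 := by rw [← hQs]; rfl
  have hfs : Q'.f = Qs.f / c.fr.F0 := by rw [← hQs]; rfl
  have hrs0 : 0 < Qs.r := by
    rw [hrs] at hr
    exact (div_pos_iff_of_pos_right hr0).mp hr
  have hfs0 : 0 < Qs.f := by
    rw [hfs] at hf
    exact (div_pos_iff_of_pos_right hF0).mp hf
  obtain ⟨Qa, hQa⟩ := hO.tq_surj c.p ⟨Qs.x, Qs.b, Qs.y, Qs.r, Qs.f, Qs.c, Qs.d, Qs.al, Qs.be, Qs.K⟩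
  have hat : sfTestAt (tmL (c.W.k i) m) (Y.tq c.p Qa) = Qs := by
    rw [hQa, ← hTs]
    rfl
  refine ⟨Qa, ?_, ?_, ?_⟩
  · rw [hO.ok, hQa]
    refine ⟨hrs0, hfs0, ?_⟩
    show Y.dl c.p (c.W.k i) ≤ Qs.f
    rw [hfs, ← eF0] at hdl
    exact (div_le_div_iff_of_pos_right hF0).mp hdl
  · rw [hO.wt, hQa]
    have h1 := sf_frame_w c.fr ⟨hL, hr0, hF0⟩ Y.η Qs hrs0.le hfs0.le
    rw [hQs] at h1
    rw [h1]
    have h2 : cyWt Y.η c.W.Q0 = c.fr.r0 ^ (3 + Y.η) * c.fr.F0 ^ (1 - Y.η) := rfl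
    have h3 : 0 < c.fr.r0 ^ (3 + Y.η) * c.fr.F0 ^ (1 - Y.η) := mul_pos (Real.rpow_pos_of_pos hr0 _) (Real.rpow_pos_of_pos hF0 _)
    rw [h2, div_mul_cancel₀ _ h3.ne']
    rfl
  · intro x
    rw [sf_core_cell_mem hO, hat, ← sf_frame_mem c.fr ⟨hL, hr0, hF0⟩ Qs, hQs]
    have h1 : (2 : ℝ)⁻¹ ^ c.W.k i / c.fr.L = c.D.len i := by
      rw [sf_core_len c hs i hi, eL]
      rw [eL] at hL
      field_simp
    rw [h1]

/-- numerics of the perturbation -/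
theorem sf_core_reg_num (s t μ l w : ℝ) (hs : 0 < s) (hs1 : s ≤ 1) (hμ : 4 / t + 3 ≤ μ) (h100 : 100 ≤ s ^ (-(1 : ℝ)))
    (hl : s ^ (2 : ℝ) ≤ l) (hw : s ^ (2 / t) ≤ w) : 100 * (s ^ (-(1 / t))) ^ 2 * s ^ μ ≤ l * w := by
  have h1 : (s ^ (-(1 / t))) ^ 2 = s ^ (-(2 / t)) := by
    rw [← Real.rpow_natCast, ← Real.rpow_mul hs.le]
    congr 1
    push_cast
    ring
  have h2 : s ^ μ ≤ s ^ (4 / t + 3) := Real.rpow_le_rpow_of_exponent_ge hs hs1 hμ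
  have p1 : 0 < s ^ (-(2 / t)) := Real.rpow_pos_of_pos hs _
  have p2 : 0 < s ^ μ := Real.rpow_pos_of_pos hs _
  have p3 : 0 < s ^ (2 : ℝ) := Real.rpow_pos_of_pos hs _
  have p4 : 0 < s ^ (2 / t) := Real.rpow_pos_of_pos hs _
  rw [h1]
  calc 100 * s ^ (-(2 / t)) * s ^ μ ≤ s ^ (-(1 : ℝ)) * s ^ (-(2 / t)) * s ^ (4 / t + 3) := by
        refine mul_le_mul (mul_le_mul_of_nonneg_right h100 p1.le) h2 p2.le ?_
        exact mul_nonneg (Real.rpow_pos_of_pos hs _).le p1.le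
    _ = s ^ (2 : ℝ) * s ^ (2 / t) := by
        rw [← Real.rpow_add hs, ← Real.rpow_add hs, ← Real.rpow_add hs]
        congr 1
        ring
    _ ≤ l * w := mul_le_mul hl hw p4.le (p3.le.trans hl)

/-- the weight of the doubled test -/
theorem sf_core_reg_w (Q : SfTest) (η : ℝ) (hr : 0 ≤ Q.r) (hf : 0 ≤ Q.f) : Q.dbl.w η = 16 * Q.w η := by
  show (2 * Q.r) ^ (3 + η) * (2 * Q.f) ^ (1 - η) = 16 * (Q.r ^ (3 + η) * Q.f ^ (1 - η))
  rw [Real.mul_rpow (by norm_num) hr, Real.mul_rpow (by norm_num) hf]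
  have : (2 : ℝ) ^ (3 + η) * 2 ^ (1 - η) = 16 := by
    rw [← Real.rpow_add (by norm_num)]
    have : (3 + η + (1 - η) : ℝ) = ((4 : ℕ) : ℝ) := by push_cast; ring
    rw [this, Real.rpow_natCast]
    norm_num
  calc (2 : ℝ) ^ (3 + η) * Q.r ^ (3 + η) * (2 ^ (1 - η) * Q.f ^ (1 - η))
      = ((2 : ℝ) ^ (3 + η) * 2 ^ (1 - η)) * (Q.r ^ (3 + η) * Q.f ^ (1 - η)) := by ring
    _ = _ := by rw [this]

/-- the final division -/
theorem sf_core_reg_div (s t p d i e ka cy ek w pr tot : ℝ) (hs : 0 < s) (he : 0 < e) (hka : 0 < ka) (hcy : 0 < cy) (hw : 0 ≤ w) (hpr : 0 ≤ pr)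
    (hek : ek = e / (ka * cy)) (h16 : 16 ≤ s ^ (-(t / 2))) (h1 : pr * tot ≤ s ^ (-(t / 4)) * ka * s ^ (p * i) * (16 * w * cy))
    (h2 : s ^ (t / 4) * e * s ^ (-(d * i)) ≤ tot) : pr ≤ s ^ (-t) * s ^ ((p + d) * i) / ek * w := by
  have p0 : 0 < s ^ (t / 4) * e * s ^ (-(d * i)) := mul_pos (mul_pos (Real.rpow_pos_of_pos hs _) he) (Real.rpow_pos_of_pos hs _)
  refine le_of_mul_le_mul_right ?_ p0
  have e1 : s ^ (-t) * s ^ (t / 4) = s ^ (-(t / 2)) * s ^ (-(t / 4)) := by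
    rw [← Real.rpow_add hs, ← Real.rpow_add hs]
    congr 1
    ring
  have e2 : s ^ ((p + d) * i) * s ^ (-(d * i)) = s ^ (p * i) := by
    rw [← Real.rpow_add hs]
    congr 1
    ring
  have e3 : s ^ (-t) * s ^ ((p + d) * i) / ek * w * (s ^ (t / 4) * e * s ^ (-(d * i)))
      = (s ^ (-t) * s ^ (t / 4)) * (s ^ ((p + d) * i) * s ^ (-(d * i))) * (ka * cy) * w := by
    rw [hek]
    field_simp
  rw [e3, e1, e2]
  have q1 : 0 < s ^ (-(t / 4)) := Real.rpow_pos_of_pos hs _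
  have q2 : 0 < s ^ (p * i) := Real.rpow_pos_of_pos hs _
  calc pr * (s ^ (t / 4) * e * s ^ (-(d * i))) ≤ pr * tot := mul_le_mul_of_nonneg_left h2 hpr
    _ ≤ s ^ (-(t / 4)) * ka * s ^ (p * i) * (16 * w * cy) := h1
    _ = 16 * (s ^ (-(t / 4)) * s ^ (p * i) * (ka * cy) * w) := by ring
    _ ≤ s ^ (-(t / 2)) * (s ^ (-(t / 4)) * s ^ (p * i) * (ka * cy) * w) := by
        refine mul_le_mul_of_nonneg_right h16 ?_
        positivity
    _ = _ := by ring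

/-- one configuration -/
theorem sf_core_reg_one (hO : SfCyOk Y) (π : SfPar) (Ls : ℝ) (hE : SfCoreHyp Y π) (t : ℝ) (ht : 0 < t) (c : SfCfg Y π.d) (C : ℕ) (hob : c.ob C)
    (hext : SfMD.Ext Y c.p c.W π.p π.d Ls c.ε (t / 4)) (hμ : 4 / t + 3 ≤ c.μ)
    (hs : 0 < c.D.s ∧ c.D.s < 1) (hg : ∀ i ∈ c.D.G, 0 ≤ i ∧ i ≤ 1) (hlen : ∀ i ∈ c.D.G, c.D.s ^ (i + 1) ≤ c.D.len i)
    (hown : ∀ i ∈ c.D.G, ∀ ρ, 0 ≤ c.D.T i ρ ∧ c.D.T i ρ + c.D.len i ≤ 1)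
    (h100 : 100 ≤ c.D.s ^ (-(1 : ℝ))) (h16 : 16 ≤ c.D.s ^ (-(t / 2))) (i : ℝ) (hi : i ∈ c.D.G) (Q : SfTest) (hQ : c.D.Adm π t i Q) :
    (c.D.P i).pr (fun ρ => c.D.T i ρ = Q.T ∧ Q.Mem (c.D.len i) (c.D.ray i ρ)) ≤ c.D.s ^ (-t) * c.D.s ^ ((π.p + π.d) * i) / c.D.ek * Q.w π.η := by
  classical
  obtain ⟨hs0, hs1⟩ := hs
  have hiW : i ∈ c.W.G := by rw [← c.sh.hG]; exact hi
  have hst : c.W.Str (Y.tq c.p) := hob.2.2.1
  obtain ⟨hgd, hQ0r, hQ0f, _, _⟩ := hO.af C c.A c.p c.W.E c.W.Q0 hob.2.1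
  have hsE : c.W.E.s = c.D.s := c.sh.hs.symm
  obtain ⟨hr1, hr2, hf1, hf2, hsz, hhy⟩ := hQ
  have pt : 0 < c.D.s ^ (1 / t) := Real.rpow_pos_of_pos hs0 _
  have hr0 : 0 < Q.r := pt.trans_le hr1
  have hf0 : 0 < Q.f := pt.trans_le hf1
  have he0 : 0 < c.W.E.e := hst.valid.e_pos
  have hka0 : 0 < c.W.E.ka := hst.valid.ka_pos
  have hcy0 : 0 < cyWt Y.η c.W.Q0 := mul_pos (Real.rpow_pos_of_pos hQ0r _) (Real.rpow_pos_of_pos hQ0f _)
  have hek0 : 0 < c.D.ek := by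
    rw [c.sh.hek]
    exact div_pos he0 (mul_pos hka0 hcy0)
  have hw0 : 0 ≤ Q.w π.η := mul_nonneg (Real.rpow_nonneg hr0.le _) (Real.rpow_nonneg hf0.le _)
  have hpr0 : 0 ≤ (c.D.P i).pr (fun ρ => c.D.T i ρ = Q.T ∧ Q.Mem (c.D.len i) (c.D.ray i ρ)) := by
    unfold FLaw.pr
    refine Finset.sum_nonneg fun ρ _ => ?_
    split_ifs
    · exact (c.D.P i).nonneg ρ
    · exact le_refl 0
  by_cases hex : ∃ ρ0, c.D.T i ρ0 = Q.T ∧ Q.Mem (c.D.len i) (c.D.ray i ρ0)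
  swap
  · have h0 : (c.D.P i).pr (fun ρ => c.D.T i ρ = Q.T ∧ Q.Mem (c.D.len i) (c.D.ray i ρ)) = 0 := by
      unfold FLaw.pr
      refine Finset.sum_eq_zero fun ρ _ => ?_
      rw [if_neg]
      exact fun hρ => hex ⟨ρ, hρ⟩
    rw [h0]
    have := Real.rpow_pos_of_pos hs0 (-t)
    have := Real.rpow_pos_of_pos hs0 ((π.p + π.d) * i)
    positivity
  obtain ⟨ρ0, hT0, hM0⟩ := hex
  obtain ⟨Ev, hEv⟩ : ∃ Ev : c.D.Row i → Prop, Ev = fun ρ => c.D.T i ρ = Q.T ∧ Q.Mem (c.D.len i) (c.D.ray i ρ) := ⟨_, rfl⟩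
  rw [← hEv] at hpr0 ⊢
  obtain ⟨m, hm⟩ : ∃ m, m = c.im i ρ0 := ⟨_, rfl⟩
  have hLpos : (0 : ℝ) < (2 : ℝ)⁻¹ ^ c.W.E.k0 := by positivity
  have him : ∀ ρ, Ev ρ → c.im i ρ = m := by
    intro ρ hρ
    rw [hEv] at hρ
    have h1 : c.D.T i ρ = c.D.T i ρ0 := hρ.1.trans hT0.symm
    rw [sf_core_T c i hiW ρ, sf_core_T c i hiW ρ0] at h1
    have h2 := (div_left_inj' hLpos.ne').mp h1
    have h3 : c.tm i ρ = c.tm i ρ0 := by linarith
    have h4 : tmL (c.W.k i) (c.im i ρ) = tmL (c.W.k i) (c.im i ρ0) := h3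
    unfold tmL at h4
    have h5 := (div_left_inj' (by positivity : ((2 : ℝ) ^ c.W.k i) ≠ 0)).mp h4
    rw [hm]
    exact_mod_cast h5
  have hlen0 : 0 < c.D.len i := (Real.rpow_pos_of_pos hs0 _).trans_le (hlen i hi)
  have hlen1 : c.D.len i ≤ 1 := by
    have := hown i hi ρ0
    linarith [this.1, this.2]
  have hlen2 : c.D.s ^ (2 : ℝ) ≤ c.D.len i := by
    refine le_trans ?_ (hlen i hi)
    exact Real.rpow_le_rpow_of_exponent_ge hs0 hs1.le (by linarith [(hg i hi).2])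
  have hQT : 0 ≤ Q.T ∧ Q.T ≤ 1 := by
    have := hown i hi ρ0
    rw [hT0] at this
    exact ⟨this.1, by linarith [this.2]⟩
  -- the doubled test is a cell
  have hdl : Y.dl c.p (c.W.k i) / c.W.Q0.f ≤ Q.dbl.f := by
    have e2 : Q.dbl.f = 2 * Q.f := rfl
    rw [e2]
    cases hy : Y.hyb with
    | true =>
      have h1 : π.hyb = true := by rw [hE.par.2.2, hy]
      have h2 := hhy h1
      have h3 := sf_core_dl_le hO c C hob i hiW ρ0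
      linarith
    | false =>
      rw [hO.clD hy, zero_div]
      linarith
  have hTm : Q.dbl.T = (tmL (c.W.k i) m - tmL c.W.E.k0 c.W.E.i0) / (2 : ℝ)⁻¹ ^ c.W.E.k0 := by
    have e2 : Q.dbl.T = Q.T := rfl
    rw [e2, ← hT0, sf_core_T c i hiW ρ0, hm]
    rfl
  obtain ⟨Qa, hok, hwt, hcell⟩ := sf_core_reg_cell hO c C hob i hiW Q.dbl (by show 0 < 2 * Q.r; linarith) (by show 0 < 2 * Q.f; linarith) hdl m hTm
  -- atoms lie in the cell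
  have hM1 : 1 ≤ c.D.s ^ (-(1 / t)) := by
    refine Real.one_le_rpow_of_pos_of_le_one_of_nonpos hs0 hs1.le ?_
    have : 0 < 1 / t := by positivity
    linarith
  have hδ1 : c.D.s ^ c.μ ≤ 1 := by
    refine Real.rpow_le_one hs0.le hs1.le ?_
    have : 0 < 4 / t := by positivity
    linarith
  have h2t : c.D.s ^ (2 / t) ≤ c.D.s ^ (1 / t) := by
    refine Real.rpow_le_rpow_of_exponent_ge hs0 hs1.le ?_
    rw [div_le_div_iff_of_pos_right ht]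
    norm_num
  have hrr : c.D.s ^ (2 / t) ≤ Q.r ^ 2 := by
    have : c.D.s ^ (2 / t) = (c.D.s ^ (1 / t)) ^ 2 := by
      rw [← Real.rpow_natCast, ← Real.rpow_mul hs0.le]
      congr 1
      push_cast
      ring
    rw [this]
    exact pow_le_pow_left₀ pt.le hr1 2
  have hat : ∀ ρ, Ev ρ → ∀ x ∈ c.sh.atm i ρ, x ∈ (Y.M.sys c.p).cell Qa (tmL (c.W.k i) m) (c.W.k i) := by
    intro ρ hρ x hx
    rw [hcell]
    have h1 := c.sh.small i hiW ρ x hx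
    have h2 : c.W.T i (c.sh.lb i ρ) = tmL (c.W.k i) m := by
      rw [← him ρ hρ]
      rfl
    rw [h2, hsE] at h1
    rw [hEv] at hρ
    exact sf_core_pert Q (c.D.len i) (c.D.s ^ (-(1 / t))) (c.D.s ^ c.μ) (c.D.ray i ρ) _ hM1 hlen0 hlen1 hQT ⟨hr0, hr2⟩ hf0 hsz hρ.2 h1 hδ1
      (sf_core_reg_num _ t _ _ _ hs0 hs1.le hμ h100 hlen2 (h2t.trans hr1))
      (sf_core_reg_num _ t _ _ _ hs0 hs1.le hμ h100 hlen2 hrr)
      (sf_core_reg_num _ t _ _ _ hs0 hs1.le hμ h100 hlen2 (h2t.trans hf1))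
  -- the mass of the event
  have hmi : m ∈ c.W.ivs i := by
    rw [hm]
    exact hst.iv_in i hiW _
  have hsum : (c.D.P i).pr Ev * c.W.tot i = c.rdE i Ev m (c.W.pre i m) := by
    rw [sf_core_pr c hst i hiW Ev]
    refine Finset.sum_eq_single_of_mem m hmi ?_
    intro m' _ hne
    have hw : c.wS i Ev m' = fun _ => 0 := by
      funext x
      unfold SfCfg.wS
      refine Finset.sum_eq_zero fun ρ _ => ?_
      rw [if_neg]
      rintro ⟨a1, a2⟩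
      exact hne (a2.symm.trans (him ρ a1))
    unfold SfCfg.rdE PkSys.en
    rw [hw]
    simp
  have hle : c.rdE i Ev m (c.W.pre i m) ≤ c.W.E.s ^ (-(t / 4)) * c.W.E.ka * c.W.E.s ^ (π.p * i) * (Y.M.sys c.p).wt Qa := by
    refine le_trans ?_ (hext.reg i hiW m hmi Qa hok)
    refine gn_en_le_ms _ _ _ (sf_core_wS_mask c hst i hiW Ev m) ((hE.gen.tight c.p hgd).cellM _ _ _) ?_ _
    intro x hx
    have h1 := sf_core_wS_supp c i Ev m x hx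
    simp only [SfCfg.aS, Set.mem_iUnion, exists_prop] at h1
    obtain ⟨ρ, ⟨a1, _⟩, a3⟩ := h1
    exact hat ρ a1 x a3
  rw [hwt, sf_core_reg_w Q Y.η hr0.le hf0.le, hsE, ← hE.par.2.1] at hle
  have hread := hext.read i hiW
  rw [hsE] at hread
  refine sf_core_reg_div c.D.s t π.p π.d i c.W.E.e c.W.E.ka (cyWt π.η c.W.Q0) c.D.ek (Q.w π.η) _ (c.W.tot i) hs0 he0 hka0 ?_ hw0 hpr0 ?_ h16 ?_ hread
  · rw [hE.par.2.1]; exact hcy0
  · rw [hE.par.2.1]; exact c.sh.hek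
  · rw [hsum]
    exact hle

/-- **(LEAF L-256-SFC-REG) reg.**   PLAN.  Constants: `a = t/4`, `μ0 = 4/t + 3`, `n0` with `100 ≤ 2^n` and `16 ≤ 2^(t n / 2)`.   Use `sf_core_sc` (tolerance `1`), `sf_core_own` through `sf_rigid_and`, `sf_rigid_hyp`.
Let `Ev ρ := T ρ = Q.T ∧ Q.Mem (len i) (ray ρ)`.   If no row satisfies `Ev`: `pr = 0 ≤` RHS.   Otherwise fix `ρ0` with `Ev ρ0`, `m = im ρ0`: every row of `Ev` has `im ρ = m` (`sf_core_T`, `tmL` injective), `0 ≤ Q.T ≤ 1` (`own`).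
`Q' = Q.dbl`: `sf_core_reg_cell` (`hdl`: hybrid `sf_core_dl_le` + `Adm` (`π.hyb = Y.hyb` by `hE.par`); classical `SfCyOk.clD`) gives `Qa`.
Every `x ∈ atm ρ`, `Ev ρ`, lies in the cell of `Qa`: `SfSh.small` + `sf_core_pert` with `M = s^(-(1/t))`, `δ = s^μ`, `l = len i ≥ s^2`: `100 M² s^μ ≤ s^(2 + 2/t) ≤ l min(r, r², f)`.
`pr Ev * tot i = Σ_m' rdE i Ev m' (pre i m')` (`sf_core_pr`); the terms `m' ≠ m` vanish (`wS = 0`, `PkSys.en`); `rdE i Ev m (pre i m) ≤ ms (cell Qa) (pre i m)` (`gn_en_le_ms`, `sf_core_wS_mask`, `sf_core_wS_supp`, `Tight.cellM`)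
`≤ s^(-a) ka s^(p i) wt Qa` (`Ext.reg`; `m ∈ ivs i` by `Str.iv_in`).   `wt Qa = 16 Q.w η cyWt η Q0` (`Real.mul_rpow`: `2^(3+η) 2^(1-η) = 16`).   `tot i ≥ s^a e s^(-(d i))` (`Ext.read`), `ek = e / (ka cyWt η Q0)` (`hek`). -/
theorem sf_core_reg (hO : SfCyOk Y) (π : SfPar) (Ls : ℝ) (hE : SfCoreHyp Y π) (t h : ℝ) (ht : 0 < t) :
    SfRigid Y π Ls h (fun c _ => ∀ i ∈ c.D.G, ∀ Q : SfTest, c.D.Adm π t i Q →
      (c.D.P i).pr (fun ρ => c.D.T i ρ = Q.T ∧ Q.Mem (c.D.len i) (c.D.ray i ρ)) ≤ c.D.s ^ (-t) * c.D.s ^ ((π.p + π.d) * i) / c.D.ek * Q.w π.η) := by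
  obtain ⟨a, ε0, μ0, ha, hε, H⟩ := sf_rigid_and (sf_rigid_hyp (Y := Y) π Ls h (t / 4) 1 (4 / t + 3) (by positivity) one_pos)
    (sf_rigid_and (sf_core_sc hO π Ls 1 h one_pos) (sf_core_own hO π Ls h))
  refine ⟨a, ε0, μ0, ha, hε, fun ε1 h1 C => ?_⟩
  obtain ⟨A, n0, H'⟩ := H ε1 h1 C
  obtain ⟨n1, hn1⟩ := gn_absorb 100 1 one_pos
  obtain ⟨n2, hn2⟩ := gn_absorb 16 (t / 2) (by positivity)
  refine ⟨A, max n0 (max n1 n2), fun c hob hx hA hn hext hε1 hε0 hμ hgap => ?_⟩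
  obtain ⟨⟨hob', _, hext', _, _, hμ', _⟩, ⟨hs, hgate, hlen, _, _⟩, hown⟩ :=
    H' c hob hx hA ((le_max_left _ _).trans hn) hext hε1 hε0 hμ hgap
  have hsE : c.D.s = c.W.E.s := c.sh.hs
  have h100 : 100 ≤ c.D.s ^ (-(1 : ℝ)) := by
    rw [hsE, gn_s_rpow]
    have := hn1 c.W.E.n (((le_max_left _ _).trans (le_max_right _ _)).trans hn)
    refine this.trans (le_of_eq ?_)
    congr 1
    ring
  have h16 : 16 ≤ c.D.s ^ (-(t / 2)) := by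
    rw [hsE, gn_s_rpow]
    have := hn2 c.W.E.n (((le_max_right _ _).trans (le_max_right _ _)).trans hn)
    refine this.trans (le_of_eq ?_)
    congr 1
    ring
  intro i hi Q hQ
  exact sf_core_reg_one hO π Ls hE t ht c C hob' hext' hμ' hs hgate.2 (fun j hj => (hlen.2 j hj).1)
    (fun j hj ρ => ⟨(hown j hj ρ).2.2.2.1, (hown j hj ρ).2.2.2.2⟩) h100 h16 i hi Q hQ

end Claimed.Agent.R256
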