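import Claimed.Agent.R256.Soft.MDocMk

/-!
# Row 256 (S0496), unit SOFT, M1 DISC, file 2: LATTICE ATOMS      (architect helper39; block BP-256-SOFT-DOC; prefix `sf_doc_`)

EXIT: `sfLat … : SfAt Y p W μ` = the set-level data of a shadow with atoms of diameter `≤ s^μ`, for EVERY documented experiment `W` with `Str`.
 atom of the key `(l, q, S)` at the gate `i`  =  `{x ∈ sfDocSup i l | lattice cube of the ray of x in the root frame = q,  signature of x = S}`,   mesh `h = s^μ`,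
 signature `sfSig W x` = the set of all labels (of all gates) that retain `x`;   rows = keys with a NONEMPTY atom (off the mesh: one junk key);   representative = a chosen point of the atom;
 exact index: hybrid = base part of the cube;  classical = (cube, signature), so that a classical atom is a full cell of the exact index and is THE SAME SET at all gates.
`SfGeo Y` = the few facts on the coordinates that are used (true by inspection for `sfCl η`, `sfHy η`: `sf_doc_geo`).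
LEAVES `L-256-DOC-A*`: one theorem (or one small group) each, plan in the docstring; prove IN PLACE, statement verbatim, helpers directly above (prefix `sf_doc_`).   Everything here is elementary (floors, finite sets, measurability, `abs` algebra): PAPER FREE.
-/

set_option autoImplicit false

namespace Claimed.Agent.R256

open MeasureTheory Claimed.Agent.R255

/-- what DISC knows about the coordinates of a cylinder model -/
structure SfGeo (Y : SfCy) : Prop where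
  cell : ∀ p Q T k, (Y.M.sys p).cell Q T k = {x | cyIn (Y.tq p Q) ((2 : ℝ)⁻¹ ^ k) (Y.co p T x)}
  meas : ∀ p, Y.M.gd p → ∀ T, Measurable (fun x => (Y.co p T x).X) ∧ Measurable (fun x => (Y.co p T x).B) ∧ Measurable (fun x => (Y.co p T x).Y) ∧
    Measurable (fun x => (Y.co p T x).N) ∧ Measurable (fun x => (Y.co p T x).D)
  /-- rows with the same exact index lie on the same base ray -/
  base : ∀ p T T' x x', Y.ix p x = Y.ix p x' → (Y.co p T' x').X = (Y.co p T x).X ∧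
    (Y.co p T' x').B = (Y.co p T x).B + (T' - T) * (Y.co p T x).X ∧ (Y.co p T' x').Y = (Y.co p T x).Y + (T' - T) * (Y.co p T x).X ^ 2
  /-- classical: a row is its exact index and moves freely -/
  cl_inj : Y.hyb = false → ∀ p, Function.Injective (Y.ix p)
  cl_flow : Y.hyb = false → ∀ p T T' x, (Y.co p T' x).N = (Y.co p T x).N ∧ (Y.co p T' x).D = (Y.co p T x).D + (T' - T) * (Y.co p T x).N
  gd : ∀ C A p E Q0, Y.af C A p E Q0 → Y.M.gd p

/-- lattice cubes -/
abbrev SfCb : Type := ℤ × ℤ × ℤ × ℤ × ℤ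

/-- the cube of mesh `h` containing a ray -/
noncomputable def sfCube (h : ℝ) (z : SfRay) : SfCb := (⌊z.X / h⌋, ⌊z.B / h⌋, ⌊z.Y / h⌋, ⌊z.N / h⌋, ⌊z.D / h⌋)

/-- the signature of a row: all labels of all gates that retain it -/
def sfSig {P : PkSys} (W : SfMD P) (x : P.X) : Set (Σ i, W.Lb i) := {u | u.1 ∈ W.G ∧ W.th u.1 u.2 x ≠ 0}

/-- the ray of a row read at the time `0`, in the root frame -/
noncomputable def sfDocRay0 (Y : SfCy) (p : Y.M.Par) (W : SfMD (Y.M.sys p)) (x : (Y.M.sys p).X) : SfRay :=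
  W.fr.ray (sfRayAt 0 (Y.co p 0 x))

/-- keys of the atoms of a gate -/
abbrev SfKey {P : PkSys} (W : SfMD P) (i : ℝ) : Type := W.Lb i × SfCb × Set (Σ i, W.Lb i)

/-- the atom of a key -/
def sfLatAtm (Y : SfCy) (p : Y.M.Par) (W : SfMD (Y.M.sys p)) (h i : ℝ) (u : SfKey W i) : Set (Y.M.sys p).X :=
  {x | x ∈ sfDocSup Y p W i u.1 ∧ sfCube h (sfDocRay Y p W i u.1 x) = u.2.1 ∧ sfSig W x = u.2.2}

/-- the rows: keys with a nonempty atom; off the mesh one junk key -/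
def sfLatRow (Y : SfCy) (p : Y.M.Par) (W : SfMD (Y.M.sys p)) (h : ℝ) (hl : ∀ i, Nonempty (W.Lb i)) (i : ℝ) : Type :=
  {u : SfKey W i // (i ∈ W.G ∧ (sfLatAtm Y p W h i u).Nonempty) ∨ (i ∉ W.G ∧ u = ((hl i).some, 0, ∅))}

/-- the type of exact-index cells -/
abbrev SfLatIdx {P : PkSys} (W : SfMD P) : Type := (ℤ × ℤ × ℤ) × Option ((ℤ × ℤ) × Set (Σ i, W.Lb i))

/-- the exact-index cell named by a cube and a signature -/
def sfLatIx (Y : SfCy) {P : PkSys} (W : SfMD P) (q : SfCb) (S : Set (Σ i, W.Lb i)) : SfLatIdx W :=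
  ((q.1, q.2.1, q.2.2.1), if Y.hyb = true then none else some ((q.2.2.2.1, q.2.2.2.2), S))

/-- the cells of the exact index -/
def sfLatIa (Y : SfCy) (p : Y.M.Par) (W : SfMD (Y.M.sys p)) (h : ℝ) (a : SfLatIdx W) : Set (Y.Ix p) :=
  {ι | ∃ x, Y.ix p x = ι ∧ sfLatIx Y W (sfCube h (sfDocRay0 Y p W x)) (sfSig W x) = a}

open Classical in
/-- a chosen point of a set (junk value `x0`) -/
noncomputable def sfPick {X : Type} (x0 : X) (A : Set X) : X := if h : A.Nonempty then h.some else x0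

theorem sf_doc_at_eqns_cite : True := by
  have := @sfCube.eq_1
  have := @sfSig.eq_1
  have := @sfDocRay0.eq_1
  have := @sfLatAtm.eq_1
  have := @sfLatRow.eq_1
  have := @sfLatIx.eq_1
  have := @sfLatIa.eq_1
  have := @sfPick.eq_1
  trivial

/-! ## LEAF L-256-DOC-A0 : the two instances -/

/-- PLAN: `rcases hY with ⟨η, rfl⟩ | ⟨η, rfl⟩`; every field by unfolding (`sfCl`, `sfHy`, `cylCl`, `cylHyb`, `CclPar.sys`, `ChyPar.sys`, `CclPar.co`, `ChyPar.co`): `cell` is `rfl`; `meas` from `CclPar.Ok` / `ChyPar.Ok` (`fun_prop` / `Measurable.add`, `.mul`, `measurable_fst`, `measurable_snd`);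
`base`: classical `ix = id` so `x = x'`, `ring`; hybrid `ix x = x.1`, rewrite, `ring`;  `cl_inj`, `cl_flow`: classical by `ring`, hybrid: `hyb = true`, contradiction;  `gd`: first component of `af`. -/
theorem sf_doc_geo (Y : SfCy) (hY : (∃ η, Y = sfCl η) ∨ ∃ η, Y = sfHy η) : SfGeo Y := by
  rcases hY with ⟨η, rfl⟩ | ⟨η, rfl⟩
  · refine ⟨fun p Q T k => rfl, ?_, ?_, ?_, ?_, ?_⟩
    · intro p hp T
      have hp' : CclPar.Ok p := hp
      refine ⟨hp'.mX, ?_, ?_, hp'.mN, ?_⟩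
      · exact hp'.mB.add (hp'.mX.const_mul T)
      · exact hp'.mY.add ((hp'.mX.pow_const 2).const_mul T)
      · exact hp'.mD.add (hp'.mN.const_mul T)
    · intro p T T' x x' h
      have h' : x = x' := h
      subst h'
      refine ⟨rfl, ?_, ?_⟩
      · show CclPar.B p x + T' * CclPar.X p x = CclPar.B p x + T * CclPar.X p x + (T' - T) * CclPar.X p x
        ring
      · show CclPar.Y p x + T' * CclPar.X p x ^ 2 = CclPar.Y p x + T * CclPar.X p x ^ 2 + (T' - T) * CclPar.X p x ^ 2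
        ring
    · intro _ p x x' h
      exact h
    · intro _ p T T' x
      refine ⟨rfl, ?_⟩
      show CclPar.D p x + T' * CclPar.N p x = CclPar.D p x + T * CclPar.N p x + (T' - T) * CclPar.N p x
      ring
    · intro C A p E Q0 h
      exact h.1
  · refine ⟨fun p Q T k => rfl, ?_, ?_, ?_, ?_, ?_⟩
    · intro p hp T
      have hp' : ChyPar.Ok p := hp
      refine ⟨hp'.mX.comp measurable_fst, ?_, ?_, ?_, ?_⟩
      · exact (hp'.mB.comp measurable_fst).add ((hp'.mX.comp measurable_fst).const_mul T)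
      · exact (hp'.mY.comp measurable_fst).add (((hp'.mX.comp measurable_fst).pow_const 2).const_mul T)
      · exact measurable_snd.comp measurable_snd
      · exact measurable_fst.comp measurable_snd
    · intro p T T' x x' h
      have h' : x.1 = x'.1 := h
      refine ⟨?_, ?_, ?_⟩
      · show ChyPar.X p x'.1 = ChyPar.X p x.1
        rw [h']
      · show ChyPar.B p x'.1 + T' * ChyPar.X p x'.1 = ChyPar.B p x.1 + T * ChyPar.X p x.1 + (T' - T) * ChyPar.X p x.1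
        rw [h']
        ring
      · show ChyPar.Y p x'.1 + T' * ChyPar.X p x'.1 ^ 2 = ChyPar.Y p x.1 + T * ChyPar.X p x.1 ^ 2 + (T' - T) * ChyPar.X p x.1 ^ 2
        rw [h']
        ring
    · intro h
      exact absurd h (by simp [sfHy])
    · intro h
      exact absurd h (by simp [sfHy])
    · intro C A p E Q0 h
      exact h.1

/-! ## LEAF L-256-DOC-A1 : cubes (Mathlib only) -/

/-- PLAN: `⌊a/h⌋ = ⌊b/h⌋ → |a - b| ≤ h` (`Int.abs_sub_lt_one_of_floor_eq_floor`, multiply by `h`); five times; `SfRay.dist` = nested `max` (`max_le`). -/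
theorem sf_doc_cube_dist {h : ℝ} (hh : 0 < h) {z z' : SfRay} (hq : sfCube h z = sfCube h z') : z.dist z' ≤ h := by
  have key : ∀ a b : ℝ, ⌊a / h⌋ = ⌊b / h⌋ → |a - b| ≤ h := by
    intro a b hab
    have h1 := Int.abs_sub_lt_one_of_floor_eq_floor hab
    rw [← sub_div, abs_div, abs_of_pos hh, div_lt_one hh] at h1
    exact h1.le
  unfold sfCube at hq
  simp only [Prod.mk.injEq] at hq
  obtain ⟨h1, h2, h3, h4, h5⟩ := hq
  unfold SfRay.dist
  exact max_le (key _ _ h1) (max_le (key _ _ h2) (max_le (key _ _ h3) (max_le (key _ _ h4) (key _ _ h5))))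

/-- PLAN: the set is contained in the product of five copies of `Set.Icc ⌊-B/h⌋ ⌊B/h⌋` (finite: `Set.finite_Icc`, `Set.Finite.prod`); `|z.X| ≤ z.size ≤ B` etc. (`le_max_left`, `le_max_right`), `Int.floor_le_floor`. -/
theorem sf_doc_cube_fin {h : ℝ} (hh : 0 < h) (B : ℝ) : {q : SfCb | ∃ z : SfRay, z.size ≤ B ∧ sfCube h z = q}.Finite := by
  have hI : (Set.Icc ⌊-B / h⌋ ⌊B / h⌋).Finite := Set.finite_Icc _ _
  refine (hI.prod (hI.prod (hI.prod (hI.prod hI)))).subset ?_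
  rintro q ⟨z, hz, rfl⟩
  have key : ∀ a : ℝ, |a| ≤ B → ⌊a / h⌋ ∈ Set.Icc ⌊-B / h⌋ ⌊B / h⌋ := by
    intro a ha
    obtain ⟨h1, h2⟩ := abs_le.1 ha
    exact ⟨Int.floor_le_floor (div_le_div_of_nonneg_right h1 hh.le), Int.floor_le_floor (div_le_div_of_nonneg_right h2 hh.le)⟩
  unfold SfRay.size at hz
  have e1 : |z.X| ≤ B := (le_max_left _ _).trans hz
  have r1 := (le_max_right _ _).trans hz
  have e2 : |z.B| ≤ B := (le_max_left _ _).trans r1
  have r2 := (le_max_right _ _).trans r1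
  have e3 : |z.Y| ≤ B := (le_max_left _ _).trans r2
  have r3 := (le_max_right _ _).trans r2
  have e4 : |z.N| ≤ B := (le_max_left _ _).trans r3
  have e5 : |z.D| ≤ B := (le_max_right _ _).trans r3
  exact ⟨key _ e1, key _ e2, key _ e3, key _ e4, key _ e5⟩

theorem sf_doc_pick_mem {X : Type} (x0 : X) {A : Set X} (hA : A.Nonempty) : sfPick x0 A ∈ A := by
  unfold sfPick
  rw [dif_pos hA]
  exact hA.some_mem

/-! ## LEAF L-256-DOC-A2 : membership (pure algebra) -/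

/-- the five inequalities in instantaneous coordinates = membership of the time-zero ray.   PLAN: unfold `cyIn cyTilt cyVel cyPos SfTest.Mem sfTestAt sfRayAt SfRay.Bt SfRay.Yt SfRay.Dt`; the five arguments of `|·|` agree after `ring_nf` (show each equality by `ring`, then `Iff.rfl`/`rw`). -/
theorem sf_doc_cyin_mem (Q : CyT) (l T : ℝ) (z : Cy5) : cyIn Q l z ↔ (sfTestAt T Q).Mem l (sfRayAt T z) := by
  unfold cyIn cyTilt cyVel cyPos SfTest.Mem sfTestAt sfRayAt SfRay.Bt SfRay.Yt SfRay.Dt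
  have e1 : z.B - T * z.X + T * z.X = z.B := by ring
  have e2 : z.Y - T * z.X ^ 2 + T * z.X ^ 2 = z.Y := by ring
  have e3 : z.D - T * z.N + T * z.N = z.D := by ring
  simp only [e1, e2, e3]

/-- a ray in a test with parameters and widths `≤ B` has size `≤ 32 B³`.
PLAN: `|X| ≤ 2B`, `|B_T| ≤ 2B`, `|Y_T| ≤ 4B²`, `|B| ≤ 4B`, `|Y| ≤ 8B²`, `|N| ≤ 20B³`, `|D_T| ≤ 12B³`, `|D| ≤ 32B³` in this order (triangle inequalities `abs_sub_abs_le_abs_sub`, `abs_mul`, `abs_add`; products by `mul_le_mul`/`nlinarith`; `B ≤ B² ≤ B³`). -/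
theorem sf_doc_mem_size {Q : SfTest} {l B : ℝ} {z : SfRay} (hm : Q.Mem l z) (hl0 : 0 ≤ l) (hl1 : l ≤ 1) (hT : |Q.T| ≤ 1) (hB : 1 ≤ B)
    (hs : Q.size ≤ B) (hr : Q.r ≤ B) (hf : Q.f ≤ B) : z.size ≤ 32 * B ^ 3 := by
  obtain ⟨m1, m2, m3, m4, m5⟩ := hm
  unfold SfTest.size at hs
  have ex : |Q.x| ≤ B := (le_max_left _ _).trans hs
  have r1 := (le_max_right _ _).trans hs
  have eb : |Q.b| ≤ B := (le_max_left _ _).trans r1
  have r2 := (le_max_right _ _).trans r1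
  have ey : |Q.y| ≤ B := (le_max_left _ _).trans r2
  have r3 := (le_max_right _ _).trans r2
  have ec : |Q.c| ≤ B := (le_max_left _ _).trans r3
  have r4 := (le_max_right _ _).trans r3
  have ed : |Q.d| ≤ B := (le_max_left _ _).trans r4
  have r5 := (le_max_right _ _).trans r4
  have eal : |Q.al| ≤ B := (le_max_left _ _).trans r5
  have r6 := (le_max_right _ _).trans r5
  have ebe : |Q.be| ≤ B := (le_max_left _ _).trans r6
  have eK : |Q.K| ≤ B := (le_max_right _ _).trans r6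
  have hr0 : 0 ≤ Q.r := (abs_nonneg _).trans m1
  have hf0 : 0 ≤ Q.f := (abs_nonneg _).trans m4
  have hB0 : 0 ≤ B := by linarith
  have hB2 : B ≤ B ^ 2 := by nlinarith
  have hB3 : B ^ 2 ≤ B ^ 3 := by nlinarith [sq_nonneg B]
  have hlr : l * Q.r ≤ B := (mul_le_of_le_one_left hr0 hl1).trans hr
  have hlf : l * Q.f ≤ B := (mul_le_of_le_one_left hf0 hl1).trans hf
  have hlr2 : l * Q.r ^ 2 ≤ B ^ 2 := (mul_le_of_le_one_left (sq_nonneg _) hl1).trans (pow_le_pow_left₀ hr0 hr 2)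
  obtain ⟨bt, hbt⟩ : ∃ bt, bt = z.Bt Q.T := ⟨_, rfl⟩
  obtain ⟨yt, hyt⟩ : ∃ yt, yt = z.Yt Q.T := ⟨_, rfl⟩
  obtain ⟨dt, hdt⟩ : ∃ dt, dt = z.Dt Q.T := ⟨_, rfl⟩
  rw [← hbt] at m2 m3 m4 m5
  rw [← hyt] at m3 m4 m5
  rw [← hdt] at m5
  -- |X| ≤ 2B
  have hX : |z.X| ≤ 2 * B := by
    have : |z.X| ≤ |z.X - Q.x| + |Q.x| := by
      have := abs_add_le (z.X - Q.x) Q.x
      rwa [sub_add_cancel] at this
    linarith
  have hbt2 : |bt| ≤ 2 * B := by
    have : |bt| ≤ |bt - Q.b| + |Q.b| := by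
      have := abs_add_le (bt - Q.b) Q.b
      rwa [sub_add_cancel] at this
    linarith
  have hX2 : z.X ^ 2 ≤ 4 * B ^ 2 := by
    have := pow_le_pow_left₀ (abs_nonneg z.X) hX 2
    rw [sq_abs] at this
    linarith [this, (by ring : (2 * B) ^ 2 = 4 * B ^ 2)]
  have hbtsq : bt ^ 2 ≤ 4 * B ^ 2 := by
    have := pow_le_pow_left₀ (abs_nonneg bt) hbt2 2
    rw [sq_abs] at this
    linarith [this, (by ring : (2 * B) ^ 2 = 4 * B ^ 2)]
  have hyt4 : |yt| ≤ 4 * B ^ 2 := by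
    have h1 : |yt| ≤ |yt - Q.y - 2 * Q.x * (bt - Q.b)| + |Q.y| + |2 * Q.x * (bt - Q.b)| := by
      have e : yt = (yt - Q.y - 2 * Q.x * (bt - Q.b)) + Q.y + 2 * Q.x * (bt - Q.b) := by ring
      calc |yt| = |(yt - Q.y - 2 * Q.x * (bt - Q.b)) + Q.y + 2 * Q.x * (bt - Q.b)| := by rw [← e]
        _ ≤ _ := abs_add_three _ _ _
    have h2 : |2 * Q.x * (bt - Q.b)| ≤ 2 * B ^ 2 := by
      rw [abs_mul, abs_mul, abs_two]
      have : |Q.x| * |bt - Q.b| ≤ B * B := mul_le_mul ex (m2.trans hlr) (abs_nonneg _) hB0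
      linarith
    linarith
  have hBz : |z.B| ≤ 4 * B := by
    have e : z.B = bt - Q.T * z.X := by rw [hbt]; unfold SfRay.Bt; ring
    have h1 : |Q.T * z.X| ≤ 2 * B := by
      rw [abs_mul]
      calc |Q.T| * |z.X| ≤ 1 * (2 * B) := mul_le_mul hT hX (abs_nonneg _) zero_le_one
        _ = 2 * B := one_mul _
    rw [e]
    have := abs_sub bt (Q.T * z.X)
    linarith
  have hYz : |z.Y| ≤ 8 * B ^ 2 := by
    have e : z.Y = yt - Q.T * z.X ^ 2 := by rw [hyt]; unfold SfRay.Yt; ring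
    have h1 : |Q.T * z.X ^ 2| ≤ 4 * B ^ 2 := by
      rw [abs_mul, abs_of_nonneg (sq_nonneg z.X)]
      calc |Q.T| * z.X ^ 2 ≤ 1 * (4 * B ^ 2) := mul_le_mul hT hX2 (sq_nonneg _) zero_le_one
        _ = 4 * B ^ 2 := one_mul _
    rw [e]
    have := abs_sub yt (Q.T * z.X ^ 2)
    linarith
  have hN : |z.N| ≤ 20 * B ^ 3 := by
    have e : z.N = (z.N - Q.c - Q.al * z.X - Q.be * z.X ^ 2 - Q.K * (yt - 2 * z.X * bt)) + Q.c + Q.al * z.X + (Q.be * z.X ^ 2 + Q.K * (yt - 2 * z.X * bt)) := by ring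
    have h1 : |z.N| ≤ |z.N - Q.c - Q.al * z.X - Q.be * z.X ^ 2 - Q.K * (yt - 2 * z.X * bt)| + |Q.c| + |Q.al * z.X| + (|Q.be * z.X ^ 2| + |Q.K * (yt - 2 * z.X * bt)|) := by
      calc |z.N| = |(z.N - Q.c - Q.al * z.X - Q.be * z.X ^ 2 - Q.K * (yt - 2 * z.X * bt)) + Q.c + Q.al * z.X + (Q.be * z.X ^ 2 + Q.K * (yt - 2 * z.X * bt))| := by rw [← e]
        _ ≤ |(z.N - Q.c - Q.al * z.X - Q.be * z.X ^ 2 - Q.K * (yt - 2 * z.X * bt)) + Q.c + Q.al * z.X| + |Q.be * z.X ^ 2 + Q.K * (yt - 2 * z.X * bt)| := abs_add_le _ _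
        _ ≤ _ := add_le_add (abs_add_three _ _ _) (abs_add_le _ _)
    have h2 : |Q.al * z.X| ≤ 2 * B ^ 2 := by
      rw [abs_mul]
      have : |Q.al| * |z.X| ≤ B * (2 * B) := mul_le_mul eal hX (abs_nonneg _) hB0
      linarith
    have h3 : |Q.be * z.X ^ 2| ≤ 4 * B ^ 3 := by
      rw [abs_mul, abs_of_nonneg (sq_nonneg z.X)]
      have : |Q.be| * z.X ^ 2 ≤ B * (4 * B ^ 2) := mul_le_mul ebe hX2 (sq_nonneg _) hB0
      linarith
    have h4 : |yt - 2 * z.X * bt| ≤ 12 * B ^ 2 := by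
      have h5 : |2 * z.X * bt| ≤ 8 * B ^ 2 := by
        rw [abs_mul, abs_mul, abs_two]
        have : |z.X| * |bt| ≤ (2 * B) * (2 * B) := mul_le_mul hX hbt2 (abs_nonneg _) (by linarith)
        linarith
      have := abs_sub yt (2 * z.X * bt)
      linarith
    have h6 : |Q.K * (yt - 2 * z.X * bt)| ≤ 12 * B ^ 3 := by
      rw [abs_mul]
      have : |Q.K| * |yt - 2 * z.X * bt| ≤ B * (12 * B ^ 2) := mul_le_mul eK h4 (abs_nonneg _) hB0
      linarith
    linarith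
  have hdt12 : |dt| ≤ 12 * B ^ 3 := by
    have e : dt = (dt - Q.d - Q.al * bt - Q.be * yt + Q.K * bt ^ 2) + Q.d + Q.al * bt + (Q.be * yt - Q.K * bt ^ 2) := by ring
    have h1 : |dt| ≤ |dt - Q.d - Q.al * bt - Q.be * yt + Q.K * bt ^ 2| + |Q.d| + |Q.al * bt| + (|Q.be * yt| + |Q.K * bt ^ 2|) := by
      calc |dt| = |(dt - Q.d - Q.al * bt - Q.be * yt + Q.K * bt ^ 2) + Q.d + Q.al * bt + (Q.be * yt - Q.K * bt ^ 2)| := by rw [← e]
        _ ≤ |(dt - Q.d - Q.al * bt - Q.be * yt + Q.K * bt ^ 2) + Q.d + Q.al * bt| + |Q.be * yt - Q.K * bt ^ 2| := abs_add_le _ _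
        _ ≤ _ := add_le_add (abs_add_three _ _ _) (abs_sub _ _)
    have h2 : |Q.al * bt| ≤ 2 * B ^ 2 := by
      rw [abs_mul]
      have : |Q.al| * |bt| ≤ B * (2 * B) := mul_le_mul eal hbt2 (abs_nonneg _) hB0
      linarith
    have h3 : |Q.be * yt| ≤ 4 * B ^ 3 := by
      rw [abs_mul]
      have : |Q.be| * |yt| ≤ B * (4 * B ^ 2) := mul_le_mul ebe hyt4 (abs_nonneg _) hB0
      linarith
    have h4 : |Q.K * bt ^ 2| ≤ 4 * B ^ 3 := by
      rw [abs_mul, abs_of_nonneg (sq_nonneg bt)]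
      have : |Q.K| * bt ^ 2 ≤ B * (4 * B ^ 2) := mul_le_mul eK hbtsq (sq_nonneg _) hB0
      linarith
    linarith
  have hD : |z.D| ≤ 32 * B ^ 3 := by
    have e : z.D = dt - Q.T * z.N := by rw [hdt]; unfold SfRay.Dt; ring
    have h1 : |Q.T * z.N| ≤ 20 * B ^ 3 := by
      rw [abs_mul]
      calc |Q.T| * |z.N| ≤ 1 * (20 * B ^ 3) := mul_le_mul hT hN (abs_nonneg _) zero_le_one
        _ = 20 * B ^ 3 := one_mul _
    rw [e]
    have := abs_sub dt (Q.T * z.N)
    linarith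
  unfold SfRay.size
  refine max_le (by linarith) (max_le (by linarith) (max_le (by linarith) (max_le (by linarith) hD)))

/-! ## LEAF L-256-DOC-A3 : a retained row lies in its label, in the root frame -/

/-- the root frame has positive units.   PLAN: `Str.frame`: `Q0.r = r 1 > 0`, `Q0.f = f 1 > 0` (`1 ∈ G` by `Str.gate`); `L = 2⁻¹^k0 > 0`. -/
theorem sf_doc_fr_pos {P : PkSys} {W : SfMD P} {tq : P.Tst → CyT} (hS : W.Str tq) : W.fr.Pos := by
  obtain ⟨h1, h2, h3⟩ := hS.frame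
  obtain ⟨hr, hf⟩ := h3 1 hS.gate.1
  refine ⟨?_, ?_, ?_⟩
  · show 0 < (2 : ℝ)⁻¹ ^ W.E.k0
    positivity
  · show 0 < W.Q0.r
    rw [h1]
    exact hr
  · show 0 < W.Q0.f
    rw [h2]
    exact hf

/-- the time of a label in the root frame.   PLAN: `Str.iv_in` (`ivs = Ico`), `Str.k_rg`; `T = iv / 2^k`, `T0 = i0 / 2^k0`, `L = 2^-k0`, `2^k = 2^k0 * 2^(k-k0)`; clear denominators. -/
theorem sf_doc_time (Y : SfCy) (p : Y.M.Par) (W : SfMD (Y.M.sys p)) (hS : W.Str (Y.tq p)) {i : ℝ} (hi : i ∈ W.G) (l : W.Lb i) :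
    0 ≤ (sfDocLab Y p W i l).T ∧ (sfDocLab Y p W i l).T + (2 : ℝ)⁻¹ ^ (W.k i - W.E.k0) ≤ 1 := by
  have hiv := hS.iv_in i hi l
  have hk := (hS.k_rg i hi).1
  unfold SfMD.ivs at hiv
  rw [Finset.mem_Ico] at hiv
  obtain ⟨d, hd⟩ : ∃ d, d = W.k i - W.E.k0 := ⟨_, rfl⟩
  have hkd : W.k i = W.E.k0 + d := by omega
  rw [← hd] at hiv ⊢
  obtain ⟨h1, h2⟩ := hiv
  have e : (sfDocLab Y p W i l).T = (W.iv i l : ℝ) / 2 ^ d - W.E.i0 := by
    show (tmL (W.k i) (W.iv i l) - tmL W.E.k0 W.E.i0) / (2 : ℝ)⁻¹ ^ W.E.k0 = _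
    unfold tmL
    rw [hkd, pow_add, inv_pow]
    have a1 : (2 : ℝ) ^ W.E.k0 ≠ 0 := by positivity
    have a2 : (2 : ℝ) ^ d ≠ 0 := by positivity
    field_simp
  have hp : (0 : ℝ) < 2 ^ d := by positivity
  have h1' : (W.E.i0 : ℝ) * 2 ^ d ≤ W.iv i l := by exact_mod_cast h1
  have h2' : (W.iv i l : ℝ) + 1 ≤ ((W.E.i0 : ℝ) + 1) * 2 ^ d := by exact_mod_cast h2
  rw [e]
  constructor
  · rw [sub_nonneg, le_div_iff₀ hp]
    exact h1'
  · have : (W.iv i l : ℝ) / 2 ^ d - W.E.i0 + (2 : ℝ)⁻¹ ^ d = ((W.iv i l : ℝ) + 1) / 2 ^ d - W.E.i0 := by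
      rw [inv_pow]
      field_simp
      ring
    rw [this]
    have : ((W.iv i l : ℝ) + 1) / 2 ^ d ≤ (W.E.i0 : ℝ) + 1 := by
      rw [div_le_iff₀ hp]
      exact h2'
    linarith

/-- PLAN: `hg.cell`, `sf_doc_cyin_mem`, then `sf_frame_mem W.fr (sf_doc_fr_pos hS)` (black box of `Soft/Frame.lean`) with `l = 2⁻¹^(k i)`, `l / L = 2⁻¹^(k i - k0)` (`Str.k_rg`, `pow_sub₀`). -/
theorem sf_doc_own (Y : SfCy) (hg : SfGeo Y) (p : Y.M.Par) (W : SfMD (Y.M.sys p)) (hS : W.Str (Y.tq p)) {i : ℝ} (hi : i ∈ W.G) (l : W.Lb i)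
    {x : (Y.M.sys p).X} (hx : x ∈ (Y.M.sys p).cell (W.ts i l) (W.T i l) (W.k i)) :
    (sfDocLab Y p W i l).Mem ((2 : ℝ)⁻¹ ^ (W.k i - W.E.k0)) (sfDocRay Y p W i l x) := by
  rw [hg.cell] at hx
  have hx' : cyIn (Y.tq p (W.ts i l)) ((2 : ℝ)⁻¹ ^ W.k i) (Y.co p (W.T i l) x) := hx
  rw [sf_doc_cyin_mem _ _ (W.T i l)] at hx'
  have h := (sf_frame_mem W.fr (sf_doc_fr_pos hS) _ _ _).2 hx'
  have hk := (hS.k_rg i hi).1
  have e : (2 : ℝ)⁻¹ ^ W.k i / W.fr.L = (2 : ℝ)⁻¹ ^ (W.k i - W.E.k0) := by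
    show (2 : ℝ)⁻¹ ^ W.k i / (2 : ℝ)⁻¹ ^ W.E.k0 = _
    rw [pow_sub₀ _ (by norm_num) hk, div_eq_mul_inv]
  rw [e] at h
  exact h

/-- the rays of the rows of a label are bounded.   PLAN: `sf_doc_own`, `sf_doc_time`, `sf_doc_mem_size` with `B = max 1 (max size (max r f))`. -/
theorem sf_doc_ray_bdd (Y : SfCy) (hg : SfGeo Y) (p : Y.M.Par) (W : SfMD (Y.M.sys p)) (hS : W.Str (Y.tq p)) {i : ℝ} (hi : i ∈ W.G) (l : W.Lb i) :
    ∃ B : ℝ, ∀ x ∈ (Y.M.sys p).cell (W.ts i l) (W.T i l) (W.k i), (sfDocRay Y p W i l x).size ≤ B := by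
  obtain ⟨B, hB⟩ : ∃ B, B = max 1 (max (sfDocLab Y p W i l).size (max (sfDocLab Y p W i l).r (sfDocLab Y p W i l).f)) := ⟨_, rfl⟩
  refine ⟨32 * B ^ 3, fun x hx => ?_⟩
  obtain ⟨t0, t1⟩ := sf_doc_time Y p W hS hi l
  have hl0 : (0 : ℝ) ≤ (2 : ℝ)⁻¹ ^ (W.k i - W.E.k0) := by positivity
  have hl1 : (2 : ℝ)⁻¹ ^ (W.k i - W.E.k0) ≤ 1 := pow_le_one₀ (by norm_num) (by norm_num)
  refine sf_doc_mem_size (sf_doc_own Y hg p W hS hi l hx) hl0 hl1 ?_ ?_ ?_ ?_ ?_
  · rw [abs_of_nonneg t0]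
    linarith
  · rw [hB]
    exact le_max_left _ _
  · rw [hB]
    exact (le_max_left _ _).trans (le_max_right _ _)
  · rw [hB]
    exact (le_max_left _ _).trans ((le_max_right _ _).trans (le_max_right _ _))
  · rw [hB]
    exact (le_max_right _ _).trans ((le_max_right _ _).trans (le_max_right _ _))

/-! ## LEAF L-256-DOC-A4 : the reading time does not matter -/

/-- the base part of a ray in a frame depends only on the base part of the ray -/
theorem sf_doc_fr_base (φ : SfFrame) {z z' : SfRay} (hX : z.X = z'.X) (hB : z.B = z'.B) (hY : z.Y = z'.Y) :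
    (φ.ray z).X = (φ.ray z').X ∧ (φ.ray z).B = (φ.ray z').B ∧ (φ.ray z).Y = (φ.ray z').Y := by
  simp only [SfFrame.ray, SfRay.Bt, SfRay.Yt, hX, hB, hY, and_self]

/-- base part.   PLAN: `hg.base p 0 T x x rfl`; unfold `sfDocRay sfDocRay0 SfFrame.ray sfRayAt SfRay.Bt SfRay.Yt`; the time-zero base ray `(X, B_T - T X, Y_T - T X²)` does not depend on `T`. -/
theorem sf_doc_ray0_base (Y : SfCy) (hg : SfGeo Y) (p : Y.M.Par) (W : SfMD (Y.M.sys p)) (i : ℝ) (l : W.Lb i) (x : (Y.M.sys p).X) :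
    (sfDocRay Y p W i l x).X = (sfDocRay0 Y p W x).X ∧ (sfDocRay Y p W i l x).B = (sfDocRay0 Y p W x).B ∧ (sfDocRay Y p W i l x).Y = (sfDocRay0 Y p W x).Y := by
  obtain ⟨h1, h2, h3⟩ := hg.base p 0 (W.T i l) x x rfl
  unfold sfDocRay sfDocRay0
  refine sf_doc_fr_base _ ?_ ?_ ?_
  · simp only [sfRayAt]
    exact h1
  · simp only [sfRayAt]
    rw [h1, h2]
    ring
  · simp only [sfRayAt]
    rw [h1, h3]
    ring

/-- classical: the whole ray.   PLAN: show `sfRayAt T (co T x) = sfRayAt 0 (co 0 x)` from `hg.base`, `hg.cl_flow hc` (five components, `ring`). -/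
theorem sf_doc_ray0_cl (Y : SfCy) (hg : SfGeo Y) (hc : Y.hyb = false) (p : Y.M.Par) (W : SfMD (Y.M.sys p)) (i : ℝ) (l : W.Lb i) (x : (Y.M.sys p).X) :
    sfDocRay Y p W i l x = sfDocRay0 Y p W x := by
  obtain ⟨h1, h2, h3⟩ := hg.base p 0 (W.T i l) x x rfl
  obtain ⟨h4, h5⟩ := hg.cl_flow hc p 0 (W.T i l) x
  unfold sfDocRay sfDocRay0
  congr 1
  simp only [sfRayAt, SfRay.mk.injEq]
  refine ⟨h1, ?_, ?_, h4, ?_⟩
  · rw [h1, h2]
    ring
  · rw [h1, h3]
    ring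
  · rw [h4, h5]
    ring

/-- rows with the same exact index have the same base ray.   PLAN: `hg.base p 0 0 x x' h`. -/
theorem sf_doc_ray0_ix (Y : SfCy) (hg : SfGeo Y) (p : Y.M.Par) (W : SfMD (Y.M.sys p)) {x x' : (Y.M.sys p).X} (h : Y.ix p x = Y.ix p x') :
    (sfDocRay0 Y p W x).X = (sfDocRay0 Y p W x').X ∧ (sfDocRay0 Y p W x).B = (sfDocRay0 Y p W x').B ∧ (sfDocRay0 Y p W x).Y = (sfDocRay0 Y p W x').Y := by
  obtain ⟨h1, h2, h3⟩ := hg.base p 0 0 x x' h
  unfold sfDocRay0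
  refine sf_doc_fr_base _ ?_ ?_ ?_
  · simp only [sfRayAt]
    exact h1.symm
  · simp only [sfRayAt]
    rw [h1, h2]
    ring
  · simp only [sfRayAt]
    rw [h1, h3]
    ring

/-! ## LEAF L-256-DOC-A5 : measurability -/

/-- the five coordinates of a ray in a frame are measurable functions of the row -/
theorem sf_doc_ray_meas {X : Type} [MeasurableSpace X] (φ : SfFrame) (T : ℝ) (c : X → Cy5)
    (h1 : Measurable fun x => (c x).X) (h2 : Measurable fun x => (c x).B) (h3 : Measurable fun x => (c x).Y)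
    (h4 : Measurable fun x => (c x).N) (h5 : Measurable fun x => (c x).D) :
    Measurable (fun x => (φ.ray (sfRayAt T (c x))).X) ∧ Measurable (fun x => (φ.ray (sfRayAt T (c x))).B) ∧
    Measurable (fun x => (φ.ray (sfRayAt T (c x))).Y) ∧ Measurable (fun x => (φ.ray (sfRayAt T (c x))).N) ∧
    Measurable (fun x => (φ.ray (sfRayAt T (c x))).D) := by
  refine ⟨?_, ?_, ?_, ?_, ?_⟩
  · simp only [SfFrame.ray, sfRayAt]
    fun_prop
  · simp only [SfFrame.ray, sfRayAt, SfRay.Bt]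
    fun_prop
  · simp only [SfFrame.ray, sfRayAt, SfRay.Bt, SfRay.Yt]
    fun_prop
  · simp only [SfFrame.ray, sfRayAt, SfRay.Bt, SfRay.Yt, SfTest.shA]
    fun_prop
  · simp only [SfFrame.ray, sfRayAt, SfRay.Bt, SfRay.Yt, SfRay.Dt, SfTest.shS, SfTest.beAt]
    fun_prop

/-- the fibre of a lattice cube -/
theorem sf_doc_cube_meas {X : Type} [MeasurableSpace X] (h : ℝ) (z : X → SfRay)
    (h1 : Measurable fun x => (z x).X) (h2 : Measurable fun x => (z x).B) (h3 : Measurable fun x => (z x).Y)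
    (h4 : Measurable fun x => (z x).N) (h5 : Measurable fun x => (z x).D) (q : SfCb) :
    MeasurableSet {x | sfCube h (z x) = q} := by
  have key : ∀ (f : X → ℝ), Measurable f → ∀ n : ℤ, MeasurableSet {x | ⌊f x / h⌋ = n} := by
    intro f hf n
    exact (Int.measurable_floor.comp (hf.div_const h)) (measurableSet_singleton n)
  have e : {x | sfCube h (z x) = q} = {x | ⌊(z x).X / h⌋ = q.1} ∩ ({x | ⌊(z x).B / h⌋ = q.2.1} ∩ ({x | ⌊(z x).Y / h⌋ = q.2.2.1} ∩
      ({x | ⌊(z x).N / h⌋ = q.2.2.2.1} ∩ {x | ⌊(z x).D / h⌋ = q.2.2.2.2}))) := by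
    ext x
    obtain ⟨q1, q2, q3, q4, q5⟩ := q
    simp only [sfCube, Set.mem_ofPred_eq, Set.mem_inter_iff, Prod.mk.injEq]
  rw [e]
  exact (key _ h1 _).inter ((key _ h2 _).inter ((key _ h3 _).inter ((key _ h4 _).inter (key _ h5 _))))

/-- the labels of the gates form a finite set (used by the fibre of a signature) -/
theorem sf_doc_lab_fin0 {P : PkSys} (W : SfMD P) : {u : Σ i, W.Lb i | u.1 ∈ W.G}.Finite := by
  have e : {u : Σ i, W.Lb i | u.1 ∈ W.G} = ⋃ i ∈ (W.G : Set ℝ), Set.range (Sigma.mk i : W.Lb i → Σ i, W.Lb i) := by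
    ext ⟨i, l⟩
    simp only [Set.mem_ofPred_eq, Set.mem_iUnion, Set.mem_range, Finset.mem_coe, exists_prop]
    constructor
    · intro hi
      exact ⟨i, hi, l, rfl⟩
    · rintro ⟨j, hj, l', hl'⟩
      have : j = i := congrArg Sigma.fst hl'
      rw [← this]
      exact hj
  rw [e]
  exact Set.Finite.biUnion (Finset.finite_toSet _) fun i _ => Set.finite_range _

/-- the fibre of a signature -/
theorem sf_doc_sig_meas {P : PkSys} {W : SfMD P} {tq : P.Tst → CyT} (hS : W.Str tq) (S : Set (Σ i, W.Lb i)) :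
    MeasurableSet {x | sfSig W x = S} := by
  by_cases hSG : ∀ u ∈ S, u.1 ∈ W.G
  · have e : {x | sfSig W x = S} = ⋂ u ∈ {u : Σ i, W.Lb i | u.1 ∈ W.G}, {x | W.th u.1 u.2 x ≠ 0 ↔ u ∈ S} := by
      ext x
      simp only [Set.mem_ofPred_eq, Set.mem_iInter]
      constructor
      · intro hx u hu
        rw [← hx]
        simp only [sfSig, Set.mem_ofPred_eq, hu, true_and]
      · intro hx
        ext u
        by_cases hu : u.1 ∈ W.G
        · rw [← hx u hu]
          simp only [sfSig, Set.mem_ofPred_eq, hu, true_and]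
        · constructor
          · intro h
            exact absurd h.1 hu
          · intro h
            exact absurd (hSG u h) hu
    rw [e]
    refine (sf_doc_lab_fin0 W).measurableSet_biInter fun u hu => ?_
    have hm : MeasurableSet {x | W.th u.1 u.2 x ≠ 0} := ((hS.meas u.1 hu u.2) (measurableSet_singleton (0 : ℝ))).compl
    by_cases huS : u ∈ S
    · simp only [huS, iff_true]
      exact hm
    · simp only [huS, iff_false]
      exact hm.compl
  · push Not at hSG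
    obtain ⟨u, huS, huG⟩ := hSG
    have e : {x | sfSig W x = S} = ∅ := by
      ext x
      simp only [Set.mem_ofPred_eq, Set.mem_empty_iff_false, iff_false]
      intro hx
      rw [← hx] at huS
      exact huG huS.1
    rw [e]
    exact MeasurableSet.empty

/-- PLAN: `sfDocSup` = `{th ≠ 0} ∩ ({Anc} or univ)` (`Str.meas`, `sf_doc_anc_meas`; cases on `Y.hyb`);   the five coordinates of `sfDocRay` are measurable (`hg.meas p hp T`; polynomial expressions: unfold `SfFrame.ray sfRayAt SfTest.shA SfTest.shS …`, `fun_prop` or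
`Measurable.add/.mul/.sub/.div_const/.pow_const`), `Int.measurable_floor`, fibres of measurable maps into the countable discrete space `SfCb` (`measurableSet_eq_fun` / `measurable … (measurableSet_singleton _)`);
`{x | sfSig W x = S}`: if `S ⊄ {u | u.1 ∈ G}` it is empty; otherwise it is `⋂ u ∈ (finite set of the u with u.1 ∈ G), {x | th u x ≠ 0 ↔ u ∈ S}` (`Set.Finite.measurableSet_biInter`; the set `{u : Σ i, W.Lb i | u.1 ∈ W.G}` is finite: `sf_doc_lab_fin`). -/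
theorem sf_doc_lat_meas (Y : SfCy) (hg : SfGeo Y) (p : Y.M.Par) (hp : Y.M.gd p) (W : SfMD (Y.M.sys p)) (hS : W.Str (Y.tq p)) (h : ℝ) {i : ℝ} (hi : i ∈ W.G)
    (u : SfKey W i) : MeasurableSet (sfLatAtm Y p W h i u) := by
  have e : sfLatAtm Y p W h i u = sfDocSup Y p W i u.1 ∩ ({x | sfCube h (sfDocRay Y p W i u.1 x) = u.2.1} ∩ {x | sfSig W x = u.2.2}) := by
    ext x
    simp only [sfLatAtm, Set.mem_ofPred_eq, Set.mem_inter_iff]
  rw [e]
  refine MeasurableSet.inter ?_ (MeasurableSet.inter ?_ (sf_doc_sig_meas hS _))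
  · have hm : MeasurableSet {x | W.th i u.1 x ≠ 0} := ((hS.meas i hi u.1) (measurableSet_singleton (0 : ℝ))).compl
    have e2 : sfDocSup Y p W i u.1 = {x | W.th i u.1 x ≠ 0} ∩ {x | Y.hyb = false → W.Anc i u.1 x} := by
      ext x
      simp only [sfDocSup, Set.mem_ofPred_eq, Set.mem_inter_iff]
    rw [e2]
    refine hm.inter ?_
    by_cases hc : Y.hyb = false
    · simp only [hc, true_imp_iff]
      exact sf_doc_anc_meas hS hi u.1
    · have e3 : {x | Y.hyb = false → W.Anc i u.1 x} = Set.univ := by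
        ext x
        simp only [Set.mem_ofPred_eq, Set.mem_univ, iff_true]
        intro h'
        exact absurd h' hc
      rw [e3]
      exact MeasurableSet.univ
  · obtain ⟨m1, m2, m3, m4, m5⟩ := hg.meas p hp (W.T i u.1)
    obtain ⟨n1, n2, n3, n4, n5⟩ := sf_doc_ray_meas W.fr (W.T i u.1) (Y.co p (W.T i u.1)) m1 m2 m3 m4 m5
    exact sf_doc_cube_meas h (sfDocRay Y p W i u.1) n1 n2 n3 n4 n5 _

/-- the labels of the gates form a finite set.   PLAN: it is the image of the finite type `Σ i : W.G, W.Lb i` (`Finite` instance: `W.G` is a `Finset`, `W.fLb`). -/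
theorem sf_doc_lab_fin {P : PkSys} (W : SfMD P) : {u : Σ i, W.Lb i | u.1 ∈ W.G}.Finite := by
  exact sf_doc_lab_fin0 W

/-! ## LEAF L-256-DOC-A6 : finitely many rows -/

/-- PLAN: `i ∉ G`: a subsingleton.   `i ∈ G`: the keys with a nonempty atom lie in `univ ×ˢ (⋃ l, cubes of rays of size ≤ B l) ×ˢ (subsets of the finite set sf_doc_lab_fin)`:
`x ∈ atom → th i l x ≠ 0 → x ∈ cell` (`Str.supp`) `→` size `≤ B l` (`sf_doc_ray_bdd`), `sf_doc_cube_fin`;  `sfSig W x ⊆ {u | u.1 ∈ G}`, `Set.Finite.finite_subsets`;  `Set.Finite.prod`, `Set.Finite.subset`, `Set.Finite.to_subtype` / `Finite.of_injective`. -/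
theorem sf_doc_lat_fin (Y : SfCy) (hg : SfGeo Y) (p : Y.M.Par) (W : SfMD (Y.M.sys p)) (hS : W.Str (Y.tq p)) {h : ℝ} (hh : 0 < h) (i : ℝ) :
    Finite (sfLatRow Y p W h hS.lb_ne i) := by
  have hfin : {u : SfKey W i | (i ∈ W.G ∧ (sfLatAtm Y p W h i u).Nonempty) ∨ (i ∉ W.G ∧ u = ((hS.lb_ne i).some, 0, ∅))}.Finite := by
    by_cases hi : i ∈ W.G
    · choose B hB using fun l : W.Lb i => sf_doc_ray_bdd Y hg p W hS hi l
      have hc : (⋃ l : W.Lb i, {q : SfCb | ∃ z : SfRay, z.size ≤ B l ∧ sfCube h z = q}).Finite :=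
        Set.finite_iUnion fun l => sf_doc_cube_fin hh (B l)
      have hs : {S : Set (Σ i, W.Lb i) | S ⊆ {u : Σ i, W.Lb i | u.1 ∈ W.G}}.Finite := (sf_doc_lab_fin W).finite_subsets
      refine ((Set.finite_univ (α := W.Lb i)).prod (hc.prod hs)).subset ?_
      rintro ⟨l, q, S⟩ hu
      rcases hu with ⟨_, x, hx⟩ | ⟨hn, _⟩
      · obtain ⟨hx1, hx2, hx3⟩ := hx
        refine ⟨Set.mem_univ _, ?_, ?_⟩
        · refine Set.mem_iUnion.2 ⟨l, _, hB l x (hS.supp i hi l x hx1.1), hx2⟩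
        · have hx3' : sfSig W x = S := hx3
          show S ⊆ _
          rw [← hx3']
          intro v hv
          exact hv.1
      · exact absurd hi hn
    · refine (Set.finite_singleton ((hS.lb_ne i).some, (0 : SfCb), (∅ : Set (Σ i, W.Lb i)))).subset ?_
      rintro u (⟨hi', _⟩ | ⟨_, hu⟩)
      · exact absurd hi' hi
      · exact hu
  exact hfin.to_subtype

/-! ## LEAF L-256-DOC-A7 : classical atoms are full cells -/

/-- `Anc` and `th ≠ 0` are read off the signature.   PLAN: `(⟨i,l⟩ ∈ sfSig W x) ↔ i ∈ G ∧ th i l x ≠ 0`; `Anc i l x ↔ ∀ g ∈ G, g < i → ∃ l0, iv g l0 = … ∧ ⟨g,l0⟩ ∈ sfSig W x`. -/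
theorem sf_doc_sup_sig (Y : SfCy) (p : Y.M.Par) (W : SfMD (Y.M.sys p)) {i : ℝ} (hi : i ∈ W.G) (l : W.Lb i) {x y : (Y.M.sys p).X} (h : sfSig W x = sfSig W y)
    (hy : y ∈ sfDocSup Y p W i l) : x ∈ sfDocSup Y p W i l := by
  have key : ∀ g ∈ W.G, ∀ l0 : W.Lb g, W.th g l0 y ≠ 0 → W.th g l0 x ≠ 0 := by
    intro g hg l0 h0
    have hm : (⟨g, l0⟩ : Σ i, W.Lb i) ∈ sfSig W y := ⟨hg, h0⟩
    rw [← h] at hm
    exact hm.2
  refine ⟨key i hi l hy.1, fun hc g hg hgi => ?_⟩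
  obtain ⟨l0, h1, h2⟩ := hy.2 hc g hg hgi
  exact ⟨l0, h1, key g hg l0 h2⟩

/-- classical: a NONEMPTY atom is the set of all rows with the given cube and signature (it does not depend on the gate and the label).   PLAN: `⊆` by `sf_doc_ray0_cl`; `⊇` by `sf_doc_ray0_cl` and `sf_doc_sup_sig` with a point of the atom. -/
theorem sf_doc_lat_cl (Y : SfCy) (hg : SfGeo Y) (hc : Y.hyb = false) (p : Y.M.Par) (W : SfMD (Y.M.sys p)) (h : ℝ) {i : ℝ} (hi : i ∈ W.G) (u : SfKey W i)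
    (hu : (sfLatAtm Y p W h i u).Nonempty) : sfLatAtm Y p W h i u = {x | sfCube h (sfDocRay0 Y p W x) = u.2.1 ∧ sfSig W x = u.2.2} := by
  obtain ⟨y, hy1, hy2, hy3⟩ := hu
  ext x
  constructor
  · rintro ⟨hx1, hx2, hx3⟩
    rw [sf_doc_ray0_cl Y hg hc] at hx2
    exact ⟨hx2, hx3⟩
  · rintro ⟨hx2, hx3⟩
    refine ⟨sf_doc_sup_sig Y p W hi u.1 (hx3.trans hy3.symm) hy1, ?_, hx3⟩
    rw [sf_doc_ray0_cl Y hg hc]
    exact hx2

end Claimed.Agent.R256
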