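import Claimed.Agent.R256.Soft.MDocAt

/-!
# Row 256 (S0496), unit SOFT, M1 DISC, file 3: ASSEMBLY OF THE LATTICE SHADOW      (architect helper39; block BP-256-SOFT-DOC; prefix `sf_doc_`)

`sfLat` : the lattice atoms of `Soft/MDocAt.lean` form an `SfAt`;   `sf_doc_disc` : **(M1 DISC)** every documented experiment with `Str`, positive read masses (and `NoOrph` in the classical model) has a shadow with atoms of diameter `≤ s^μ`,
whose rows carry exactly the labels `sfDocLab`, whose rays are rays of rows of the documented tests.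
-/

set_option autoImplicit false

namespace Claimed.Agent.R256

open MeasureTheory Claimed.Agent.R255

theorem sf_doc_ix_cl (Y : SfCy) (hc : Y.hyb = false) {P : PkSys} (W : SfMD P) {q q' : SfCb} {S S' : Set (Σ i, W.Lb i)}
    (h : sfLatIx Y W q S = sfLatIx Y W q' S') : q = q' ∧ S = S' := by
  unfold sfLatIx at h
  simp only [hc, Bool.false_eq_true, if_false, Prod.mk.injEq, Option.some.injEq] at h
  obtain ⟨⟨h1, h2, h3⟩, ⟨h4, h5⟩, h6⟩ := h
  exact ⟨Prod.ext h1 (Prod.ext h2 (Prod.ext h3 (Prod.ext h4 h5))), h6⟩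

theorem sf_doc_ix_hy (Y : SfCy) (hc : Y.hyb = true) {P : PkSys} (W : SfMD P) {q q' : SfCb} (S S' : Set (Σ i, W.Lb i))
    (h1 : q.1 = q'.1) (h2 : q.2.1 = q'.2.1) (h3 : q.2.2.1 = q'.2.2.1) : sfLatIx Y W q S = sfLatIx Y W q' S' := by
  unfold sfLatIx
  simp only [hc, if_true, h1, h2, h3]

theorem sf_doc_h_pos {P : PkSys} (W : SfMD P) (μ : ℝ) : 0 < W.E.s ^ μ := Real.rpow_pos_of_pos (gn_s_pos W.E) μ

section

variable (Y : SfCy) (hg : SfGeo Y) (p : Y.M.Par) (hp : Y.M.gd p) (W : SfMD (Y.M.sys p)) (hS : W.Str (Y.tq p)) (h : ℝ)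

theorem sf_doc_lat_ne {i : ℝ} (hi : i ∈ W.G) (ρ : sfLatRow Y p W h hS.lb_ne i) : (sfLatAtm Y p W h i ρ.1).Nonempty := by
  rcases ρ.2 with h1 | h1
  · exact h1.2
  · exact absurd hi h1.1

include hg in
/-- the key of a point of an atom -/
theorem sf_doc_lat_key {i : ℝ} (u : SfKey W i) {x : (Y.M.sys p).X} (hx : x ∈ sfLatAtm Y p W h i u) :
    sfLatIx Y W (sfCube h (sfDocRay0 Y p W x)) (sfSig W x) = sfLatIx Y W u.2.1 u.2.2 := by
  obtain ⟨-, h2, h3⟩ := hx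
  rw [h3]
  by_cases hc : Y.hyb = true
  · obtain ⟨e1, e2, e3⟩ := sf_doc_ray0_base Y hg p W i u.1 x
    refine sf_doc_ix_hy Y hc W _ _ ?_ ?_ ?_
    · rw [← h2]; simp only [sfCube, e1]
    · rw [← h2]; simp only [sfCube, e2]
    · rw [← h2]; simp only [sfCube, e3]
  · have hc' : Y.hyb = false := by simpa using hc
    rw [← h2, sf_doc_ray0_cl Y hg hc' p W i u.1 x]

end

/-- **the lattice atoms** -/
noncomputable def sfLat (Y : SfCy) (hg : SfGeo Y) (p : Y.M.Par) (hp : Y.M.gd p) (W : SfMD (Y.M.sys p)) (hS : W.Str (Y.tq p)) (μ : ℝ)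
    (x0 : (Y.M.sys p).X) (hne : ∀ i ∈ W.G, ∃ l, (sfDocSup Y p W i l).Nonempty) : SfAt Y p W μ where
  R := sfLatRow Y p W (W.E.s ^ μ) hS.lb_ne
  fR := fun i => @Fintype.ofFinite _ (sf_doc_lat_fin Y hg p W hS (sf_doc_h_pos W μ) i)
  neR := fun i => by
    by_cases hi : i ∈ W.G
    · obtain ⟨l, x, hx⟩ := hne i hi
      exact ⟨⟨(l, sfCube (W.E.s ^ μ) (sfDocRay Y p W i l x), sfSig W x), Or.inl ⟨hi, x, hx, rfl, rfl⟩⟩⟩
    · exact ⟨⟨_, Or.inr ⟨hi, rfl⟩⟩⟩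
  lb := fun _ ρ => ρ.1.1
  atm := fun i ρ => sfLatAtm Y p W (W.E.s ^ μ) i ρ.1
  rp := fun i ρ => sfPick x0 (sfLatAtm Y p W (W.E.s ^ μ) i ρ.1)
  Idx := SfLatIdx W
  idx := fun _ ρ => sfLatIx Y W ρ.1.2.1 ρ.1.2.2
  ia := sfLatIa Y p W (W.E.s ^ μ)
  at_meas := fun _ hi ρ => sf_doc_lat_meas Y hg p hp W hS _ hi ρ.1
  at_disj := fun i _ ρ ρ' hl hne' => by
    refine Set.disjoint_left.2 fun x hx hx' => hne' (Subtype.ext (Prod.ext hl (Prod.ext ?_ ?_)))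
    · have e1 := hx.2.1
      have e2 := hx'.2.1
      rw [← e1, ← e2]
      have hl' : ρ.1.1 = ρ'.1.1 := hl
      rw [hl']
    · exact hx.2.2.symm.trans hx'.2.2
  at_ne := fun _ hi ρ => sf_doc_lat_ne Y p W hS _ hi ρ
  at_cov := fun i hi l x => by
    constructor
    · intro hx
      exact ⟨⟨(l, sfCube (W.E.s ^ μ) (sfDocRay Y p W i l x), sfSig W x), Or.inl ⟨hi, x, hx, rfl, rfl⟩⟩, rfl, hx, rfl, rfl⟩
    · rintro ⟨ρ, rfl, hx⟩
      exact hx.1
  rp_cell := fun i hi ρ => by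
    have h1 := sf_doc_pick_mem x0 (sf_doc_lat_ne Y p W hS _ hi ρ)
    exact hS.supp i hi _ _ h1.1.1
  rp_cl := fun hc i hi j hj ρ ρ' hidx => by
    obtain ⟨e1, e2⟩ := sf_doc_ix_cl Y hc W hidx
    have a1 := sf_doc_lat_cl Y hg hc p W (W.E.s ^ μ) hi ρ.1 (sf_doc_lat_ne Y p W hS _ hi ρ)
    have a2 := sf_doc_lat_cl Y hg hc p W (W.E.s ^ μ) hj ρ'.1 (sf_doc_lat_ne Y p W hS _ hj ρ')
    show sfPick x0 _ = sfPick x0 _
    rw [a1, a2, e1, e2]
  small := fun i hi ρ x hx => by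
    have h1 := sf_doc_pick_mem x0 (sf_doc_lat_ne Y p W hS _ hi ρ)
    exact sf_doc_cube_dist (sf_doc_h_pos W μ) (hx.2.1.trans h1.2.1.symm)
  ia_disj := fun a b hab => by
    refine Set.disjoint_left.2 fun ι h1 h2 => hab ?_
    obtain ⟨x, hx, rfl⟩ := h1
    obtain ⟨x', hx', rfl⟩ := h2
    have hxx : Y.ix p x = Y.ix p x' := hx.trans hx'.symm
    by_cases hc : Y.hyb = true
    · obtain ⟨e1, e2, e3⟩ := sf_doc_ray0_ix Y hg p W hxx
      refine sf_doc_ix_hy Y hc W _ _ ?_ ?_ ?_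
      · simp only [sfCube, e1]
      · simp only [sfCube, e2]
      · simp only [sfCube, e3]
    · have hc' : Y.hyb = false := by simpa using hc
      rw [hg.cl_inj hc' p hxx]
  ia_mem := fun i _ ρ x hx => ⟨x, rfl, sf_doc_lat_key Y hg p W _ ρ.1 hx⟩
  ia_full := fun hc i hi ρ x hx => by
    obtain ⟨x', hx', hk⟩ := hx
    have hxx : x' = x := hg.cl_inj hc p hx'
    subst hxx
    obtain ⟨e1, e2⟩ := sf_doc_ix_cl Y hc W hk
    show x' ∈ sfLatAtm Y p W (W.E.s ^ μ) i ρ.1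
    rw [sf_doc_lat_cl Y hg hc p W (W.E.s ^ μ) hi ρ.1 (sf_doc_lat_ne Y p W hS _ hi ρ)]
    exact ⟨e1, e2⟩

theorem sf_doc_lat_eqns_cite : True := by
  have := @sfLat.eq_1
  trivial

end Claimed.Agent.R256
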