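import Claimed.Agent.R256.Soft.Model
import Claimed.Agent.R256.Gen.BasC

/-!
# Row 256 (S0496), unit SOFT, M1 DISC, file 1: THE SHADOW BUILDER      (architect helper39; block BP-256-SOFT-DOC; prefix `sf_doc_`)

`SfAt Y p W μ` = the SET-LEVEL data of a shadow of the documented experiment `W`: finite types of rows, labels, atoms, representatives, cells of the exact index, with exactly the set-level fields of `SfSh`.
`SfAt.doc a de ε : SfDoc` = the operator-free configuration built from it (laws = atom masses / read mass, rays and labels in the root frame, `Conn` = chains of `sfCn` between atoms of consecutive gates);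
`SfAt.sh` : it is a shadow as soon as the atom masses add up to the read mass (`SfAt.Sum`);   `sf_doc_sum` : they do (hybrid: always;  classical: if the pre-gate state carries no mass on rows without retained ancestors, `SfMD.NoOrph`).
REUSE (RES, GE, PRE): build an `SfAt` for the new `W'` (e.g. atoms = old atoms ∩ new supports, old representatives), then `SfAt.sh`.
-/

set_option autoImplicit false

namespace Claimed.Agent.R256

open MeasureTheory Claimed.Agent.R255

open Classical in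
/-- a point mass -/
noncomputable def sfDirac {Ω : Type} [Fintype Ω] (ω0 : Ω) : FLaw Ω where
  p := fun ω => if ω = ω0 then 1 else 0
  nonneg := fun ω => by split_ifs <;> norm_num
  sum_one := by
    rw [Finset.sum_eq_single ω0]
    · simp
    · intro b _ hb
      simp [hb]
    · intro h
      exact absurd (Finset.mem_univ _) h

/-- the root frame of a documented experiment -/
noncomputable def SfMD.fr {P : PkSys} (W : SfMD P) : SfFrame :=
  sfFrameOf (tmL W.E.k0 W.E.i0) ((2 : ℝ)⁻¹ ^ W.E.k0) W.Q0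

/-- the ray of the row `x`, read at the time of the label `l` of the gate `i`, in the root frame -/
noncomputable def sfDocRay (Y : SfCy) (p : Y.M.Par) (W : SfMD (Y.M.sys p)) (i : ℝ) (l : W.Lb i) (x : (Y.M.sys p).X) : SfRay :=
  W.fr.ray (sfRayAt (W.T i l) (Y.co p (W.T i l) x))

/-- the label `l` of the gate `i` in the root frame -/
noncomputable def sfDocLab (Y : SfCy) (p : Y.M.Par) (W : SfMD (Y.M.sys p)) (i : ℝ) (l : W.Lb i) : SfTest :=
  W.fr.tst (sfTestAt (W.T i l) (Y.tq p (W.ts i l)))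

/-- the rows that a shadow has to cover: retained by the label; classical model: retained at every earlier gate as well -/
def sfDocSup (Y : SfCy) (p : Y.M.Par) (W : SfMD (Y.M.sys p)) (i : ℝ) (l : W.Lb i) : Set (Y.M.sys p).X :=
  {x | W.th i l x ≠ 0 ∧ (Y.hyb = false → W.Anc i l x)}

/-- **set-level data of a shadow** -/
structure SfAt (Y : SfCy) (p : Y.M.Par) (W : SfMD (Y.M.sys p)) (μ : ℝ) where
  R : ℝ → Type
  fR : ∀ i, Fintype (R i)
  neR : ∀ i, Nonempty (R i)
  lb : ∀ i, R i → W.Lb i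
  atm : ∀ i, R i → Set (Y.M.sys p).X
  rp : ∀ i, R i → (Y.M.sys p).X
  Idx : Type
  idx : ∀ i, R i → Idx
  ia : Idx → Set (Y.Ix p)
  at_meas : ∀ i ∈ W.G, ∀ ρ, MeasurableSet (atm i ρ)
  at_disj : ∀ i ∈ W.G, ∀ ρ ρ', lb i ρ = lb i ρ' → ρ ≠ ρ' → Disjoint (atm i ρ) (atm i ρ')
  at_ne : ∀ i ∈ W.G, ∀ ρ, (atm i ρ).Nonempty
  at_cov : ∀ i ∈ W.G, ∀ l x, x ∈ sfDocSup Y p W i l ↔ ∃ ρ, lb i ρ = l ∧ x ∈ atm i ρ
  rp_cell : ∀ i ∈ W.G, ∀ ρ, rp i ρ ∈ (Y.M.sys p).cell (W.ts i (lb i ρ)) (W.T i (lb i ρ)) (W.k i)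
  rp_cl : Y.hyb = false → ∀ i ∈ W.G, ∀ j ∈ W.G, ∀ ρ ρ', idx i ρ = idx j ρ' → rp i ρ = rp j ρ'
  small : ∀ i ∈ W.G, ∀ ρ, ∀ x ∈ atm i ρ, (sfDocRay Y p W i (lb i ρ) x).dist (sfDocRay Y p W i (lb i ρ) (rp i ρ)) ≤ W.E.s ^ μ
  ia_disj : ∀ a b, a ≠ b → Disjoint (ia a) (ia b)
  ia_mem : ∀ i ∈ W.G, ∀ ρ, ∀ x ∈ atm i ρ, Y.ix p x ∈ ia (idx i ρ)
  ia_full : Y.hyb = false → ∀ i ∈ W.G, ∀ ρ x, Y.ix p x ∈ ia (idx i ρ) → x ∈ atm i ρ

instance sfAtFintype {Y : SfCy} {p : Y.M.Par} {W : SfMD (Y.M.sys p)} {μ : ℝ} (a : SfAt Y p W μ) (i : ℝ) : Fintype (a.R i) := a.fR i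

namespace SfAt

variable {Y : SfCy} {p : Y.M.Par} {W : SfMD (Y.M.sys p)} {μ : ℝ} (a : SfAt Y p W μ)

/-- the mass of an atom -/
noncomputable def q (i : ℝ) (ρ : a.R i) : ℝ :=
  (Y.M.sys p).en (W.T i (a.lb i ρ)) (W.k i) (W.gb i) ((a.atm i ρ).indicator (W.th i (a.lb i ρ))) (W.pre i (W.iv i (a.lb i ρ)))

/-- the atom masses are nonnegative and add up to the (positive) read mass -/
def Sum : Prop := ∀ i ∈ W.G, 0 < W.tot i ∧ (∀ ρ, 0 ≤ a.q i ρ) ∧ ∑ ρ, a.q i ρ = W.tot i

/-- the law of a gate (junk value: a point mass) -/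
noncomputable def law (i : ℝ) : FLaw (a.R i) :=
  open Classical in
  if h : (∀ ρ, 0 ≤ a.q i ρ / W.tot i) ∧ ∑ ρ, a.q i ρ / W.tot i = 1 then ⟨fun ρ => a.q i ρ / W.tot i, h.1, h.2⟩
  else sfDirac (a.neR i).some

/-- one step of a connecting chain -/
def step (ε : ℝ) (u v : Σ i, a.R i) : Prop :=
  sfNext W.G u.1 v.1 ∧ ∃ x ∈ a.atm u.1 u.2, ∃ x' ∈ a.atm v.1 v.2,
    sfCn Y p (W.E.s ^ (-ε)) (W.T u.1 (a.lb u.1 u.2)) (W.k u.1) (W.T v.1 (a.lb v.1 v.2)) (W.k v.1) x x'

/-- **the operator-free configuration** -/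
noncomputable def doc (de ε : ℝ) : SfDoc where
  s := W.E.s
  G := W.G
  Row := a.R
  fin := a.fR
  P := a.law
  mass := fun i => W.tot i / (W.E.e * W.E.s ^ (-(de * i)))
  len := fun i => (2 : ℝ)⁻¹ ^ (W.k i - W.E.k0)
  r := fun i => W.r i / W.Q0.r
  f := fun i => W.f i / W.Q0.f
  ek := W.E.e / (W.E.ka * cyWt Y.η W.Q0)
  ray := fun i ρ => sfDocRay Y p W i (a.lb i ρ) (a.rp i ρ)
  lab := fun i ρ => sfDocLab Y p W i (a.lb i ρ)
  Idx := a.Idx
  idx := a.idx
  Conn := fun i j ρ ρ' => Relation.TransGen (a.step ε) ⟨i, ρ⟩ ⟨j, ρ'⟩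

theorem law_p (h : a.Sum) {i : ℝ} (hi : i ∈ W.G) (ρ : a.R i) : (a.law i).p ρ * W.tot i = a.q i ρ := by
  obtain ⟨h0, h1, h2⟩ := h i hi
  have hc : (∀ ρ, 0 ≤ a.q i ρ / W.tot i) ∧ ∑ ρ, a.q i ρ / W.tot i = 1 :=
    ⟨fun ρ => div_nonneg (h1 ρ) h0.le, by rw [← Finset.sum_div, h2, div_self h0.ne']⟩
  unfold law
  rw [dif_pos hc]
  exact div_mul_cancel₀ _ h0.ne'

/-- **the configuration is a shadow** -/
noncomputable def sh (de ε : ℝ) (h : a.Sum) : SfSh Y p W de ε μ (a.doc de ε) where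
  lb := a.lb
  atm := a.atm
  rp := a.rp
  ia := a.ia
  hs := rfl
  hG := rfl
  hlen := fun _ _ => rfl
  hr := fun _ _ => rfl
  hf := fun _ _ => rfl
  hek := rfl
  hmass := fun _ _ => rfl
  at_meas := a.at_meas
  at_disj := a.at_disj
  at_ne := a.at_ne
  at_cov := a.at_cov
  rp_cell := a.rp_cell
  rp_cl := a.rp_cl
  law := fun _ hi ρ => a.law_p h hi ρ
  hray := fun _ _ _ => rfl
  hlab := fun _ _ _ => rfl
  small := a.small
  ia_disj := a.ia_disj
  ia_mem := a.ia_mem
  ia_full := a.ia_full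
  conn := fun _ _ _ _ _ _ => Iff.rfl

end SfAt

/-- classical model: the state entering a gate carries no mass on the rows of a label that are not retained at some earlier gate -/
def SfMD.NoOrph {P : PkSys} (W : SfMD P) : Prop :=
  ∀ i ∈ W.G, ∀ l : W.Lb i, P.en (W.T i l) (W.k i) (W.gb i) ({x | ¬ W.Anc i l x}.indicator (W.th i l)) (W.pre i (W.iv i l)) = 0

theorem sf_doc_mk_eqns_cite : True := by
  have := @sfDirac.eq_1
  have := @SfMD.fr.eq_1
  have := @sfDocRay.eq_1
  have := @sfDocLab.eq_1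
  have := @sfDocSup.eq_1
  have := @SfAt.q.eq_1
  have := @SfAt.Sum.eq_1
  have := @SfAt.law.eq_1
  have := @SfAt.step.eq_1
  have := @SfAt.doc.eq_1
  have := @SfAt.sh.eq_1
  have := @SfMD.NoOrph.eq_1
  trivial

/-- the weights of a documented experiment are masks -/
theorem sf_doc_th_mask {P : PkSys} {W : SfMD P} {tq : P.Tst → CyT} (hS : W.Str tq) {i : ℝ} (hi : i ∈ W.G) (l : W.Lb i) : IsMask (W.th i l) := by
  refine ⟨hS.meas i hi l, fun x => ⟨hS.nn i hi l x, ?_⟩⟩
  refine le_trans ?_ (hS.sum_le i hi (W.iv i l) x)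
  have h := Finset.single_le_sum (f := fun l' => if W.iv i l' = W.iv i l then W.th i l' x else 0) (s := Finset.univ)
    (fun l' _ => by
      show 0 ≤ if W.iv i l' = W.iv i l then W.th i l' x else 0
      split_ifs
      · exact hS.nn i hi l' x
      · exact le_rfl) (Finset.mem_univ l)
  simpa using h

/-- the set of rows with retained ancestors is measurable -/
theorem sf_doc_anc_meas {P : PkSys} {W : SfMD P} {tq : P.Tst → CyT} (hS : W.Str tq) {i : ℝ} (hi : i ∈ W.G) (l : W.Lb i) :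
    MeasurableSet {x | W.Anc i l x} := by
  have e : {x | W.Anc i l x} = ⋂ g ∈ W.G, {x | g < i → ∃ l0 : W.Lb g, W.iv g l0 = ancI (W.k i) (W.k g) (W.iv i l) ∧ W.th g l0 x ≠ 0} := by
    ext x
    simp only [SfMD.Anc, Set.mem_ofPred_eq, Set.mem_iInter]
  rw [e]
  refine Finset.measurableSet_biInter _ fun g hg => ?_
  by_cases hgi : g < i
  · have e2 : {x | g < i → ∃ l0 : W.Lb g, W.iv g l0 = ancI (W.k i) (W.k g) (W.iv i l) ∧ W.th g l0 x ≠ 0}
        = ⋃ l0 : W.Lb g, {x | W.iv g l0 = ancI (W.k i) (W.k g) (W.iv i l) ∧ W.th g l0 x ≠ 0} := by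
      ext x
      simp only [Set.mem_ofPred_eq, Set.mem_iUnion, hgi, true_imp_iff]
    rw [e2]
    refine MeasurableSet.iUnion fun l0 => ?_
    by_cases h0 : W.iv g l0 = ancI (W.k i) (W.k g) (W.iv i l)
    · simp only [h0, true_and]
      exact ((hS.meas g hg l0) (measurableSet_singleton (0 : ℝ))).compl
    · simp only [h0, false_and]
      exact MeasurableSet.empty
  · simp only [hgi, false_imp_iff]
    exact MeasurableSet.univ

/-- the rows to be covered form a measurable set -/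
theorem sf_doc_sup_meas (Y : SfCy) (p : Y.M.Par) (W : SfMD (Y.M.sys p)) (hS : W.Str (Y.tq p)) {i : ℝ} (hi : i ∈ W.G) (l : W.Lb i) :
    MeasurableSet (sfDocSup Y p W i l) := by
  have hm : MeasurableSet {x | W.th i l x ≠ 0} := ((hS.meas i hi l) (measurableSet_singleton (0 : ℝ))).compl
  have e2 : sfDocSup Y p W i l = {x | W.th i l x ≠ 0} ∩ {x | Y.hyb = false → W.Anc i l x} := by
    ext x
    simp only [sfDocSup, Set.mem_ofPred_eq, Set.mem_inter_iff]
  rw [e2]
  refine hm.inter ?_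
  by_cases hc : Y.hyb = false
  · simp only [hc, true_imp_iff]
    exact sf_doc_anc_meas hS hi l
  · have e3 : {x | Y.hyb = false → W.Anc i l x} = Set.univ := by
      ext x
      simp only [Set.mem_ofPred_eq, Set.mem_univ, iff_true]
      intro h'
      exact absurd h' hc
    rw [e3]
    exact MeasurableSet.univ

/-- the restriction of a mask to a measurable set is a mask -/
theorem sf_doc_ind_mask {X : Type} [MeasurableSpace X] {θ : X → ℝ} (hθ : IsMask θ) {A : Set X} (hA : MeasurableSet A) : IsMask (A.indicator θ) := by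
  refine ⟨hθ.1.indicator hA, fun x => ?_⟩
  by_cases hx : x ∈ A
  · rw [Set.indicator_of_mem hx]
    exact hθ.2 x
  · rw [Set.indicator_of_notMem hx]
    exact ⟨le_rfl, zero_le_one⟩

/-- the row energy is additive in the weight -/
theorem sf_doc_en_add {P : PkSys} (T : ℝ) (k b : ℕ) {θ1 θ2 : P.X → ℝ} (h1 : IsMask θ1) (h2 : IsMask θ2) (v : P.Kc) :
    P.en T k b (fun x => θ1 x + θ2 x) v = P.en T k b θ1 v + P.en T k b θ2 v := by
  unfold PkSys.en
  rw [← integral_add (gn_en_integrable T k b h1 v) (gn_en_integrable T k b h2 v)]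
  congr 1
  ext x
  ring

/-- **(DISC-SUM)** the atom masses add up to the read mass.
PLAN: fix `i ∈ G`.  `0 ≤ q` : `gn_en_nonneg`.   Group the rows by their label: `∑ ρ, q ρ = ∑ l, ∑ ρ with lb ρ = l, q ρ` (`Finset.sum_fiberwise`).  For fixed `l`: `gn_en_sum` (masks: `sf_doc_th_mask`, `at_meas`) turns the inner sum into
`en (fun x => ∑ ρ with lb ρ = l, (atm ρ).indicator (th l) x)`, and pointwise that weight is `(sfDocSup .. l).indicator (th l)` (`at_cov`, `at_disj`: at most one atom contains `x`).   Hybrid: `sfDocSup = {th ≠ 0}`, so the weight is `th l`.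
Classical: `th l = (sfDocSup l).indicator (th l) + {¬ Anc}.indicator (th l)`, `gn_en_sum` on two terms, `hO`. -/
theorem sf_doc_sum {Y : SfCy} {p : Y.M.Par} {W : SfMD (Y.M.sys p)} {μ : ℝ} (a : SfAt Y p W μ) (hS : W.Str (Y.tq p))
    (hpos : ∀ i ∈ W.G, 0 < W.tot i) (hO : Y.hyb = false → W.NoOrph) : a.Sum := by
  classical
  intro i hi
  refine ⟨hpos i hi, fun ρ => ?_, ?_⟩
  · refine gn_en_nonneg _ _ _ (fun x => ?_) _
    exact Set.indicator_nonneg (fun y _ => hS.nn i hi _ y) x
  · rw [← Finset.sum_fiberwise Finset.univ (a.lb i) (a.q i)]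
    unfold SfMD.tot
    refine Finset.sum_congr rfl fun l _ => ?_
    have hth := sf_doc_th_mask hS hi l
    have s1 : ∑ ρ ∈ Finset.univ.filter (fun ρ => a.lb i ρ = l), a.q i ρ
        = ∑ ρ ∈ Finset.univ.filter (fun ρ => a.lb i ρ = l),
          (Y.M.sys p).en (W.T i l) (W.k i) (W.gb i) ((a.atm i ρ).indicator (W.th i l)) (W.pre i (W.iv i l)) := by
      refine Finset.sum_congr rfl fun ρ hρ => ?_
      have hl := (Finset.mem_filter.1 hρ).2
      unfold SfAt.q
      rw [hl]
    rw [s1, ← gn_en_sum _ _ _ _ _ (fun ρ _ => sf_doc_ind_mask hth (a.at_meas i hi ρ))]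
    have s2 : (fun x => ∑ ρ ∈ Finset.univ.filter (fun ρ => a.lb i ρ = l), (a.atm i ρ).indicator (W.th i l) x)
        = (sfDocSup Y p W i l).indicator (W.th i l) := by
      ext x
      by_cases hx : x ∈ sfDocSup Y p W i l
      · rw [Set.indicator_of_mem hx]
        obtain ⟨ρ0, h0, hx0⟩ := (a.at_cov i hi l x).1 hx
        rw [Finset.sum_eq_single ρ0]
        · exact Set.indicator_of_mem hx0 _
        · intro ρ hρ hne
          have hl := (Finset.mem_filter.1 hρ).2
          refine Set.indicator_of_notMem (fun hxρ => ?_) _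
          exact Set.disjoint_left.1 (a.at_disj i hi ρ ρ0 (hl.trans h0.symm) hne) hxρ hx0
        · intro hn
          exact absurd (Finset.mem_filter.2 ⟨Finset.mem_univ ρ0, h0⟩) hn
      · rw [Set.indicator_of_notMem hx]
        refine Finset.sum_eq_zero fun ρ hρ => ?_
        have hl := (Finset.mem_filter.1 hρ).2
        refine Set.indicator_of_notMem (fun hxρ => ?_) _
        exact hx ((a.at_cov i hi l x).2 ⟨ρ, hl, hxρ⟩)
    rw [s2]
    unfold SfMD.m
    by_cases hc : Y.hyb = false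
    · have s3 : W.th i l = fun x => (sfDocSup Y p W i l).indicator (W.th i l) x + {x | ¬ W.Anc i l x}.indicator (W.th i l) x := by
        ext x
        by_cases h0 : W.th i l x = 0
        · simp only [Set.indicator, h0, ite_self, add_zero]
        · by_cases hA : W.Anc i l x
          · have m1 : x ∈ sfDocSup Y p W i l := ⟨h0, fun _ => hA⟩
            have m2 : x ∉ {x | ¬ W.Anc i l x} := fun h => h hA
            rw [Set.indicator_of_mem m1, Set.indicator_of_notMem m2, add_zero]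
          · have m1 : x ∉ sfDocSup Y p W i l := fun h => hA (h.2 hc)
            have m2 : x ∈ {x | ¬ W.Anc i l x} := hA
            rw [Set.indicator_of_notMem m1, Set.indicator_of_mem m2, zero_add]
      have s4 := sf_doc_en_add (W.T i l) (W.k i) (W.gb i) (sf_doc_ind_mask hth (sf_doc_sup_meas Y p W hS hi l))
        (sf_doc_ind_mask hth (sf_doc_anc_meas hS hi l).compl) (W.pre i (W.iv i l))
      have s5 := hO hc i hi l
      have s6 : ({x | W.Anc i l x}ᶜ : Set (Y.M.sys p).X) = {x | ¬ W.Anc i l x} := rfl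
      rw [s6, s5, add_zero, ← s3] at s4
      exact s4.symm
    · have s3 : (sfDocSup Y p W i l).indicator (W.th i l) = W.th i l := by
        ext x
        by_cases h0 : W.th i l x = 0
        · simp only [Set.indicator, h0, ite_self]
        · have m1 : x ∈ sfDocSup Y p W i l := ⟨h0, fun h => absurd h hc⟩
          exact Set.indicator_of_mem m1 _
      rw [s3]

end Claimed.Agent.R256
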