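import Claimed.Agent.R256.Soft.MDocLat

/-!
# Row 256 (S0496), unit SOFT, M1 DISC, file 6: REFINEMENT OF A SHADOW (REF)      (architect helper39; block BP-256-SOFT-DOC; prefix `sf_doc_rf_`)

TOOL for RES, PRE, GE.   `sh` = a shadow of `W`;   `W'` = another documented experiment OVER THE SAME PARAMETER `p` that reuses tests, times and rows of `W`:
`SfRf Y p W sh W' μ'` = gate map `γ`, label maps `g`, same depths / intervals / tests, the rows to cover lie in OLD atoms of the corresponding old label, the old atoms are small in the NEW root frame.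
`sfRef … : SfAt Y p W' μ'` :    new row = `(l', ρ, S)`,   new atom = (rows of `l'` to cover) ∩ (old atom `ρ`) ∩ (rows with the NEW signature `S`),   NEW REPRESENTATIVE = OLD REPRESENTATIVE,   new exact index = (old exact index, classical: `S`).
`sfRfE` = the map new rows → old rows.      Then `(sfRef …).doc de' ε'`, `(sfRef …).sh de' ε' (sf_doc_sum …)` is the new shadow;  `sf_doc_rf_fib` = the masses of the new atoms inside an old atom add up.
-/

set_option autoImplicit false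

namespace Claimed.Agent.R256

open MeasureTheory Claimed.Agent.R255

theorem sf_doc_rf_row_ne (D : SfDoc) (i : ℝ) : Nonempty (D.Row i) := by
  by_contra h
  rw [not_nonempty_iff] at h
  have h1 := (D.P i).sum_one
  rw [Finset.univ_eq_empty, Finset.sum_empty] at h1
  exact zero_ne_one h1

/-- **relabelling data** -/
structure SfRf (Y : SfCy) (p : Y.M.Par) (W : SfMD (Y.M.sys p)) {de ε μ : ℝ} {D : SfDoc} (sh : SfSh Y p W de ε μ D)
    (W' : SfMD (Y.M.sys p)) (μ' : ℝ) where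
  γ : ℝ → ℝ
  g : ∀ i, W'.Lb i → W.Lb (γ i)
  hG : ∀ i ∈ W'.G, γ i ∈ W.G
  hk : ∀ i ∈ W'.G, W'.k i = W.k (γ i)
  hiv : ∀ i ∈ W'.G, ∀ l, W'.iv i l = W.iv (γ i) (g i l)
  hts : ∀ i ∈ W'.G, ∀ l, W'.ts i l = W.ts (γ i) (g i l)
  /-- the rows to cover lie in old atoms of the old label -/
  hsup : ∀ i ∈ W'.G, ∀ l, ∀ x ∈ sfDocSup Y p W' i l, ∃ ρ, sh.lb (γ i) ρ = g i l ∧ x ∈ sh.atm (γ i) ρ
  /-- the old atoms are small in the new root frame -/
  hsm : ∀ i ∈ W'.G, ∀ l ρ, sh.lb (γ i) ρ = g i l → ∀ x ∈ sh.atm (γ i) ρ, x ∈ sfDocSup Y p W' i l →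
    (sfDocRay Y p W' i l x).dist (sfDocRay Y p W' i l (sh.rp (γ i) ρ)) ≤ W'.E.s ^ μ'

section

variable {Y : SfCy} {p : Y.M.Par} {W : SfMD (Y.M.sys p)} {de ε μ : ℝ} {D : SfDoc} {sh : SfSh Y p W de ε μ D}
  {W' : SfMD (Y.M.sys p)} {μ' : ℝ}

/-- keys of the new atoms -/
abbrev SfRf.Key (r : SfRf Y p W sh W' μ') (i : ℝ) : Type := W'.Lb i × D.Row (r.γ i) × Set (Σ i, W'.Lb i)

/-- the new atom of a key -/
def SfRf.atm (r : SfRf Y p W sh W' μ') (i : ℝ) (u : r.Key i) : Set (Y.M.sys p).X :=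
  {x | x ∈ sfDocSup Y p W' i u.1 ∧ x ∈ sh.atm (r.γ i) u.2.1 ∧ sfSig W' x = u.2.2}

/-- the new rows: keys with matching labels and a nonempty atom; off the mesh one junk key -/
def SfRf.Row (r : SfRf Y p W sh W' μ') (hl : ∀ i, Nonempty (W'.Lb i)) (i : ℝ) : Type :=
  {u : r.Key i // (i ∈ W'.G ∧ sh.lb (r.γ i) u.2.1 = r.g i u.1 ∧ (r.atm i u).Nonempty) ∨
    (i ∉ W'.G ∧ u = ((hl i).some, (sf_doc_rf_row_ne D (r.γ i)).some, ∅))}

/-- the new cells of the exact index -/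
def SfRf.ia (_r : SfRf Y p W sh W' μ') (a : D.Idx × Option (Set (Σ i, W'.Lb i))) : Set (Y.Ix p) :=
  {ι | ι ∈ sh.ia a.1 ∧ match a.2 with
    | none => Y.hyb = true
    | some S => Y.hyb = false ∧ ∃ x, Y.ix p x = ι ∧ sfSig W' x = S}

/-- the name of the new cell -/
def SfRf.ix (r : SfRf Y p W sh W' μ') (i : ℝ) (u : r.Key i) : D.Idx × Option (Set (Σ i, W'.Lb i)) :=
  (D.idx (r.γ i) u.2.1, if Y.hyb = true then none else some u.2.2)

theorem sf_doc_rf_eqns_cite : True := by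
  have := @SfRf.atm.eq_1
  have := @SfRf.Row.eq_1
  have := @SfRf.ia.eq_1
  have := @SfRf.ix.eq_1
  trivial

/-! ## LEAF L-256-DOC-R1 : measurability, finiteness -/

/-- PLAN: `{th ≠ 0}` is measurable (`Str.meas`, `measurableSet_eq_fun`/`(measurableSet_singleton 0).compl` preimage); cases on `Y.hyb`: `true` → the second condition is vacuous; `false` → intersect with `sf_doc_anc_meas`. -/
theorem sf_doc_rf_sup_meas (Y : SfCy) (p : Y.M.Par) (W : SfMD (Y.M.sys p)) (hS : W.Str (Y.tq p)) {i : ℝ} (hi : i ∈ W.G) (l : W.Lb i) :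
    MeasurableSet (sfDocSup Y p W i l) := by
  exact sf_doc_sup_meas Y p W hS hi l

/-- PLAN: if `S ⊄ {u | u.1 ∈ G}` the set is empty; otherwise it is `⋂ u ∈ {u | u.1 ∈ G}, {x | th u x ≠ 0 ↔ u ∈ S}` (`Set.Finite.measurableSet_biInter` with `sf_doc_lab_fin`; each set is `{th ≠ 0}` or its complement). -/
theorem sf_doc_rf_sig_meas {P : PkSys} {W : SfMD P} {tq : P.Tst → CyT} (hS : W.Str tq) (S : Set (Σ i, W.Lb i)) :
    MeasurableSet {x | sfSig W x = S} := by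
  exact sf_doc_sig_meas hS S

/-- PLAN: `i ∉ G'`: subsingleton.  `i ∈ G'`: injection into `W'.Lb i × D.Row (γ i) × {S | S ⊆ {u | u.1 ∈ G'}}` (finite: `sf_doc_lab_fin`, `Set.Finite.finite_subsets`); a nonempty atom has `u.2.2 = sfSig W' x ⊆ {u | u.1 ∈ G'}`. -/
theorem sf_doc_rf_fin (r : SfRf Y p W sh W' μ') (hl : ∀ i, Nonempty (W'.Lb i)) (i : ℝ) : Finite (r.Row hl i) := by
  have hfin : {u : r.Key i | (i ∈ W'.G ∧ sh.lb (r.γ i) u.2.1 = r.g i u.1 ∧ (r.atm i u).Nonempty) ∨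
      (i ∉ W'.G ∧ u = ((hl i).some, (sf_doc_rf_row_ne D (r.γ i)).some, ∅))}.Finite := by
    by_cases hi : i ∈ W'.G
    · have hs : {S : Set (Σ i, W'.Lb i) | S ⊆ {u : Σ i, W'.Lb i | u.1 ∈ W'.G}}.Finite := (sf_doc_lab_fin W').finite_subsets
      have : Fintype (D.Row (r.γ i)) := D.fin (r.γ i)
      refine ((Set.finite_univ (α := W'.Lb i)).prod ((Set.finite_univ (α := D.Row (r.γ i))).prod hs)).subset ?_
      rintro ⟨l, ρ, S⟩ hu
      rcases hu with ⟨_, _, x, hx⟩ | ⟨hn, _⟩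
      · obtain ⟨hx1, hx2, hx3⟩ := hx
        refine ⟨Set.mem_univ _, Set.mem_univ _, ?_⟩
        have hx3' : sfSig W' x = S := hx3
        show S ⊆ _
        rw [← hx3']
        intro v hv
        exact hv.1
      · exact absurd hi hn
    · refine (Set.finite_singleton ((hl i).some, (sf_doc_rf_row_ne D (r.γ i)).some, (∅ : Set (Σ i, W'.Lb i)))).subset ?_
      rintro u (⟨hi', _⟩ | ⟨_, hu⟩)
      · exact absurd hi' hi
      · exact hu
  exact hfin.to_subtype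

/-! ## assembly -/

theorem sf_doc_rf_T (r : SfRf Y p W sh W' μ') {i : ℝ} (hi : i ∈ W'.G) (l : W'.Lb i) : W'.T i l = W.T (r.γ i) (r.g i l) := by
  unfold SfMD.T
  rw [r.hk i hi, r.hiv i hi]

theorem sf_doc_rf_ok (r : SfRf Y p W sh W' μ') (hl : ∀ i, Nonempty (W'.Lb i)) {i : ℝ} (hi : i ∈ W'.G) (ρ : r.Row hl i) :
    sh.lb (r.γ i) ρ.1.2.1 = r.g i ρ.1.1 ∧ (r.atm i ρ.1).Nonempty := by
  rcases ρ.2 with h1 | h1
  · exact h1.2
  · exact absurd hi h1.1

theorem sf_doc_rf_ix_cl (r : SfRf Y p W sh W' μ') (hc : Y.hyb = false) {i j : ℝ} {u : r.Key i} {v : r.Key j} (h : r.ix i u = r.ix j v) :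
    D.idx (r.γ i) u.2.1 = D.idx (r.γ j) v.2.1 ∧ u.2.2 = v.2.2 := by
  unfold SfRf.ix at h
  simp only [hc, Bool.false_eq_true, if_false, Prod.mk.injEq, Option.some.injEq] at h
  exact h

/-- **the refined atoms** -/
noncomputable def sfRef (hg : SfGeo Y) (hS : W'.Str (Y.tq p)) (r : SfRf Y p W sh W' μ')
    (hne : ∀ i ∈ W'.G, ∃ l, (sfDocSup Y p W' i l).Nonempty) : SfAt Y p W' μ' where
  R := r.Row hS.lb_ne
  fR := fun i => @Fintype.ofFinite _ (sf_doc_rf_fin r hS.lb_ne i)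
  neR := fun i => by
    by_cases hi : i ∈ W'.G
    · obtain ⟨l, x, hx⟩ := hne i hi
      obtain ⟨ρ, h1, h2⟩ := r.hsup i hi l x hx
      exact ⟨⟨(l, ρ, sfSig W' x), Or.inl ⟨hi, h1, x, hx, h2, rfl⟩⟩⟩
    · exact ⟨⟨_, Or.inr ⟨hi, rfl⟩⟩⟩
  lb := fun _ ρ => ρ.1.1
  atm := fun i ρ => r.atm i ρ.1
  rp := fun i ρ => sh.rp (r.γ i) ρ.1.2.1
  Idx := D.Idx × Option (Set (Σ i, W'.Lb i))
  idx := fun i ρ => r.ix i ρ.1
  ia := r.ia
  at_meas := fun i hi ρ =>
    (sf_doc_rf_sup_meas Y p W' hS hi ρ.1.1).inter ((sh.at_meas (r.γ i) (r.hG i hi) ρ.1.2.1).inter (sf_doc_rf_sig_meas hS ρ.1.2.2))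
  at_disj := fun i hi ρ ρ' hl hne' => by
    refine Set.disjoint_left.2 fun x hx hx' => hne' (Subtype.ext (Prod.ext hl (Prod.ext ?_ ?_)))
    · by_contra hρ
      have e1 := (sf_doc_rf_ok r hS.lb_ne hi ρ).1
      have e2 := (sf_doc_rf_ok r hS.lb_ne hi ρ').1
      have hl' : ρ.1.1 = ρ'.1.1 := hl
      rw [hl', ← e2] at e1
      exact Set.disjoint_left.1 (sh.at_disj (r.γ i) (r.hG i hi) _ _ e1 hρ) hx.2.1 hx'.2.1
    · exact hx.2.2.symm.trans hx'.2.2
  at_ne := fun _ hi ρ => (sf_doc_rf_ok r hS.lb_ne hi ρ).2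
  at_cov := fun i hi l x => by
    constructor
    · intro hx
      obtain ⟨ρ, h1, h2⟩ := r.hsup i hi l x hx
      exact ⟨⟨(l, ρ, sfSig W' x), Or.inl ⟨hi, h1, x, hx, h2, rfl⟩⟩, rfl, hx, h2, rfl⟩
    · rintro ⟨ρ, rfl, hx⟩
      exact hx.1
  rp_cell := fun i hi ρ => by
    have h1 := sh.rp_cell (r.γ i) (r.hG i hi) ρ.1.2.1
    rw [(sf_doc_rf_ok r hS.lb_ne hi ρ).1, ← r.hts i hi, ← sf_doc_rf_T r hi, ← r.hk i hi] at h1
    exact h1
  rp_cl := fun hc i hi j hj ρ ρ' hidx =>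
    sh.rp_cl hc (r.γ i) (r.hG i hi) (r.γ j) (r.hG j hj) _ _ (sf_doc_rf_ix_cl r hc hidx).1
  small := fun i hi ρ x hx => r.hsm i hi ρ.1.1 ρ.1.2.1 (sf_doc_rf_ok r hS.lb_ne hi ρ).1 x hx.2.1 hx.1
  ia_disj := fun a b hab => by
    refine Set.disjoint_left.2 fun ι h1 h2 => hab ?_
    obtain ⟨a1, a2⟩ := a
    obtain ⟨b1, b2⟩ := b
    have e1 : a1 = b1 := by
      by_contra hne'
      exact Set.disjoint_left.1 (sh.ia_disj a1 b1 hne') h1.1 h2.1
    subst e1
    have q1 := h1.2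
    have q2 := h2.2
    cases a2 with
    | none =>
      cases b2 with
      | none => rfl
      | some S' =>
        have t1 : Y.hyb = true := q1
        have t2 : Y.hyb = false := q2.1
        rw [t1] at t2
        exact absurd t2 (by simp)
    | some S =>
      cases b2 with
      | none =>
        have t1 : Y.hyb = true := q2
        have t2 : Y.hyb = false := q1.1
        rw [t1] at t2
        exact absurd t2 (by simp)
      | some S' =>
        obtain ⟨hc, x, hx, rfl⟩ := q1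
        obtain ⟨-, x', hx', rfl⟩ := q2
        rw [hg.cl_inj hc p (hx.trans hx'.symm)]
  ia_mem := fun i hi ρ x hx => by
    refine ⟨sh.ia_mem (r.γ i) (r.hG i hi) _ x hx.2.1, ?_⟩
    by_cases hc : Y.hyb = true
    · simp only [SfRf.ix, hc, if_true]
    · have hc' : Y.hyb = false := by simpa using hc
      simp only [SfRf.ix, hc', Bool.false_eq_true, if_false]
      exact ⟨trivial, x, rfl, hx.2.2⟩
  ia_full := fun hc i hi ρ x hx => by
    obtain ⟨h1, h2⟩ := hx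
    simp only [SfRf.ix, hc, Bool.false_eq_true, if_false] at h1 h2
    obtain ⟨-, x', hx', hs⟩ := h2
    have hxx : x' = x := hg.cl_inj hc p hx'
    subst hxx
    obtain ⟨y, hy⟩ := (sf_doc_rf_ok r hS.lb_ne hi ρ).2
    exact ⟨sf_doc_sup_sig Y p W' hi ρ.1.1 (hs.trans hy.2.2.symm) hy.1, sh.ia_full hc (r.γ i) (r.hG i hi) _ x' h1, hs⟩

/-- the map new rows → old rows -/
def sfRfE (hg : SfGeo Y) (hS : W'.Str (Y.tq p)) (r : SfRf Y p W sh W' μ') (hne : ∀ i ∈ W'.G, ∃ l, (sfDocSup Y p W' i l).Nonempty)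
    (u : Σ i, (sfRef hg hS r hne).R i) : Σ k, D.Row k := ⟨r.γ u.1, u.2.1.2.1⟩

theorem sf_doc_rf_eqns_cite2 : True := by
  have := @sfRef.eq_1
  have := @sfRfE.eq_1
  trivial

/-! ## what the users need -/

section

variable (hg : SfGeo Y) (hS : W'.Str (Y.tq p)) (r : SfRf Y p W sh W' μ') (hne : ∀ i ∈ W'.G, ∃ l, (sfDocSup Y p W' i l).Nonempty)

/-- new atoms lie in old atoms, labels correspond -/
theorem sf_doc_rf_sub {i : ℝ} (hi : i ∈ W'.G) (u : (sfRef hg hS r hne).R i) :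
    (sfRef hg hS r hne).atm i u ⊆ sh.atm (r.γ i) u.1.2.1 ∧ (sfRef hg hS r hne).atm i u ⊆ sfDocSup Y p W' i ((sfRef hg hS r hne).lb i u) ∧
      sh.lb (r.γ i) u.1.2.1 = r.g i ((sfRef hg hS r hne).lb i u) :=
  ⟨fun _ hx => hx.2.1, fun _ hx => hx.1, (sf_doc_rf_ok r hS.lb_ne hi u).1⟩

/-- old representatives -/
theorem sf_doc_rf_rp (i : ℝ) (u : (sfRef hg hS r hne).R i) : (sfRef hg hS r hne).rp i u = sh.rp (r.γ i) u.1.2.1 := rfl

/-- the new exact index refines the old one -/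
theorem sf_doc_rf_idx {i j : ℝ} (u : (sfRef hg hS r hne).R i) (v : (sfRef hg hS r hne).R j)
    (h : (sfRef hg hS r hne).idx i u = (sfRef hg hS r hne).idx j v) : D.idx (r.γ i) u.1.2.1 = D.idx (r.γ j) v.1.2.1 :=
  congrArg Prod.fst h

/-- hybrid: the new exact index IS the old one -/
theorem sf_doc_rf_idx_hy (hc : Y.hyb = true) {i j : ℝ} (u : (sfRef hg hS r hne).R i) (v : (sfRef hg hS r hne).R j)
    (h : D.idx (r.γ i) u.1.2.1 = D.idx (r.γ j) v.1.2.1) : (sfRef hg hS r hne).idx i u = (sfRef hg hS r hne).idx j v := by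
  show r.ix i u.1 = r.ix j v.1
  unfold SfRf.ix
  simp only [hc, if_true, h]

/-- connecting chains of the new shadow are connecting chains of the old one -/
theorem sf_doc_rf_conn (de' ε' : ℝ) (hnx : ∀ i j, sfNext W'.G i j → sfNext W.G (r.γ i) (r.γ j))
    (hcn : ∀ T k T' k' x x', sfCn Y p (W'.E.s ^ (-ε')) T k T' k' x x' → sfCn Y p (W.E.s ^ (-ε)) T k T' k' x x')
    {i j : ℝ} (hi : i ∈ W'.G) (hj : j ∈ W'.G) (u : (sfRef hg hS r hne).R i) (v : (sfRef hg hS r hne).R j)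
    (h : ((sfRef hg hS r hne).doc de' ε').Conn i j u v) : D.Conn (r.γ i) (r.γ j) u.1.2.1 v.1.2.1 := by
  rw [sh.conn (r.γ i) (r.hG i hi) (r.γ j) (r.hG j hj)]
  have h' : Relation.TransGen ((sfRef hg hS r hne).step ε') ⟨i, u⟩ ⟨j, v⟩ := h
  refine Relation.TransGen.lift (sfRfE hg hS r hne) ?_ _ _ h'
  rintro ⟨a, ua⟩ ⟨b, ub⟩ ⟨h1, x, hx, x', hx', h2⟩
  have ha : a ∈ W'.G := h1.1
  have hb : b ∈ W'.G := h1.2.1
  refine ⟨hnx a b h1, x, hx.2.1, x', hx'.2.1, ?_⟩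
  have h3 := hcn _ _ _ _ _ _ h2
  have ea := (sf_doc_rf_ok r hS.lb_ne ha ua).1
  have eb := (sf_doc_rf_ok r hS.lb_ne hb ub).1
  show sfCn Y p (W.E.s ^ (-ε)) (W.T (r.γ a) (sh.lb (r.γ a) ua.1.2.1)) (W.k (r.γ a)) (W.T (r.γ b) (sh.lb (r.γ b) ub.1.2.1)) (W.k (r.γ b)) x x'
  rw [ea, eb, ← sf_doc_rf_T r ha, ← sf_doc_rf_T r hb, ← r.hk a ha, ← r.hk b hb]
  exact h3

/-! ## LEAF L-256-DOC-R2 : the masses of the new atoms inside an old atom add up -/

open Classical in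
/-- PLAN: as `sf_doc_sum`: `gn_en_sum` (masks: `sf_doc_th_mask` restricted to a measurable set, `(sfRef ..).at_meas`) turns the sum into `en` of the weight `x ↦ ∑ u with (lb u = l, old row = ρ), (atm u).indicator (th l) x`; pointwise this is
`(old atom ρ ∩ sfDocSup l).indicator (th l) x`: if `x` lies in that set, exactly one key `(l, ρ, sfSig W' x)` contains it (`Finset.sum_eq_single`); otherwise all terms vanish.      (rewrite `lb u = l` with `subst`/`Finset.sum_congr`; `SfAt.q` unfolds to `en … (W'.th i (lb u)) …`.) -/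
theorem sf_doc_rf_fib {i : ℝ} (hi : i ∈ W'.G) (l : W'.Lb i) (ρ : D.Row (r.γ i)) (hρ : sh.lb (r.γ i) ρ = r.g i l) :
    ∑ u : (sfRef hg hS r hne).R i, (if (sfRef hg hS r hne).lb i u = l ∧ u.1.2.1 = ρ then (sfRef hg hS r hne).q i u else 0)
      = (Y.M.sys p).en (W'.T i l) (W'.k i) (W'.gb i) ((sh.atm (r.γ i) ρ ∩ sfDocSup Y p W' i l).indicator (W'.th i l)) (W'.pre i (W'.iv i l)) := by
  have hth := sf_doc_th_mask hS hi l
  rw [← Finset.sum_filter]
  have s1 : ∑ u ∈ Finset.univ.filter (fun u : (sfRef hg hS r hne).R i => (sfRef hg hS r hne).lb i u = l ∧ u.1.2.1 = ρ), (sfRef hg hS r hne).q i u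
      = ∑ u ∈ Finset.univ.filter (fun u : (sfRef hg hS r hne).R i => (sfRef hg hS r hne).lb i u = l ∧ u.1.2.1 = ρ),
        (Y.M.sys p).en (W'.T i l) (W'.k i) (W'.gb i) (((sfRef hg hS r hne).atm i u).indicator (W'.th i l)) (W'.pre i (W'.iv i l)) := by
    refine Finset.sum_congr rfl fun u hu => ?_
    have hl := (Finset.mem_filter.1 hu).2.1
    unfold SfAt.q
    rw [hl]
  rw [s1, ← gn_en_sum _ _ _ _ _ (fun u _ => sf_doc_ind_mask hth ((sfRef hg hS r hne).at_meas i hi u))]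
  congr 1
  ext x
  by_cases hx : x ∈ sh.atm (r.γ i) ρ ∩ sfDocSup Y p W' i l
  · rw [Set.indicator_of_mem hx]
    obtain ⟨u0, hu0⟩ : ∃ u0 : (sfRef hg hS r hne).R i, u0 = ⟨(l, ρ, sfSig W' x), Or.inl ⟨hi, hρ, x, hx.2, hx.1, rfl⟩⟩ := ⟨_, rfl⟩
    have hx0 : x ∈ (sfRef hg hS r hne).atm i u0 := by
      rw [hu0]
      exact ⟨hx.2, hx.1, rfl⟩
    rw [Finset.sum_eq_single u0]
    · exact Set.indicator_of_mem hx0 _
    · intro u hu hne'
      obtain ⟨h1, h2⟩ := (Finset.mem_filter.1 hu).2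
      refine Set.indicator_of_notMem (fun hxu => hne' ?_) _
      have hxu' : x ∈ r.atm i u.1 := hxu
      rw [hu0]
      apply Subtype.ext
      have h1' : u.1.1 = l := h1
      exact Prod.ext h1' (Prod.ext h2 hxu'.2.2.symm)
    · intro hn
      refine absurd (Finset.mem_filter.2 ⟨Finset.mem_univ u0, ?_, ?_⟩) hn
      · rw [hu0]; rfl
      · rw [hu0]
  · rw [Set.indicator_of_notMem hx]
    refine Finset.sum_eq_zero fun u hu => ?_
    obtain ⟨h1, h2⟩ := (Finset.mem_filter.1 hu).2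
    refine Set.indicator_of_notMem (fun hxu => hx ?_) _
    have hxu' : x ∈ r.atm i u.1 := hxu
    have h1' : u.1.1 = l := h1
    refine ⟨?_, ?_⟩
    · rw [← h2]; exact hxu'.2.1
    · rw [← h1']; exact hxu'.1

end

/-- the smallness hypothesis of `SfRf` when the root frame does not change -/
theorem sf_doc_rf_small_same (sh : SfSh Y p W de ε μ D) (hfr : W'.fr = W.fr) (hs : W.E.s ^ μ ≤ W'.E.s ^ μ') {i k : ℝ} (hk : k ∈ W.G)
    (l : W'.Lb i) (ρ : D.Row k) (hT : W'.T i l = W.T k (sh.lb k ρ)) {x : (Y.M.sys p).X} (hx : x ∈ sh.atm k ρ) :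
    (sfDocRay Y p W' i l x).dist (sfDocRay Y p W' i l (sh.rp k ρ)) ≤ W'.E.s ^ μ' := by
  have h1 := sh.small k hk ρ x hx
  rw [sh.hray k hk ρ] at h1
  unfold sfDocRay
  rw [hfr, hT]
  exact h1.trans hs

end

end Claimed.Agent.R256
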