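import Claimed.Agent.R256.Soft.MGaDef
import Claimed.Agent.R256.Soft.MGeFrC

/-!
# Row 256 (S0496), unit SOFT, block M6 GE, sub-block SEL (architect helper169), file CARD: POLYNOMIAL COUNTS      (helper220; prefix `sf_ga_cd_`)

02 l.806-809: "Only polynomially many groups are relevant: there are polynomially many labels and at most subpower many groups reaching each."
* `sf_ga_cd_num`     `N r^(3+η) f^(1-η) ≤ s^(-t) ek s^(-(p+d) g)`, `s^L2 ≤ r, f`, `ek ≤ s^(-C0)`   ⟹   `N ≤ s^(-(C0 + 4 L2 + 5))`.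
* `sf_ga_cd_lb`      the number of labels of a gate of `c.W` is `≤ s^(-(C0 + 4 |Ls| + 13))`;     `sf_ga_cd_L`: the same for the number `d.X.L` of labels of a group experiment.
* `sf_ga_cd_rng`     the number of distinct documented labels of a gate of `c.D`.
* `sf_ga_cd_B`       the number of nonempty groups is `≤ s^(-(C0 + 4 |Ls| + 14))`.
-/

set_option autoImplicit false

namespace Claimed.Agent.R256

open MeasureTheory Claimed.Agent.R255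

/-- the numerical core of the counts -/
theorem sf_ga_cd_num (s N r f η t ek q C0 L2 : ℝ) (hs : 0 < s ∧ s < 1) (hη : 0 < η ∧ η < 1) (hN : 0 ≤ N) (ht : t ≤ 1) (hq : q ≤ 4) (hr : s ^ L2 ≤ r) (hf : s ^ L2 ≤ f)
    (hek : ek ≤ s ^ (-C0)) (h : N * (r ^ (3 + η) * f ^ (1 - η)) ≤ s ^ (-t) * ek * s ^ (-q)) : N ≤ s ^ (-(C0 + 4 * L2 + 5)) := by
  have hp : ∀ y : ℝ, 0 < s ^ y := fun y => Real.rpow_pos_of_pos hs.1 y
  have anti : ∀ {x y : ℝ}, x ≤ y → s ^ y ≤ s ^ x := fun h => Real.rpow_le_rpow_of_exponent_ge hs.1 hs.2.le h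
  have h1 : s ^ (L2 * (3 + η)) ≤ r ^ (3 + η) := by
    rw [Real.rpow_mul hs.1.le]
    exact Real.rpow_le_rpow (hp _).le hr (by linarith [hη.1])
  have h2 : s ^ (L2 * (1 - η)) ≤ f ^ (1 - η) := by
    rw [Real.rpow_mul hs.1.le]
    exact Real.rpow_le_rpow (hp _).le hf (by linarith [hη.2])
  have h3 : s ^ (4 * L2) ≤ r ^ (3 + η) * f ^ (1 - η) := by
    have e : s ^ (4 * L2) = s ^ (L2 * (3 + η)) * s ^ (L2 * (1 - η)) := by
      rw [← Real.rpow_add hs.1]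
      congr 1
      ring
    rw [e]
    exact mul_le_mul h1 h2 (hp _).le ((hp _).le.trans h1)
  have h4 : N * s ^ (4 * L2) ≤ s ^ (-(1 : ℝ)) * s ^ (-C0) * s ^ (-(4 : ℝ)) := by
    calc N * s ^ (4 * L2) ≤ N * (r ^ (3 + η) * f ^ (1 - η)) := mul_le_mul_of_nonneg_left h3 hN
      _ ≤ s ^ (-t) * ek * s ^ (-q) := h
      _ ≤ s ^ (-(1 : ℝ)) * s ^ (-C0) * s ^ (-(4 : ℝ)) := by
        have a1 : s ^ (-t) ≤ s ^ (-(1 : ℝ)) := anti (by linarith)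
        have a2 : s ^ (-q) ≤ s ^ (-(4 : ℝ)) := anti (by linarith)
        have a3 : s ^ (-t) * ek ≤ s ^ (-(1 : ℝ)) * s ^ (-C0) :=
          (mul_le_mul_of_nonneg_left hek (hp _).le).trans (mul_le_mul_of_nonneg_right a1 (hp _).le)
        exact (mul_le_mul_of_nonneg_right a3 (hp _).le).trans (mul_le_mul_of_nonneg_left a2 (mul_pos (hp _) (hp _)).le)
  have h5 : s ^ (-(C0 + 4 * L2 + 5)) * s ^ (4 * L2) = s ^ (-(1 : ℝ)) * s ^ (-C0) * s ^ (-(4 : ℝ)) := by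
    rw [← Real.rpow_add hs.1, ← Real.rpow_add hs.1, ← Real.rpow_add hs.1]
    congr 1
    ring
  rw [← h5] at h4
  exact le_of_mul_le_mul_right h4 (hp _)

variable {Y : SfCy}

/-- the exponent `(p + d) g` -/
theorem sf_ga_cd_q {π : SfPar} (hP : π.Pd) {g : ℝ} (hg : 0 ≤ g ∧ g ≤ 1) : (π.p + π.d) * g ≤ 4 := by
  obtain ⟨-, -, -, ⟨p1, p3⟩, d0, d1⟩ := hP
  nlinarith [hg.1, hg.2]

/-- the number of distinct documented labels of a gate -/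
theorem sf_ga_cd_rng {D : SfDoc} {π : SfPar} {Ls C0 t : ℝ} (hP : π.Pd) (hg : D.Good π Ls C0 t) (ht : 0 ≤ t ∧ t ≤ 1) {g : ℝ} (hgG : g ∈ D.G) :
    ((Set.range (D.lab g)).ncard : ℝ) ≤ D.s ^ (-(C0 + 4 * (|Ls| + 2) + 5)) := by
  obtain ⟨-, ⟨r1, -⟩, f1, -⟩ := sf_gf_units hg ht hgG
  exact sf_ga_cd_num D.s _ (D.r g) (D.f g) π.η t D.ek ((π.p + π.d) * g) C0 (|Ls| + 2) hg.1.hs hP.1 (Nat.cast_nonneg _) ht.2
    (sf_ga_cd_q hP (hg.1.gate.2 g hgG)) r1 f1 hg.1.hek.2 (hg.1.cnt g hgG)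

/-- **the number of labels of a gate is polynomial** -/
theorem sf_ga_cd_lb (hO : SfCyOk Y) (π : SfPar) (Ls : ℝ) (hP : π.Pd) (hη : π.η = Y.η) {c : SfCfg Y π.d} {S : ℕ} {C0 α : ℝ} (hin : SfGeIn Y π Ls c S C0 α) (hα : α ≤ 1)
    (g : ℝ) (hg : g ∈ c.W.G) : (Fintype.card (c.W.Lb g) : ℝ) ≤ c.W.E.s ^ (-(C0 + 4 * (|Ls| + 2) + 5)) := by
  have hs := hin.ob.2.2.1
  have hα0 : 0 ≤ α := by
    have h1 : (0 : ℝ) < 1 / ((S : ℝ) + 1) := by positivity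
    linarith [hin.eps.1, hin.eps.2]
  have hgD : g ∈ c.D.G := c.sh.hG ▸ hg
  obtain ⟨-, ⟨r1, -⟩, f1, -⟩ := sf_gf_units hin.good ⟨hα0, hα⟩ hgD
  obtain ⟨-, q0r, q0f, -, -⟩ := hO.af _ _ _ _ _ hin.ob.2.1
  obtain ⟨wr, wf⟩ := hs.frame.2.2 g hg
  have hw0 : 0 < cyWt Y.η c.W.Q0 := by
    unfold cyWt
    exact mul_pos (Real.rpow_pos_of_pos q0r _) (Real.rpow_pos_of_pos q0f _)
  have hDr : 0 ≤ c.D.r g := by rw [c.sh.hr g hg]; exact (div_pos wr q0r).le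
  have hDf : 0 ≤ c.D.f g := by rw [c.sh.hf g hg]; exact (div_pos wf q0f).le
  have er : c.W.r g = c.D.r g * c.W.Q0.r := by rw [c.sh.hr g hg]; field_simp
  have ef : c.W.f g = c.D.f g * c.W.Q0.f := by rw [c.sh.hf g hg]; field_simp
  have hwt : ∀ l : c.W.Lb g, (Y.M.sys c.p).wt (c.W.ts g l) = c.D.r g ^ (3 + π.η) * c.D.f g ^ (1 - π.η) * cyWt Y.η c.W.Q0 := by
    intro l
    rw [hO.wt, hη]
    unfold cyWt
    rw [(hs.width g hg l).1, (hs.width g hg l).2, er, ef, Real.mul_rpow hDr q0r.le, Real.mul_rpow hDf q0f.le]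
    ring
  have hcnt := hin.ext.cnt g hg
  rw [Finset.sum_congr rfl (fun l _ => hwt l), Finset.sum_const, nsmul_eq_mul, Finset.card_univ] at hcnt
  have hek : c.W.E.e / c.W.E.ka = c.D.ek * cyWt Y.η c.W.Q0 := by
    rw [c.sh.hek]
    have := hs.valid.ka_pos.ne'
    field_simp
  rw [hek] at hcnt
  have hcnt' : (Fintype.card (c.W.Lb g) : ℝ) * (c.D.r g ^ (3 + π.η) * c.D.f g ^ (1 - π.η)) ≤ c.D.s ^ (-α) * c.D.ek * c.D.s ^ (-((π.p + π.d) * g)) := by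
    rw [c.sh.hs]
    refine le_of_mul_le_mul_right ?_ hw0
    calc (Fintype.card (c.W.Lb g) : ℝ) * (c.D.r g ^ (3 + π.η) * c.D.f g ^ (1 - π.η)) * cyWt Y.η c.W.Q0
        = (Fintype.card (c.W.Lb g) : ℝ) * (c.D.r g ^ (3 + π.η) * c.D.f g ^ (1 - π.η) * cyWt Y.η c.W.Q0) := by ring
      _ ≤ c.W.E.s ^ (-α) * (c.D.ek * cyWt Y.η c.W.Q0) * c.W.E.s ^ (-((π.p + π.d) * g)) := hcnt
      _ = _ := by ring
  rw [← c.sh.hs]
  exact sf_ga_cd_num c.D.s _ (c.D.r g) (c.D.f g) π.η α c.D.ek ((π.p + π.d) * g) C0 (|Ls| + 2) hin.good.1.hs hP.1 (Nat.cast_nonneg _) hα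
    (sf_ga_cd_q hP (hs.gate.2 g hg)) r1 f1 hin.good.1.hek.2 hcnt'

/-- the number of labels of a group experiment -/
theorem sf_ga_cd_L (hO : SfCyOk Y) (π : SfPar) (Ls : ℝ) (hP : π.Pd) (hη : π.η = Y.η) {c : SfCfg Y π.d} {S : ℕ} {C0 α : ℝ} (hin : SfGeIn Y π Ls c S C0 α) (hα : α ≤ 1)
    (d : SfGeD c) (hd : d.Ok) : (d.X.L : ℝ) ≤ c.W.E.s ^ (-(C0 + 4 * (|Ls| + 2) + 5)) := by
  refine le_trans ?_ (sf_ga_cd_lb hO π Ls hP hη hin hα (d.γ 1) (sf_ga_gates d hd).2.1)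
  have : Fintype.card (d.Lb 1) ≤ Fintype.card (c.W.Lb (d.γ 1)) := Fintype.card_le_of_injective (fun l : d.Lb 1 => l.1) Subtype.val_injective
  exact_mod_cast this

/-- **the number of nonempty groups is polynomial** -/
theorem sf_ga_cd_B {D : SfDoc} {π : SfPar} {Ls C0 α : ℝ} (hP : π.Pd) (hg : D.Good π Ls C0 α) (hα : 0 ≤ α ∧ α ≤ 1) {i j : ℝ} {Gk : Finset ℝ} {ι : Type} [Finite ι]
    {Sb Ub : ι → D.Rw → Prop} (hc : SfGeCov D i j Gk ι Sb Ub α) :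
    (({b | ∃ v, Ub b v} : Set ι).ncard : ℝ) ≤ D.s ^ (-(C0 + 4 * (|Ls| + 2) + 6)) := by
  classical
  have hs := hg.1.hs
  have hp : ∀ y : ℝ, 0 < D.s ^ y := fun y => Real.rpow_pos_of_pos hs.1 y
  set T : SfTest → Set ι := fun lam => {b | ∃ u v : D.Rw, u.1 = j ∧ D.lab u.1 u.2 = lam ∧ Ub b v ∧ (u = v ∨ (u.1 < v.1 ∧ D.Conn u.1 v.1 u.2 v.2))} with hT
  have hfin : (Set.range (D.lab j)).Finite := Set.finite_range _
  have hsub : ({b | ∃ v, Ub b v} : Set ι) ⊆ ⋃ lam ∈ hfin.toFinset, T lam := by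
    rintro b ⟨v, hv⟩
    have hvj := hc.ub_dep b v hv
    obtain ⟨g, ρ⟩ := v
    simp only at hvj
    subst hvj
    simp only [Set.mem_iUnion]
    exact ⟨D.lab g ρ, hfin.mem_toFinset.2 ⟨ρ, rfl⟩, ⟨g, ρ⟩, ⟨g, ρ⟩, rfl, rfl, hv, Or.inl rfl⟩
  have h1 : ({b | ∃ v, Ub b v} : Set ι).ncard ≤ ∑ lam ∈ hfin.toFinset, (T lam).ncard :=
    (Set.ncard_le_ncard hsub (Set.toFinite _)).trans (Finset.set_ncard_biUnion_le _ _)
  have h2 : ((∑ lam ∈ hfin.toFinset, (T lam).ncard : ℕ) : ℝ) ≤ (hfin.toFinset.card : ℝ) * D.s ^ (-α) := by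
    push_cast
    rw [← nsmul_eq_mul]
    exact Finset.sum_le_card_nsmul _ _ _ fun lam _ => hc.lb_ovl j hc.kept.1 lam
  have h3 : (hfin.toFinset.card : ℝ) = ((Set.range (D.lab j)).ncard : ℝ) := by
    rw [Set.ncard_eq_toFinset_card _ hfin]
  have h4 := sf_ga_cd_rng hP hg hα hc.gj
  calc (({b | ∃ v, Ub b v} : Set ι).ncard : ℝ) ≤ ((∑ lam ∈ hfin.toFinset, (T lam).ncard : ℕ) : ℝ) := by exact_mod_cast h1
    _ ≤ (hfin.toFinset.card : ℝ) * D.s ^ (-α) := h2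
    _ ≤ D.s ^ (-(C0 + 4 * (|Ls| + 2) + 5)) * D.s ^ (-(1 : ℝ)) := by
      rw [h3]
      exact mul_le_mul h4 (Real.rpow_le_rpow_of_exponent_ge hs.1 hs.2.le (by linarith [hα.2])) (hp _).le (hp _).le
    _ = D.s ^ (-(C0 + 4 * (|Ls| + 2) + 6)) := by
      rw [← Real.rpow_add hs.1]
      congr 1
      ring

end Claimed.Agent.R256
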