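import Claimed.Agent.R256.Soft.MGaLoc

/-!
# Row 256 (S0496), unit SOFT, block M6 GE, sub-block SEL, file 3: ONE GROUP AGAINST THE FULL EXPERIMENT      (architect helper169; prefix `sf_ga_`)

`d : SfGeD c` = one group (`Soft/MGeDef.lean`), `γ0 = d.γ 0`, `γ1 = d.γ 1`.      EXIT `sf_ga_cmp`:   `pr(U) tot_j ≤ 2 d.X.tm + 2 ((C + 2) ϰ ‖pre γ0 m0‖)² d.X.L`.
 MASK   `1_(aS g S m) gM g m = wS g S m` at a gate `g < 1`; hybrid: `1_(aS g S m)ᶜ gM g m = wS g (¬S) m`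
 BEL    the rows on chains live below the root interval
 NEG    the rows of a gate `g ∈ [γ0, γ1)` that are dropped by the group have negligible transfer (`NegM`, `Soft/MGeBar.lean`) to the weights `d.th 1 l`
 BART   `BarT` for the stack `c.mid γ0 γ1` and the row sets `d.B`
 CMP1   one label: `sf_ge_cmp`
 LAW, TM    the masses of the full experiment and of the group experiment, label by label
-/

set_option autoImplicit false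

namespace Claimed.Agent.R256

open MeasureTheory Claimed.Agent.R255

variable {Y : SfCy}

/-! ## 1. Masks -/

/-- **(LEAF L-256-GA-MASK)** at a gate `g < 1` the mask of the gate, cut to the atoms of `S`, is the weight of `S`.   PLAN: `funext x`.   If `x ∉ aS g S m`: `Set.indicator_of_notMem`, `wS g S m x = 0` (contrapositive of `sf_core_wS_supp`).
If `x ∈ aS g S m` (`SfCfg.aS`, `Set.mem_iUnion`): `ρ0` with `S ρ0`, `im ρ0 = m`, `x ∈ atm ρ0`;   `th g (lb ρ0) x ≠ 0` (`c.sh.at_cov g hg _ x` `.2 ⟨ρ0, rfl, hx⟩`), `= 1` (`Str.zero_one`);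
`1 = (term ρ0) ≤ wS g S m x` (`SfCfg.wS`, `Finset.single_le_sum`, terms `≥ 0`: `Set.indicator_nonneg`, `Str.nn`) `≤ gM g m x` (`sf_core_wS_le`) `≤ 1` (`SfMD.gM`, `Str.sum_le`). -/
theorem sf_ga_mask {de : ℝ} (c : SfCfg Y de) (hs : c.W.Str (Y.tq c.p)) (g : ℝ) (hg : g ∈ c.W.G) (h1 : g < 1) (S : c.D.Row g → Prop) (m : ℕ) :
    (c.aS g S m).indicator (c.W.gM g m) = c.wS g S m := by
  classical
  funext x
  by_cases hx : x ∈ c.aS g S m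
  · rw [Set.indicator_of_mem hx]
    have hx' := hx
    unfold SfCfg.aS at hx'
    simp only [Set.mem_iUnion, exists_prop] at hx'
    obtain ⟨ρ0, ⟨hS, him⟩, hxa⟩ := hx'
    have hth : c.W.th g (c.sh.lb g ρ0) x ≠ 0 := ((c.sh.at_cov g hg _ x).2 ⟨ρ0, rfl, hxa⟩).1
    have h1' : c.W.th g (c.sh.lb g ρ0) x = 1 := (hs.zero_one g hg h1 _ x).resolve_left hth
    have hle : c.wS g S m x ≤ c.W.gM g m x := sf_core_wS_le c hs g hg S m x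
    have hM : c.W.gM g m x ≤ 1 := hs.sum_le g hg m x
    have hge : 1 ≤ c.wS g S m x := by
      unfold SfCfg.wS
      refine le_trans ?_ (Finset.single_le_sum (fun ρ _ => ?_) (Finset.mem_univ ρ0))
      · rw [if_pos ⟨hS, him⟩, Set.indicator_of_mem hxa, h1']
      · split_ifs
        · exact Set.indicator_nonneg (fun y _ => hs.nn g hg _ y) x
        · exact le_rfl
    linarith
  · rw [Set.indicator_of_notMem hx]
    by_contra hne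
    exact hx (sf_core_wS_supp c g S m x (Ne.symm hne))

/-- **(LEAF L-256-GA-MASKC)** hybrid model: the complement.   PLAN: `funext x`; `gM g m x = wS g (fun _ => True) m x` (`sf_core_wS_all`) `= wS g S m x + wS g (¬S) m x` (`sf_core_wS_split`); `wS g S m x = (aS g S m).indicator (gM g m) x` (`sf_ga_mask`);
cases `x ∈ aS g S m` (`Set.indicator_of_mem`, `Set.indicator_of_notMem`, `Set.mem_compl_iff`), `linarith`. -/
theorem sf_ga_maskc (hy : Y.hyb = true) {de : ℝ} (c : SfCfg Y de) (hs : c.W.Str (Y.tq c.p)) (g : ℝ) (hg : g ∈ c.W.G) (h1 : g < 1) (S : c.D.Row g → Prop) (m : ℕ) :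
    (c.aS g S m)ᶜ.indicator (c.W.gM g m) = c.wS g (fun ρ => ¬ S ρ) m := by
  funext x
  have e1 : c.W.gM g m x = c.wS g S m x + c.wS g (fun ρ => ¬ S ρ) m x := by
    rw [← sf_core_wS_split c g S m x, sf_core_wS_all c hy hs g hg m x]
    rfl
  have e2 : c.wS g S m x = (c.aS g S m).indicator (c.W.gM g m) x := by rw [sf_ga_mask c hs g hg h1 S m]
  by_cases hx : x ∈ c.aS g S m
  · rw [Set.indicator_of_notMem (show x ∉ (c.aS g S m)ᶜ from fun h => h hx)]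
    rw [Set.indicator_of_mem hx] at e2
    linarith
  · rw [Set.indicator_of_mem (show x ∈ (c.aS g S m)ᶜ from hx)]
    rw [Set.indicator_of_notMem hx] at e2
    linarith

section

variable {de : ℝ} {c : SfCfg Y de} (d : SfGeD c)

/-- below the root interval the set `d.gS g m` is the union of the atoms on chains -/
theorem sf_ga_gS (g : ℝ) (m : ℕ) (hb : d.bel g m) : d.gS g m = c.aS g (fun ρ => d.chn ⟨g, ρ⟩) m := by
  ext x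
  exact ⟨fun h => h.2, fun h => ⟨hb, h⟩⟩

theorem sf_ga_gS_meas (g : ℝ) (hg : g ∈ c.W.G) (m : ℕ) : MeasurableSet (d.gS g m) := by
  by_cases hb : d.bel g m
  · rw [sf_ga_gS d g m hb]
    exact sf_core_aS_meas c g hg _ m
  · have : d.gS g m = ∅ := by
      ext x
      exact ⟨fun h => hb h.1, fun h => h.elim⟩
    rw [this]
    exact MeasurableSet.empty

/-- the marked rows live below the root interval -/
theorem sf_ga_bel_u (hn : c.Nest) (hok : d.Ok) (v : c.D.Rw) (hv : d.U v) : d.bel v.1 (c.im v.1 v.2) := by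
  obtain ⟨⟨g0, ρ0⟩, h0, hc, hm⟩ := hok.u_pred v hv
  simp only at h0 hc hm
  subst h0
  have hvj := hok.u_dep v hv
  have h1 := hn d.i hok.gi v.1 (by rw [hvj]; exact hok.gj) (by rw [hvj]; exact hok.hij) ρ0 v.2 hc
  unfold SfGeD.bel
  rw [sf_ga_g0, ← h1, hm]

/-- **(LEAF L-256-GA-BEL)** the rows on chains live below the root interval.   PLAN: `d.bel g m` is `ancI (k g) (k (d.γ 0)) m = d.m0`.   FIRST for `v` with `d.U v`: `hok.u_pred v` gives `u0` (`obtain ⟨⟨g0, ρ0⟩, h0, hc, hm⟩`, `simp only at h0`, `subst h0`), `v.1 = d.j` (`hok.u_dep`);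
`hn d.i hok.gi v.1 _ _ ρ0 v.2 hc` : `im ρ0 = ancI (k v.1) (k d.i) (im v)`; `d.γ 0 = d.i` (`sf_ga_g0`).
THEN for `u` with `u.1 < v.1`, `Conn u v`: `hn` gives `im u = ancI (k v.1) (k u.1) (im v)`; `gn_anc_anc` with `k (d.γ 0) ≤ k u.1 ≤ k v.1` (`Str.k_mono`; if `d.γ 0 = u.1` then `le_of_eq`, `congrArg`). -/
theorem sf_ga_bel (hs : c.W.Str (Y.tq c.p)) (hn : c.Nest) (hok : d.Ok) (u : c.D.Rw) (hu : d.chn u) (hg : u.1 ∈ c.W.G) (h0 : d.γ 0 ≤ u.1) : d.bel u.1 (c.im u.1 u.2) := by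
  rcases hu.1 with hu | ⟨v, hv, hlt, hc⟩
  · exact sf_ga_bel_u d hn hok u hu
  · have hvj := hok.u_dep v hv
    have hvG : v.1 ∈ c.W.G := by rw [hvj]; exact hok.gj
    have h1 := hn u.1 hg v.1 hvG hlt u.2 v.2 hc
    have h2 := sf_ga_bel_u d hn hok v hv
    unfold SfGeD.bel at h2 ⊢
    have hk2 : c.W.k u.1 ≤ c.W.k v.1 := (hs.k_mono u.1 hg v.1 hvG hlt).1
    have hk1 : c.W.k (d.γ 0) ≤ c.W.k u.1 := by
      rcases lt_or_eq_of_le h0 with h | h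
      · exact (hs.k_mono (d.γ 0) (by rw [sf_ga_g0]; exact hok.gi) u.1 hg h).1
      · exact le_of_eq (congrArg c.W.k h)
    rw [h1, gn_anc_anc hk1 hk2, h2]

/-- the weight of the label `l` of the end gate in the group experiment -/
theorem sf_ga_th1 (l : c.W.Lb (d.γ 1)) : d.th 1 l = (d.lS (d.γ 1) l).indicator (c.W.th (d.γ 1) l) := by
  unfold SfGeD.th
  rw [if_neg (by norm_num)]

/-- at the end gate the rows on chains are the marked rows -/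
theorem sf_ga_chn1 (hok : d.Ok) (ρ : c.D.Row (d.γ 1)) : d.chn ⟨d.γ 1, ρ⟩ ↔ d.U ⟨d.γ 1, ρ⟩ := by
  constructor
  · rintro ⟨h | ⟨v, hv, hlt, -⟩, -⟩
    · exact h
    · have h1 := hok.u_dep v hv
      have h2 := sf_ga_g1 d
      simp only at hlt
      rw [h1, h2] at hlt
      exact absurd hlt (lt_irrefl _)
  · refine fun h => ⟨Or.inl h, fun e => ?_⟩
    have e' : d.γ 1 = d.i := e
    rw [sf_ga_g1] at e'
    exact absurd e' hok.hij.ne'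

/-- **(LEAF L-256-GA-TH1)** the weight `d.th 1 l` is the restricted weight `c.thU` of `Soft/MCoreSp.lean`.   PLAN: `funext x`, `sf_ga_th1`, `SfGeD.lS`, `SfCfg.thU`.   If `x ∈ lS`: `ρ0` with `chn`, `lb ρ0 = l`, `x ∈ atm ρ0`; `Finset.sum_eq_single ρ0`
(another `ρ` with `U ρ`, `lb ρ = l` has `x ∉ atm ρ`: `c.sh.at_disj`, `Set.disjoint_left`), `sf_ga_chn1`.   If `x ∉ lS`: every term vanishes (`Finset.sum_eq_zero`, `Set.indicator_of_notMem`, `Set.mem_iUnion`). -/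
theorem sf_ga_th1_eq (hok : d.Ok) (l : c.W.Lb (d.γ 1)) : d.th 1 l = c.thU (d.γ 1) (fun ρ => d.U ⟨d.γ 1, ρ⟩) l := by
  have hG : d.γ 1 ∈ c.W.G := by
    rw [sf_ga_g1]
    exact hok.gj
  funext x
  rw [sf_ga_th1]
  unfold SfCfg.thU
  by_cases hx : x ∈ d.lS (d.γ 1) l
  · rw [Set.indicator_of_mem hx]
    unfold SfGeD.lS at hx
    simp only [Set.mem_iUnion] at hx
    obtain ⟨ρ0, ⟨h1, h2⟩, h3⟩ := hx
    rw [Finset.sum_eq_single ρ0]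
    · rw [if_pos ⟨(sf_ga_chn1 d hok ρ0).1 h1, h2⟩, Set.indicator_of_mem h3]
    · intro ρ _ hne
      by_cases hc : d.U ⟨d.γ 1, ρ⟩ ∧ c.sh.lb (d.γ 1) ρ = l
      · rw [if_pos hc]
        refine Set.indicator_of_notMem ?_ _
        intro hxρ
        exact Set.disjoint_left.1 (c.sh.at_disj (d.γ 1) hG ρ ρ0 (hc.2.trans h2.symm) hne) hxρ h3
      · rw [if_neg hc]
    · intro h
      exact absurd (Finset.mem_univ _) h
  · rw [Set.indicator_of_notMem hx]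
    symm
    refine Finset.sum_eq_zero fun ρ _ => ?_
    by_cases hc : d.U ⟨d.γ 1, ρ⟩ ∧ c.sh.lb (d.γ 1) ρ = l
    · rw [if_pos hc]
      refine Set.indicator_of_notMem ?_ _
      intro hxρ
      apply hx
      unfold SfGeD.lS
      simp only [Set.mem_iUnion]
      exact ⟨ρ, ⟨(sf_ga_chn1 d hok ρ).2 hc.1, hc.2⟩, hxρ⟩
    · rw [if_neg hc]

/-! ## 2. Negligible transfers -/

/-- **(LEAF L-256-GA-NEGHY)** hybrid model.   PLAN: `γ1 = d.γ 1`, `m' = iv γ1 l`, `mg = ancI (k γ1) (k g) m'`, `V ρ' := d.U ⟨γ1, ρ'⟩`, `A ρ := ¬ d.chn ⟨g, ρ⟩`.   `d.bel g mg`: `gn_anc_anc` (`k (d.γ 0) ≤ k g ≤ k γ1` by `Str.k_mono`, or equality) on `hbel`.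
`d.gS g mg = aS g (chn) mg` (`sf_ga_gS`);  `(..)ᶜ.indicator (gM g mg) = wS g A mg` (`sf_ga_maskc`; `g < 1` from `g < γ1 ≤ 1`, `Str.gate`).   `intro v` (`NegM`).
`en .. (d.th 1 l) χ ≤ rdE γ1 V m' χ` (`SfCfg.rdE`, `gn_en_mono`; `d.th 1 l = thU γ1 V l` (`sf_ga_th1_eq`) `≤ wS γ1 V m'`: `sf_core_xp_tm_wS` + `Finset.single_le_sum`, terms `≥ 0` by `sf_core_xp_valid_thU`; masks `sf_core_xp_tm_mask`, `sf_core_wS_mask`), `Real.sqrt_le_sqrt`.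
`hloc g hg γ1 _ h1 A V hno m' v`;   `hno`: `Conn g γ1 ρ ρ'`, `V ρ'` give `d.chn ⟨g, ρ⟩` (`Or.inr ⟨⟨γ1, ρ'⟩, _, h1, _⟩`). -/
theorem sf_ga_neg_hy (hy : Y.hyb = true) (hs : c.W.Str (Y.tq c.p)) (hok : d.Ok) (ϰ : ℝ) (hloc : c.LocG ϰ) (g : ℝ) (hg : g ∈ c.W.G) (h0 : d.γ 0 ≤ g) (h1 : g < d.γ 1) (hF : d.γ 0 < g ∨ d.Full)
    (l : c.W.Lb (d.γ 1)) (hbel : d.bel (d.γ 1) (c.W.iv (d.γ 1) l)) :
    NegM (Y.M.sys c.p) ϰ (c.W.k (d.γ 1)) (c.W.iv (d.γ 1) l) (c.W.gb (d.γ 1)) (d.th 1 l)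
      (tmL (c.W.k g) (ancI (c.W.k (d.γ 1)) (c.W.k g) (c.W.iv (d.γ 1) l))) (c.W.k g) (c.W.gb g)
      ((d.gS g (ancI (c.W.k (d.γ 1)) (c.W.k g) (c.W.iv (d.γ 1) l)))ᶜ.indicator (c.W.gM g (ancI (c.W.k (d.γ 1)) (c.W.k g) (c.W.iv (d.γ 1) l)))) (c.mid g (d.γ 1)) := by
  classical
  have hγ1 : d.γ 1 ∈ c.W.G := by rw [sf_ga_g1]; exact hok.gj
  have hγ0 : d.γ 0 ∈ c.W.G := by rw [sf_ga_g0]; exact hok.gi
  have hg1 : g < 1 := lt_of_lt_of_le h1 (hs.gate.2 _ hγ1).2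
  have hk1 : c.W.k g ≤ c.W.k (d.γ 1) := (hs.k_mono g hg _ hγ1 h1).1
  have hk0 : c.W.k (d.γ 0) ≤ c.W.k g := by
    rcases h0.lt_or_eq with h | h
    · exact (hs.k_mono _ hγ0 g hg h).1
    · rw [h]
  have hb : d.bel g (ancI (c.W.k (d.γ 1)) (c.W.k g) (c.W.iv (d.γ 1) l)) := by
    unfold SfGeD.bel at hbel ⊢
    rw [gn_anc_anc hk0 hk1]
    exact hbel
  rw [sf_ga_gS d g _ hb, sf_ga_maskc hy c hs g hg hg1]
  intro v
  have hno : ∀ ρ, (¬ d.chn ⟨g, ρ⟩) → ∀ ρ', d.U ⟨d.γ 1, ρ'⟩ → ¬ c.D.Conn g (d.γ 1) ρ ρ' :=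
    fun ρ hρ ρ' hρ' hc => hρ (sf_ga_chn_of d hF ρ ⟨d.γ 1, ρ'⟩ hρ' h1 hc)
  refine le_trans (Real.sqrt_le_sqrt ?_) (hloc g hg (d.γ 1) hγ1 h1 (fun ρ => ¬ d.chn ⟨g, ρ⟩) (fun ρ' => d.U ⟨d.γ 1, ρ'⟩) hno (c.W.iv (d.γ 1) l) v)
  unfold SfCfg.rdE
  rw [sf_ga_th1_eq d hok l]
  refine gn_en_mono _ _ _ (sf_core_xp_tm_mask c hs _ hγ1 _ l) (sf_core_wS_mask c hs _ hγ1 _ _) (fun x => ?_) _
  rw [← sf_core_xp_tm_wS c (d.γ 1) (fun ρ' => d.U ⟨d.γ 1, ρ'⟩) (c.W.iv (d.γ 1) l) x]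
  exact Finset.single_le_sum (f := fun l' => c.thU (d.γ 1) (fun ρ' => d.U ⟨d.γ 1, ρ'⟩) l' x)
    (fun l' _ => ((sf_core_xp_valid_thU c hs _ hγ1 _ l').2 x).1) (Finset.mem_filter.2 ⟨Finset.mem_univ _, rfl⟩)

/-- classical model: a run whose product of masks vanishes on the support of the weight has no energy -/
theorem sf_ga_neg_cl_en0 (hO : SfCyOk Y) (hc : Y.hyb = false) (p : Y.M.Par) (k' m' : ℕ) (l : List (Stg (Y.M.sys p))) (hl : StM l) (v : (Y.M.sys p).Kc)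
    (T : ℝ) (k b : ℕ) (θ : (Y.M.sys p).X → ℝ) (h : ∀ x, θ x ≠ 0 → sfPr k' m' l x = 0) :
    (Y.M.sys p).en T k b θ (Xp.run k' m' l v) = 0 := by
  unfold PkSys.en
  rw [← integral_zero (Y.M.sys p).X ℝ (μ := (Y.M.sys p).rho k)]
  refine integral_congr_ae ?_
  filter_upwards [sf_cl_run hO hc p k' m' l hl v T k b] with x e1
  by_cases hθ : θ x = 0
  · simp only [hθ, zero_mul]
  · simp only [e1, h x hθ]
    simp

/-- **(LEAF L-256-GA-NEGCL)** classical model: exact `0`.   PLAN: notation of `sf_ga_neg_hy`; `hx := sf_core_xtra c hs`; `M0 = (d.gS g mg)ᶜ.indicator (gM g mg)` is a mask (`sf_ge_mask_ind`, `sf_core_gM_mask`, `sf_ga_gS_meas`).   `intro v`.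
The state is `Xp.run (k γ1) m' (⟨k g, gb g, fun _ => M0⟩ :: c.mid g γ1) v` (`rfl`).   `sf_cl_en_congr` (θ = `d.th 1 l`) against `⟨k g, gb g, fun _ _ => 0⟩ :: c.mid g γ1`:   if `d.th 1 l x ≠ 0` then (`sf_ga_th1`, `SfGeD.lS`) `x ∈ atm γ1 ρ'`, `d.chn ⟨γ1, ρ'⟩`, `lb ρ' = l`;
`hx.cl_nest hc g hg γ1 _ h1 ρ' x _` gives `ρ ∋ x` with `iv g (lb ρ) = ancI .. (iv γ1 (lb ρ')) = mg`;   `Conn g γ1 ρ ρ'` (`sf_cl_chain`, `sf_core_conn`), so `d.chn ⟨g, ρ⟩` (`sf_ga_chn1`), `x ∈ d.gS g mg` (`d.bel g mg` as in `sf_ga_neg_hy`), `M0 x = 0`: both `sfPr` vanish (`sf_cl_pr_mask_cons`).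
The second run vanishes as in `sf_ga_locg_cl` (`tz .. 0 v = 0`, `gn_run_zero`, `gn_en_zero`, `Real.sqrt_zero`); `0 ≤ ϰ ‖v‖`. -/
theorem sf_ga_neg_cl (hO : SfCyOk Y) (hc : Y.hyb = false) (C : ℕ) (hob : c.ob C) (hok : d.Ok) (ϰ : ℝ) (hϰ : 0 ≤ ϰ) (g : ℝ) (hg : g ∈ c.W.G) (h0 : d.γ 0 ≤ g) (h1 : g < d.γ 1) (hF : d.γ 0 < g ∨ d.Full)
    (l : c.W.Lb (d.γ 1)) (hbel : d.bel (d.γ 1) (c.W.iv (d.γ 1) l)) :
    NegM (Y.M.sys c.p) ϰ (c.W.k (d.γ 1)) (c.W.iv (d.γ 1) l) (c.W.gb (d.γ 1)) (d.th 1 l)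
      (tmL (c.W.k g) (ancI (c.W.k (d.γ 1)) (c.W.k g) (c.W.iv (d.γ 1) l))) (c.W.k g) (c.W.gb g)
      ((d.gS g (ancI (c.W.k (d.γ 1)) (c.W.k g) (c.W.iv (d.γ 1) l)))ᶜ.indicator (c.W.gM g (ancI (c.W.k (d.γ 1)) (c.W.k g) (c.W.iv (d.γ 1) l)))) (c.mid g (d.γ 1)) := by
  have hs : c.W.Str (Y.tq c.p) := hob.2.2.1
  have hx := sf_core_xtra c hs
  obtain ⟨hg0, hg1, h01⟩ := sf_ga_gates d hok
  have hM0 : IsMask ((d.gS g (ancI (c.W.k (d.γ 1)) (c.W.k g) (c.W.iv (d.γ 1) l)))ᶜ.indicator (c.W.gM g (ancI (c.W.k (d.γ 1)) (c.W.k g) (c.W.iv (d.γ 1) l)))) :=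
    sf_ge_mask_ind (sf_core_gM_mask c hs g hg _) (sf_ga_gS_meas d g hg _).compl
  have hmid : StM (c.mid g (d.γ 1)) := (sf_core_mid_ok c C hob g hg (d.γ 1) hg1 h1).msk
  have hkg1 : c.W.k g ≤ c.W.k (d.γ 1) := (hs.k_mono g hg (d.γ 1) hg1 h1).1
  have hk0g : c.W.k (d.γ 0) ≤ c.W.k g := by
    rcases h0.lt_or_eq with h | h
    · exact (hs.k_mono (d.γ 0) hg0 g hg h).1
    · exact le_of_eq (congrArg c.W.k h)
  have hbg : d.bel g (ancI (c.W.k (d.γ 1)) (c.W.k g) (c.W.iv (d.γ 1) l)) := by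
    unfold SfGeD.bel at hbel ⊢
    rw [gn_anc_anc hk0g hkg1]
    exact hbel
  intro v
  have hst : StM ((⟨c.W.k g, c.W.gb g, fun _ => (d.gS g (ancI (c.W.k (d.γ 1)) (c.W.k g) (c.W.iv (d.γ 1) l)))ᶜ.indicator (c.W.gM g (ancI (c.W.k (d.γ 1)) (c.W.k g) (c.W.iv (d.γ 1) l)))⟩ : Stg (Y.M.sys c.p)) :: c.mid g (d.γ 1)) := by
    intro σ hσ m
    rcases List.mem_cons.1 hσ with rfl | h
    · exact hM0
    · exact hmid σ h m
  have hen := sf_ga_neg_cl_en0 hO hc c.p (c.W.k (d.γ 1)) (c.W.iv (d.γ 1) l) _ hst v (tmL (c.W.k (d.γ 1)) (c.W.iv (d.γ 1) l)) (c.W.k (d.γ 1)) (c.W.gb (d.γ 1)) (d.th 1 l) (by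
    intro x hθ
    rw [sf_cl_pr_mask_cons]
    refine mul_eq_zero_of_left ?_ _
    show (d.gS g (ancI (c.W.k (d.γ 1)) (c.W.k g) (c.W.iv (d.γ 1) l)))ᶜ.indicator (c.W.gM g (ancI (c.W.k (d.γ 1)) (c.W.k g) (c.W.iv (d.γ 1) l))) x = 0
    refine Set.indicator_of_notMem ?_ _
    rw [Set.mem_compl_iff, not_not]
    rw [sf_ga_th1] at hθ
    have hxl : x ∈ d.lS (d.γ 1) l := by
      by_contra hcon
      exact hθ (Set.indicator_of_notMem hcon _)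
    unfold SfGeD.lS at hxl
    obtain ⟨ρ', hρ'⟩ := Set.mem_iUnion.1 hxl
    obtain ⟨⟨hch, hlb⟩, hxa⟩ := Set.mem_iUnion.1 hρ'
    obtain ⟨ρ, hxρ, hiv⟩ := hx.cl_nest hc g hg (d.γ 1) hg1 h1 ρ' x hxa
    have hconn : c.D.Conn g (d.γ 1) ρ ρ' := (sf_core_conn c g hg (d.γ 1) hg1 ρ ρ').2 (sf_cl_chain hO hc c hs hx g hg (d.γ 1) hg1 h1 ρ ρ' x hxρ hxa hiv)
    have hchg : d.chn ⟨g, ρ⟩ := sf_ga_chn_of d hF ρ ⟨d.γ 1, ρ'⟩ ((sf_ga_chn1 d hok ρ').1 hch) h1 hconn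
    rw [sf_ga_gS d g _ hbg]
    unfold SfCfg.aS
    refine Set.mem_iUnion.2 ⟨ρ, Set.mem_iUnion.2 ⟨⟨hchg, ?_⟩, hxρ⟩⟩
    rw [hlb] at hiv
    exact hiv)
  have hrun : Xp.run (c.W.k (d.γ 1)) (c.W.iv (d.γ 1) l) (c.mid g (d.γ 1)) ((Y.M.sys c.p).tz (tmL (c.W.k g) (ancI (c.W.k (d.γ 1)) (c.W.k g) (c.W.iv (d.γ 1) l))) (c.W.k g) (c.W.gb g)
      ((d.gS g (ancI (c.W.k (d.γ 1)) (c.W.k g) (c.W.iv (d.γ 1) l)))ᶜ.indicator (c.W.gM g (ancI (c.W.k (d.γ 1)) (c.W.k g) (c.W.iv (d.γ 1) l)))) v)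
      = Xp.run (c.W.k (d.γ 1)) (c.W.iv (d.γ 1) l) ((⟨c.W.k g, c.W.gb g, fun _ => (d.gS g (ancI (c.W.k (d.γ 1)) (c.W.k g) (c.W.iv (d.γ 1) l)))ᶜ.indicator (c.W.gM g (ancI (c.W.k (d.γ 1)) (c.W.k g) (c.W.iv (d.γ 1) l)))⟩ : Stg (Y.M.sys c.p)) :: c.mid g (d.γ 1)) v := rfl
  rw [hrun, hen, Real.sqrt_zero]
  exact mul_nonneg hϰ (norm_nonneg _)

/-- the rows dropped at a gate `g ∈ [γ0, γ1)` have negligible transfer -/
theorem sf_ga_neg (hO : SfCyOk Y) (C : ℕ) (hob : c.ob C) (hok : d.Ok) (ϰ : ℝ) (hϰ : 0 ≤ ϰ) (hloc : c.LocG ϰ) (g : ℝ) (hg : g ∈ c.W.G) (h0 : d.γ 0 ≤ g) (h1 : g < d.γ 1) (hF : d.γ 0 < g ∨ d.Full)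
    (l : c.W.Lb (d.γ 1)) (hbel : d.bel (d.γ 1) (c.W.iv (d.γ 1) l)) :
    NegM (Y.M.sys c.p) ϰ (c.W.k (d.γ 1)) (c.W.iv (d.γ 1) l) (c.W.gb (d.γ 1)) (d.th 1 l)
      (tmL (c.W.k g) (ancI (c.W.k (d.γ 1)) (c.W.k g) (c.W.iv (d.γ 1) l))) (c.W.k g) (c.W.gb g)
      ((d.gS g (ancI (c.W.k (d.γ 1)) (c.W.k g) (c.W.iv (d.γ 1) l)))ᶜ.indicator (c.W.gM g (ancI (c.W.k (d.γ 1)) (c.W.k g) (c.W.iv (d.γ 1) l)))) (c.mid g (d.γ 1)) := by
  cases hy : Y.hyb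
  · exact sf_ga_neg_cl d hO hy C hob hok ϰ hϰ g hg h0 h1 hF l hbel
  · exact sf_ga_neg_hy d hy hob.2.2.1 hok ϰ hloc g hg h0 h1 hF l hbel

theorem sf_ga_bart_tz0 (P : PkSys) (T : ℝ) (k b : ℕ) (v : P.Kc) : P.tz T k b (fun _ => 0) v = 0 := by
  unfold PkSys.tz
  have : P.mulR k (fun _ => 0) (P.An T k b v) = 0 := by
    unfold PkSys.mulR
    split_ifs with h
    · apply Lp.ext
      filter_upwards [MemLp.coeFn_toLp h, Lp.coeFn_zero P.Fb 2 (P.rho k)] with x h1 h2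
      rw [h1, h2]
      simp
    · rfl
  rw [this, map_zero]

/-- **(LEAF L-256-GA-BART)** `BarT` for the stack between the root gate and the end gate.   PLAN: `sf_ge_bart_of`; `intro t σ hσ`; `γ0 = d.γ 0`, `γ1 = d.γ 1`, `hs := hob.2.2.1`.   `c.mid γ0 γ1 = (E.st.take (pos γ1)).drop (pos γ0 + 1)` (`SfCfg.mid`):
`hσ` gives `E.st[pos γ0 + 1 + t]? = some σ` and `pos γ0 + 1 + t < pos γ1` (`List.getElem?_drop`, `List.getElem?_take`);   `(c.mid γ0 γ1).drop (t + 1) = (E.st.take (pos γ1)).drop (pos γ0 + 1 + t + 1)` (`List.drop_drop`).   `unfold SfGeD.B`, `split_ifs with h`.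
CASE `h`: `g := h.choose`, `h.choose_spec : g ∈ G ∧ pos g = pos γ0 + 1 + t`.   `γ0 < g < γ1` (`pos` is strictly increasing: `Str.k_mono`, by contradiction with `lt_trichotomy`), `g < 1`; `σ = c.W.stg g` (`sf_core_stage`, `Option.some.inj`): `σ.k = k g`, `σ.b = gb g`, `σ.M = gM g`;
the rest of the stack is `c.mid g γ1` (`SfCfg.mid`, `pos g + 1`);   `hneg g _ _ _`.
CASE `¬h`: `Set.compl_univ`, `Set.indicator_empty`: the mask is `0`: `intro v`, `tz .. 0 v = 0` (as in `sf_ga_locg_cl`), `gn_run_zero`, `gn_en_zero`, `Real.sqrt_zero`, `0 ≤ ϰ ‖v‖`. -/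
theorem sf_ga_bart (C : ℕ) (hob : c.ob C) (hok : d.Ok) (ϰ : ℝ) (hϰ : 0 ≤ ϰ) (l : c.W.Lb (d.γ 1))
    (hneg : ∀ g ∈ c.W.G, d.γ 0 < g → g < d.γ 1 → NegM (Y.M.sys c.p) ϰ (c.W.k (d.γ 1)) (c.W.iv (d.γ 1) l) (c.W.gb (d.γ 1)) (d.th 1 l)
      (tmL (c.W.k g) (ancI (c.W.k (d.γ 1)) (c.W.k g) (c.W.iv (d.γ 1) l))) (c.W.k g) (c.W.gb g)
      ((d.gS g (ancI (c.W.k (d.γ 1)) (c.W.k g) (c.W.iv (d.γ 1) l)))ᶜ.indicator (c.W.gM g (ancI (c.W.k (d.γ 1)) (c.W.k g) (c.W.iv (d.γ 1) l)))) (c.mid g (d.γ 1))) :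
    BarT (Y.M.sys c.p) ϰ (c.W.k (d.γ 1)) (c.W.iv (d.γ 1) l) (c.W.gb (d.γ 1)) (d.th 1 l) (c.mid (d.γ 0) (d.γ 1)) d.B := by
  obtain ⟨hg0, hg1, h01⟩ := sf_ga_gates d hok
  have hs := hob.2.2.1
  refine sf_ge_bart_of _ _ _ _ _ _ _ fun t σ hσ => ?_
  have hσ' : c.W.E.st[c.W.pos (d.γ 0) + 1 + t]? = some σ ∧ c.W.pos (d.γ 0) + 1 + t < c.W.pos (d.γ 1) := by
    unfold SfCfg.mid at hσ
    rw [List.getElem?_drop, List.getElem?_take] at hσ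
    split_ifs at hσ with hlt
    exact ⟨hσ, hlt⟩
  have hdrop : (c.mid (d.γ 0) (d.γ 1)).drop (t + 1) = (c.W.E.st.take (c.W.pos (d.γ 1))).drop (c.W.pos (d.γ 0) + 1 + t + 1) := by
    unfold SfCfg.mid
    rw [List.drop_drop]
    rfl
  rw [hdrop]
  unfold SfGeD.B
  split_ifs with h
  · obtain ⟨hgG, hpos⟩ := h.choose_spec
    obtain ⟨g, hg⟩ : ∃ g, g = h.choose := ⟨_, rfl⟩
    rw [← hg] at hgG hpos ⊢
    have hlo : d.γ 0 < g := by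
      rcases lt_trichotomy g (d.γ 0) with h' | h' | h'
      · have := (hs.k_mono g hgG _ hg0 h').2
        omega
      · rw [h'] at hpos
        omega
      · exact h'
    have hhi : g < d.γ 1 := by
      rcases lt_trichotomy g (d.γ 1) with h' | h' | h'
      · exact h'
      · rw [h'] at hpos
        have := hσ'.2
        omega
      · have := (hs.k_mono _ hg1 g hgG h').2
        have := hσ'.2
        omega
    have hg1' : g < 1 := lt_of_lt_of_le hhi (hs.gate.2 _ hg1).2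
    have hst := sf_core_stage c hs g hgG hg1'
    rw [hpos, hσ'.1] at hst
    have hσe : σ = c.W.stg g := Option.some.inj hst
    subst hσe
    rw [← hpos]
    exact hneg g hgG hlo hhi
  · intro v
    rw [Set.compl_univ, Set.indicator_empty]
    have : (Y.M.sys c.p).tz (tmL σ.k (ancI (c.W.k (d.γ 1)) σ.k (c.W.iv (d.γ 1) l))) σ.k σ.b (fun _ => 0) v = 0 := sf_ga_bart_tz0 _ _ _ _ _
    rw [this, gn_run_zero, gn_en_zero, Real.sqrt_zero]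
    exact mul_nonneg hϰ (norm_nonneg _)

/-- **(LEAF L-256-GA-BMEAS)** the row sets are measurable.   PLAN: `unfold SfGeD.B`, `split_ifs with h`: `sf_ga_gS_meas d _ h.choose_spec.1 m`, `MeasurableSet.univ`.
`d.N`: `unfold SfGeD.N`, `split_ifs`: finite union (`MeasurableSet.iUnion`: `c.D.Row _` is a `Fintype`, hence `Countable`; the inner union over a `Prop`: `MeasurableSet.iUnion fun _ => hroot.meas ρ`), `MeasurableSet.univ`. -/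
theorem sf_ga_meas (Λ ϰ : ℝ) (hroot : d.Root Λ ϰ) : (∀ t m, MeasurableSet (d.B t m)) ∧ MeasurableSet d.N := by
  constructor
  · intro t m
    unfold SfGeD.B
    split_ifs with h
    · exact sf_ga_gS_meas d _ h.choose_spec.1 m
    · exact MeasurableSet.univ
  · unfold SfGeD.N
    split_ifs
    · have : Fintype (c.D.Row (d.γ 0)) := c.D.fin _
      exact MeasurableSet.iUnion fun ρ => MeasurableSet.iUnion fun _ => hroot.meas ρ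
    · exact MeasurableSet.univ

/-! ## 3. One label -/

/-- **(LEAF L-256-GA-CMP1)** one label of the end gate, below the root interval: the full experiment against the group experiment.   PLAN: `γ0 = d.γ 0`, `γ1 = d.γ 1`, `m' = iv γ1 l`, `hs := hob.2.2.1`, `⟨h0, h1, h01⟩ := sf_ga_gates d hok`; `hbel : ancI (k γ1) (k γ0) m' = d.m0`.
`sf_ge_cmp hT ϰ hϰ (k γ0) (k γ1) m' (gb γ0) d.b0 (gb γ1) (θ := d.th 1 l) _ (c.mid γ0 γ1) _ d.B _ (d.gS γ0 d.m0) d.N _ _ (M := gM γ0 d.m0) _ h1 h2 h3 hpl (c.W.pre γ0 d.m0)` AFTER rewriting `ancI (k γ1) (k γ0) m'` to `d.m0` (state a copy `key` with `d.m0` and obtain it by `have := sf_ge_cmp ..; rw [hbel] at this`).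
`θ` mask: `sf_ga_th1_eq` + `sf_core_xp_tm_mask`;   `StM`: `(sf_core_mid_ok c C hob γ0 h0 γ1 h1 h01).msk`;   measurability: `sf_ga_meas`, `sf_ga_gS_meas`;   `M` mask: `sf_core_gM_mask`;
`h1`: `sf_ga_neg .. γ0 h0 le_rfl h01 l hbel` (rewrite `hbel`);   `h2`: `sf_ga_bart` from `sf_ga_neg`;   `h3`: `hroot.appr`;   `hpl`: `gn_tz_pl` (`d.b0 = gb γ0 + 1` by `rfl`).
`Xp.run (k γ1) m' (c.mid γ0 γ1) (tz .. (gM γ0 d.m0) (pre γ0 d.m0)) = c.W.pre γ1 m'` (`sf_core_pre_split`, `hbel`).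
`Xp.run (k γ1) m' d.st d.psi` = the second run: `d.st = ⟨k γ0, d.b0, fun m => if m = d.m0 then .. else ..⟩ :: stRes ..`; `Xp.run` on a cons evaluates the mask at `ancI (k γ1) (k γ0) m' = d.m0` (`show`, `rw [hbel, if_pos rfl]`); `d.psi` by `rfl`.
`gn_en_tri` on `full = grp + (full - grp)` (`add_sub_cancel`);   `(c.mid γ0 γ1).length ≤ C` (`sf_core_mid_ok .. .len`), `0 ≤ ϰ`, `0 ≤ ‖·‖`. -/
theorem sf_ga_cmp1 (hO : SfCyOk Y) (C : ℕ) (hob : c.ob C) (hT : (Y.M.sys c.p).Tight) (hok : d.Ok) (hF : d.Full) (Λ ϰ : ℝ) (hϰ : 0 ≤ ϰ) (hloc : c.LocG ϰ) (hroot : d.Root Λ ϰ)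
    (l : c.W.Lb (d.γ 1)) (hbel : d.bel (d.γ 1) (c.W.iv (d.γ 1) l)) :
    Real.sqrt ((Y.M.sys c.p).en (tmL (c.W.k (d.γ 1)) (c.W.iv (d.γ 1) l)) (c.W.k (d.γ 1)) (c.W.gb (d.γ 1)) (d.th 1 l) (c.W.pre (d.γ 1) (c.W.iv (d.γ 1) l)))
      ≤ Real.sqrt ((Y.M.sys c.p).en (tmL (c.W.k (d.γ 1)) (c.W.iv (d.γ 1) l)) (c.W.k (d.γ 1)) (c.W.gb (d.γ 1)) (d.th 1 l) (Xp.run (c.W.k (d.γ 1)) (c.W.iv (d.γ 1) l) d.st d.psi))
        + ((C : ℝ) + 2) * ϰ * ‖c.W.pre (d.γ 0) d.m0‖ := by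
  have hs := hob.2.2.1
  obtain ⟨h0, h1, h01⟩ := sf_ga_gates d hok
  have hb : ancI (c.W.k (d.γ 1)) (c.W.k (d.γ 0)) (c.W.iv (d.γ 1) l) = d.m0 := hbel
  have hθ : IsMask (d.th 1 l) := by
    rw [sf_ga_th1_eq d hok l]
    exact sf_core_xp_tm_mask c hs (d.γ 1) h1 _ l
  have hmid := sf_core_mid_ok c C hob (d.γ 0) h0 (d.γ 1) h1 h01
  obtain ⟨hBm, hNm⟩ := sf_ga_meas d Λ ϰ hroot
  have hn1 := sf_ga_neg d hO C hob hok ϰ hϰ hloc (d.γ 0) h0 le_rfl h01 (Or.inr hF) l hbel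
  have hn2 := sf_ga_bart d C hob hok ϰ hϰ l (fun g hg hg0 hg1 => sf_ga_neg d hO C hob hok ϰ hϰ hloc g hg hg0.le hg1 (Or.inl hg0) l hbel)
  have key := sf_ge_cmp hT ϰ hϰ (c.W.k (d.γ 0)) (c.W.k (d.γ 1)) (c.W.iv (d.γ 1) l) (c.W.gb (d.γ 0)) d.b0 (c.W.gb (d.γ 1)) hθ (c.mid (d.γ 0) (d.γ 1)) hmid.msk
    d.B hBm (d.gS (d.γ 0) d.m0) d.N (sf_ga_gS_meas d (d.γ 0) h0 d.m0) hNm (M := c.W.gM (d.γ 0) d.m0) (sf_core_gM_mask c hs (d.γ 0) h0 d.m0)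
    (by rw [hb] at hn1 ⊢; exact hn1) hn2 (by rw [hb]; exact hroot.appr) (fun v => gn_tz_pl hT _ _ _ _ v) (c.W.pre (d.γ 0) d.m0)
  rw [hb] at key
  have e1 : c.W.pre (d.γ 1) (c.W.iv (d.γ 1) l) = Xp.run (c.W.k (d.γ 1)) (c.W.iv (d.γ 1) l) (c.mid (d.γ 0) (d.γ 1))
      ((Y.M.sys c.p).tz (tmL (c.W.k (d.γ 0)) d.m0) (c.W.k (d.γ 0)) (c.W.gb (d.γ 0)) (c.W.gM (d.γ 0) d.m0) (c.W.pre (d.γ 0) d.m0)) := by
    have := sf_core_pre_split c hs (d.γ 0) h0 (d.γ 1) h1 h01 (c.W.iv (d.γ 1) l)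
    rw [hb] at this
    exact this
  have e2 : Xp.run (c.W.k (d.γ 1)) (c.W.iv (d.γ 1) l) d.st d.psi
      = Xp.run (c.W.k (d.γ 1)) (c.W.iv (d.γ 1) l) (⟨c.W.k (d.γ 0), d.b0, fun _ => d.N.indicator fun _ => 1⟩ :: stRes (c.mid (d.γ 0) (d.γ 1)) d.B)
        ((Y.M.sys c.p).tz (tmL (c.W.k (d.γ 0)) d.m0) (c.W.k (d.γ 0)) (c.W.gb (d.γ 0)) ((d.gS (d.γ 0) d.m0).indicator (c.W.gM (d.γ 0) d.m0)) (c.W.pre (d.γ 0) d.m0)) := by
    show Xp.run (c.W.k (d.γ 1)) (c.W.iv (d.γ 1) l) (stRes (c.mid (d.γ 0) (d.γ 1)) d.B)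
        ((Y.M.sys c.p).tz (tmL (c.W.k (d.γ 0)) (ancI (c.W.k (d.γ 1)) (c.W.k (d.γ 0)) (c.W.iv (d.γ 1) l))) (c.W.k (d.γ 0)) d.b0
          (if ancI (c.W.k (d.γ 1)) (c.W.k (d.γ 0)) (c.W.iv (d.γ 1) l) = d.m0 then d.N.indicator fun _ => 1 else fun _ => 0) d.psi)
      = Xp.run (c.W.k (d.γ 1)) (c.W.iv (d.γ 1) l) (stRes (c.mid (d.γ 0) (d.γ 1)) d.B)
        ((Y.M.sys c.p).tz (tmL (c.W.k (d.γ 0)) (ancI (c.W.k (d.γ 1)) (c.W.k (d.γ 0)) (c.W.iv (d.γ 1) l))) (c.W.k (d.γ 0)) d.b0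
          (d.N.indicator fun _ => 1) d.psi)
    rw [if_pos hb]
  rw [← e1, ← e2] at key
  have tri := gn_en_tri (P := Y.M.sys c.p) (tmL (c.W.k (d.γ 1)) (c.W.iv (d.γ 1) l)) (c.W.k (d.γ 1)) (c.W.gb (d.γ 1)) hθ
    (Xp.run (c.W.k (d.γ 1)) (c.W.iv (d.γ 1) l) d.st d.psi) (c.W.pre (d.γ 1) (c.W.iv (d.γ 1) l) - Xp.run (c.W.k (d.γ 1)) (c.W.iv (d.γ 1) l) d.st d.psi)
  rw [add_sub_cancel] at tri
  have hlen : (((c.mid (d.γ 0) (d.γ 1)).length : ℝ) + 2) * ϰ * ‖c.W.pre (d.γ 0) d.m0‖ ≤ ((C : ℝ) + 2) * ϰ * ‖c.W.pre (d.γ 0) d.m0‖ := by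
    have : ((c.mid (d.γ 0) (d.γ 1)).length : ℝ) ≤ C := by exact_mod_cast hmid.len
    apply mul_le_mul_of_nonneg_right _ (norm_nonneg _)
    apply mul_le_mul_of_nonneg_right _ hϰ
    linarith
  linarith

/-! ## 4. The masses -/

/-- **(LEAF L-256-GA-LAW)** the mass read by the marked rows in the full experiment, label by label.   PLAN: `γ1 = d.γ 1`, `V ρ := d.U ⟨γ1, ρ⟩`, `h1 : γ1 ∈ G`.   `c.gaPr d.U γ1 = (P γ1).pr V * tot γ1 = ∑ m' ∈ ivs γ1, rdE γ1 V m' (pre γ1 m')` (`sf_core_pr`).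
As in the proof of `sf_core_xp_tm` (`Soft/MCoreSp.lean`): `Finset.sum_fiberwise_of_maps_to` (`Str.iv_in`), `wS γ1 V m' = ∑ l ∈ filter (iv l = m'), thU γ1 V l` (`sf_core_xp_tm_wS`), `gn_en_sum` (`sf_core_xp_tm_mask`);   `d.th 1 l = thU γ1 V l` (`sf_ga_th1_eq`). -/
theorem sf_ga_law (hs : c.W.Str (Y.tq c.p)) (hok : d.Ok) :
    c.gaPr d.U (d.γ 1) = ∑ l : c.W.Lb (d.γ 1),
      (Y.M.sys c.p).en (tmL (c.W.k (d.γ 1)) (c.W.iv (d.γ 1) l)) (c.W.k (d.γ 1)) (c.W.gb (d.γ 1)) (d.th 1 l) (c.W.pre (d.γ 1) (c.W.iv (d.γ 1) l)) := by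
  classical
  obtain ⟨_, hj, _⟩ := sf_ga_gates d hok
  unfold SfCfg.gaPr
  rw [sf_core_pr c hs (d.γ 1) hj]
  rw [← Finset.sum_fiberwise_of_maps_to (s := Finset.univ) (t := c.W.ivs (d.γ 1)) (g := fun l => c.W.iv (d.γ 1) l) (fun l _ => hs.iv_in (d.γ 1) hj l)]
  refine Finset.sum_congr rfl fun m' _ => ?_
  unfold SfCfg.rdE
  have e : c.wS (d.γ 1) (fun ρ => d.U ⟨d.γ 1, ρ⟩) m' = fun x => ∑ l ∈ Finset.univ.filter (fun l => c.W.iv (d.γ 1) l = m'), c.thU (d.γ 1) (fun ρ => d.U ⟨d.γ 1, ρ⟩) l x := by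
    funext x
    exact (sf_core_xp_tm_wS c (d.γ 1) _ m' x).symm
  rw [e, gn_en_sum _ _ _ _ _ (fun l _ => sf_core_xp_tm_mask c hs (d.γ 1) hj _ l)]
  refine Finset.sum_congr rfl fun l hl => ?_
  rw [(Finset.mem_filter.1 hl).2, sf_ga_th1_eq d hok l]

/-- **(LEAF L-256-GA-TM)** the total mass of the group experiment, label by label.   PLAN: `Xp.tm`, `Xp.m`, `Xp.fin`; `d.X.kf = k (d.γ 0) + (k (d.γ 1) - k (d.γ 0)) = k (d.γ 1)` (`Xp.kf`, `Nat.add_sub_cancel'`/`omega`; prove `hkf : d.X.kf = c.W.k (d.γ 1)` and `rw` after `unfold`);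
the fields of `d.X` by `rfl` (`show`);   reindex by `(Fintype.equivFin (d.Lb 1)).symm` (`Equiv.sum_comp`). -/
theorem sf_ga_tm (hk : c.W.k (d.γ 0) ≤ c.W.k (d.γ 1)) :
    d.X.tm = ∑ l : d.Lb 1,
      (Y.M.sys c.p).en (tmL (c.W.k (d.γ 1)) (c.W.iv (d.γ 1) l.1)) (c.W.k (d.γ 1)) (c.W.gb (d.γ 1)) (d.th 1 l.1) (Xp.run (c.W.k (d.γ 1)) (c.W.iv (d.γ 1) l.1) d.st d.psi) := by
  have hkf : d.X.kf = c.W.k (d.γ 1) := by
    show c.W.k (d.γ 0) + (c.W.k (d.γ 1) - c.W.k (d.γ 0)) = c.W.k (d.γ 1)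
    omega
  rw [← Equiv.sum_comp (Fintype.equivFin (d.Lb 1)).symm]
  unfold Xp.tm
  refine Finset.sum_congr rfl fun a _ => ?_
  unfold Xp.m Xp.fin
  rw [hkf]
  rfl

/-- **(LEAF L-256-GA-DROP)** a label of the end gate that is not kept reads nothing.   PLAN: `1 ∈ d.G` (`sf_ga_one_mem`).   `hl : ¬ d.Kept 1 l`, `Kept = bel ∧ ∃ x, th ≠ 0`.   If `∀ x, d.th 1 l x = 0`: `d.th 1 l = fun _ => 0` (`funext`), `sf_core_rdE_law_zero`.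
Otherwise `d.th 1 l x ≠ 0`: (`sf_ga_th1`, `SfGeD.lS`, `Set.mem_iUnion`) `ρ'` with `d.chn ⟨γ1, ρ'⟩`, `lb ρ' = l`; `sf_ga_bel d hs hn hok ⟨γ1, ρ'⟩ ..` gives `d.bel γ1 (im γ1 ρ')`, `im γ1 ρ' = iv γ1 l` (`SfCfg.im`, `subst`): `Kept`, contradiction. -/
theorem sf_ga_drop (hs : c.W.Str (Y.tq c.p)) (hn : c.Nest) (hok : d.Ok) (l : c.W.Lb (d.γ 1)) (hl : ¬ d.Kept 1 l) (ψ : (Y.M.sys c.p).Kc) :
    (Y.M.sys c.p).en (tmL (c.W.k (d.γ 1)) (c.W.iv (d.γ 1) l)) (c.W.k (d.γ 1)) (c.W.gb (d.γ 1)) (d.th 1 l) ψ = 0 := by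
  by_cases hz : ∀ x, d.th 1 l x = 0
  · have e : d.th 1 l = fun _ => 0 := funext hz
    rw [e]
    exact sf_core_rdE_law_zero _ _ _ _
  · exfalso
    rw [not_forall] at hz
    obtain ⟨x, hx⟩ := hz
    apply hl
    refine ⟨?_, x, hx⟩
    have hx' := hx
    rw [sf_ga_th1] at hx'
    have hmem : x ∈ d.lS (d.γ 1) l := Set.mem_of_indicator_ne_zero hx'
    unfold SfGeD.lS at hmem
    simp only [Set.mem_iUnion] at hmem
    obtain ⟨ρ', ⟨hch, hlb⟩, -⟩ := hmem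
    have g1 : d.γ 1 ∈ c.W.G := by rw [sf_ga_g1]; exact hok.gj
    have g2 : d.γ 0 ≤ d.γ 1 := by rw [sf_ga_g0, sf_ga_g1]; exact hok.hij.le
    have hb := sf_ga_bel d hs hn hok ⟨d.γ 1, ρ'⟩ hch g1 g2
    have e : c.im (d.γ 1) ρ' = c.W.iv (d.γ 1) l := by
      unfold SfCfg.im
      rw [hlb]
    rw [← e]
    exact hb

/-- a sum over a fintype whose terms vanish off a predicate is the sum over the subtype -/
theorem sf_ga_cmp_sub {ι : Type} [Fintype ι] (q : ι → Prop) [Fintype {l // q l}] (μ : ι → ℝ) (h : ∀ l, ¬ q l → μ l = 0) :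
    ∑ l, μ l = ∑ l : {l // q l}, μ l.1 := by
  classical
  have h1 : ∑ l, μ l = ∑ l ∈ Finset.univ.filter q, μ l := by
    symm
    apply Finset.sum_filter_of_ne
    intro l _ hne
    by_contra hq
    exact hne (h l hq)
  rw [h1]
  exact Finset.sum_subtype (Finset.univ.filter q) (fun l => by simp) μ

/-- **(LEAF L-256-GA-CMP) EXIT of this file.**   PLAN: `μ l`, `ν l` = the two energies of `sf_ga_cmp1`, `δ = (C + 2) ϰ ‖pre γ0 m0‖`.   `sf_ga_law`: `gaPr = ∑ l, μ l`.   `∑ l : Lb γ1, μ l = ∑ l : d.Lb 1, μ l.1`: `d.Lb 1 = {l // 1 ∈ d.G → Kept 1 l}`;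
`Finset.sum_subtype`-type argument: `∑ l, μ l = ∑ l ∈ filter (Kept 1 l), μ l` (`Finset.sum_filter_of_ne` / `Finset.sum_subset`: `sf_ga_drop`), `Finset.sum_subtype (p := fun l => 1 ∈ d.G → d.Kept 1 l)` with `sf_ga_one_mem`.
For `l : d.Lb 1`: `(l.2 (sf_ga_one_mem d hok)).1 : d.bel γ1 (iv l.1)`; `sf_ga_cmp1` + `sf_core_sp_sq`: `μ ≤ 2 ν + 2 δ²` (`gn_en_nonneg`, weights `≥ 0`: `sf_ga_th1_eq`, `sf_core_xp_valid_thU`).   Sum: `Finset.sum_le_sum`, `Finset.sum_add_distrib`, `Finset.mul_sum`, `sf_ga_tm`,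
`Finset.sum_const`, `Finset.card_univ`, `d.X.L = Fintype.card (d.Lb 1)` (`rfl`), `nsmul_eq_mul`. -/
theorem sf_ga_cmp (hO : SfCyOk Y) (C : ℕ) (hob : c.ob C) (hT : (Y.M.sys c.p).Tight) (hn : c.Nest) (hok : d.Ok) (hF : d.Full) (Λ ϰ : ℝ) (hϰ : 0 ≤ ϰ) (hloc : c.LocG ϰ) (hroot : d.Root Λ ϰ) :
    c.gaPr d.U (d.γ 1) ≤ 2 * d.X.tm + 2 * (((C : ℝ) + 2) * ϰ * ‖c.W.pre (d.γ 0) d.m0‖) ^ 2 * d.X.L := by
  have hs : c.W.Str (Y.tq c.p) := hob.2.2.1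
  obtain ⟨g0, g1, g01⟩ := sf_ga_gates d hok
  have hk : c.W.k (d.γ 0) ≤ c.W.k (d.γ 1) := (hs.k_mono _ g0 _ g1 g01).1
  have h1G := sf_ga_one_mem d hok
  rw [sf_ga_law d hs hok, sf_ga_tm d hk]
  have hnn : ∀ (l : c.W.Lb (d.γ 1)) x, 0 ≤ d.th 1 l x := by
    intro l x
    rw [sf_ga_th1_eq d hok l]
    exact ((sf_core_xp_valid_thU c hs (d.γ 1) g1 _ l).2 x).1
  have e : ∑ l : c.W.Lb (d.γ 1), (Y.M.sys c.p).en (tmL (c.W.k (d.γ 1)) (c.W.iv (d.γ 1) l)) (c.W.k (d.γ 1)) (c.W.gb (d.γ 1)) (d.th 1 l) (c.W.pre (d.γ 1) (c.W.iv (d.γ 1) l))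
      = ∑ l : d.Lb 1, (Y.M.sys c.p).en (tmL (c.W.k (d.γ 1)) (c.W.iv (d.γ 1) l.1)) (c.W.k (d.γ 1)) (c.W.gb (d.γ 1)) (d.th 1 l.1) (c.W.pre (d.γ 1) (c.W.iv (d.γ 1) l.1)) :=
    @sf_ga_cmp_sub _ _ (fun l : c.W.Lb (d.γ 1) => (1 : ℝ) ∈ d.G → d.Kept 1 l) (d.fLb 1)
      (fun l => (Y.M.sys c.p).en (tmL (c.W.k (d.γ 1)) (c.W.iv (d.γ 1) l)) (c.W.k (d.γ 1)) (c.W.gb (d.γ 1)) (d.th 1 l) (c.W.pre (d.γ 1) (c.W.iv (d.γ 1) l)))
      (fun l hl => sf_ga_drop d hs hn hok l (fun hK => hl fun _ => hK) _)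
  rw [e]
  have hL : (d.X.L : ℝ) = ((Finset.univ : Finset (d.Lb 1)).card : ℝ) := rfl
  rw [hL, Finset.mul_sum, mul_comm _ (((Finset.univ : Finset (d.Lb 1)).card : ℝ)), ← nsmul_eq_mul, ← Finset.sum_const, ← Finset.sum_add_distrib]
  refine Finset.sum_le_sum fun l _ => ?_
  exact sf_core_sp_sq _ _ _ (gn_en_nonneg _ _ _ (hnn l.1) _) (gn_en_nonneg _ _ _ (hnn l.1) _)
    (sf_ga_cmp1 d hO C hob hT hok hF Λ ϰ hϰ hloc hroot l.1 (l.2 h1G).1)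

end

end Claimed.Agent.R256
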