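import Claimed.Agent.R256.Soft.MGaCmp

/-!
# Row 256 (S0496), unit SOFT, block M6 GE, sub-block SEL, file 4: ONE GROUP AGAINST THE RESTRICTED EXPERIMENT, COMMON FORM      (architect helper169; prefix `sf_ga_`)

COMMON to the cover form (`CalGe`, `S0 = True`) and to the partition form (`CalGp`, helper206): the synthesis at the root gate is restricted to the rows of `S0 : c.D.Rw → Prop`.      THIS FILE DOES NOT UNFOLD `d.psi`, `d.N`: it uses them only through `d.Car S0 ϰ`.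
* `d.Car S0 ϰ`     the root state of the group is `An^* (wS γ0 (S0 ∧ chn) m0) An (pre γ0 m0)`;  `d.N` is measurable;  the root stage `1_N` is the identity on such states up to `ϰ`        (`sf_ga_car`: from `d.Root`, `S0 = True`)
* `d.sig S0`       `Σ_m' rdE γ1 U m' (preR γ0 γ1 S0 m')` = what the marked rows read if the synthesis at the root gate is restricted to `S0`        (`sf_ga_full`: `S0 = True` gives `pr(U) tot`)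
* `d.raw S0`       the raw mass of the rows of `S0` on chains in the root interval
EXIT `sf_ga_cmpg`:   `d.sig S0 ≤ 2 d.X.tm + 2 ((C + 2) ϰ ‖pre γ0 m0‖)² d.X.L`.
-/

set_option autoImplicit false

namespace Claimed.Agent.R256

open MeasureTheory Claimed.Agent.R255

variable {Y : SfCy}

namespace SfGeD

variable {de : ℝ} {c : SfCfg Y de} (d : SfGeD c)

/-- the rows of `S0` on chains, at the root gate -/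
def rS (S0 : c.D.Rw → Prop) (ρ : c.D.Row (d.γ 0)) : Prop := S0 ⟨d.γ 0, ρ⟩ ∧ d.chf ⟨d.γ 0, ρ⟩

/-- the root carrier -/
structure Car (S0 : c.D.Rw → Prop) (ϰ : ℝ) : Prop where
  psi : d.psi = (Y.M.sys c.p).tz (tmL (c.W.k (d.γ 0)) d.m0) (c.W.k (d.γ 0)) (c.W.gb (d.γ 0)) (c.wS (d.γ 0) (d.rS S0) d.m0) (c.W.pre (d.γ 0) d.m0)
  nm : MeasurableSet d.N
  appr : ∀ v : (Y.M.sys c.p).Kc, Real.sqrt ((Y.M.sys c.p).ms (tmL (c.W.k (d.γ 0)) d.m0) (c.W.k (d.γ 0)) d.b0 d.Nᶜ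
    ((Y.M.sys c.p).tz (tmL (c.W.k (d.γ 0)) d.m0) (c.W.k (d.γ 0)) (c.W.gb (d.γ 0)) (c.wS (d.γ 0) (d.rS S0) d.m0) v)) ≤ ϰ * ‖v‖

/-- what the marked rows read if the synthesis at the root gate is restricted to `S0` -/
noncomputable def sig (S0 : c.D.Rw → Prop) : ℝ :=
  ∑ m' ∈ c.W.ivs (d.γ 1), c.rdE (d.γ 1) (fun ρ => d.U ⟨d.γ 1, ρ⟩) m' (c.preR (d.γ 0) (d.γ 1) (fun ρ => S0 ⟨d.γ 0, ρ⟩) m')

/-- the raw mass of the root carrier -/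
noncomputable def raw (S0 : c.D.Rw → Prop) : ℝ := c.rdE (d.γ 0) (d.rS S0) d.m0 (c.W.pre (d.γ 0) d.m0)

end SfGeD

theorem sf_ga_cmps_eqns_cite : True := by
  have := @SfGeD.rS.eq_1
  have := @SfGeD.sig.eq_1
  have := @SfGeD.raw.eq_1
  trivial

/-- **(LEAF L-256-GA-MASK2)** at a gate `g < 1` the atoms of one interval are disjoint: cutting the weight of `S'` to the atoms of `S`, resp. to their complement.   PLAN: `funext x`; `wS g S'' m = (aS g S'' m).indicator (gM g m)` for the three row sets (`sf_ga_mask`).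
`x ∈ aS g S m ∧ x ∈ aS g S' m ↔ x ∈ aS g (S' ∧ S) m`: two rows `ρ, ρ'` of the interval `m` whose atoms contain `x` are equal (`sf_cl_row_eq`, `Soft/MCoreCl.lean`: it holds in both models).   Then cases on the memberships (`Set.indicator_of_mem`, `Set.indicator_of_notMem`). -/
theorem sf_ga_mask2 {de : ℝ} (c : SfCfg Y de) (hs : c.W.Str (Y.tq c.p)) (g : ℝ) (hg : g ∈ c.W.G) (h1 : g < 1) (S S' : c.D.Row g → Prop) (m : ℕ) :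
    (c.aS g S m).indicator (c.wS g S' m) = c.wS g (fun ρ => S' ρ ∧ S ρ) m ∧ (c.aS g S m)ᶜ.indicator (c.wS g S' m) = c.wS g (fun ρ => S' ρ ∧ ¬ S ρ) m := by
  have mem : ∀ (T : c.D.Row g → Prop) (x : (Y.M.sys c.p).X), x ∈ c.aS g T m ↔ ∃ ρ, (T ρ ∧ c.im g ρ = m) ∧ x ∈ c.sh.atm g ρ := by
    intro T x
    unfold SfCfg.aS
    simp only [Set.mem_iUnion, exists_prop]
  have k1 : ∀ x, x ∈ c.aS g (fun ρ => S' ρ ∧ S ρ) m ↔ x ∈ c.aS g S m ∧ x ∈ c.aS g S' m := by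
    intro x
    rw [mem, mem, mem]
    constructor
    · rintro ⟨ρ, ⟨⟨a, b⟩, e⟩, hx⟩
      exact ⟨⟨ρ, ⟨b, e⟩, hx⟩, ⟨ρ, ⟨a, e⟩, hx⟩⟩
    · rintro ⟨⟨ρ, ⟨b, e⟩, hx⟩, ⟨ρ', ⟨a, e'⟩, hx'⟩⟩
      have : ρ = ρ' := sf_cl_row_eq c hs g hg h1 ρ ρ' x hx hx' (e.trans e'.symm)
      subst this
      exact ⟨ρ, ⟨⟨a, b⟩, e⟩, hx⟩
  have k2 : ∀ x, x ∈ c.aS g (fun ρ => S' ρ ∧ ¬ S ρ) m ↔ x ∉ c.aS g S m ∧ x ∈ c.aS g S' m := by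
    intro x
    rw [mem, mem, mem]
    constructor
    · rintro ⟨ρ, ⟨⟨a, b⟩, e⟩, hx⟩
      refine ⟨?_, ⟨ρ, ⟨a, e⟩, hx⟩⟩
      rintro ⟨ρ', ⟨b', e'⟩, hx'⟩
      have : ρ = ρ' := sf_cl_row_eq c hs g hg h1 ρ ρ' x hx hx' (e.trans e'.symm)
      subst this
      exact b b'
    · rintro ⟨hn, ⟨ρ', ⟨a, e'⟩, hx'⟩⟩
      exact ⟨ρ', ⟨⟨a, fun b => hn ⟨ρ', ⟨b, e'⟩, hx'⟩⟩, e'⟩, hx'⟩
  rw [← sf_ga_mask c hs g hg h1 S' m, ← sf_ga_mask c hs g hg h1 (fun ρ => S' ρ ∧ S ρ) m, ← sf_ga_mask c hs g hg h1 (fun ρ => S' ρ ∧ ¬ S ρ) m]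
  constructor
  · funext x
    by_cases a : x ∈ c.aS g S m
    · rw [Set.indicator_of_mem a]
      by_cases b : x ∈ c.aS g S' m
      · rw [Set.indicator_of_mem b, Set.indicator_of_mem ((k1 x).2 ⟨a, b⟩)]
      · rw [Set.indicator_of_notMem b, Set.indicator_of_notMem (fun h => b ((k1 x).1 h).2)]
    · rw [Set.indicator_of_notMem a, Set.indicator_of_notMem (fun h => a ((k1 x).1 h).1)]
  · funext x
    by_cases a : x ∈ c.aS g S m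
    · rw [Set.indicator_of_notMem (show x ∉ (c.aS g S m)ᶜ from fun h => h a), Set.indicator_of_notMem (fun h => ((k2 x).1 h).1 a)]
    · rw [Set.indicator_of_mem (show x ∈ (c.aS g S m)ᶜ from a)]
      by_cases b : x ∈ c.aS g S' m
      · rw [Set.indicator_of_mem b, Set.indicator_of_mem ((k2 x).2 ⟨a, b⟩)]
      · rw [Set.indicator_of_notMem b, Set.indicator_of_notMem (fun h => b ((k2 x).1 h).2)]

section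

variable {de : ℝ} {c : SfCfg Y de} (d : SfGeD c)

/-- the admitted chain rows of the root gate -/
theorem sf_ga_rS : d.rS d.S0 = fun ρ => d.chn ⟨d.γ 0, ρ⟩ := by
  funext ρ
  unfold SfGeD.rS SfGeD.chn
  exact propext ⟨fun h => ⟨h.2, fun _ => h.1⟩, fun h => ⟨h.2 (sf_ga_g0 d), h.1⟩⟩

/-- **(LEAF L-256-GA-CAR)** cover form: the carrier of `Soft/MGeDef.lean`.   PLAN: `γ0 = d.γ 0 ∈ G`, `γ0 < 1` (`sf_ga_gates`, `Str.gate`).   `d.bel γ0 d.m0` (`SfGeD.bel`, `gn_anc_self`), `d.gS γ0 d.m0 = aS γ0 (chn) d.m0` (`sf_ga_gS`), `(..).indicator (gM γ0 d.m0) = wS γ0 (chn) d.m0` (`sf_ga_mask`);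
`d.rS (fun _ => True) = fun ρ => d.chn ⟨γ0, ρ⟩` (`funext`, `propext`, `true_and`).   `psi`: `SfGeD.psi`, rewrite.   `nm`: `(sf_ga_meas d Λ ϰ hroot).2`.   `appr`: `hroot.appr`, rewrite.
(`SfGeD` HAS the field `S0` (helper105, 00:40Z): `d.chn ⟨γ0, ρ⟩ ↔ d.rS d.S0 ρ`; cover form: `d.S0 = fun _ => True`.) -/
theorem sf_ga_car (hs : c.W.Str (Y.tq c.p)) (hok : d.Ok) (Λ ϰ : ℝ) (hroot : d.Root Λ ϰ) : d.Car d.S0 ϰ := by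
  obtain ⟨h0, h1, h01⟩ := sf_ga_gates d hok
  have hg1 : d.γ 0 < 1 := lt_of_lt_of_le h01 (hs.gate.2 _ h1).2
  have hbel : d.bel (d.γ 0) d.m0 := by
    unfold SfGeD.bel
    exact gn_anc_self _ _
  have hrS : d.rS d.S0 = fun ρ => d.chn ⟨d.γ 0, ρ⟩ := sf_ga_rS d
  have hmask : (d.gS (d.γ 0) d.m0).indicator (c.W.gM (d.γ 0) d.m0) = c.wS (d.γ 0) (d.rS d.S0) d.m0 := by
    rw [sf_ga_gS d _ _ hbel, sf_ga_mask c hs _ h0 hg1, hrS]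
  refine ⟨?_, (sf_ga_meas d Λ ϰ hroot).2, ?_⟩
  · unfold SfGeD.psi
    rw [hmask]
  · intro v
    have := hroot.appr v
    rw [hmask] at this
    exact this

/-- **(LEAF L-256-GA-LAWG)** reading label by label, for ANY family of states.   PLAN: as in the proof of `sf_core_xp_tm` (`Soft/MCoreSp.lean`): `V ρ := d.U ⟨γ1, ρ⟩`; RHS: `Finset.sum_fiberwise_of_maps_to` (`Str.iv_in`) groups the labels by `m' = iv l ∈ ivs γ1`;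
`wS γ1 V m' = fun x => ∑ l ∈ filter (iv l = m'), thU γ1 V l x` (`sf_core_xp_tm_wS`), `SfCfg.rdE`, `gn_en_sum` (`sf_core_xp_tm_mask`);   `d.th 1 l = thU γ1 V l` (`sf_ga_th1_eq`). -/
theorem sf_ga_lawg (hs : c.W.Str (Y.tq c.p)) (hok : d.Ok) (ψ : ℕ → (Y.M.sys c.p).Kc) :
    ∑ m' ∈ c.W.ivs (d.γ 1), c.rdE (d.γ 1) (fun ρ => d.U ⟨d.γ 1, ρ⟩) m' (ψ m') = ∑ l : c.W.Lb (d.γ 1),
      (Y.M.sys c.p).en (tmL (c.W.k (d.γ 1)) (c.W.iv (d.γ 1) l)) (c.W.k (d.γ 1)) (c.W.gb (d.γ 1)) (d.th 1 l) (ψ (c.W.iv (d.γ 1) l)) := by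
  classical
  obtain ⟨_, hj, _⟩ := sf_ga_gates d hok
  rw [← Finset.sum_fiberwise_of_maps_to (s := Finset.univ) (t := c.W.ivs (d.γ 1)) (g := fun l => c.W.iv (d.γ 1) l) (fun l _ => hs.iv_in (d.γ 1) hj l)]
  refine Finset.sum_congr rfl fun m' _ => ?_
  unfold SfCfg.rdE
  have e : c.wS (d.γ 1) (fun ρ => d.U ⟨d.γ 1, ρ⟩) m' = fun x => ∑ l ∈ Finset.univ.filter (fun l => c.W.iv (d.γ 1) l = m'), c.thU (d.γ 1) (fun ρ => d.U ⟨d.γ 1, ρ⟩) l x := by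
    funext x
    exact (sf_core_xp_tm_wS c (d.γ 1) _ m' x).symm
  rw [e, gn_en_sum _ _ _ _ _ (fun l _ => sf_core_xp_tm_mask c hs (d.γ 1) hj _ l)]
  refine Finset.sum_congr rfl fun l hl => ?_
  rw [(Finset.mem_filter.1 hl).2, sf_ga_th1_eq d hok l]

/-- **(LEAF L-256-GA-FULL)** no restriction: the full experiment.   PLAN: `c.gaPr d.U γ1 = ∑ m' ∈ ivs γ1, rdE γ1 V m' (pre γ1 m')` (`SfCfg.gaPr`, `sf_core_pr`); term by term (`Finset.sum_congr`), `R = fun _ => True`: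
CLASSICAL (`cases hy : Y.hyb`): `sf_core_loc_cl hO hy c C hob (sf_core_xtra c hs) γ0 _ γ1 _ _ V R (fun _ _ _ _ => trivial) m'`.
HYBRID: `preR γ0 γ1 R m' = pre γ1 m'`: `SfCfg.preR`, `SfCfg.synR`, `wS γ0 R m = gM γ0 m` (`funext`, `sf_core_wS_all`, `SfMD.gM`), `sf_core_pre_split`. -/
theorem sf_ga_full (hO : SfCyOk Y) (C : ℕ) (hob : c.ob C) (hok : d.Ok) : c.gaPr d.U (d.γ 1) = d.sig (fun _ => True) := by
  obtain ⟨hg0, hg1, h01⟩ := sf_ga_gates d hok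
  have hs := hob.2.2.1
  unfold SfCfg.gaPr SfGeD.sig
  rw [sf_core_pr c hs (d.γ 1) hg1]
  refine Finset.sum_congr rfl fun m' _ => ?_
  cases hy : Y.hyb
  · exact sf_core_loc_cl hO hy c C hob (sf_core_xtra c hs) (d.γ 0) hg0 (d.γ 1) hg1 h01 _ (fun _ => True) (fun _ _ _ _ => trivial) m'
  · congr 1
    rw [sf_core_pre_split c hs (d.γ 0) hg0 (d.γ 1) hg1 h01 m']
    unfold SfCfg.preR SfCfg.synR
    have : c.wS (d.γ 0) (fun _ => True) (ancI (c.W.k (d.γ 1)) (c.W.k (d.γ 0)) m') = c.W.gM (d.γ 0) (ancI (c.W.k (d.γ 1)) (c.W.k (d.γ 0)) m') := by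
      funext x
      rw [sf_core_wS_all c hy hs (d.γ 0) hg0]
      rfl
    rw [this]

/-- **(LEAF L-256-GA-CMP1G)** one label of the end gate, below the root interval: the restricted experiment against the group experiment.   PLAN: `γ0 = d.γ 0`, `γ1 = d.γ 1`, `m' = iv γ1 l`, `hs := hob.2.2.1`, `⟨h0, h1, h01⟩ := sf_ga_gates d hok`, `γ0 < 1`; `hbel : ancI (k γ1) (k γ0) m' = d.m0`;
`R ρ := S0 ⟨γ0, ρ⟩`, `M = wS γ0 R d.m0`, `Pb = aS γ0 (fun ρ => d.chn ⟨γ0, ρ⟩) d.m0`;   `Pb.indicator M = wS γ0 (d.rS S0) d.m0`, `Pbᶜ.indicator M = wS γ0 (fun ρ => R ρ ∧ ¬ d.chn ⟨γ0, ρ⟩) d.m0` (`sf_ga_mask2`, `SfGeD.rS`).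
`sf_ge_cmp hT ϰ hϰ (k γ0) (k γ1) m' (gb γ0) d.b0 (gb γ1) (θ := d.th 1 l) _ (c.mid γ0 γ1) _ d.B _ Pb d.N _ _ (M := M) _ h1 h2 h3 hpl (c.W.pre γ0 d.m0)` AFTER rewriting `ancI (k γ1) (k γ0) m'` to `d.m0` (`have := sf_ge_cmp ..; rw [hbel] at this`, or state the hypotheses with `hbel ▸`).
`θ` mask: `sf_ga_th1_eq` + `sf_core_xp_tm_mask`;   `StM`: `(sf_core_mid_ok c C hob γ0 h0 γ1 h1 h01).msk`;   measurability: `(sf_ga_meas ..).1` needs `Root`: use instead `sf_ga_gS_meas` through `unfold SfGeD.B; split_ifs` (copy of the first half of `sf_ga_meas`), `hcar.nm`, `sf_core_aS_meas`;   `M` mask: `sf_core_wS_mask`.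
`h1` (`NegM`): `intro v`; `en .. (d.th 1 l) χ ≤ rdE γ1 V m' χ` as in `sf_ga_neg_hy` (`V ρ' := d.U ⟨γ1, ρ'⟩`), then `hloc γ0 h0 γ1 h1 h01 (fun ρ => R ρ ∧ ¬ d.chn ⟨γ0, ρ⟩) V hno m' v` (rewrite `hbel`); `hno`: `Conn γ0 γ1 ρ ρ'`, `V ρ'` give `d.chn ⟨γ0, ρ⟩`.
`h2`: `sf_ga_bart` from `sf_ga_neg` (gates `γ0 < g`).   `h3`: `hcar.appr`.   `hpl`: `gn_tz_pl` (`d.b0 = gb γ0 + 1`, `rfl`).
`Xp.run (k γ1) m' (c.mid γ0 γ1) (tz .. M (pre γ0 d.m0)) = c.preR γ0 γ1 R m'` (`SfCfg.preR`, `SfCfg.synR`, `hbel`).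
`Xp.run (k γ1) m' d.st d.psi` = the second run: `d.st = ⟨k γ0, d.b0, fun m => if m = d.m0 then .. else ..⟩ :: stRes ..` (`SfGeD.st`); `Xp.run` on a cons evaluates the mask at `ancI (k γ1) (k γ0) m' = d.m0` (`show`, `rw [hbel, if_pos rfl]`); `d.psi` by `hcar.psi`.
`gn_en_tri` on `full = grp + (full - grp)`;   `(c.mid γ0 γ1).length ≤ C`, `0 ≤ ϰ`, `0 ≤ ‖·‖`. -/
theorem sf_ga_cmp1g (hO : SfCyOk Y) (C : ℕ) (hob : c.ob C) (hT : (Y.M.sys c.p).Tight) (hok : d.Ok) (ϰ : ℝ) (hϰ : 0 ≤ ϰ) (hloc : c.LocG ϰ) (S0 : c.D.Rw → Prop) (hcar : d.Car S0 ϰ)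
    (l : c.W.Lb (d.γ 1)) (hbel : d.bel (d.γ 1) (c.W.iv (d.γ 1) l)) :
    Real.sqrt ((Y.M.sys c.p).en (tmL (c.W.k (d.γ 1)) (c.W.iv (d.γ 1) l)) (c.W.k (d.γ 1)) (c.W.gb (d.γ 1)) (d.th 1 l)
        (c.preR (d.γ 0) (d.γ 1) (fun ρ => S0 ⟨d.γ 0, ρ⟩) (c.W.iv (d.γ 1) l)))
      ≤ Real.sqrt ((Y.M.sys c.p).en (tmL (c.W.k (d.γ 1)) (c.W.iv (d.γ 1) l)) (c.W.k (d.γ 1)) (c.W.gb (d.γ 1)) (d.th 1 l) (Xp.run (c.W.k (d.γ 1)) (c.W.iv (d.γ 1) l) d.st d.psi))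
        + ((C : ℝ) + 2) * ϰ * ‖c.W.pre (d.γ 0) d.m0‖ := by
  classical
  have hs := hob.2.2.1
  obtain ⟨h0, h1, h01⟩ := sf_ga_gates d hok
  have h0lt : d.γ 0 < 1 := lt_of_lt_of_le h01 (hs.gate.2 _ h1).2
  have hb : ancI (c.W.k (d.γ 1)) (c.W.k (d.γ 0)) (c.W.iv (d.γ 1) l) = d.m0 := hbel
  have hθ : IsMask (d.th 1 l) := by
    rw [sf_ga_th1_eq d hok l]
    exact sf_core_xp_tm_mask c hs (d.γ 1) h1 _ l
  have hmid := sf_core_mid_ok c C hob (d.γ 0) h0 (d.γ 1) h1 h01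
  have hBm : ∀ t m, MeasurableSet (d.B t m) := by
    intro t m
    unfold SfGeD.B
    split_ifs with h
    · exact sf_ga_gS_meas d _ h.choose_spec.1 m
    · exact MeasurableSet.univ
  obtain ⟨hm1, hm2⟩ := sf_ga_mask2 c hs (d.γ 0) h0 h0lt (fun ρ => d.chf ⟨d.γ 0, ρ⟩) (fun ρ => S0 ⟨d.γ 0, ρ⟩) d.m0
  have hm1' : (c.aS (d.γ 0) (fun ρ => d.chf ⟨d.γ 0, ρ⟩) d.m0).indicator (c.wS (d.γ 0) (fun ρ => S0 ⟨d.γ 0, ρ⟩) d.m0) = c.wS (d.γ 0) (d.rS S0) d.m0 := hm1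
  have hn1 : NegM (Y.M.sys c.p) ϰ (c.W.k (d.γ 1)) (c.W.iv (d.γ 1) l) (c.W.gb (d.γ 1)) (d.th 1 l)
      (tmL (c.W.k (d.γ 0)) d.m0) (c.W.k (d.γ 0)) (c.W.gb (d.γ 0))
      ((c.aS (d.γ 0) (fun ρ => d.chf ⟨d.γ 0, ρ⟩) d.m0)ᶜ.indicator (c.wS (d.γ 0) (fun ρ => S0 ⟨d.γ 0, ρ⟩) d.m0)) (c.mid (d.γ 0) (d.γ 1)) := by
    rw [hm2]
    intro v
    have hno : ∀ ρ, (S0 ⟨d.γ 0, ρ⟩ ∧ ¬ d.chf ⟨d.γ 0, ρ⟩) → ∀ ρ', d.U ⟨d.γ 1, ρ'⟩ → ¬ c.D.Conn (d.γ 0) (d.γ 1) ρ ρ' :=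
      fun ρ hρ ρ' hρ' hc => hρ.2 (Or.inr ⟨⟨d.γ 1, ρ'⟩, hρ', h01, hc⟩)
    have hl := hloc (d.γ 0) h0 (d.γ 1) h1 h01 (fun ρ => S0 ⟨d.γ 0, ρ⟩ ∧ ¬ d.chf ⟨d.γ 0, ρ⟩) (fun ρ' => d.U ⟨d.γ 1, ρ'⟩) hno (c.W.iv (d.γ 1) l) v
    rw [hb] at hl
    refine le_trans (Real.sqrt_le_sqrt ?_) hl
    unfold SfCfg.rdE
    rw [sf_ga_th1_eq d hok l]
    refine gn_en_mono _ _ _ (sf_core_xp_tm_mask c hs _ h1 _ l) (sf_core_wS_mask c hs _ h1 _ _) (fun x => ?_) _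
    rw [← sf_core_xp_tm_wS c (d.γ 1) (fun ρ' => d.U ⟨d.γ 1, ρ'⟩) (c.W.iv (d.γ 1) l) x]
    exact Finset.single_le_sum (f := fun l' => c.thU (d.γ 1) (fun ρ' => d.U ⟨d.γ 1, ρ'⟩) l' x)
      (fun l' _ => ((sf_core_xp_valid_thU c hs _ h1 _ l').2 x).1) (Finset.mem_filter.2 ⟨Finset.mem_univ _, rfl⟩)
  have hn2 := sf_ga_bart d C hob hok ϰ hϰ l (fun g hg hg0 hg1 => sf_ga_neg d hO C hob hok ϰ hϰ hloc g hg hg0.le hg1 (Or.inl hg0) l hbel)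
  have key := sf_ge_cmp hT ϰ hϰ (c.W.k (d.γ 0)) (c.W.k (d.γ 1)) (c.W.iv (d.γ 1) l) (c.W.gb (d.γ 0)) d.b0 (c.W.gb (d.γ 1)) hθ (c.mid (d.γ 0) (d.γ 1)) hmid.msk
    d.B hBm (c.aS (d.γ 0) (fun ρ => d.chf ⟨d.γ 0, ρ⟩) d.m0) d.N (sf_core_aS_meas c (d.γ 0) h0 _ d.m0) hcar.nm
    (M := c.wS (d.γ 0) (fun ρ => S0 ⟨d.γ 0, ρ⟩) d.m0) (sf_core_wS_mask c hs (d.γ 0) h0 _ d.m0)
    (by rw [hb]; exact hn1) hn2 (by rw [hb, hm1']; exact hcar.appr) (fun v => gn_tz_pl hT _ _ _ _ v) (c.W.pre (d.γ 0) d.m0)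
  rw [hb, hm1'] at key
  have e1 : c.preR (d.γ 0) (d.γ 1) (fun ρ => S0 ⟨d.γ 0, ρ⟩) (c.W.iv (d.γ 1) l) = Xp.run (c.W.k (d.γ 1)) (c.W.iv (d.γ 1) l) (c.mid (d.γ 0) (d.γ 1))
      ((Y.M.sys c.p).tz (tmL (c.W.k (d.γ 0)) d.m0) (c.W.k (d.γ 0)) (c.W.gb (d.γ 0)) (c.wS (d.γ 0) (fun ρ => S0 ⟨d.γ 0, ρ⟩) d.m0) (c.W.pre (d.γ 0) d.m0)) := by
    unfold SfCfg.preR SfCfg.synR
    rw [hb]
  have e2 : Xp.run (c.W.k (d.γ 1)) (c.W.iv (d.γ 1) l) d.st d.psi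
      = Xp.run (c.W.k (d.γ 1)) (c.W.iv (d.γ 1) l) (⟨c.W.k (d.γ 0), d.b0, fun _ => d.N.indicator fun _ => 1⟩ :: stRes (c.mid (d.γ 0) (d.γ 1)) d.B)
        ((Y.M.sys c.p).tz (tmL (c.W.k (d.γ 0)) d.m0) (c.W.k (d.γ 0)) (c.W.gb (d.γ 0)) (c.wS (d.γ 0) (d.rS S0) d.m0) (c.W.pre (d.γ 0) d.m0)) := by
    rw [← hcar.psi]
    show Xp.run (c.W.k (d.γ 1)) (c.W.iv (d.γ 1) l) (stRes (c.mid (d.γ 0) (d.γ 1)) d.B)
        ((Y.M.sys c.p).tz (tmL (c.W.k (d.γ 0)) (ancI (c.W.k (d.γ 1)) (c.W.k (d.γ 0)) (c.W.iv (d.γ 1) l))) (c.W.k (d.γ 0)) d.b0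
          (if ancI (c.W.k (d.γ 1)) (c.W.k (d.γ 0)) (c.W.iv (d.γ 1) l) = d.m0 then d.N.indicator fun _ => 1 else fun _ => 0) d.psi)
      = Xp.run (c.W.k (d.γ 1)) (c.W.iv (d.γ 1) l) (stRes (c.mid (d.γ 0) (d.γ 1)) d.B)
        ((Y.M.sys c.p).tz (tmL (c.W.k (d.γ 0)) (ancI (c.W.k (d.γ 1)) (c.W.k (d.γ 0)) (c.W.iv (d.γ 1) l))) (c.W.k (d.γ 0)) d.b0
          (d.N.indicator fun _ => 1) d.psi)
    rw [if_pos hb]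
  rw [← e1, ← e2] at key
  have tri := gn_en_tri (P := Y.M.sys c.p) (tmL (c.W.k (d.γ 1)) (c.W.iv (d.γ 1) l)) (c.W.k (d.γ 1)) (c.W.gb (d.γ 1)) hθ
    (Xp.run (c.W.k (d.γ 1)) (c.W.iv (d.γ 1) l) d.st d.psi) (c.preR (d.γ 0) (d.γ 1) (fun ρ => S0 ⟨d.γ 0, ρ⟩) (c.W.iv (d.γ 1) l) - Xp.run (c.W.k (d.γ 1)) (c.W.iv (d.γ 1) l) d.st d.psi)
  rw [add_sub_cancel] at tri
  have hlen : (((c.mid (d.γ 0) (d.γ 1)).length : ℝ) + 2) * ϰ * ‖c.W.pre (d.γ 0) d.m0‖ ≤ ((C : ℝ) + 2) * ϰ * ‖c.W.pre (d.γ 0) d.m0‖ := by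
    have : ((c.mid (d.γ 0) (d.γ 1)).length : ℝ) ≤ C := by exact_mod_cast hmid.len
    apply mul_le_mul_of_nonneg_right _ (norm_nonneg _)
    apply mul_le_mul_of_nonneg_right _ hϰ
    linarith
  linarith

/-- **(LEAF L-256-GA-CMPG) EXIT of this file.**   PLAN: `μ l`, `ν l` = the two energies of `sf_ga_cmp1g`, `δ = (C + 2) ϰ ‖pre γ0 m0‖`.   `SfGeD.sig`, `sf_ga_lawg` with `ψ = c.preR γ0 γ1 (fun ρ => S0 ⟨γ0, ρ⟩)`: `sig = ∑ l, μ l`.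
`∑ l : Lb γ1, μ l = ∑ l : d.Lb 1, μ l.1`: `(sf_ge_s_sum_lb d 1 μ _).symm` (`Soft/MGeStr.lean`, import it) or `Finset.sum_subtype`; a label that is not kept has `μ l = 0` (`sf_ga_drop`, `sf_ga_one_mem`).
For `l : d.Lb 1`: `(l.2 (sf_ga_one_mem d hok)).1 : d.bel γ1 (iv l.1)`; `sf_ga_cmp1g` + `sf_core_sp_sq`: `μ ≤ 2 ν + 2 δ²` (`gn_en_nonneg`, weights `≥ 0`: `sf_ga_th1_eq`, `sf_core_xp_valid_thU`).   Sum: `Finset.sum_le_sum`, `Finset.sum_add_distrib`, `Finset.mul_sum`, `sf_ga_tm`,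
`Finset.sum_const`, `Finset.card_univ`, `d.X.L = Fintype.card (d.Lb 1)` (`rfl`), `nsmul_eq_mul`. -/
theorem sf_ga_cmpg (hO : SfCyOk Y) (C : ℕ) (hob : c.ob C) (hT : (Y.M.sys c.p).Tight) (hn : c.Nest) (hok : d.Ok) (ϰ : ℝ) (hϰ : 0 ≤ ϰ) (hloc : c.LocG ϰ) (S0 : c.D.Rw → Prop) (hcar : d.Car S0 ϰ) :
    d.sig S0 ≤ 2 * d.X.tm + 2 * (((C : ℝ) + 2) * ϰ * ‖c.W.pre (d.γ 0) d.m0‖) ^ 2 * d.X.L := by
  have hs : c.W.Str (Y.tq c.p) := hob.2.2.1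
  obtain ⟨g0, g1, g01⟩ := sf_ga_gates d hok
  have hk : c.W.k (d.γ 0) ≤ c.W.k (d.γ 1) := (hs.k_mono _ g0 _ g1 g01).1
  have h1G := sf_ga_one_mem d hok
  unfold SfGeD.sig
  rw [sf_ga_lawg d hs hok (c.preR (d.γ 0) (d.γ 1) (fun ρ => S0 ⟨d.γ 0, ρ⟩)), sf_ga_tm d hk]
  have hnn : ∀ (l : c.W.Lb (d.γ 1)) x, 0 ≤ d.th 1 l x := by
    intro l x
    rw [sf_ga_th1_eq d hok l]
    exact ((sf_core_xp_valid_thU c hs (d.γ 1) g1 _ l).2 x).1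
  have e : ∑ l : c.W.Lb (d.γ 1), (Y.M.sys c.p).en (tmL (c.W.k (d.γ 1)) (c.W.iv (d.γ 1) l)) (c.W.k (d.γ 1)) (c.W.gb (d.γ 1)) (d.th 1 l)
        (c.preR (d.γ 0) (d.γ 1) (fun ρ => S0 ⟨d.γ 0, ρ⟩) (c.W.iv (d.γ 1) l))
      = ∑ l : d.Lb 1, (Y.M.sys c.p).en (tmL (c.W.k (d.γ 1)) (c.W.iv (d.γ 1) l.1)) (c.W.k (d.γ 1)) (c.W.gb (d.γ 1)) (d.th 1 l.1)
        (c.preR (d.γ 0) (d.γ 1) (fun ρ => S0 ⟨d.γ 0, ρ⟩) (c.W.iv (d.γ 1) l.1)) :=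
    @sf_ga_cmp_sub _ _ (fun l : c.W.Lb (d.γ 1) => (1 : ℝ) ∈ d.G → d.Kept 1 l) (d.fLb 1)
      (fun l => (Y.M.sys c.p).en (tmL (c.W.k (d.γ 1)) (c.W.iv (d.γ 1) l)) (c.W.k (d.γ 1)) (c.W.gb (d.γ 1)) (d.th 1 l)
        (c.preR (d.γ 0) (d.γ 1) (fun ρ => S0 ⟨d.γ 0, ρ⟩) (c.W.iv (d.γ 1) l)))
      (fun l hl => sf_ga_drop d hs hn hok l (fun hK => hl fun _ => hK) _)
  rw [e]
  have hL : (d.X.L : ℝ) = ((Finset.univ : Finset (d.Lb 1)).card : ℝ) := rfl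
  rw [hL, Finset.mul_sum, mul_comm _ (((Finset.univ : Finset (d.Lb 1)).card : ℝ)), ← nsmul_eq_mul, ← Finset.sum_const, ← Finset.sum_add_distrib]
  refine Finset.sum_le_sum fun l _ => ?_
  exact sf_core_sp_sq _ _ _ (gn_en_nonneg _ _ _ (hnn l.1) _) (gn_en_nonneg _ _ _ (hnn l.1) _)
    (sf_ga_cmp1g d hO C hob hT hok ϰ hϰ hloc S0 hcar l.1 (l.2 h1G).1)

end

end Claimed.Agent.R256
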