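import Claimed.Agent.R256.Soft.MGeIface
import Claimed.Agent.R256.Soft.MCoreSp

/-!
# Row 256 (S0496), unit SOFT, block M6 GE, sub-block SEL = GE-AN (`SfGeSel` of `Soft/MGeIface.lean`), file 1: VOCABULARY      (architect helper169; prefix `sf_ga_`)

PURPOSE: `sf_ga_sel : SfGeSel Y π Ls` (`Soft/MGaTop.lean`) = Lemma cyl:group-extraction (02 l.765-815).   PAPER-FREE: every plan is in a docstring.
Files: `MGaDef` (this file) | `MGaLoc` (no `Conn`, no transport) | `MGaCmp` (ONE group against the full experiment) | `MGaUp` (ONE group: class, rate; helper220) | `MGaFam` (ONE group: energy, counts; the family: three operator free sums) |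
`MGaNum` (Mathlib only: pigeonhole and exponents) | `MGaTop` (assembly).
RULES FOR LEAVES: prove IN PLACE, statement verbatim, helper lemmas directly above the theorem, their names = name of the theorem + suffix.   Statements of this block and of the imports may be cited even if still `sorry`.
GATES: for `d : SfGeD c` the root gate is the real number `d.γ 0`, the end gate is `d.γ 1` (`sf_ga_g0`, `sf_ga_g1`: `= d.i`, `d.j`).   NEVER cast a row or a label: cite the lemmas of `Soft/MCore*.lean` AT the gates `d.γ 0`, `d.γ 1`;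
rows of the hypotheses are elements `u : c.D.Rw = Σ g, c.D.Row g`; from `u.1 = d.i` use `obtain ⟨g, ρ⟩ := u; subst`.

* `D.chnU U u`        the row `u` lies in `U` or on a connecting chain to `U`        (`d.chf u` IS `c.D.chnU d.U u`, by `Iff.rfl`; `d.chn u ↔ c.D.chnU d.U u` in the cover form `d.Full`, and off the root gate: `sf_ga_chn`, `sf_ga_chn_ne`)
* `c.gaCnt U g`       the weight count of the labels of the gate `g` that carry a row on a chain to `U`
* `c.gaEn U g`, `c.gaPr U g`      the mass read at the gate `g` by the rows on chains to `U`, by the rows of `U`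
* `c.Nest`            connected rows live on nested intervals      (`sf_ga_nest`: from `Core.base`)
* `c.LocG ϰ`          no `Conn`, no transport, at the order `ϰ`      (`sf_ga_locg`, `Soft/MGaLoc.lean`)
-/

set_option autoImplicit false

namespace Claimed.Agent.R256

open MeasureTheory Claimed.Agent.R255

variable {Y : SfCy}

/-- the row lies in `U` or on a connecting chain to `U` -/
def SfDoc.chnU (D : SfDoc) (U : D.Rw → Prop) (u : D.Rw) : Prop := U u ∨ ∃ v, U v ∧ u.1 < v.1 ∧ D.Conn u.1 v.1 u.2 v.2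

namespace SfCfg

variable {de : ℝ} (c : SfCfg Y de)

open Classical in
/-- the weight count of the labels of the gate `g` that carry a row on a chain to `U` -/
noncomputable def gaCnt (U : c.D.Rw → Prop) (g : ℝ) : ℝ :=
  ∑ l : c.W.Lb g, if ∃ ρ, c.D.chnU U ⟨g, ρ⟩ ∧ c.sh.lb g ρ = l then (Y.M.sys c.p).wt (c.W.ts g l) else 0

/-- the mass read at the gate `g` by the rows on chains to `U` -/
noncomputable def gaEn (U : c.D.Rw → Prop) (g : ℝ) : ℝ := (c.D.P g).pr (fun ρ => c.D.chnU U ⟨g, ρ⟩) * c.W.tot g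

/-- the mass read at the gate `g` by the rows of `U` -/
noncomputable def gaPr (U : c.D.Rw → Prop) (g : ℝ) : ℝ := (c.D.P g).pr (fun ρ => U ⟨g, ρ⟩) * c.W.tot g

/-- connected rows live on nested intervals -/
def Nest : Prop :=
  ∀ i ∈ c.W.G, ∀ j ∈ c.W.G, i < j → ∀ ρ ρ', c.D.Conn i j ρ ρ' → c.im i ρ = ancI (c.W.k j) (c.W.k i) (c.im j ρ')

/-- **no `Conn`, no transport**, at the order `ϰ` -/
def LocG (ϰ : ℝ) : Prop :=
  ∀ g ∈ c.W.G, ∀ j ∈ c.W.G, g < j → ∀ (A : c.D.Row g → Prop) (V : c.D.Row j → Prop), (∀ ρ, A ρ → ∀ ρ', V ρ' → ¬ c.D.Conn g j ρ ρ') →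
    ∀ (m' : ℕ) (ψ : (Y.M.sys c.p).Kc),
      Real.sqrt (c.rdE j V m' (Xp.run (c.W.k j) m' (c.mid g j) ((Y.M.sys c.p).tz (tmL (c.W.k g) (ancI (c.W.k j) (c.W.k g) m')) (c.W.k g) (c.W.gb g)
        (c.wS g A (ancI (c.W.k j) (c.W.k g) m')) ψ))) ≤ ϰ * ‖ψ‖

end SfCfg

theorem sf_ga_def_eqns_cite : True := by
  have := @SfDoc.chnU.eq_1
  have := @SfCfg.gaCnt.eq_1
  have := @SfCfg.gaEn.eq_1
  have := @SfCfg.gaPr.eq_1
  have := @SfCfg.Nest.eq_1
  have := @SfCfg.LocG.eq_1
  trivial

section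

variable {de : ℝ} {c : SfCfg Y de} (d : SfGeD c)

theorem sf_ga_g0 : d.γ 0 = d.i := by
  unfold SfGeD.γ
  ring

theorem sf_ga_g1 : d.γ 1 = d.j := by
  unfold SfGeD.γ
  ring

theorem sf_ga_gk (hij : d.i < d.j) (k : ℝ) : d.γ ((k - d.i) / (d.j - d.i)) = k := by
  unfold SfGeD.γ
  have : d.j - d.i ≠ 0 := by
    have := sub_pos.2 hij
    exact this.ne'
  field_simp
  ring

theorem sf_ga_chf (u : c.D.Rw) : d.chf u ↔ c.D.chnU d.U u := Iff.rfl

/-- COVER form (`d.Full`: all predecessors of the marked rows are admitted root rows): the admitted chain rows are the chain rows -/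
theorem sf_ga_chn (hF : d.Full) (hok : d.Ok) (u : c.D.Rw) : d.chn u ↔ c.D.chnU d.U u := by
  refine ⟨fun h => h.1, fun h => ⟨h, fun hu => ?_⟩⟩
  rcases h with h | ⟨v, hv, -, hc⟩
  · have h1 := hok.u_dep u h
    have h2 := hok.hij
    rw [hu] at h1
    exact absurd h1 h2.ne
  · exact hF u v hv hu hc

/-- a predecessor of a marked row is an admitted chain row: above the root gate, or in the cover form -/
theorem sf_ga_chn_of {g : ℝ} (hF : d.γ 0 < g ∨ d.Full) (ρ : c.D.Row g) (v : c.D.Rw) (hv : d.U v) (hlt : g < v.1) (hc : c.D.Conn g v.1 ρ v.2) : d.chn ⟨g, ρ⟩ := by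
  refine ⟨Or.inr ⟨v, hv, hlt, hc⟩, fun e => ?_⟩
  rcases hF with h | h
  · have e' : g = d.i := e
    rw [sf_ga_g0, e'] at h
    exact absurd h (lt_irrefl _)
  · exact h ⟨g, ρ⟩ v hv e hc

/-- off the root gate nothing is cut -/
theorem sf_ga_chn_ne (u : c.D.Rw) (hu : u.1 ≠ d.i) : d.chn u ↔ c.D.chnU d.U u :=
  ⟨fun h => h.1, fun h => ⟨h, fun e => absurd e hu⟩⟩

/-- the gates of a group -/
theorem sf_ga_gates (hok : d.Ok) : d.γ 0 ∈ c.W.G ∧ d.γ 1 ∈ c.W.G ∧ d.γ 0 < d.γ 1 := by
  rw [sf_ga_g0, sf_ga_g1]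
  exact ⟨hok.gi, hok.gj, hok.hij⟩

/-- the new gates: `g' = (k - i)/(j - i)`, `k = d.γ g' ∈ Gk`, `0 ≤ g' ≤ 1` -/
theorem sf_ga_newgate (hok : d.Ok) (g' : ℝ) (hg : g' ∈ d.G) : d.γ g' ∈ d.Gk ∧ 0 ≤ g' ∧ g' ≤ 1 ∧ g' = (d.γ g' - d.i) / (d.j - d.i) := by
  unfold SfGeD.G at hg
  obtain ⟨k, hk, rfl⟩ := Finset.mem_image.1 hg
  have h0 := sub_pos.2 hok.hij
  obtain ⟨-, h1, h2⟩ := hok.kept.2 k hk
  rw [sf_ga_gk d hok.hij k]
  refine ⟨hk, div_nonneg (by linarith) h0.le, ?_, rfl⟩
  rw [div_le_one h0]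
  linarith

theorem sf_ga_one_mem (hok : d.Ok) : (1 : ℝ) ∈ d.G := by
  unfold SfGeD.G
  refine Finset.mem_image.2 ⟨d.j, hok.kept.1, ?_⟩
  have h0 := sub_pos.2 hok.hij
  exact div_self h0.ne'

/-- the readout, the total mass, the total weight, the number of labels and the depth do not see the budget and the regularity -/
theorem sf_ga_rd_congr (e ka : ℝ) : (({ d with e := e, ka := ka } : SfGeD c).X.rd = d.X.rd) ∧ (({ d with e := e, ka := ka } : SfGeD c).X.tm = d.X.tm) ∧
    (({ d with e := e, ka := ka } : SfGeD c).X.tw = d.X.tw) ∧ (({ d with e := e, ka := ka } : SfGeD c).X.L = d.X.L) ∧ (({ d with e := e, ka := ka } : SfGeD c).X.n = d.X.n) ∧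
    (({ d with e := e, ka := ka } : SfGeD c).psi = d.psi) :=
  ⟨rfl, rfl, rfl, rfl, rfl, rfl⟩

end

/-- **(LEAF L-256-GA-NEST)** connected rows live on nested intervals.   PLAN: `Core.base` (gates: `c.sh.hG`) gives `D.T i ρ ≤ D.T j ρ'`, `D.T j ρ' + len j ≤ D.T i ρ + len i`; `sf_core_im_anc`. -/
theorem sf_ga_nest {de : ℝ} (c : SfCfg Y de) (hs : c.W.Str (Y.tq c.p)) (π : SfPar) (C0 t : ℝ) (hC : c.D.Core π C0 t) : c.Nest := by
  intro i hi j hj hij ρ ρ' hc
  obtain ⟨h1, h2, -, -⟩ := hC.base i (c.sh.hG ▸ hi) j (c.sh.hG ▸ hj) hij ρ ρ' hc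
  exact sf_core_im_anc c hs i hi j hj hij ρ ρ' h1 h2

/-- **(LEAF L-256-GA-CARD)** the number of gates is bounded by the package.   PLAN: `pos` is strictly increasing on `G` (`Str.k_mono`), hence injective; `pos g ≤ E.st.length ≤ C` (`sf_core_pos_le`, `hob.1`);
`Finset.card_le_card_of_injOn c.W.pos` into `Finset.range (C + 1)`. -/
theorem sf_ga_card {de : ℝ} (c : SfCfg Y de) (C : ℕ) (hob : c.ob C) : c.W.G.card ≤ C + 1 := by
  have hs : c.W.Str (Y.tq c.p) := hob.2.2.1
  have h1 : c.W.G.card ≤ (Finset.range (C + 1)).card := by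
    refine Finset.card_le_card_of_injOn c.W.pos ?_ ?_
    · intro g hg
      have := sf_core_pos_le c hs g hg
      have h2 := hob.1
      simp only [Finset.coe_range, Set.mem_Iio]
      omega
    · intro g hg g' hg' he
      by_contra hne
      rcases lt_or_gt_of_ne hne with h | h
      · have := (hs.k_mono g hg g' hg' h).2
        omega
      · have := (hs.k_mono g' hg' g hg h).2
        omega
  simpa using h1

end Claimed.Agent.R256
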