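import Claimed.Agent.R256.Soft.MGeRoot

/-!
# Row 256 (S0496), unit SOFT, block M6 GE, file 6: STRUCTURE OF THE GROUP EXPERIMENT      (architect helper272; prefix `sf_ge_s_`)

PAPER-FREE (pure unfolding of `Soft/MGeDef.lean` against `SfMD.Str`, `Xp.Valid`, `Mdl.IsTail`).   Hypotheses: `hs : c.W.Str (Y.tq c.p)`, `hd : d.Ok`, `hR : d.Root Λ ϰ` (`Soft/MGeIface.lean`), `hO : SfCyOk Y`.
RULES FOR LEAVES: prove IN PLACE, statement verbatim, helper lemmas directly above the theorem (names = name of the theorem + suffix).   Statements of this file and of the imports may be cited even if still `sorry`.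
NO CAST: never rewrite `d.γ 0`, `d.γ 1`, `d.γ g'` inside a dependent type (`c.W.Lb (d.γ g')`, `c.D.Row (d.γ g')`); transport only PROPOSITIONS about real numbers (`sf_ge_gam0 d ▸ hd.gi : d.γ 0 ∈ c.W.G`).
 §0 gates        `sf_ge_s_g0 g1 gam_mem rg one_mem gam_lt zero next`
 §1 measurable   `sf_ge_s_lS_meas gS_meas B_meas lN_meas N_meas`
 §2 stack        `sf_ge_s_kf st_len st_ok B_eq st_get`
 §3 labels       `sf_ge_s_sum_lb th_pos th_root ts_pos ts_root uniq gate_pos gate_root sum_le`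
 §4 root tests   `sf_ge_s_supp_root`
 §5 kept labels  `sf_ge_s_kept`
 §6 EXITS        `sf_ge_s_valid` (`d.X.Valid`), `sf_ge_s_tail` (`Mdl.IsTail`), `sf_ge_s_str` (`d.W.Str`)
-/

set_option autoImplicit false

namespace Claimed.Agent.R256

open MeasureTheory Claimed.Agent.R255

variable {Y : SfCy} {de : ℝ} {c : SfCfg Y de} (d : SfGeD c)

/-! ## §0 gates -/

theorem sf_ge_s_g0 (hd : d.Ok) : d.γ 0 ∈ c.W.G := by
  rw [sf_ge_gam0]; exact hd.gi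

theorem sf_ge_s_g1 (hd : d.Ok) : d.γ 1 ∈ c.W.G := by
  rw [sf_ge_gam1]; exact hd.gj

theorem sf_ge_s_gam_lt (hd : d.Ok) {g1 g2 : ℝ} (h : g1 < g2) : d.γ g1 < d.γ g2 := by
  unfold SfGeD.γ
  have := hd.hij
  nlinarith

theorem sf_ge_s_gam_mem (hd : d.Ok) {g' : ℝ} (hg : g' ∈ d.G) : d.γ g' ∈ c.W.G ∧ d.γ 0 ≤ d.γ g' ∧ d.γ g' ≤ d.γ 1 := by
  have h := hd.kept.2 _ ((sf_ge_mem_G d hd.hij g').1 hg)
  rw [sf_ge_gam0, sf_ge_gam1]
  exact h

theorem sf_ge_s_rg (hd : d.Ok) {g' : ℝ} (hg : g' ∈ d.G) : 0 ≤ g' ∧ g' ≤ 1 := by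
  obtain ⟨-, h1, h2⟩ := sf_ge_s_gam_mem d hd hg
  constructor
  · by_contra hc
    exact absurd (sf_ge_s_gam_lt d hd (not_le.1 hc)) (not_lt.2 h1)
  · by_contra hc
    exact absurd (sf_ge_s_gam_lt d hd (not_le.1 hc)) (not_lt.2 h2)

theorem sf_ge_s_one_mem (hd : d.Ok) : (1 : ℝ) ∈ d.G := by
  rw [sf_ge_mem_G d hd.hij, sf_ge_gam1]; exact hd.kept.1

/-- the root gate is a new gate iff it is kept -/
theorem sf_ge_s_zero (hd : d.Ok) : (0 : ℝ) ∈ d.G ↔ d.i ∈ d.Gk := by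
  rw [sf_ge_mem_G d hd.hij, sf_ge_gam0]

/-- consecutive new gates are consecutive old gates (`Ok.seg`) -/
theorem sf_ge_s_next (hd : d.Ok) {g1 g2 : ℝ} (h : sfNext d.G g1 g2) : sfNext c.W.G (d.γ g1) (d.γ g2) := by
  obtain ⟨h1, h2, h3, h4⟩ := h
  refine ⟨(sf_ge_s_gam_mem d hd h1).1, (sf_ge_s_gam_mem d hd h2).1, sf_ge_s_gam_lt d hd h3, fun k hk hc => ?_⟩
  have hk1 : d.γ g1 ∈ d.Gk := (sf_ge_mem_G d hd.hij g1).1 h1
  have hj : k < d.j := lt_of_lt_of_le hc.2 (by have := (sf_ge_s_gam_mem d hd h2).2.2; rwa [sf_ge_gam1] at this)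
  have hkG : k ∈ d.Gk := hd.seg k hk _ hk1 hc.1 hj
  have e := sf_ge_gam_inv d hd.hij k
  have hk' : (k - d.i) / (d.j - d.i) ∈ d.G := by rw [sf_ge_mem_G d hd.hij, e]; exact hkG
  refine h4 _ hk' ⟨?_, ?_⟩
  · by_contra hcon
    have := not_lt.1 hcon
    rcases this.lt_or_eq with h5 | h5
    · have := sf_ge_s_gam_lt d hd h5
      rw [e] at this; linarith [hc.1]
    · rw [← h5, e] at hc; exact lt_irrefl _ hc.1
  · by_contra hcon
    have := not_lt.1 hcon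
    rcases this.lt_or_eq with h5 | h5
    · have := sf_ge_s_gam_lt d hd h5
      rw [e] at this; linarith [hc.2]
    · rw [h5, e] at hc; exact lt_irrefl _ hc.2

/-! ## §1 measurable sets -/

/-- (LEAF GE-S-MEAS) finite unions of atoms (`SfSh.at_meas`; `MeasurableSet.iUnion` over the finite type `c.D.Row g` and over a `Prop`) -/
theorem sf_ge_s_lS_meas {g : ℝ} (hg : g ∈ c.W.G) (l : c.W.Lb g) : MeasurableSet (d.lS g l) := by
  unfold SfGeD.lS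
  exact MeasurableSet.iUnion fun ρ => MeasurableSet.iUnion fun _ => c.sh.at_meas g hg ρ

/-- (LEAF GE-S-MEAS) `by_cases d.bel g m`: the set is `c.aS ..` (finite union of atoms) or `∅` -/
theorem sf_ge_s_gS_meas {g : ℝ} (hg : g ∈ c.W.G) (m : ℕ) : MeasurableSet (d.gS g m) := by
  unfold SfGeD.gS
  by_cases h : d.bel g m
  · have e : {x | d.bel g m ∧ x ∈ c.aS g (fun ρ => d.chn ⟨g, ρ⟩) m} = c.aS g (fun ρ => d.chn ⟨g, ρ⟩) m := by
      ext x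
      exact ⟨fun hx => hx.2, fun hx => ⟨h, hx⟩⟩
    rw [e]
    exact sf_core_aS_meas c g hg _ m
  · have e : {x | d.bel g m ∧ x ∈ c.aS g (fun ρ => d.chn ⟨g, ρ⟩) m} = ∅ := by
      ext x
      exact ⟨fun hx => absurd hx.1 h, fun hx => absurd hx (Set.notMem_empty x)⟩
    rw [e]
    exact MeasurableSet.empty

/-- (LEAF GE-S-MEAS) `unfold SfGeD.B; split_ifs with h`; `h.choose_spec.1 : h.choose ∈ c.W.G` -/
theorem sf_ge_s_B_meas (t m : ℕ) : MeasurableSet (d.B t m) := by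
  unfold SfGeD.B
  split_ifs with h
  · exact sf_ge_s_gS_meas d h.choose_spec.1 m
  · exact MeasurableSet.univ

/-- (LEAF GE-S-MEAS) -/
theorem sf_ge_s_lN_meas (hm : ∀ ρ, MeasurableSet (d.Nr (d.γ 0) ρ)) (l : c.W.Lb (d.γ 0)) : MeasurableSet (d.lN (d.γ 0) l) := by
  unfold SfGeD.lN
  exact MeasurableSet.iUnion fun ρ => MeasurableSet.iUnion fun _ => hm ρ

/-- (LEAF GE-S-MEAS) `unfold SfGeD.N; split_ifs` -/
theorem sf_ge_s_N_meas (hm : ∀ ρ, MeasurableSet (d.Nr (d.γ 0) ρ)) : MeasurableSet d.N := by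
  unfold SfGeD.N
  split_ifs
  · exact MeasurableSet.iUnion fun ρ => MeasurableSet.iUnion fun _ => hm ρ
  · exact MeasurableSet.univ

/-! ## §2 the stack -/

theorem sf_ge_s_k_le (hs : c.W.Str (Y.tq c.p)) (hd : d.Ok) : c.W.k (d.γ 0) ≤ c.W.k (d.γ 1) :=
  (hs.k_mono _ (sf_ge_s_g0 d hd) _ (sf_ge_s_g1 d hd) (sf_ge_s_gam_lt d hd zero_lt_one)).1

/-- the final depth -/
theorem sf_ge_s_kf (hs : c.W.Str (Y.tq c.p)) (hd : d.Ok) : d.X.kf = c.W.k (d.γ 1) := by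
  have h := sf_ge_s_k_le d hs hd
  show c.W.k (d.γ 0) + (c.W.k (d.γ 1) - c.W.k (d.γ 0)) = c.W.k (d.γ 1)
  omega

/-- (LEAF GE-S-STK) `d.st = _ :: stRes (c.mid ..) d.B`; `sf_ge_res_length`; `SfCfg.mid`, `List.length_drop`, `List.length_take`, `sf_core_pos_le` (`pos (γ 1) ≤ length`), `Str.k_mono` (`pos (γ 0) < pos (γ 1)`); `omega` -/
theorem sf_ge_s_st_len (hs : c.W.Str (Y.tq c.p)) (hd : d.Ok) : d.st.length = c.W.pos (d.γ 1) - c.W.pos (d.γ 0) := by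
  have h1 := sf_core_pos_le c hs _ (sf_ge_s_g1 d hd)
  have h2 := (hs.k_mono _ (sf_ge_s_g0 d hd) _ (sf_ge_s_g1 d hd) (sf_ge_s_gam_lt d hd zero_lt_one)).2
  unfold SfGeD.st
  rw [List.length_cons, sf_ge_res_length]
  unfold SfCfg.mid
  rw [List.length_drop, List.length_take, min_eq_left h1]
  omega

/-- (LEAF GE-S-STK) the stack of the group experiment.   PLAN: `sf_core_mid_ok C hob (γ 0) .. (γ 1) ..` + `sf_ge_res_ok` (`sf_ge_s_B_meas`) give `StOk (k (γ 0)) (k (γ 1)) C C (stRes ..)`; add the head `⟨k (γ 0), b0, ..⟩`: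
`len` by `sf_ge_s_st_len` and `sf_core_pos_le`, `hob.1`;  `dep`, `mono` (`List.pairwise_cons`): the head has the depth `k (γ 0)`;  `gen`: `b0 = gb (γ 0) + 1 ≤ C + 1` (`sf_core_gb_le`);  `msk`: `if m = m0 then 1_N else 0` is a mask (`hN`). -/
theorem sf_ge_s_st_ok (C : ℕ) (hob : c.ob C) (hd : d.Ok) (hN : MeasurableSet d.N) : StOk (c.W.k (d.γ 0)) (c.W.k (d.γ 1)) (C + 1) C d.st := by
  have hs : c.W.Str (Y.tq c.p) := hob.2.2.1
  have R := sf_ge_res_ok _ (sf_core_mid_ok c C hob _ (sf_ge_s_g0 d hd) _ (sf_ge_s_g1 d hd) (sf_ge_s_gam_lt d hd zero_lt_one)) d.B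
    (sf_ge_s_B_meas d)
  refine ⟨?_, ?_, ?_, ?_, ?_⟩
  · rw [sf_ge_s_st_len d hs hd]
    have h1 := sf_core_pos_le c hs _ (sf_ge_s_g1 d hd)
    have h2 := hob.1
    omega
  · intro σ hσ
    unfold SfGeD.st at hσ
    rcases List.mem_cons.1 hσ with rfl | hσ
    · exact ⟨le_rfl, sf_ge_s_k_le d hs hd⟩
    · exact R.dep σ hσ
  · unfold SfGeD.st
    rw [List.pairwise_cons]
    exact ⟨fun σ hσ => (R.dep σ hσ).1, R.mono⟩
  · intro σ hσ
    unfold SfGeD.st at hσ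
    rcases List.mem_cons.1 hσ with rfl | hσ
    · exact Nat.succ_le_succ (sf_core_gb_le c C hob _ (sf_ge_s_g0 d hd))
    · exact (R.gen σ hσ).trans (Nat.le_succ _)
  · intro σ hσ m
    unfold SfGeD.st at hσ
    rcases List.mem_cons.1 hσ with rfl | hσ
    · show IsMask (if m = d.m0 then d.N.indicator fun _ => 1 else fun _ => 0)
      split_ifs with hm
      · refine ⟨measurable_const.indicator hN, fun x => ?_⟩
        by_cases hx : x ∈ d.N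
        · rw [Set.indicator_of_mem hx]; exact ⟨zero_le_one, le_rfl⟩
        · rw [Set.indicator_of_notMem hx]; exact ⟨le_rfl, zero_le_one⟩
      · exact ⟨measurable_const, fun x => ⟨le_rfl, zero_le_one⟩⟩
    · exact R.msk σ hσ m

/-- (LEAF GE-S-STK) the row set that cuts the stage of an old gate.   PLAN: `unfold SfGeD.B`; the condition holds with `g` (`pos (γ 0) < pos g` by `Str.k_mono`, `omega`): `rw [dif_pos h]`; `h.choose ∈ c.W.G` has the position of `g`, hence `h.choose = g`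
(`lt_trichotomy` + `Str.k_mono`: different gates have different positions); conclude by `congrArg (fun g => d.gS g m)`. -/
theorem sf_ge_s_B_eq (hs : c.W.Str (Y.tq c.p)) (hd : d.Ok) {g : ℝ} (hg : g ∈ c.W.G) (h0 : d.γ 0 < g) (m : ℕ) :
    d.B (c.W.pos g - c.W.pos (d.γ 0) - 1) m = d.gS g m := by
  have hp := (hs.k_mono _ (sf_ge_s_g0 d hd) g hg h0).2
  have e : c.W.pos (d.γ 0) + 1 + (c.W.pos g - c.W.pos (d.γ 0) - 1) = c.W.pos g := by omega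
  have h : ∃ g' ∈ c.W.G, c.W.pos g' = c.W.pos (d.γ 0) + 1 + (c.W.pos g - c.W.pos (d.γ 0) - 1) := ⟨g, hg, e.symm⟩
  unfold SfGeD.B
  rw [dif_pos h]
  have hc := h.choose_spec
  have hch : h.choose = g := by
    rcases lt_trichotomy h.choose g with h5 | h5 | h5
    · have := (hs.k_mono _ hc.1 g hg h5).2
      omega
    · exact h5
    · have := (hs.k_mono g hg _ hc.1 h5).2
      omega
  exact congrArg (fun g => d.gS g m) hch

/-- (LEAF GE-S-STK) the stage of an old gate strictly between the root and the end.   PLAN: `d.st = head :: stRes (c.mid (γ 0) (γ 1)) d.B`, index `pos g - pos (γ 0) = (pos g - pos (γ 0) - 1) + 1` (`List.getElem?_cons_succ`);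
`(c.mid (γ 0) (γ 1))[t]? = c.W.E.st[pos (γ 0) + 1 + t]?` for `pos (γ 0) + 1 + t < pos (γ 1)` (`List.getElem?_drop`, `List.getElem?_take`), `= some (c.W.stg g)` by `sf_core_stage` (`g < γ 1 ≤ 1`); `sf_ge_res_get`; `sf_ge_s_B_eq` (`funext m`). -/
theorem sf_ge_s_st_get (hs : c.W.Str (Y.tq c.p)) (hd : d.Ok) {g : ℝ} (hg : g ∈ c.W.G) (h0 : d.γ 0 < g) (h1 : g < d.γ 1) :
    d.st[c.W.pos g - c.W.pos (d.γ 0)]? = some ⟨c.W.k g, c.W.gb g, fun m => (d.gS g m).indicator (c.W.gM g m)⟩ := by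
  have hp0 := (hs.k_mono _ (sf_ge_s_g0 d hd) g hg h0).2
  have hp1 := (hs.k_mono g hg _ (sf_ge_s_g1 d hd) h1).2
  have hg1 : g < 1 := h1.trans_le (hs.gate.2 _ (sf_ge_s_g1 d hd)).2
  have e : c.W.pos g - c.W.pos (d.γ 0) = (c.W.pos g - c.W.pos (d.γ 0) - 1) + 1 := by omega
  have hm : (c.mid (d.γ 0) (d.γ 1))[c.W.pos g - c.W.pos (d.γ 0) - 1]? = some (c.W.stg g) := by
    unfold SfCfg.mid
    rw [List.getElem?_drop]
    have e2 : c.W.pos (d.γ 0) + 1 + (c.W.pos g - c.W.pos (d.γ 0) - 1) = c.W.pos g := by omega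
    rw [e2, List.getElem?_take_of_lt hp1]
    exact sf_core_stage c hs g hg hg1
  rw [e]
  unfold SfGeD.st
  rw [List.getElem?_cons_succ, sf_ge_res_get _ _ _ _ hm]
  have hB : (fun m => (d.B (c.W.pos g - c.W.pos (d.γ 0) - 1) m).indicator ((c.W.stg g).M m))
      = fun m => (d.gS g m).indicator (c.W.gM g m) := by
    funext m
    rw [sf_ge_s_B_eq d hs hd hg h0 m]
    rfl
  rw [hB]
  rfl

/-! ## §3 labels -/

/-- (LEAF GE-S-LAB) sums over the new labels.   PLAN: `d.Lb g'` is a subtype of `c.W.Lb (d.γ g')`, its `Fintype` instance is `d.fLb g'` (`Subtype.fintype`, classical); `Finset.sum_subtype`/`Finset.sum_subtype_eq_sum_filter` + `Finset.sum_filter_of_ne`, or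
`Finset.sum_bij_ne_zero`;   if instances disagree: `Fintype.sum_equiv`/`convert`, `Subsingleton.elim`. -/
theorem sf_ge_s_sum_lb (g' : ℝ) (F : c.W.Lb (d.γ g') → ℝ) (hF : ∀ l, ¬ (g' ∈ d.G → d.Kept g' l) → F l = 0) : ∑ l : d.Lb g', F l.1 = ∑ l, F l := by
  classical
  have h := Finset.sum_subtype (F := d.fLb g') (Finset.univ.filter fun l : c.W.Lb (d.γ g') => g' ∈ d.G → d.Kept g' l) (by simp) F
  refine h.symm.trans (Finset.sum_filter_of_ne fun l _ hl => ?_)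
  by_contra hc
  exact hl (hF l hc)

theorem sf_ge_s_th_pos {g' : ℝ} (h : 0 < g') (l : c.W.Lb (d.γ g')) : d.th g' l = (d.lS (d.γ g') l).indicator (c.W.th (d.γ g') l) := by
  unfold SfGeD.th
  rw [if_neg (not_le.2 h)]

theorem sf_ge_s_th_root {g' : ℝ} (h : g' ≤ 0) (l : c.W.Lb (d.γ g')) : d.th g' l = (d.lN (d.γ g') l).indicator fun _ => 1 := by
  unfold SfGeD.th
  rw [if_pos h]

theorem sf_ge_s_ts_pos {g' : ℝ} (h : 0 < g') (l : c.W.Lb (d.γ g')) : d.ts g' l = c.W.ts (d.γ g') l := by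
  unfold SfGeD.ts
  rw [dif_neg (fun hc => absurd hc.1 (not_le.2 h))]

theorem sf_ge_s_ts_root (hO : SfCyOk Y) {g' : ℝ} (h : g' ≤ 0) (l : c.W.Lb (d.γ g')) :
    Y.tq c.p (d.ts g' l) = { Y.tq c.p (c.W.ts (d.γ g') l) with f := d.f0 } := by
  unfold SfGeD.ts
  have hc : g' ≤ 0 ∧ ∃ Q, Y.tq c.p Q = { Y.tq c.p (c.W.ts (d.γ g') l) with f := d.f0 } := ⟨h, hO.tq_surj _ _⟩
  rw [dif_pos hc]
  exact hc.2.choose_spec

/-- (LEAF GE-S-LAB) at a gate `< 1` a row is retained by at most one label of an interval.   PLAN: `Str.zero_one`: both values are `1`; `Str.sum_le g hg m x`; if `l ≠ l'` the sum is `≥ 2`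
(`Finset.add_le_sum`-type: `Finset.sum_le_sum_of_subset_of_nonneg` on `{l, l'}`, `Finset.sum_pair`, `Str.nn`). -/
theorem sf_ge_s_uniq (hs : c.W.Str (Y.tq c.p)) {g : ℝ} (hg : g ∈ c.W.G) (h1 : g < 1) (l l' : c.W.Lb g) (hiv : c.W.iv g l = c.W.iv g l') (x : (Y.M.sys c.p).X)
    (hl : c.W.th g l x ≠ 0) (hl' : c.W.th g l' x ≠ 0) : l = l' := by
  classical
  by_contra hne
  have z1 : c.W.th g l x = 1 := (hs.zero_one g hg h1 l x).resolve_left hl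
  have z2 : c.W.th g l' x = 1 := (hs.zero_one g hg h1 l' x).resolve_left hl'
  have hsum := hs.sum_le g hg (c.W.iv g l) x
  have h2 : (2 : ℝ) ≤ ∑ l₁, (if c.W.iv g l₁ = c.W.iv g l then c.W.th g l₁ x else 0) := by
    calc (2 : ℝ) = ∑ l₁ ∈ ({l, l'} : Finset (c.W.Lb g)), (if c.W.iv g l₁ = c.W.iv g l then c.W.th g l₁ x else 0) := by
          rw [Finset.sum_pair hne, if_pos rfl, if_pos hiv.symm, z1, z2]
          norm_num
      _ ≤ _ := Finset.sum_le_sum_of_subset_of_nonneg (Finset.subset_univ _) (fun i _ _ => by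
          split_ifs
          · exact hs.nn g hg i x
          · exact le_rfl)
  linarith

open Classical in
/-- auxiliary form of `sf_ge_s_gate_pos` at a general old gate `g < 1` (no cast) -/
theorem sf_ge_s_gate_pos_aux (hs : c.W.Str (Y.tq c.p)) {g : ℝ} (hg : g ∈ c.W.G) (h1 : g < 1) (m : ℕ) (x : (Y.M.sys c.p).X) :
    (d.gS g m).indicator (c.W.gM g m) x = ∑ l, if c.W.iv g l = m ∧ d.bel g m then (d.lS g l).indicator (c.W.th g l) x else 0 := by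
  by_cases hx : x ∈ d.gS g m
  · rw [Set.indicator_of_mem hx]
    obtain ⟨hb, hxa⟩ := hx
    unfold SfCfg.aS at hxa
    obtain ⟨ρ0, hρ⟩ := Set.mem_iUnion.1 hxa
    obtain ⟨⟨hch, him⟩, hxat⟩ := Set.mem_iUnion.1 hρ
    unfold SfMD.gM
    refine Finset.sum_congr rfl fun l _ => ?_
    by_cases hl : c.W.iv g l = m
    · rw [if_pos hl, if_pos ⟨hl, hb⟩]
      by_cases ht : c.W.th g l x = 0
      · rw [Set.indicator_apply]
        split_ifs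
        · rfl
        · exact ht
      · have h2 : c.W.th g (c.sh.lb g ρ0) x ≠ 0 := ((c.sh.at_cov g hg (c.sh.lb g ρ0) x).2 ⟨ρ0, rfl, hxat⟩).1
        have e : l = c.sh.lb g ρ0 := sf_ge_s_uniq hs hg h1 l (c.sh.lb g ρ0) (hl.trans him.symm) x ht h2
        have hm : x ∈ d.lS g l := by
          unfold SfGeD.lS
          exact Set.mem_iUnion.2 ⟨ρ0, Set.mem_iUnion.2 ⟨⟨hch, e.symm⟩, hxat⟩⟩
        rw [Set.indicator_of_mem hm]
    · rw [if_neg hl, if_neg (fun h => hl h.1)]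
  · rw [Set.indicator_of_notMem hx]
    symm
    refine Finset.sum_eq_zero fun l _ => ?_
    by_cases hl : c.W.iv g l = m ∧ d.bel g m
    · rw [if_pos hl]
      refine Set.indicator_of_notMem (fun hm => hx ?_) _
      unfold SfGeD.lS at hm
      obtain ⟨ρ, hρ⟩ := Set.mem_iUnion.1 hm
      obtain ⟨⟨hch, hlb⟩, hxat⟩ := Set.mem_iUnion.1 hρ
      refine ⟨hl.2, ?_⟩
      unfold SfCfg.aS
      refine Set.mem_iUnion.2 ⟨ρ, Set.mem_iUnion.2 ⟨⟨hch, ?_⟩, hxat⟩⟩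
      show c.W.iv g (c.sh.lb g ρ) = m
      rw [hlb]; exact hl.1
    · rw [if_neg hl]

/-- (LEAF GE-S-GP) **the cut mask of a kept gate `0 < g' < 1` is the sum of the cut weights of its kept labels.**
PLAN.  `g = d.γ g' ∈ c.W.G`, `g < 1` (`g < γ 1 ≤ 1`: `sf_ge_s_gam_lt`, `Str.gate`).   RHS: `sf_ge_s_sum_lb` with `F l = if iv l = m then d.th g' l x else 0` (a label that is not kept has `¬ bel (iv l)` or `d.th g' l ≡ 0`: in the first case..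
see below) — simpler: prove first `RHS = ∑ l, if iv l = m ∧ d.bel g m then d.th g' l x else 0`.   `d.th g' l = 1_(lS g l) th l` (`sf_ge_s_th_pos`).   LHS: `c.W.gM g m x = ∑ l, if iv l = m then th l x else 0`, `Set.indicator`, `Finset.mul_sum`-free: `by_cases hx : x ∈ d.gS g m`.
(a) `x ∈ gS g m`: `bel g m`, `x ∈ atm ρ0`, `chn ρ0`, `im ρ0 = m`.   Termwise: for `iv l = m`: if `th l x = 0` both terms vanish; otherwise `l = lb ρ0` (`sf_ge_s_uniq`; `th (lb ρ0) x ≠ 0` by `at_cov`), so `x ∈ lS g l`.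
(b) `x ∉ gS g m`: every term of the RHS vanishes: `bel g m` and `x ∈ lS g l`, `iv l = m` would give `x ∈ gS g m` (`c.im g ρ = iv (lb ρ)`). -/
theorem sf_ge_s_gate_pos (hs : c.W.Str (Y.tq c.p)) (hd : d.Ok) {g' : ℝ} (hg : g' ∈ d.G) (h0 : 0 < g') (h1 : g' < 1) (m : ℕ) (x : (Y.M.sys c.p).X) :
    (d.gS (d.γ g') m).indicator (c.W.gM (d.γ g') m) x = ∑ l : d.Lb g', if c.W.iv (d.γ g') l.1 = m then d.th g' l.1 x else 0 := by
  classical
  have hgG : d.γ g' ∈ c.W.G := (sf_ge_s_gam_mem d hd hg).1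
  have hg1 : d.γ g' < 1 := lt_of_lt_of_le (sf_ge_s_gam_lt d hd h1) (hs.gate.2 _ (sf_ge_s_g1 d hd)).2
  rw [sf_ge_s_gate_pos_aux d hs hgG hg1 m x]
  have e1 := sf_ge_s_sum_lb d g' (fun l => if c.W.iv (d.γ g') l = m ∧ d.bel (d.γ g') m then (d.lS (d.γ g') l).indicator (c.W.th (d.γ g') l) x else 0)
    (fun l hl => by
      by_contra hne
      apply hl
      intro _
      by_cases hc : c.W.iv (d.γ g') l = m ∧ d.bel (d.γ g') m
      · rw [if_pos hc] at hne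
        refine ⟨?_, x, ?_⟩
        · rw [hc.1]; exact hc.2
        · rw [sf_ge_s_th_pos d h0]; exact hne
      · rw [if_neg hc] at hne
        exact absurd rfl hne)
  rw [← e1]
  refine Finset.sum_congr rfl fun l _ => ?_
  by_cases hl : c.W.iv (d.γ g') l.1 = m
  · have hb : d.bel (d.γ g') m := by
      have := (l.2 hg).1
      rwa [hl] at this
    rw [if_pos hl, if_pos ⟨hl, hb⟩, sf_ge_s_th_pos d h0]
  · rw [if_neg hl, if_neg (fun h => hl h.1)]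

/-- (LEAF GE-S-GR) **the root stage is the sum of the weights of the kept root labels.**
PLAN.  `d.i ∈ d.Gk` (`sf_ge_s_zero`), so `d.N = ⋃ ρ, ⋃ (_ : chn ρ ∧ im ρ = m0), Nr ρ` (`if_pos`).   `d.th 0 l = 1_(lN (γ 0) l)` (`sf_ge_s_th_root le_rfl`).   `sf_ge_s_sum_lb` (not kept: `¬ bel` or `th ≡ 0`); `bel (γ 0) (iv l) ↔ iv l = m0` (`gn_anc_self`).
So `RHS = ∑ l, if iv l = m ∧ iv l = m0 then 1_(lN l) x else 0`.   `m ≠ m0`: both sides `0`.   `m = m0`: if `x ∈ Nr ρ0` (`chn ρ0`, `im ρ0 = m0`) the only nonzero term is `l = lb ρ0` (`Finset.sum_eq_single`; `x ∈ lN l` gives `ρ` with `x ∈ Nr ρ`, `hdisj` forces `ρ = ρ0`);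
if `x ∉ N` all terms vanish. -/
theorem sf_ge_s_gate_root (hd : d.Ok) (h0 : (0 : ℝ) ∈ d.G)
    (hdisj : ∀ ρ ρ', d.chn ⟨d.γ 0, ρ⟩ → d.chn ⟨d.γ 0, ρ'⟩ → ρ ≠ ρ' → Disjoint (d.Nr (d.γ 0) ρ) (d.Nr (d.γ 0) ρ')) (m : ℕ) (x : (Y.M.sys c.p).X) :
    (open Classical in if m = d.m0 then d.N.indicator (fun _ => (1 : ℝ)) x else 0) = ∑ l : d.Lb 0, if c.W.iv (d.γ 0) l.1 = m then d.th 0 l.1 x else 0 := by
  classical
  have hN : d.N = ⋃ ρ, ⋃ (_ : d.chn ⟨d.γ 0, ρ⟩ ∧ c.im (d.γ 0) ρ = d.m0), d.Nr (d.γ 0) ρ := by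
    unfold SfGeD.N
    rw [if_pos ((sf_ge_s_zero d hd).1 h0)]
  have e1 := sf_ge_s_sum_lb d 0 (fun l => if c.W.iv (d.γ 0) l = m ∧ m = d.m0 then (d.lN (d.γ 0) l).indicator (fun _ => (1 : ℝ)) x else 0)
    (fun l hl => by
      by_contra hne
      apply hl
      intro _
      by_cases hc : c.W.iv (d.γ 0) l = m ∧ m = d.m0
      · rw [if_pos hc] at hne
        refine ⟨?_, x, ?_⟩
        · show ancI (c.W.k (d.γ 0)) (c.W.k (d.γ 0)) (c.W.iv (d.γ 0) l) = d.m0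
          rw [gn_anc_self, hc.1]; exact hc.2
        · rw [sf_ge_s_th_root d le_rfl]; exact hne
      · rw [if_neg hc] at hne
        exact absurd rfl hne)
  have e2 : ∑ l : d.Lb 0, (if c.W.iv (d.γ 0) l.1 = m then d.th 0 l.1 x else 0)
      = ∑ l : d.Lb 0, (if c.W.iv (d.γ 0) l.1 = m ∧ m = d.m0 then (d.lN (d.γ 0) l.1).indicator (fun _ => (1 : ℝ)) x else 0) := by
    refine Finset.sum_congr rfl fun l _ => ?_
    by_cases hl : c.W.iv (d.γ 0) l.1 = m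
    · have hb : m = d.m0 := by
        have h3 : ancI (c.W.k (d.γ 0)) (c.W.k (d.γ 0)) (c.W.iv (d.γ 0) l.1) = d.m0 := (l.2 h0).1
        rw [gn_anc_self, hl] at h3
        exact h3
      rw [if_pos hl, if_pos ⟨hl, hb⟩, sf_ge_s_th_root d le_rfl]
    · rw [if_neg hl, if_neg (fun h => hl h.1)]
  rw [e2, e1]
  by_cases hm : m = d.m0
  · rw [if_pos hm]
    by_cases hx : x ∈ d.N
    · rw [Set.indicator_of_mem hx]
      rw [hN] at hx
      obtain ⟨ρ0, hρ⟩ := Set.mem_iUnion.1 hx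
      obtain ⟨⟨hch, him⟩, hxN⟩ := Set.mem_iUnion.1 hρ
      rw [Finset.sum_eq_single (c.sh.lb (d.γ 0) ρ0)]
      · have hiv : c.W.iv (d.γ 0) (c.sh.lb (d.γ 0) ρ0) = m := him.trans hm.symm
        have hmem : x ∈ d.lN (d.γ 0) (c.sh.lb (d.γ 0) ρ0) := by
          unfold SfGeD.lN
          exact Set.mem_iUnion.2 ⟨ρ0, Set.mem_iUnion.2 ⟨⟨hch, rfl⟩, hxN⟩⟩
        rw [if_pos ⟨hiv, hm⟩, Set.indicator_of_mem hmem]
      · intro l _ hl
        by_cases hc : c.W.iv (d.γ 0) l = m ∧ m = d.m0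
        · rw [if_pos hc]
          refine Set.indicator_of_notMem (fun hmem => hl ?_) _
          unfold SfGeD.lN at hmem
          obtain ⟨ρ, hρ'⟩ := Set.mem_iUnion.1 hmem
          obtain ⟨⟨hch', hlb⟩, hxN'⟩ := Set.mem_iUnion.1 hρ'
          by_cases hρρ : ρ = ρ0
          · rw [← hlb, hρρ]
          · exact absurd hxN (Set.disjoint_left.1 (hdisj ρ ρ0 hch' hch hρρ) hxN')
        · rw [if_neg hc]
      · intro h; exact absurd (Finset.mem_univ _) h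
    · rw [Set.indicator_of_notMem hx]
      symm
      refine Finset.sum_eq_zero fun l _ => ?_
      by_cases hc : c.W.iv (d.γ 0) l = m ∧ m = d.m0
      · rw [if_pos hc]
        refine Set.indicator_of_notMem (fun hmem => hx ?_) _
        unfold SfGeD.lN at hmem
        obtain ⟨ρ, hρ'⟩ := Set.mem_iUnion.1 hmem
        obtain ⟨⟨hch', hlb⟩, hxN'⟩ := Set.mem_iUnion.1 hρ'
        rw [hN]
        refine Set.mem_iUnion.2 ⟨ρ, Set.mem_iUnion.2 ⟨⟨hch', ?_⟩, hxN'⟩⟩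
        show c.W.iv (d.γ 0) (c.sh.lb (d.γ 0) ρ) = d.m0
        rw [hlb, hc.1]; exact hc.2
      · rw [if_neg hc]
  · rw [if_neg hm]
    symm
    refine Finset.sum_eq_zero fun l _ => ?_
    rw [if_neg (fun h => hm h.2)]

/-- (LEAF GE-S-LAB) PLAN: `g' = 0` (`g' ≤ 0`, `sf_ge_s_rg`; `obtain rfl`): `← sf_ge_s_gate_root`, indicator `≤ 1`.   `0 < g'`: the sum over the subtype is `≤` the sum over all labels (`sf_ge_s_sum_lb` is not needed: `Finset.sum_le_sum` after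
`Finset.sum_subtype..`, or: `sf_ge_s_sum_lb` applied to `F l = if iv l = m ∧ (g' ∈ d.G → Kept g' l) then .. else 0`), `d.th g' l x ≤ th l x` (`sf_ge_s_th_pos`, `Set.indicator_le_self'`, `Str.nn`), `Str.sum_le`. -/
theorem sf_ge_s_sum_le (hs : c.W.Str (Y.tq c.p)) (hd : d.Ok)
    (hdisj : ∀ ρ ρ', d.chn ⟨d.γ 0, ρ⟩ → d.chn ⟨d.γ 0, ρ'⟩ → ρ ≠ ρ' → Disjoint (d.Nr (d.γ 0) ρ) (d.Nr (d.γ 0) ρ')) {g' : ℝ} (hg : g' ∈ d.G) (m : ℕ) (x : (Y.M.sys c.p).X) :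
    ∑ l : d.Lb g', (if c.W.iv (d.γ g') l.1 = m then d.th g' l.1 x else 0) ≤ 1 := by
  classical
  rcases le_or_gt g' 0 with h0 | h0
  · obtain rfl : g' = 0 := le_antisymm h0 (sf_ge_s_rg d hd hg).1
    rw [← sf_ge_s_gate_root d hd hg hdisj m x]
    split_ifs
    · exact Set.indicator_le_self' (s := d.N) (f := fun _ => (1 : ℝ)) (fun _ _ => zero_le_one) x
    · exact zero_le_one
  · have hgG := (sf_ge_s_gam_mem d hd hg).1
    have hnn : ∀ l : c.W.Lb (d.γ g'), 0 ≤ (if c.W.iv (d.γ g') l = m then c.W.th (d.γ g') l x else 0) := by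
      intro l
      split_ifs
      · exact hs.nn _ hgG l x
      · exact le_rfl
    have h := Finset.sum_subtype (F := d.fLb g') (Finset.univ.filter fun l : c.W.Lb (d.γ g') => g' ∈ d.G → d.Kept g' l) (by simp)
      (fun l => if c.W.iv (d.γ g') l = m then c.W.th (d.γ g') l x else 0)
    calc ∑ l : d.Lb g', (if c.W.iv (d.γ g') l.1 = m then d.th g' l.1 x else 0)
        ≤ ∑ l : d.Lb g', (if c.W.iv (d.γ g') l.1 = m then c.W.th (d.γ g') l.1 x else 0) := by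
          refine Finset.sum_le_sum fun l _ => ?_
          split_ifs
          · rw [sf_ge_s_th_pos d h0]
            exact Set.indicator_le_self' (fun _ _ => hs.nn _ hgG l.1 x) x
          · exact le_rfl
      _ = ∑ l ∈ Finset.univ.filter (fun l : c.W.Lb (d.γ g') => g' ∈ d.G → d.Kept g' l), (if c.W.iv (d.γ g') l = m then c.W.th (d.γ g') l x else 0) := h.symm
      _ ≤ ∑ l, (if c.W.iv (d.γ g') l = m then c.W.th (d.γ g') l x else 0) :=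
          Finset.sum_le_sum_of_subset_of_nonneg (Finset.filter_subset _ _) (fun l _ _ => hnn l)
      _ ≤ 1 := hs.sum_le _ hgG m x

/-! ## §4 the enlarged root tests -/

/-- (LEAF GE-S-SUP) **a restored row lies in the enlarged test of its label.**
PLAN.  `x' ∈ lN (γ 0) l`: `ρ` with `chn ρ`, `lb ρ = l` (`subst`), `x' ∈ Nr ρ`.   `hR.near`: `x ∈ atm ρ` with `sfCn Λ` at the same cut `(T, k)`, `T = c.tm (γ 0) ρ = c.W.T (γ 0) (lb ρ)` (`rfl`), `k = c.W.k (γ 0)`.   `at_cov` + `Str.supp`: `x ∈ cell (ts l) T k`; `hO.cell`: `cyIn (tq (ts l)) (2⁻¹^k) (co T x)`.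
Same exact index: `hO.ixB`, `coX`, `coB`, `coY`: `co T x'` and `co T x` have the same `X, B, Y`.   `|N' - N| ≤ Λ dl`, `|D' - D| ≤ Λ 2⁻¹^k dl` (`T - T = 0`), `dl ≤ f` (`hO.ok` on `Str.ok`; `f = c.W.f (γ 0)` by `Str.width`).
`cyVel`, `cyPos` are `N - (base)`, `D - (base)`: `|cyVel x'| ≤ f + Λ f ≤ f0`, `|cyPos x'| ≤ l f + Λ l f ≤ l f0` (`hR.wid.1 : (2 + Λ) f ≤ f0`).   Goal through `hO.cell` and `sf_ge_s_ts_root hO le_rfl`: `cyIn { tq (ts l) with f := f0 } ..` (unfold `cyIn cyTilt cyVel cyPos`). -/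
theorem sf_ge_s_supp_root (hO : SfCyOk Y) (hs : c.W.Str (Y.tq c.p)) (hd : d.Ok) {Λ ϰ : ℝ} (hΛ : 0 ≤ Λ) (hR : d.Root Λ ϰ) (l : c.W.Lb (d.γ 0)) (x' : (Y.M.sys c.p).X)
    (hx : x' ∈ d.lN (d.γ 0) l) : x' ∈ (Y.M.sys c.p).cell (d.ts 0 l) (c.W.T (d.γ 0) l) (c.W.k (d.γ 0)) := by
  have hg0 := sf_ge_s_g0 d hd
  unfold SfGeD.lN at hx
  simp only [Set.mem_iUnion, exists_prop] at hx
  obtain ⟨ρ, ⟨hch, rfl⟩, hxN⟩ := hx
  obtain ⟨x, hxa, -, -, hix, hN, hD⟩ := hR.near ρ hch x' hxN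
  have hth := ((c.sh.at_cov _ hg0 (c.sh.lb _ ρ) x).2 ⟨ρ, rfl, hxa⟩).1
  have hcell := hs.supp _ hg0 _ x hth
  obtain ⟨-, hf0, hdl⟩ := (hO.ok c.p _ _).1 (hs.ok _ hg0 (c.sh.lb _ ρ))
  have hw := (hs.width _ hg0 (c.sh.lb _ ρ)).2
  have hwid := hR.wid.1
  rw [← hw] at hwid
  rw [hO.cell] at hcell ⊢
  rw [sf_ge_s_ts_root d hO le_rfl]
  obtain ⟨i1, i2, i3⟩ := hO.ixB c.p x x' hix
  have eX : (Y.co c.p (c.W.T (d.γ 0) (c.sh.lb _ ρ)) x').X = (Y.co c.p (c.W.T (d.γ 0) (c.sh.lb _ ρ)) x).X := by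
    rw [hO.coX, hO.coX c.p _ x, i1]
  have eB : (Y.co c.p (c.W.T (d.γ 0) (c.sh.lb _ ρ)) x').B = (Y.co c.p (c.W.T (d.γ 0) (c.sh.lb _ ρ)) x).B := by
    rw [hO.coB, hO.coB c.p _ x, i1, i2]
  have eY : (Y.co c.p (c.W.T (d.γ 0) (c.sh.lb _ ρ)) x').Y = (Y.co c.p (c.W.T (d.γ 0) (c.sh.lb _ ρ)) x).Y := by
    rw [hO.coY, hO.coY c.p _ x, i1, i3]
  have hN' : |(Y.co c.p (c.W.T (d.γ 0) (c.sh.lb _ ρ)) x').N - (Y.co c.p (c.W.T (d.γ 0) (c.sh.lb _ ρ)) x).N| ≤ Λ * Y.dl c.p (c.W.k (d.γ 0)) := hN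
  have hD' : |(Y.co c.p (c.W.T (d.γ 0) (c.sh.lb _ ρ)) x').D - (Y.co c.p (c.W.T (d.γ 0) (c.sh.lb _ ρ)) x).D
      - (c.W.T (d.γ 0) (c.sh.lb _ ρ) - c.W.T (d.γ 0) (c.sh.lb _ ρ)) * (Y.co c.p (c.W.T (d.γ 0) (c.sh.lb _ ρ)) x).N|
      ≤ Λ * ((2 : ℝ)⁻¹ ^ (c.W.k (d.γ 0)) * Y.dl c.p (c.W.k (d.γ 0))) := hD
  rw [sub_self, zero_mul, sub_zero] at hD'
  have hl : (0 : ℝ) < (2 : ℝ)⁻¹ ^ (c.W.k (d.γ 0)) := by positivity
  obtain ⟨c1, c2, c3, c4, c5⟩ := hcell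
  unfold cyTilt at c3
  unfold cyVel at c4
  unfold cyPos at c5
  unfold cyIn cyTilt cyVel cyPos
  simp only [eX, eB, eY]
  refine ⟨c1, c2, c3, ?_, ?_⟩
  · generalize (Y.co c.p (c.W.T (d.γ 0) (c.sh.lb _ ρ)) x').N = n' at hN' ⊢
    generalize Y.co c.p (c.W.T (d.γ 0) (c.sh.lb _ ρ)) x = z at *
    generalize Y.tq c.p (c.W.ts (d.γ 0) (c.sh.lb _ ρ)) = Q at *
    generalize Y.dl c.p (c.W.k (d.γ 0)) = dl at *
    have h1 : Λ * dl ≤ Λ * Q.f := mul_le_mul_of_nonneg_left hdl hΛ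
    obtain ⟨a1, a2⟩ := abs_le.1 c4
    obtain ⟨b1, b2⟩ := abs_le.1 hN'
    rw [abs_le]
    constructor
    · linarith only [a1, b1, h1, hwid, hf0]
    · linarith only [a2, b2, h1, hwid, hf0]
  · generalize (Y.co c.p (c.W.T (d.γ 0) (c.sh.lb _ ρ)) x').D = n' at hD' ⊢
    generalize Y.co c.p (c.W.T (d.γ 0) (c.sh.lb _ ρ)) x = z at *
    generalize Y.tq c.p (c.W.ts (d.γ 0) (c.sh.lb _ ρ)) = Q at *
    generalize Y.dl c.p (c.W.k (d.γ 0)) = dl at *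
    generalize (2 : ℝ)⁻¹ ^ (c.W.k (d.γ 0)) = ll at *
    have h1 : Λ * (ll * dl) ≤ ll * (Λ * Q.f) := by
      have := mul_le_mul_of_nonneg_left (mul_le_mul_of_nonneg_left hdl hΛ) hl.le
      linarith only [this]
    have h2 : ll * ((2 + Λ) * Q.f) ≤ ll * d.f0 := mul_le_mul_of_nonneg_left hwid hl.le
    have h3 : 0 < ll * Q.f := mul_pos hl hf0
    obtain ⟨a1, a2⟩ := abs_le.1 c5
    obtain ⟨b1, b2⟩ := abs_le.1 hD'
    rw [abs_le]
    constructor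
    · linarith only [a1, b1, h1, h2, h3]
    · linarith only [a2, b2, h1, h2, h3]

/-! ## §5 every new gate has a kept label -/

/-- a chain row at every old gate between the root and the end -/
theorem sf_ge_s_kept_row (hd : d.Ok)
    (hsp : ∀ i ∈ c.D.G, ∀ j ∈ c.D.G, ∀ k ∈ c.D.G, i < j → j < k → ∀ ρ ρ'', c.D.Conn i k ρ ρ'' → ∃ ρ', c.D.Conn i j ρ ρ' ∧ c.D.Conn j k ρ' ρ'')
    (g : ℝ) (hg : g ∈ c.W.G) (h1 : d.i ≤ g) (h2 : g ≤ d.j) : ∃ ρ : c.D.Row g, d.chn ⟨g, ρ⟩ := by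
  have hG : c.D.G = c.W.G := c.sh.hG
  obtain ⟨v, hv⟩ := hd.u_ne
  have hvj := hd.u_dep v hv
  obtain ⟨u0, hu0, hc, -, hs0⟩ := hd.u_s0 v hv
  obtain ⟨vj, vρ⟩ := v
  obtain ⟨ui, uρ⟩ := u0
  simp only at hvj hu0 hc
  rcases h2.lt_or_eq with h2 | h2
  · rcases h1.lt_or_eq with h1 | h1
    · obtain ⟨ρ', -, hc2⟩ := hsp ui (by rw [hG, hu0]; exact hd.gi) g (by rw [hG]; exact hg) vj (by rw [hG, hvj]; exact hd.gj)
        (by rw [hu0]; exact h1) (by rw [hvj]; exact h2) uρ vρ hc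
      exact ⟨ρ', Or.inr ⟨⟨vj, vρ⟩, hv, (show g < vj by rw [hvj]; exact h2), hc2⟩, fun e => absurd e h1.ne'⟩
    · subst hu0
      subst h1
      exact ⟨uρ, Or.inr ⟨⟨vj, vρ⟩, hv, (show d.i < vj by rw [hvj]; exact h2), hc⟩, fun _ => hs0⟩
  · subst hvj
    subst h2
    exact ⟨vρ, Or.inl hv, fun e => absurd e hd.hij.ne'⟩

/-- (LEAF GE-S-KEPT) PLAN.  `Ok.u_ne`, `Ok.u_pred`: `v` marked (`v.1 = d.j`), `u0` at the gate `d.i`, `Conn u0 v`, `im u0 = m0`.   Destructure the sigma types and `subst` so that the gates are `d.i`, `d.j`.   Let `g = d.γ g' ∈ d.Gk ⊆ c.W.G`, `d.i ≤ g ≤ d.j`.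
A CHAIN ROW `ρ` AT `g`:  `g = d.j`: `v`;  `g = d.i`: `u0`;  otherwise `hsp` (= `Core.split`) gives `ρ'` with `Conn g d.j ρ' v`.   To avoid casts state the auxiliary claim for a general real `g` with `g ∈ c.W.G`, `d.i ≤ g`, `g ≤ d.j`: `∃ ρ : c.D.Row g, d.chn ⟨g, ρ⟩`, and apply it to `d.γ g'`.
`0 < g'`: `l = lb ρ`: `bel` by `sf_ge_chn_bel` (`hb`), `x ∈ atm ρ` (`at_ne`), `th l x ≠ 0` (`at_cov`), `x ∈ lS g l`: `d.th g' l x = th l x ≠ 0` (`sf_ge_s_th_pos`).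
`g' = 0` (`sf_ge_s_rg`): `hne` gives `ρ`, `x ∈ Nr ρ`: `l = lb ρ`, `d.th 0 l x = 1` (`sf_ge_s_th_root`), `bel` by `sf_ge_chn_bel`. -/
theorem sf_ge_s_kept (hs : c.W.Str (Y.tq c.p)) (hd : d.Ok)
    (hb : ∀ i ∈ c.D.G, ∀ j ∈ c.D.G, i < j → ∀ ρ ρ', c.D.Conn i j ρ ρ' → c.D.T i ρ ≤ c.D.T j ρ' ∧ c.D.T j ρ' + c.D.len j ≤ c.D.T i ρ + c.D.len i)
    (hsp : ∀ i ∈ c.D.G, ∀ j ∈ c.D.G, ∀ k ∈ c.D.G, i < j → j < k → ∀ ρ ρ'', c.D.Conn i k ρ ρ'' → ∃ ρ', c.D.Conn i j ρ ρ' ∧ c.D.Conn j k ρ' ρ'')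
    (hne : ∃ ρ, d.chn ⟨d.γ 0, ρ⟩ ∧ (d.Nr (d.γ 0) ρ).Nonempty) {g' : ℝ} (hg : g' ∈ d.G) : ∃ l, d.Kept g' l := by
  obtain ⟨hgG, h1, h2⟩ := sf_ge_s_gam_mem d hd hg
  rw [sf_ge_gam0] at h1
  rw [sf_ge_gam1] at h2
  by_cases h0 : 0 < g'
  · obtain ⟨ρ, hρ⟩ := sf_ge_s_kept_row d hd hsp (d.γ g') hgG h1 h2
    obtain ⟨x, hx⟩ := c.sh.at_ne (d.γ g') hgG ρ
    have hth : c.W.th (d.γ g') (c.sh.lb (d.γ g') ρ) x ≠ 0 := ((c.sh.at_cov _ hgG (c.sh.lb (d.γ g') ρ) x).2 ⟨ρ, rfl, hx⟩).1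
    have hxS : x ∈ d.lS (d.γ g') (c.sh.lb (d.γ g') ρ) := Set.mem_iUnion₂.2 ⟨ρ, ⟨hρ, rfl⟩, hx⟩
    refine ⟨c.sh.lb (d.γ g') ρ, sf_ge_chn_bel d hs hd hb ⟨d.γ g', ρ⟩ hρ hgG h1, x, ?_⟩
    rw [sf_ge_s_th_pos d h0, Set.indicator_of_mem hxS]
    exact hth
  · obtain rfl : g' = 0 := le_antisymm (not_lt.1 h0) (sf_ge_s_rg d hd hg).1
    obtain ⟨ρ, hρ, x, hx⟩ := hne
    have hxS : x ∈ d.lN (d.γ 0) (c.sh.lb (d.γ 0) ρ) := Set.mem_iUnion₂.2 ⟨ρ, ⟨hρ, rfl⟩, hx⟩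
    refine ⟨c.sh.lb (d.γ 0) ρ, sf_ge_chn_bel d hs hd hb ⟨d.γ 0, ρ⟩ hρ hgG h1, x, ?_⟩
    rw [sf_ge_s_th_root d le_rfl, Set.indicator_of_mem hxS]
    exact one_ne_zero

/-! ## §6 EXITS -/

/-- **(A) the group experiment is valid.**      (LEAF GE-S-VAL)
PLAN.  `e_pos ka_pos budget reg`: hypotheses (`d.X.v = d.psi`, `d.X.k0 = c.W.k (γ 0)`, `d.X.i0 = d.m0`, `d.X.b0 = d.b0`: `rfl`).   `plat`: `d.psi = adjoint (An ..) (..)` (`PkSys.tz`), `hT.syn`.   `st_dep st_mono st_meas st_bd`: `sf_ge_s_st_ok` (`d.X.st = d.st`, `sf_ge_s_kf`), `IsMask`.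
`iv_in`: `l.2 (sf_ge_s_one_mem ..)).1 : bel (γ 1) (iv ..)`, `sf_ge_s_kf`.   `ts_ok`: `sf_ge_s_ts_pos one_pos`, `Str.ok` at `γ 1`, `sf_ge_s_kf`.   `w_pos`: `hT.wt_pos _ _ (ts_ok)`.   `th_meas`: `sf_ge_s_th_pos`, `Measurable.indicator`, `Str.meas`, `sf_ge_s_lS_meas`.   `th_nn`: `Set.indicator_nonneg`, `Str.nn`.
`th_supp`: `Set.indicator` nonzero gives `th l x ≠ 0`, `Str.supp` (`c.W.T (γ 1) l = tmL (k (γ 1)) (iv l)`, `rfl`), `sf_ge_s_kf`.   `th_sum`: `Fintype.sum_equiv (Fintype.equivFin (d.Lb 1)).symm` reduces to `sf_ge_s_sum_le` at `g' = 1`. -/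
theorem sf_ge_s_valid (hT : (Y.M.sys c.p).Tight) (C : ℕ) (hob : c.ob C) (hd : d.Ok)
    (hm : ∀ ρ, MeasurableSet (d.Nr (d.γ 0) ρ))
    (hdisj : ∀ ρ ρ', d.chn ⟨d.γ 0, ρ⟩ → d.chn ⟨d.γ 0, ρ'⟩ → ρ ≠ ρ' → Disjoint (d.Nr (d.γ 0) ρ) (d.Nr (d.γ 0) ρ'))
    (he : 0 < d.e) (hka : 0 < d.ka) (hbud : ‖d.psi‖ ^ 2 ≤ d.e)
    (hreg : (Y.M.sys c.p).Reg (tmL (c.W.k (d.γ 0)) d.m0) (c.W.k (d.γ 0)) d.b0 d.ka d.psi) : d.X.Valid := by
  have hs : c.W.Str (Y.tq c.p) := hob.2.2.1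
  have hst := sf_ge_s_st_ok d C hob hd (sf_ge_s_N_meas d hm)
  have hkf := sf_ge_s_kf d hs hd
  have g1 := sf_ge_s_g1 d hd
  have h1G := sf_ge_s_one_mem d hd
  have hts : ∀ l : Fin d.X.L, (Y.M.sys c.p).ok (d.X.ts l) d.X.kf := by
    intro l
    rw [hkf]
    show (Y.M.sys c.p).ok (d.ts 1 ((Fintype.equivFin (d.Lb 1)).symm l).1) (c.W.k (d.γ 1))
    rw [sf_ge_s_ts_pos d one_pos]
    exact hs.ok _ g1 _
  exact
    { e_pos := he
      ka_pos := hka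
      budget := hbud
      plat := hT.syn _ _ _ _
      reg := hreg
      st_dep := fun σ hσ => by
        rw [hkf]
        exact hst.dep σ hσ
      st_mono := hst.mono
      st_meas := fun σ hσ i => (hst.msk σ hσ i).1
      st_bd := fun σ hσ i x => (hst.msk σ hσ i).2 x
      iv_in := fun l => by
        rw [hkf]
        exact (((Fintype.equivFin (d.Lb 1)).symm l).2 h1G).1
      ts_ok := hts
      w_pos := fun l => hT.wt_pos _ _ (hts l)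
      th_meas := fun l => by
        show Measurable (d.th 1 ((Fintype.equivFin (d.Lb 1)).symm l).1)
        rw [sf_ge_s_th_pos d one_pos]
        exact (hs.meas _ g1 _).indicator (sf_ge_s_lS_meas d g1 _)
      th_nn := fun l x => by
        show 0 ≤ d.th 1 ((Fintype.equivFin (d.Lb 1)).symm l).1 x
        rw [sf_ge_s_th_pos d one_pos]
        exact Set.indicator_nonneg (fun y _ => hs.nn _ g1 _ y) x
      th_supp := fun l x hx => by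
        rw [hkf]
        have hx' : d.th 1 ((Fintype.equivFin (d.Lb 1)).symm l).1 x ≠ 0 := hx
        rw [sf_ge_s_th_pos d one_pos] at hx'
        have hx2 : c.W.th (d.γ 1) ((Fintype.equivFin (d.Lb 1)).symm l).1 x ≠ 0 := by
          intro h0
          apply hx'
          by_cases hxS : x ∈ d.lS (d.γ 1) ((Fintype.equivFin (d.Lb 1)).symm l).1
          · rw [Set.indicator_of_mem hxS, h0]
          · rw [Set.indicator_of_notMem hxS]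
        have := hs.supp _ g1 _ x hx2
        show x ∈ (Y.M.sys c.p).cell (d.ts 1 ((Fintype.equivFin (d.Lb 1)).symm l).1)
          (tmL (c.W.k (d.γ 1)) (c.W.iv (d.γ 1) ((Fintype.equivFin (d.Lb 1)).symm l).1)) (c.W.k (d.γ 1))
        rw [sf_ge_s_ts_pos d one_pos]
        exact this
      th_sum := fun i x => by
        have h := sf_ge_s_sum_le d hs hd hdisj h1G i x
        refine le_trans (le_of_eq ?_) h
        exact Fintype.sum_equiv (Fintype.equivFin (d.Lb 1)).symm _ _ (fun a => rfl) }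

/-- **(B) the group experiment is a tail piece of the old experiment.**      (LEAF GE-S-TAIL)
PLAN.  `k_lo`: `Str.k_rg`.   `k_hi`: `sf_ge_s_kf`, `Str.k_rg`.   `anc`: `hm0` + `gn_mem_ivs` (`SfMD.ivs = ivs k0 i0 (k ..)`, `rfl`).
`st`: `st' = c.W.E.st.take (c.W.pos (γ 0)) ++ [⟨k (γ 0), gb (γ 0), fun _ => (d.gS (γ 0) m0).indicator (c.W.gM (γ 0) m0)⟩]`; `gn_run_append`, `Xp.run`, `gn_anc_self`: the run is `d.psi` (`SfMD.pre`, `SfGeD.psi`).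
`StOk`: `len`: `pos (γ 0) + 1 ≤ pos (γ 1) ≤ length ≤ C ≤ C'`;  `dep`: `Valid.st_dep` (`List.mem_of_mem_take`), `sf_core_take_le`;  `mono`: `List.pairwise_append`, `Valid.st_mono` (`List.Pairwise.sublist (List.take_sublist ..)`), `sf_core_take_le`;  `gen`: `hob` (`GenLe`), `sf_core_gb_le`;
`msk`: `Valid.st_meas`, `st_bd`; `sf_ge_mask_ind (sf_core_gM_mask ..) (sf_ge_s_gS_meas ..)`. -/
theorem sf_ge_s_tail (C C' : ℕ) (hCC : C ≤ C') (hob : c.ob C) (hd : d.Ok) (hm0 : d.m0 ∈ c.W.ivs (d.γ 0))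
    (he1 : c.W.E.s ^ (C' : ℝ) * c.W.E.e ≤ d.e) (he2 : d.e ≤ c.W.E.e) (hk1 : c.W.E.s ^ (C' : ℝ) * c.W.E.ka ≤ d.ka) (hk2 : d.ka ≤ c.W.E.s ^ (-(C' : ℝ)) * c.W.E.ka) :
    Mdl.IsTail C' c.W.E d.X := by
  have hs : c.W.Str (Y.tq c.p) := hob.2.2.1
  have hg0 := sf_ge_s_g0 d hd
  have hg1 := sf_ge_s_g1 d hd
  have hpos : c.W.pos (d.γ 0) < c.W.pos (d.γ 1) := (hs.k_mono _ hg0 _ hg1 (sf_ge_s_gam_lt d hd zero_lt_one)).2
  have hlen : c.W.pos (d.γ 1) ≤ c.W.E.st.length := sf_core_pos_le c hs _ hg1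
  have hC : c.W.E.st.length ≤ C := hob.1
  refine ⟨(hs.k_rg _ hg0).1, ?_, (gn_mem_ivs _ _ _ _).1 hm0, ?_, he1, he2, hk1, hk2⟩
  · rw [sf_ge_s_kf d hs hd]
    exact (hs.k_rg _ hg1).2
  · refine ⟨c.W.E.st.take (c.W.pos (d.γ 0)) ++ [⟨c.W.k (d.γ 0), c.W.gb (d.γ 0), fun _ => (d.gS (d.γ 0) d.m0).indicator (c.W.gM (d.γ 0) d.m0)⟩], ⟨?_, ?_, ?_, ?_, ?_⟩, ?_⟩
    · rw [List.length_append, List.length_take, List.length_singleton]
      omega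
    · intro σ hσ
      rcases List.mem_append.1 hσ with h | h
      · exact ⟨(hs.valid.st_dep σ (List.mem_of_mem_take h)).1, sf_core_take_le c hs _ hg0 σ h⟩
      · rw [List.mem_singleton] at h
        subst h
        exact ⟨(hs.k_rg _ hg0).1, le_rfl⟩
    · rw [List.pairwise_append]
      refine ⟨hs.valid.st_mono.sublist (List.take_sublist _ _), List.pairwise_singleton _ _, ?_⟩
      intro a ha b hb
      rw [List.mem_singleton] at hb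
      subst hb
      exact sf_core_take_le c hs _ hg0 a ha
    · intro σ hσ
      rcases List.mem_append.1 hσ with h | h
      · exact le_trans (hob.2.2.2.1.2.2 σ (List.mem_of_mem_take h)) hCC
      · rw [List.mem_singleton] at h
        subst h
        exact le_trans (sf_core_gb_le c C hob _ hg0) hCC
    · intro σ hσ i
      rcases List.mem_append.1 hσ with h | h
      · exact ⟨hs.valid.st_meas σ (List.mem_of_mem_take h) i, hs.valid.st_bd σ (List.mem_of_mem_take h) i⟩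
      · rw [List.mem_singleton] at h
        subst h
        exact sf_ge_mask_ind (sf_core_gM_mask c hs _ hg0 _) (sf_ge_s_gS_meas d hg0 _)
    · rw [gn_run_append]
      show d.psi = Xp.run (c.W.k (d.γ 0)) d.m0 [_] (Xp.run (c.W.k (d.γ 0)) d.m0 _ _)
      unfold SfGeD.psi SfMD.pre
      simp only [Xp.run, gn_anc_self]

/-- the root interval lies below the root of the old experiment (`Ok.u_ne`, `Ok.u_pred`: `m0 = im u = iv (lb ..)`, `Str.iv_in`; destructure `u`, `subst`, then `sf_ge_gam0`)      (LEAF GE-S-TAIL) -/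
theorem sf_ge_s_m0 (hs : c.W.Str (Y.tq c.p)) (hd : d.Ok) : d.m0 ∈ c.W.ivs (d.γ 0) := by
  obtain ⟨v, hv⟩ := hd.u_ne
  obtain ⟨⟨g, ρ⟩, hu1, -, hu3⟩ := hd.u_pred v hv
  simp only at hu1 hu3
  subst hu1
  rw [sf_ge_gam0, ← hu3]
  exact hs.iv_in _ hd.gi _

theorem sf_ge_s_str_k (hs : c.W.Str (Y.tq c.p)) {g1 g2 : ℝ} (h1 : g1 ∈ c.W.G) (h2 : g2 ∈ c.W.G) (h : g1 ≤ g2) : c.W.k g1 ≤ c.W.k g2 := by
  rcases h.lt_or_eq with h | h
  · exact (hs.k_mono _ h1 _ h2 h).1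
  · rw [h]

theorem sf_ge_s_str_pos (hs : c.W.Str (Y.tq c.p)) (hd : d.Ok) {g1 g2 : ℝ} (h1 : g1 ∈ d.G) (h2 : g2 ∈ d.G) (h : g1 < g2) : d.W.pos g1 < d.W.pos g2 := by
  have h20 : 0 < g2 := lt_of_le_of_lt (sf_ge_s_rg d hd h1).1 h
  have p2 := (hs.k_mono _ (sf_ge_s_g0 d hd) _ (sf_ge_s_gam_mem d hd h2).1 (sf_ge_s_gam_lt d hd h20)).2
  show (if g1 ≤ 0 then 0 else c.W.pos (d.γ g1) - c.W.pos (d.γ 0)) < (if g2 ≤ 0 then 0 else c.W.pos (d.γ g2) - c.W.pos (d.γ 0))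
  rw [if_neg (not_le.2 h20)]
  split_ifs with h10
  · omega
  · have p1 := (hs.k_mono _ (sf_ge_s_g0 d hd) _ (sf_ge_s_gam_mem d hd h1).1 (sf_ge_s_gam_lt d hd (not_le.1 h10))).2
    have p12 := (hs.k_mono _ (sf_ge_s_gam_mem d hd h1).1 _ (sf_ge_s_gam_mem d hd h2).1 (sf_ge_s_gam_lt d hd h)).2
    omega

theorem sf_ge_s_str_stage (hs : c.W.Str (Y.tq c.p)) (hd : d.Ok)
    (hdisj : ∀ ρ ρ', d.chn ⟨d.γ 0, ρ⟩ → d.chn ⟨d.γ 0, ρ'⟩ → ρ ≠ ρ' → Disjoint (d.Nr (d.γ 0) ρ) (d.Nr (d.γ 0) ρ')) {g : ℝ} (hg : g ∈ d.G) (h1 : g < 1) :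
    ∃ σ : Stg (Y.M.sys c.p), d.W.E.st[d.W.pos g]? = some σ ∧ σ.k = d.W.k g ∧ σ.b = d.W.gb g ∧
      ∀ m x, σ.M m x = ∑ l, if d.W.iv g l = m then d.W.th g l x else 0 := by
  rcases (sf_ge_s_rg d hd hg).1.lt_or_eq with h0 | h0
  · have e1 : d.W.pos g = c.W.pos (d.γ g) - c.W.pos (d.γ 0) := by
      show (if g ≤ 0 then 0 else c.W.pos (d.γ g) - c.W.pos (d.γ 0)) = _
      rw [if_neg (not_le.2 h0)]
    have e2 : d.W.gb g = c.W.gb (d.γ g) := by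
      show (if g ≤ 0 then d.b0 else c.W.gb (d.γ g)) = _
      rw [if_neg (not_le.2 h0)]
    refine ⟨⟨c.W.k (d.γ g), c.W.gb (d.γ g), fun m => (d.gS (d.γ g) m).indicator (c.W.gM (d.γ g) m)⟩, ?_, rfl, e2.symm,
      fun m x => sf_ge_s_gate_pos d hs hd hg h0 h1 m x⟩
    rw [e1]
    exact sf_ge_s_st_get d hs hd (sf_ge_s_gam_mem d hd hg).1 (sf_ge_s_gam_lt d hd h0) (sf_ge_s_gam_lt d hd h1)
  · subst h0
    have e1 : d.W.pos 0 = 0 := by
      show (if (0 : ℝ) ≤ 0 then 0 else c.W.pos (d.γ 0) - c.W.pos (d.γ 0)) = _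
      rw [if_pos le_rfl]
    have e2 : d.W.gb 0 = d.b0 := by
      show (if (0 : ℝ) ≤ 0 then d.b0 else c.W.gb (d.γ 0)) = _
      rw [if_pos le_rfl]
    refine ⟨⟨c.W.k (d.γ 0), d.b0, fun m => open Classical in if m = d.m0 then d.N.indicator fun _ => 1 else fun _ => 0⟩, ?_, rfl, e2.symm, fun m x => ?_⟩
    · rw [e1]
      show d.st[0]? = _
      unfold SfGeD.st
      rw [List.getElem?_cons_zero]
    · refine Eq.trans ?_ (sf_ge_s_gate_root d hd hg hdisj m x)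
      by_cases hm : m = d.m0
      · simp only [hm, if_true]
      · simp only [hm, if_false]

theorem sf_ge_s_str_th01 (hs : c.W.Str (Y.tq c.p)) (hd : d.Ok) {g : ℝ} (hg : g ∈ d.G) (h1 : g < 1) (l : c.W.Lb (d.γ g)) (x : (Y.M.sys c.p).X) :
    d.th g l x = 0 ∨ d.th g l x = 1 := by
  rcases (sf_ge_s_rg d hd hg).1.lt_or_eq with h0 | h0
  · rw [sf_ge_s_th_pos d h0]
    by_cases hx : x ∈ d.lS (d.γ g) l
    · rw [Set.indicator_of_mem hx]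
      refine hs.zero_one _ (sf_ge_s_gam_mem d hd hg).1 ?_ l x
      exact lt_of_lt_of_le (sf_ge_s_gam_lt d hd h1) (hs.gate.2 _ (sf_ge_s_g1 d hd)).2
    · left; rw [Set.indicator_of_notMem hx]
  · rw [sf_ge_s_th_root d h0.ge]
    by_cases hx : x ∈ d.lN (d.γ g) l
    · right; rw [Set.indicator_of_mem hx]
    · left; rw [Set.indicator_of_notMem hx]

theorem sf_ge_s_str_meas (hs : c.W.Str (Y.tq c.p)) (hd : d.Ok) (hm : ∀ ρ, MeasurableSet (d.Nr (d.γ 0) ρ)) {g : ℝ} (hg : g ∈ d.G) (l : c.W.Lb (d.γ g)) :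
    Measurable (d.th g l) := by
  rcases (sf_ge_s_rg d hd hg).1.lt_or_eq with h0 | h0
  · rw [sf_ge_s_th_pos d h0]
    exact (hs.meas _ (sf_ge_s_gam_mem d hd hg).1 l).indicator (sf_ge_s_lS_meas d (sf_ge_s_gam_mem d hd hg).1 l)
  · subst h0
    rw [sf_ge_s_th_root d le_rfl]
    exact measurable_const.indicator (sf_ge_s_lN_meas d hm l)

theorem sf_ge_s_str_nn (hs : c.W.Str (Y.tq c.p)) (hd : d.Ok) {g : ℝ} (hg : g ∈ d.G) (l : c.W.Lb (d.γ g)) (x : (Y.M.sys c.p).X) : 0 ≤ d.th g l x := by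
  rcases (sf_ge_s_rg d hd hg).1.lt_or_eq with h0 | h0
  · rw [sf_ge_s_th_pos d h0]
    exact Set.indicator_nonneg (fun y _ => hs.nn _ (sf_ge_s_gam_mem d hd hg).1 l y) x
  · rw [sf_ge_s_th_root d h0.ge]
    exact Set.indicator_nonneg (fun _ _ => zero_le_one) x

theorem sf_ge_s_str_supp (hO : SfCyOk Y) (hs : c.W.Str (Y.tq c.p)) (hd : d.Ok) {Λ ϰ : ℝ} (hΛ : 0 ≤ Λ) (hR : d.Root Λ ϰ) {g : ℝ} (hg : g ∈ d.G)
    (l : c.W.Lb (d.γ g)) (x : (Y.M.sys c.p).X) (hx : d.th g l x ≠ 0) : x ∈ (Y.M.sys c.p).cell (d.ts g l) (c.W.T (d.γ g) l) (c.W.k (d.γ g)) := by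
  rcases (sf_ge_s_rg d hd hg).1.lt_or_eq with h0 | h0
  · rw [sf_ge_s_th_pos d h0] at hx
    rw [sf_ge_s_ts_pos d h0]
    refine hs.supp _ (sf_ge_s_gam_mem d hd hg).1 l x fun h => hx ?_
    by_cases hm : x ∈ d.lS (d.γ g) l
    · rw [Set.indicator_of_mem hm, h]
    · rw [Set.indicator_of_notMem hm]
  · subst h0
    rw [sf_ge_s_th_root d le_rfl] at hx
    exact sf_ge_s_supp_root d hO hs hd hΛ hR l x (by by_contra hm; exact hx (Set.indicator_of_notMem hm _))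

theorem sf_ge_s_str_width (hO : SfCyOk Y) (hs : c.W.Str (Y.tq c.p)) (hd : d.Ok) {g : ℝ} (hg : g ∈ d.G) (l : c.W.Lb (d.γ g)) :
    (Y.tq c.p (d.ts g l)).r = d.W.r g ∧ (Y.tq c.p (d.ts g l)).f = d.W.f g := by
  have hw := hs.width _ (sf_ge_s_gam_mem d hd hg).1 l
  rcases (sf_ge_s_rg d hd hg).1.lt_or_eq with h0 | h0
  · rw [sf_ge_s_ts_pos d h0]
    refine ⟨hw.1, ?_⟩
    show _ = (if g ≤ 0 then d.f0 else c.W.f (d.γ g))
    rw [if_neg (not_le.2 h0)]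
    exact hw.2
  · rw [sf_ge_s_ts_root d hO h0.ge]
    refine ⟨hw.1, ?_⟩
    show _ = (if g ≤ 0 then d.f0 else c.W.f (d.γ g))
    rw [if_pos h0.ge]

theorem sf_ge_s_str_ok (hO : SfCyOk Y) (hs : c.W.Str (Y.tq c.p)) (hd : d.Ok) (hf : c.W.f (d.γ 0) ≤ d.f0) {g : ℝ} (hg : g ∈ d.G) (l : c.W.Lb (d.γ g)) :
    (Y.M.sys c.p).ok (d.ts g l) (c.W.k (d.γ g)) := by
  have hok := hs.ok _ (sf_ge_s_gam_mem d hd hg).1 l
  rcases (sf_ge_s_rg d hd hg).1.lt_or_eq with h0 | h0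
  · rw [sf_ge_s_ts_pos d h0]; exact hok
  · subst h0
    have hw := hs.width _ (sf_ge_s_g0 d hd) l
    rw [hO.ok] at hok ⊢
    rw [sf_ge_s_ts_root d hO le_rfl]
    obtain ⟨a1, a2, a3⟩ := hok
    rw [hw.2] at a2 a3
    exact ⟨a1, lt_of_lt_of_le a2 hf, a3.trans hf⟩

/-- **(C) the documented group experiment is structurally valid.** -/
theorem sf_ge_s_str (hO : SfCyOk Y) (hs : c.W.Str (Y.tq c.p)) (hd : d.Ok) {Λ ϰ : ℝ} (hΛ : 0 ≤ Λ) (hR : d.Root Λ ϰ) (hv : d.X.Valid)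
    (hb : ∀ i ∈ c.D.G, ∀ j ∈ c.D.G, i < j → ∀ ρ ρ', c.D.Conn i j ρ ρ' → c.D.T i ρ ≤ c.D.T j ρ' ∧ c.D.T j ρ' + c.D.len j ≤ c.D.T i ρ + c.D.len i)
    (hsp : ∀ i ∈ c.D.G, ∀ j ∈ c.D.G, ∀ k ∈ c.D.G, i < j → j < k → ∀ ρ ρ'', c.D.Conn i k ρ ρ'' → ∃ ρ', c.D.Conn i j ρ ρ' ∧ c.D.Conn j k ρ' ρ'')
    (hq : d.Q0.r = c.W.r d.j ∧ d.Q0.f = c.W.f d.j) : d.W.Str (Y.tq c.p) := by
  have hf0 : 0 < c.W.f (d.γ 0) := (hs.frame.2.2 _ (sf_ge_s_g0 d hd)).2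
  have hf0' : c.W.f (d.γ 0) ≤ d.f0 := by
    have := hR.wid.1
    nlinarith
  have n10 : ¬ (1 : ℝ) ≤ 0 := by norm_num
  refine ⟨hv, ⟨sf_ge_s_one_mem d hd, fun g hg => sf_ge_s_rg d hd hg⟩, ⟨(sf_ge_s_kf d hs hd).symm, ?_, ?_⟩, fun g hg => ⟨?_, ?_⟩, fun g1 h1 g2 h2 h => ⟨?_, ?_⟩,
    fun g hg h1 => sf_ge_s_str_stage d hs hd hR.disj hg h1, fun g hg h1 l x => sf_ge_s_str_th01 d hs hd hg h1 l.1 x, ?_,
    fun g hg l => sf_ge_s_str_meas d hs hd hR.meas hg l.1, fun g hg l => (l.2 hg).2, fun g => ?_, fun g hg l x => sf_ge_s_str_nn d hs hd hg l.1 x,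
    fun g hg m x => sf_ge_s_sum_le d hs hd hR.disj hg m x, fun g hg l x hx => sf_ge_s_str_supp d hO hs hd hΛ hR hg l.1 x hx, fun g hg l => ?_,
    fun g hg l => sf_ge_s_str_ok d hO hs hd hf0' hg l.1, fun g hg l => sf_ge_s_str_width d hO hs hd hg l.1, ?_, ?_, fun g hg => ⟨?_, ?_⟩⟩
  · show (if (1 : ℝ) ≤ 0 then 0 else c.W.pos (d.γ 1) - c.W.pos (d.γ 0)) = d.st.length
    rw [if_neg n10, sf_ge_s_st_len d hs hd]
  · show (if (1 : ℝ) ≤ 0 then d.b0 else c.W.gb (d.γ 1)) = c.W.gb (d.γ 1)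
    rw [if_neg n10]
  · exact sf_ge_s_str_k hs (sf_ge_s_g0 d hd) (sf_ge_s_gam_mem d hd hg).1 (sf_ge_s_gam_mem d hd hg).2.1
  · show c.W.k (d.γ g) ≤ d.X.kf
    rw [sf_ge_s_kf d hs hd]
    exact sf_ge_s_str_k hs (sf_ge_s_gam_mem d hd hg).1 (sf_ge_s_g1 d hd) (sf_ge_s_gam_mem d hd hg).2.2
  · exact sf_ge_s_str_k hs (sf_ge_s_gam_mem d hd h1).1 (sf_ge_s_gam_mem d hd h2).1 (sf_ge_s_gam_lt d hd h).le
  · exact sf_ge_s_str_pos d hs hd h1 h2 h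
  · refine ⟨Fintype.equivFin (d.Lb 1), fun l => ?_⟩
    have e : ∀ l : d.Lb 1, (Fintype.equivFin (d.Lb 1)).symm (Fintype.equivFin (d.Lb 1) l) = l := fun l => Equiv.symm_apply_apply _ l
    exact ⟨congrArg (fun l : d.Lb 1 => c.W.iv (d.γ 1) l.1) (e l), congrArg (fun l : d.Lb 1 => d.ts 1 l.1) (e l), congrArg (fun l : d.Lb 1 => d.th 1 l.1) (e l)⟩
  · by_cases hg : g ∈ d.G
    · obtain ⟨l, hl⟩ := sf_ge_s_kept d hs hd hb hsp hR.ne hg
      exact ⟨⟨l, fun _ => hl⟩⟩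
    · obtain ⟨l⟩ := hs.lb_ne (d.γ g)
      exact ⟨⟨l, fun h => absurd h hg⟩⟩
  · show c.W.iv (d.γ g) l.1 ∈ ivs (c.W.k (d.γ 0)) d.m0 (c.W.k (d.γ g))
    rw [gn_mem_ivs]
    exact (l.2 hg).1
  · show d.Q0.r = c.W.r (d.γ 1)
    rw [sf_ge_gam1]; exact hq.1
  · show d.Q0.f = (if (1 : ℝ) ≤ 0 then d.f0 else c.W.f (d.γ 1))
    rw [if_neg n10, sf_ge_gam1]; exact hq.2
  · exact (hs.frame.2.2 _ (sf_ge_s_gam_mem d hd hg).1).1
  · show 0 < (if g ≤ 0 then d.f0 else c.W.f (d.γ g))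
    split_ifs
    · exact lt_of_lt_of_le hf0 hf0'
    · exact (hs.frame.2.2 _ (sf_ge_s_gam_mem d hd hg).1).2

end Claimed.Agent.R256
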