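import Claimed.Agent.R256.Soft.MGaCmpS
import Claimed.Agent.R256.Soft.MGeStr
import Claimed.Agent.R255.Ent.Basic

/-!
# Row 256 (S0496), unit SOFT, block M6 GE, sub-block SEL, file 5: ENERGY, REGULARITY, COUNTS OF ONE GROUP;  THE THREE SUMS OVER THE FAMILY      (architect helper169; prefix `sf_ga_`)

ONE GROUP `d : SfGeD c` (root carrier through `d.Car S0 ϰ`, `Soft/MGaCmpS.lean`):
 RAW    `‖psi‖² ≤ raw ≤ pr(S0 ∧ chn) tot_i`, `raw ≤ ‖pre γ0 m0‖²`          PRE   `‖pre γ0 m0‖² ≤ s^-α e s^(-d i)`, `≤ e`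
 REG    `psi` is `Cr s^-α κ s^(p i)`-regular (`Mdl.Rep`)                     EBD   `raw ≤ κ_i wt Q` if the chain atoms lie in `Q`          ERAW  the mass of `SfGeSelC.eraw` is `raw d.S0`
 CNT    the weight count of the kept labels of a new gate `≤ 4 Λ gaCnt`       TW, LW   total weight and number of labels of `d.X`
THE FAMILY (cover form, `U b = sfGeU D i Ub b`):
 F0     `s^α - s^(1/α) ≤ Σ_b pr(U b)`      F3   `Σ_b pr(chn_b at i) ≤ s^-α`      F4   `Σ_b gaCnt (U b) k ≤ s^-α Σ_l wt`      FB   `w ≤ gaCnt (U b) j`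
 WLOW   the weights of the labels are polynomial
-/

set_option autoImplicit false

namespace Claimed.Agent.R256

open MeasureTheory Claimed.Agent.R255

variable {Y : SfCy}

/-- the mass read at the gate `g` by the rows of `S0` on chains to `U` -/
noncomputable def SfCfg.gaEnS {de : ℝ} (c : SfCfg Y de) (S0 U : c.D.Rw → Prop) (g : ℝ) : ℝ :=
  (c.D.P g).pr (fun ρ => S0 ⟨g, ρ⟩ ∧ c.D.chnU U ⟨g, ρ⟩) * c.W.tot g

theorem sf_ga_fam_eqns_cite : True := by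
  have := @SfCfg.gaEnS.eq_1
  trivial

/-! ## 1. One group -/

section

variable {de : ℝ} {c : SfCfg Y de} (d : SfGeD c)

/-- **(LEAF L-256-GA-RAW)** PLAN: `γ0 = d.γ 0 ∈ G` (`sf_ga_gates`).   `d.psi = c.synR γ0 (d.rS S0) d.m0` (`hcar.psi`, `SfCfg.synR`: `rfl`); (1) `sf_core_synR_le`.   (2) `SfGeD.raw`, `SfCfg.rdE`, `gn_en_nonneg`, `sf_core_wS_mask`.
(3) `sf_core_rdE_law`: `raw = ∑ ρ, if rS ρ ∧ im ρ = m0 then p ρ * tot else 0 ≤ ∑ ρ, if rS ρ then p ρ * tot else 0 = pr (rS) * tot` (`FLaw.pr`, `Finset.sum_mul`, `Finset.sum_le_sum`, `FLaw.nonneg`, `0 ≤ tot`: `SfMD.tot`, `SfMD.m`, `gn_en_nonneg`, `Str.nn`);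
`d.rS S0 ρ` IS `S0 ⟨γ0, ρ⟩ ∧ c.D.chnU d.U ⟨γ0, ρ⟩` (`Iff.rfl`).   (4) `gn_en_le hT`. -/
theorem sf_ga_raw (hs : c.W.Str (Y.tq c.p)) (hT : (Y.M.sys c.p).Tight) (hok : d.Ok) (S0 : c.D.Rw → Prop) (ϰ : ℝ) (hcar : d.Car S0 ϰ) :
    ‖d.psi‖ ^ 2 ≤ d.raw S0 ∧ 0 ≤ d.raw S0 ∧ d.raw S0 ≤ c.gaEnS S0 d.U (d.γ 0) ∧ d.raw S0 ≤ ‖c.W.pre (d.γ 0) d.m0‖ ^ 2 := by
  classical
  have hg := (sf_ga_gates d hok).1
  have hM := sf_core_wS_mask c hs _ hg (d.rS S0) d.m0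
  have htot : 0 ≤ c.W.tot (d.γ 0) := by
    unfold SfMD.tot SfMD.m
    exact Finset.sum_nonneg fun l _ => gn_en_nonneg _ _ _ (fun x => hs.nn _ hg l x) _
  refine ⟨?_, ?_, ?_, ?_⟩
  · rw [hcar.psi]
    exact sf_core_synR_le c hs hT _ hg (d.rS S0) d.m0
  · exact gn_en_nonneg _ _ _ (fun x => (hM.2 x).1) _
  · unfold SfGeD.raw SfCfg.gaEnS
    rw [sf_core_rdE_law c hs _ hg]
    unfold FLaw.pr
    rw [Finset.sum_mul]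
    refine Finset.sum_le_sum fun ρ _ => ?_
    have hp : 0 ≤ (c.D.P (d.γ 0)).p ρ * c.W.tot (d.γ 0) := mul_nonneg ((c.D.P _).nonneg ρ) htot
    by_cases h : d.rS S0 ρ
    · have h' : S0 ⟨d.γ 0, ρ⟩ ∧ c.D.chnU d.U ⟨d.γ 0, ρ⟩ := h
      rw [if_pos h']
      split_ifs
      · exact le_rfl
      · exact hp
    · rw [if_neg (fun hc => h hc.1)]
      split_ifs
      · exact hp
      · rw [zero_mul]
  · exact gn_en_le hT _ _ _ hM _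

/-- **(LEAF L-256-GA-PRE)** PLAN: `d.m0 ∈ c.W.ivs γ0` (`sf_ge_s_m0`).   (1) `Finset.single_le_sum` in `hext.en γ0 _`.   (2) `SfMD.pre`, `gn_run_norm_le` (`StM` of `E.st.take _`: `gn_valid_stm`, `List.mem_of_mem_take`), `Valid.budget`, `pow_le_pow_left₀`. -/
theorem sf_ga_pre (hT : (Y.M.sys c.p).Tight) (pe Ls α : ℝ) (hext : SfMD.Ext Y c.p c.W pe de Ls c.ε α) (hok : d.Ok) :
    ‖c.W.pre (d.γ 0) d.m0‖ ^ 2 ≤ c.W.E.s ^ (-α) * c.W.E.e * c.W.E.s ^ (-(de * d.γ 0)) ∧ ‖c.W.pre (d.γ 0) d.m0‖ ^ 2 ≤ c.W.E.e := by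
  have hs := hext.str
  have hg0 := (sf_ga_gates d hok).1
  have hm0 := sf_ge_s_m0 d hs hok
  constructor
  · refine le_trans ?_ (hext.en (d.γ 0) hg0)
    exact Finset.single_le_sum (f := fun m => ‖c.W.pre (d.γ 0) m‖ ^ 2) (fun m _ => sq_nonneg _) hm0
  · refine le_trans ?_ hs.valid.budget
    refine pow_le_pow_left₀ (norm_nonneg _) ?_ 2
    unfold SfMD.pre
    exact gn_run_norm_le hT _ _ _ (fun σ hσ => gn_valid_stm c.W.E hs.valid σ (List.mem_of_mem_take hσ)) _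

/-- **(LEAF L-256-GA-EBD)** PLAN: `raw = en .. (wS γ0 (rS S0) m0) (pre γ0 m0) ≤ ms .. (aS γ0 (rS S0) m0) ..` (`gn_en_le_ms`, `sf_core_wS_mask`, `sf_core_wS_supp`, `sf_core_aS_meas`) `≤ ms .. (cell Q ..) ..` (`gn_ms_mono`, `Tight.cellM`):
`aS γ0 (rS S0) m0 ⊆ aS γ0 (chn) m0 = d.gS γ0 m0` (`SfCfg.aS`, `Set.iUnion` monotone; `sf_ga_gS` with `d.bel γ0 m0` by `gn_anc_self`) `⊆ cell Q`;   `hreg Q hQ`. -/
theorem sf_ga_ebd (hs : c.W.Str (Y.tq c.p)) (hT : (Y.M.sys c.p).Tight) (hok : d.Ok) (S0 : c.D.Rw → Prop) (hS0 : ∀ u, S0 u → d.S0 u) (κ : ℝ)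
    (hreg : (Y.M.sys c.p).Reg (tmL (c.W.k (d.γ 0)) d.m0) (c.W.k (d.γ 0)) (c.W.gb (d.γ 0)) κ (c.W.pre (d.γ 0) d.m0))
    (Q : (Y.M.sys c.p).Tst) (hQ : (Y.M.sys c.p).ok Q (c.W.k (d.γ 0))) (hsub : d.gS (d.γ 0) d.m0 ⊆ (Y.M.sys c.p).cell Q (tmL (c.W.k (d.γ 0)) d.m0) (c.W.k (d.γ 0))) :
    d.raw S0 ≤ κ * (Y.M.sys c.p).wt Q := by
  obtain ⟨h0, -, -⟩ := sf_ga_gates d hok
  have hbel : d.bel (d.γ 0) d.m0 := by
    unfold SfGeD.bel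
    exact gn_anc_self _ _
  have hsub1 : c.aS (d.γ 0) (d.rS S0) d.m0 ⊆ d.gS (d.γ 0) d.m0 := by
    rw [sf_ga_gS d _ _ hbel]
    intro x hx
    unfold SfCfg.aS at hx ⊢
    simp only [Set.mem_iUnion, exists_prop] at hx ⊢
    obtain ⟨ρ, ⟨hS, him⟩, hxa⟩ := hx
    exact ⟨ρ, ⟨⟨hS.2, fun _ => hS0 _ hS.1⟩, him⟩, hxa⟩
  have hm := sf_core_aS_meas c _ h0 (d.rS S0) d.m0
  calc d.raw S0 ≤ (Y.M.sys c.p).ms (tmL (c.W.k (d.γ 0)) d.m0) (c.W.k (d.γ 0)) (c.W.gb (d.γ 0)) (c.aS (d.γ 0) (d.rS S0) d.m0) (c.W.pre (d.γ 0) d.m0) :=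
        gn_en_le_ms _ _ _ (sf_core_wS_mask c hs _ h0 _ _) hm (sf_core_wS_supp c _ _ _) _
    _ ≤ (Y.M.sys c.p).ms (tmL (c.W.k (d.γ 0)) d.m0) (c.W.k (d.γ 0)) (c.W.gb (d.γ 0))
          ((Y.M.sys c.p).cell Q (tmL (c.W.k (d.γ 0)) d.m0) (c.W.k (d.γ 0))) (c.W.pre (d.γ 0) d.m0) :=
        gn_ms_mono _ _ _ hm (hT.cellM _ _ _) (hsub1.trans hsub) _
    _ ≤ κ * (Y.M.sys c.p).wt Q := hreg Q hQ

/-- **(LEAF L-256-GA-ERAW)**   PLAN: as in `sf_ga_car`: `(d.gS γ0 m0).indicator (gM γ0 m0) = wS γ0 (d.rS d.S0) m0` (`sf_ga_gS`, `gn_anc_self`, `sf_ga_mask`, `sf_ga_rS`); `SfGeD.raw`, `SfCfg.rdE`: `rfl`. -/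
theorem sf_ga_eraw (hs : c.W.Str (Y.tq c.p)) (hok : d.Ok) :
    (Y.M.sys c.p).en (tmL (c.W.k (d.γ 0)) d.m0) (c.W.k (d.γ 0)) (c.W.gb (d.γ 0)) ((d.gS (d.γ 0) d.m0).indicator (c.W.gM (d.γ 0) d.m0)) (c.W.pre (d.γ 0) d.m0)
      = d.raw d.S0 := by
  obtain ⟨h0, h1, h01⟩ := sf_ga_gates d hok
  have hg1 : d.γ 0 < 1 := lt_of_lt_of_le h01 (hs.gate.2 _ h1).2
  have hbel : d.bel (d.γ 0) d.m0 := by
    unfold SfGeD.bel
    exact gn_anc_self _ _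
  have hrS : d.rS d.S0 = fun ρ => d.chn ⟨d.γ 0, ρ⟩ := sf_ga_rS d
  have hmask : (d.gS (d.γ 0) d.m0).indicator (c.W.gM (d.γ 0) d.m0) = c.wS (d.γ 0) (d.rS d.S0) d.m0 := by
    rw [sf_ga_gS d _ _ hbel, sf_ga_mask c hs _ h0 hg1, hrS]
  rw [hmask]
  rfl

/-- the weight of a new test against the weight of the old test -/
theorem sf_ga_cnt_wt (hO : SfCyOk Y) (hs : c.W.Str (Y.tq c.p)) (hT : (Y.M.sys c.p).Tight) (hok : d.Ok) (hη : 0 < Y.η ∧ Y.η < 1) (Λ : ℝ) (hΛ : 1 ≤ Λ)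
    (hwid : 0 < d.f0 ∧ d.f0 ≤ 4 * Λ * c.W.f (d.γ 0)) (g' : ℝ) (hg : g' ∈ d.G) (l : c.W.Lb (d.γ g')) :
    (Y.M.sys c.p).wt (d.ts g' l) ≤ 4 * Λ * (Y.M.sys c.p).wt (c.W.ts (d.γ g') l) := by
  obtain ⟨hgG, -, -⟩ := sf_ge_s_gam_mem d hok hg
  obtain ⟨hg0, -⟩ := sf_ge_s_rg d hok hg
  have hwt : 0 < (Y.M.sys c.p).wt (c.W.ts (d.γ g') l) := hT.wt_pos _ _ (hs.ok _ hgG l)
  have hΛ4 : (1 : ℝ) ≤ 4 * Λ := by linarith
  rcases hg0.lt_or_eq with hpos | hz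
  · rw [sf_ge_s_ts_pos d hpos l]
    exact le_mul_of_one_le_left hwt.le hΛ4
  · subst hz
    have e1 := sf_ge_s_ts_root d hO le_rfl l
    obtain ⟨hr, hf⟩ := hs.width _ hgG l
    obtain ⟨hr0, hf0⟩ := hs.frame.2.2 _ hgG
    rw [hO.wt, hO.wt, e1]
    unfold cyWt
    simp only
    rw [hr, hf]
    have hη1 : 0 ≤ 1 - Y.η := by linarith [hη.2]
    have a1 : d.f0 ^ (1 - Y.η) ≤ 4 * Λ * c.W.f (d.γ 0) ^ (1 - Y.η) := by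
      calc d.f0 ^ (1 - Y.η) ≤ (4 * Λ * c.W.f (d.γ 0)) ^ (1 - Y.η) := Real.rpow_le_rpow hwid.1.le hwid.2 hη1
        _ = (4 * Λ) ^ (1 - Y.η) * c.W.f (d.γ 0) ^ (1 - Y.η) := Real.mul_rpow (by linarith) hf0.le
        _ ≤ (4 * Λ) ^ (1 : ℝ) * c.W.f (d.γ 0) ^ (1 - Y.η) :=
            mul_le_mul_of_nonneg_right (Real.rpow_le_rpow_of_exponent_le hΛ4 (by linarith [hη.1])) (Real.rpow_nonneg hf0.le _)
        _ = 4 * Λ * c.W.f (d.γ 0) ^ (1 - Y.η) := by rw [Real.rpow_one]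
    calc c.W.r (d.γ 0) ^ (3 + Y.η) * d.f0 ^ (1 - Y.η) ≤ c.W.r (d.γ 0) ^ (3 + Y.η) * (4 * Λ * c.W.f (d.γ 0) ^ (1 - Y.η)) :=
          mul_le_mul_of_nonneg_left a1 (Real.rpow_nonneg hr0.le _)
      _ = 4 * Λ * (c.W.r (d.γ 0) ^ (3 + Y.η) * c.W.f (d.γ 0) ^ (1 - Y.η)) := by ring

/-- a kept label carries a row on a chain -/
theorem sf_ga_cnt_row (g' : ℝ) (l : c.W.Lb (d.γ g')) (hk : d.Kept g' l) : ∃ ρ, c.D.chnU d.U ⟨d.γ g', ρ⟩ ∧ c.sh.lb (d.γ g') ρ = l := by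
  obtain ⟨-, x, hx⟩ := hk
  rcases lt_or_ge 0 g' with hpos | hle
  · rw [sf_ge_s_th_pos d hpos l] at hx
    have hm : x ∈ d.lS (d.γ g') l := by
      by_contra hn
      exact hx (Set.indicator_of_notMem hn _)
    unfold SfGeD.lS at hm
    simp only [Set.mem_iUnion, exists_prop] at hm
    obtain ⟨ρ, ⟨h1, h2⟩, -⟩ := hm
    exact ⟨ρ, h1.1, h2⟩
  · rw [sf_ge_s_th_root d hle l] at hx
    have hm : x ∈ d.lN (d.γ g') l := by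
      by_contra hn
      exact hx (Set.indicator_of_notMem hn _)
    unfold SfGeD.lN at hm
    simp only [Set.mem_iUnion, exists_prop] at hm
    obtain ⟨ρ, ⟨h1, h2⟩, -⟩ := hm
    exact ⟨ρ, h1.1, h2⟩

theorem sf_ga_cnt_sum {α : Type} [Fintype α] (p : α → Prop) (inst : Fintype {a // p a}) (f F : α → ℝ) (hF : ∀ a, 0 ≤ F a) (h : ∀ a, p a → f a ≤ F a) :
    ∑ a : {a // p a}, f a.1 ≤ ∑ a, F a := by
  classical
  calc ∑ a : {a // p a}, f a.1 ≤ ∑ a : {a // p a}, F a.1 := Finset.sum_le_sum fun a _ => h a.1 a.2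
    _ = ∑ x ∈ (Finset.univ : Finset {a // p a}).image (fun a => a.1), F x := by
        rw [Finset.sum_image fun a _ b _ hab => Subtype.ext hab]
    _ ≤ ∑ a, F a := Finset.sum_le_sum_of_subset_of_nonneg (Finset.subset_univ _) fun a _ _ => hF a

theorem sf_ga_cnt_num {r f f0 η Λ : ℝ} (hr : 0 < r) (hf : 0 < f) (hη : 0 < η ∧ η < 1) (hΛ : 1 ≤ Λ) (h0 : 0 < f0) (h1 : f0 ≤ 4 * Λ * f) :
    r ^ (3 + η) * f0 ^ (1 - η) ≤ 4 * Λ * (r ^ (3 + η) * f ^ (1 - η)) := by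
  have e0 : (0 : ℝ) ≤ 1 - η := by linarith [hη.2]
  have hL : (1 : ℝ) ≤ 4 * Λ := by linarith
  have a1 : f0 ^ (1 - η) ≤ (4 * Λ * f) ^ (1 - η) := Real.rpow_le_rpow h0.le h1 e0
  have a2 : (4 * Λ * f) ^ (1 - η) = (4 * Λ) ^ (1 - η) * f ^ (1 - η) := Real.mul_rpow (by linarith) hf.le
  have a3 : (4 * Λ) ^ (1 - η) ≤ 4 * Λ := by
    calc (4 * Λ) ^ (1 - η) ≤ (4 * Λ) ^ (1 : ℝ) := Real.rpow_le_rpow_of_exponent_le hL (by linarith [hη.1])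
      _ = 4 * Λ := Real.rpow_one _
  have hr0 : 0 ≤ r ^ (3 + η) := (Real.rpow_pos_of_pos hr _).le
  have hf0 : 0 ≤ f ^ (1 - η) := (Real.rpow_pos_of_pos hf _).le
  calc r ^ (3 + η) * f0 ^ (1 - η) ≤ r ^ (3 + η) * ((4 * Λ) * f ^ (1 - η)) := by
        refine mul_le_mul_of_nonneg_left ?_ hr0
        rw [a2] at a1
        exact a1.trans (mul_le_mul_of_nonneg_right a3 hf0)
    _ = 4 * Λ * (r ^ (3 + η) * f ^ (1 - η)) := by ring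

/-- **(LEAF L-256-GA-CNT)** the weight count of the kept labels of a new gate.   PLAN: `g = d.γ g' ∈ G` (`sf_ge_s_gam_mem`), `0 ≤ g'` (`sf_ge_s_rg`); weights `> 0` (`Tight.wt_pos`, `Str.ok`).   `F l := wt (d.ts g' l)`.
A kept label carries a row on a chain: `Kept g' l` gives `x` with `d.th g' l x ≠ 0`; `0 < g'`: `sf_ge_s_th_pos`, `x ∈ d.lS g l`; `g' ≤ 0`: `sf_ge_s_th_root`, `x ∈ d.lN g l`; in both cases (`SfGeD.lS`, `SfGeD.lN`, `Set.mem_iUnion`) `∃ ρ, d.chn ⟨g, ρ⟩ ∧ lb g ρ = l`.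
`∑ l : d.Lb g', F l.1 ≤ ∑ l : Lb g, if (∃ ρ, ..) then F l else 0`: `Finset.sum_subtype`/`Finset.sum_coe_sort`-type argument or: the map `l ↦ l.1` is injective (`Subtype.val_injective`), `Finset.sum_image`/`Finset.sum_map`, `Finset.sum_le_sum_of_subset_of_nonneg`, `Finset.sum_filter`.
`0 < g'`: `F l = wt (c.W.ts g l)` (`sf_ge_s_ts_pos`), and `1 ≤ 4 Λ`.   `g' ≤ 0`: `sf_ge_s_ts_root hO`: `tq (d.ts g' l) = {tq (ts g l) with f := d.f0}`; `hO.wt`, `cyWt`: `wt (d.ts g' l) = r^(3+η) f0^(1-η)`, `wt (ts g l) = r^(3+η) f^(1-η)`, `f = c.W.f g` (`Str.width`), `g = d.γ 0` (`g' = 0`);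
`f0^(1-η) ≤ (4 Λ f)^(1-η) = (4Λ)^(1-η) f^(1-η) ≤ 4 Λ f^(1-η)` (`Real.rpow_le_rpow`, `Real.mul_rpow`, `Real.rpow_le_self_of_one_le`/`Real.rpow_le_rpow_of_exponent_le` with `1 ≤ 4Λ`, `1 - η ≤ 1`). -/
theorem sf_ga_cnt (hO : SfCyOk Y) (hs : c.W.Str (Y.tq c.p)) (hT : (Y.M.sys c.p).Tight) (hok : d.Ok) (hη : 0 < Y.η ∧ Y.η < 1) (Λ : ℝ) (hΛ : 1 ≤ Λ)
    (hwid : 0 < d.f0 ∧ d.f0 ≤ 4 * Λ * c.W.f (d.γ 0)) (g' : ℝ) (hg : g' ∈ d.G) :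
    ∑ l : d.Lb g', (Y.M.sys c.p).wt (d.ts g' l.1) ≤ 4 * Λ * c.gaCnt d.U (d.γ g') := by
  classical
  obtain ⟨hgG, -, -⟩ := sf_ge_s_gam_mem d hok hg
  have hwt : ∀ l : c.W.Lb (d.γ g'), 0 < (Y.M.sys c.p).wt (c.W.ts (d.γ g') l) := fun l => hT.wt_pos _ _ (hs.ok _ hgG l)
  obtain ⟨F, hF⟩ : ∃ F : c.W.Lb (d.γ g') → ℝ, ∀ l, F l = if (g' ∈ d.G → d.Kept g' l) then (Y.M.sys c.p).wt (d.ts g' l) else 0 := ⟨_, fun _ => rfl⟩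
  have e1 : ∑ l : d.Lb g', (Y.M.sys c.p).wt (d.ts g' l.1) = ∑ l : d.Lb g', F l.1 := by
    refine Finset.sum_congr rfl fun l _ => ?_
    rw [hF, if_pos l.2]
  rw [e1, sf_ge_s_sum_lb d g' F (fun l hl => by rw [hF, if_neg hl])]
  unfold SfCfg.gaCnt
  rw [Finset.mul_sum]
  refine Finset.sum_le_sum fun l _ => ?_
  rw [hF]
  by_cases hk : (g' ∈ d.G → d.Kept g' l)
  · rw [if_pos hk, if_pos (sf_ga_cnt_row d g' l (hk hg))]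
    exact sf_ga_cnt_wt d hO hs hT hok hη Λ hΛ hwid g' hg l
  · rw [if_neg hk]
    split_ifs
    · exact mul_nonneg (by linarith) (hwt l).le
    · simp

/-- a sum over an injective image -/
theorem sf_ga_tw_inj {α β : Type} [Fintype α] [Fintype β] (v : β → α) (hv : Function.Injective v) (F : α → ℝ) (hF : ∀ a, 0 ≤ F a) :
    ∑ b, F (v b) ≤ ∑ a, F a := by
  classical
  calc ∑ b, F (v b) = ∑ a ∈ Finset.univ.map ⟨v, hv⟩, F a := by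
        rw [Finset.sum_map]
        rfl
    _ ≤ ∑ a, F a := Finset.sum_le_sum_of_subset_of_nonneg (Finset.subset_univ _) (fun a _ _ => hF a)

/-- the total weight of the group experiment as a sum over the kept labels -/
theorem sf_ga_tw_eq : d.X.tw = ∑ l : d.Lb 1, (Y.M.sys c.p).wt (c.W.ts (d.γ 1) l.1) := by
  unfold Xp.tw Xp.w
  have e : ∀ a : Fin d.X.L, (Y.M.sys c.p).wt (d.X.ts a) = (Y.M.sys c.p).wt (c.W.ts (d.γ 1) ((Fintype.equivFin (d.Lb 1)).symm a).1) := by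
    intro a
    show (Y.M.sys c.p).wt (d.ts 1 ((Fintype.equivFin (d.Lb 1)).symm a).1) = _
    rw [sf_ge_s_ts_pos d one_pos]
  rw [Finset.sum_congr rfl (fun a _ => e a)]
  exact Equiv.sum_comp (Fintype.equivFin (d.Lb 1)).symm (fun l : d.Lb 1 => (Y.M.sys c.p).wt (c.W.ts (d.γ 1) l.1))

/-- **(LEAF L-256-GA-TW)** total weight and number of labels of the group experiment.   PLAN: `Xp.tw`, `Xp.w`; `d.X.ts a = d.ts 1 (e.symm a).1 = c.W.ts γ1 (e.symm a).1` (`sf_ge_s_ts_pos one_pos`); `Equiv.sum_comp`: `tw = ∑ l : d.Lb 1, wt (c.W.ts γ1 l.1)`.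
(1) as in `sf_ga_cnt` (case `0 < g'`, without the factor).   (2) `∑ l : d.Lb 1, w ≤ tw` (`Finset.sum_le_sum`, `Finset.sum_const`, `Finset.card_univ`, `d.X.L = Fintype.card (d.Lb 1)`: `rfl`, `nsmul_eq_mul`). -/
theorem sf_ga_tw (hs : c.W.Str (Y.tq c.p)) (hT : (Y.M.sys c.p).Tight) (hok : d.Ok) (w : ℝ) (hw : ∀ l : c.W.Lb (d.γ 1), w ≤ (Y.M.sys c.p).wt (c.W.ts (d.γ 1) l)) :
    d.X.tw ≤ c.gaCnt d.U (d.γ 1) ∧ (d.X.L : ℝ) * w ≤ d.X.tw := by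
  classical
  have hg1 : d.γ 1 ∈ c.W.G := (sf_ga_gates d hok).2.1
  have h1G : (1 : ℝ) ∈ d.G := sf_ga_one_mem d hok
  have hpos : ∀ l : c.W.Lb (d.γ 1), 0 ≤ (Y.M.sys c.p).wt (c.W.ts (d.γ 1) l) := fun l => (hT.wt_pos _ _ (hs.ok _ hg1 l)).le
  rw [sf_ga_tw_eq]
  constructor
  · unfold SfCfg.gaCnt
    have hkept : ∀ l : d.Lb 1, ∃ ρ, c.D.chnU d.U ⟨d.γ 1, ρ⟩ ∧ c.sh.lb (d.γ 1) ρ = l.1 := by
      intro l
      obtain ⟨-, x, hx⟩ := l.2 h1G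
      rw [sf_ge_s_th_pos d one_pos] at hx
      have hxm : x ∈ d.lS (d.γ 1) l.1 := by
        by_contra hn
        exact hx (Set.indicator_of_notMem hn _)
      unfold SfGeD.lS at hxm
      simp only [Set.mem_iUnion] at hxm
      obtain ⟨ρ, hρ, -⟩ := hxm
      exact ⟨ρ, hρ.1.1, hρ.2⟩
    have hinj : Function.Injective (fun l : d.Lb 1 => l.1) := fun a b h => Subtype.ext h
    have key := sf_ga_tw_inj (fun l : d.Lb 1 => l.1) hinj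
      (fun l : c.W.Lb (d.γ 1) => if ∃ ρ, c.D.chnU d.U ⟨d.γ 1, ρ⟩ ∧ c.sh.lb (d.γ 1) ρ = l then (Y.M.sys c.p).wt (c.W.ts (d.γ 1) l) else 0)
      (fun l => by
        split_ifs
        · exact hpos l
        · exact le_rfl)
    refine le_trans (le_of_eq ?_) (le_trans key (le_of_eq ?_))
    · refine Finset.sum_congr rfl fun l _ => ?_
      rw [if_pos (hkept l)]
    · refine Finset.sum_congr rfl fun l _ => ?_
      congr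
  · have e : (d.X.L : ℝ) * w = ∑ _l : d.Lb 1, w := by
      rw [Finset.sum_const, Finset.card_univ, nsmul_eq_mul]
      rfl
    rw [e]
    exact Finset.sum_le_sum fun l _ => hw l.1

end

/-- **(LEAF L-256-GA-REG)** the root state of a group is regular.   PLAN: `obtain ⟨Cr, h1, hrep⟩ := hE.gen.rep (S + 1)`.   `hs := hin.ob.2.2.1`, `gd` by `hO.af`, `Tight` by `hE.gen.tight`.   `d.psi = c.synR γ0 (d.rS S0) d.m0` (`hcar.psi`).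
`(sf_core_xp_tail_st c hs hT hgd (S + 1) Cr κ (hrep) γ0 _ (by gb γ0 ≤ S: sf_core_gb_le) (d.rS S0) d.m0 hreg).2` with `κ = s^(-α) ka s^(p γ0)`, `hreg = hin.ext.reg γ0 _ d.m0 (sf_ge_s_m0 ..)`; `d.b0 = gb γ0 + 1` (`rfl`); `d.γ 0 = d.i` (`sf_ga_g0`). -/
theorem sf_ga_reg (hO : SfCyOk Y) (π : SfPar) (Ls : ℝ) (hE : SfCoreHyp Y π) (S : ℕ) :
    ∃ Cr : ℝ, 1 ≤ Cr ∧ ∀ (c : SfCfg Y π.d) (C0 α ϰ : ℝ) (d : SfGeD c) (S0 : c.D.Rw → Prop), SfGeIn Y π Ls c S C0 α → d.Ok → d.Car S0 ϰ →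
      (Y.M.sys c.p).Reg (tmL (c.W.k (d.γ 0)) d.m0) (c.W.k (d.γ 0)) d.b0 (Cr * (c.W.E.s ^ (-α) * c.W.E.ka * c.W.E.s ^ (π.p * d.i))) d.psi := by
  obtain ⟨Cr, h1, hrep⟩ := hE.gen.rep (S + 1)
  refine ⟨Cr, h1, ?_⟩
  intro c C0 α ϰ d S0 hin hok hcar
  have hs := hin.ob.2.2.1
  have hgd : Y.M.gd c.p := (hO.af S c.A c.p c.W.E c.W.Q0 hin.ob.2.1).1
  have hT := hE.gen.tight c.p hgd
  have hg0 : d.γ 0 ∈ c.W.G := (sf_ga_gates d hok).1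
  have hreg := hin.ext.reg (d.γ 0) hg0 d.m0 (sf_ge_s_m0 d hs hok)
  have hgb : c.W.gb (d.γ 0) + 1 ≤ S + 1 := Nat.succ_le_succ (sf_core_gb_le c S hin.ob (d.γ 0) hg0)
  have key := (sf_core_xp_tail_st c hs hT hgd (S + 1) Cr _ hrep (d.γ 0) hg0 hgb (d.rS S0) d.m0 hreg).2
  have e : d.psi = c.synR (d.γ 0) (d.rS S0) d.m0 := hcar.psi
  rw [e, ← sf_ga_g0 d]
  exact key

/-- **(LEAF L-256-GA-WLOW)** the weights of the labels are polynomial.   PLAN: `hs := hin.ob.2.2.1`; `hO.af` on `hin.ob.2.1`: `0 < Q0.r, Q0.f`, `e ≤ s^(-S) (ka cyWt η Q0)`, so `s^S (e / ka) ≤ cyWt η Q0`.   `wt (ts g l) = cyWt η (tq (ts g l)) = (W.r g)^(3+η) (W.f g)^(1-η)` (`hO.wt`, `Str.width`, `cyWt`).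
`D.r g = W.r g / Q0.r`, `D.f g = W.f g / Q0.f` (`c.sh.hr`, `hf`), `D.r 1 = D.f 1 = 1` (`Core.hw`), `D.s = s` (`c.sh.hs`), `D.G = W.G`.   `g < 1`: `hin.good.2.wr g _ 1 _ _`: `s^(Ls (1-g) + α) ≤ D.r g`, `≤ D.f g`; `g = 1`: `1`.   `Ls (1-g) + α ≤ |Ls| + 1`: `s^(|Ls|+1) ≤ D.r g, D.f g` (`gn_s_anti`).
`(W.r g)^(3+η) ≥ (s^(|Ls|+1) Q0.r)^(3+η)` (`Real.rpow_le_rpow`, `Real.mul_rpow`, `← Real.rpow_mul`), the same for `f` with `1 - η > 0` (`hE.par`: `π.η = Y.η`, `0 < η < 1`); exponents add up to `4 (|Ls| + 1)`. -/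
theorem sf_ga_wlow (hO : SfCyOk Y) (π : SfPar) (Ls : ℝ) (hE : SfCoreHyp Y π) (c : SfCfg Y π.d) (S : ℕ) (C0 α : ℝ) (hin : SfGeIn Y π Ls c S C0 α) (hα : α ≤ 1)
    (g : ℝ) (hg : g ∈ c.W.G) (l : c.W.Lb g) :
    c.W.E.s ^ ((S : ℝ) + 4 * |Ls| + 4) * (c.W.E.e / c.W.E.ka) ≤ (Y.M.sys c.p).wt (c.W.ts g l) := by
  have hs := hin.ob.2.2.1
  obtain ⟨-, hQr, hQf, -, hhi⟩ := hO.af S c.A c.p c.W.E c.W.Q0 hin.ob.2.1
  have hka := hs.valid.ka_pos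
  have hs0 : 0 < c.W.E.s := gn_s_pos _
  have hs1 : c.W.E.s ≤ 1 := gn_s_le_one _
  have hη0 : 0 < Y.η := by rw [← hE.par.2.1]; exact hE.par.1.1.1
  have hη1 : Y.η < 1 := by rw [← hE.par.2.1]; exact hE.par.1.1.2
  -- step 3
  have h3 : c.W.E.s ^ (S : ℝ) * (c.W.E.e / c.W.E.ka) ≤ cyWt Y.η c.W.Q0 := by
    have e1 : c.W.E.e / c.W.E.ka ≤ c.W.E.s ^ (-(S : ℝ)) * cyWt Y.η c.W.Q0 := by
      rw [div_le_iff₀ hka]
      calc c.W.E.e ≤ c.W.E.s ^ (-(S : ℝ)) * (c.W.E.ka * cyWt Y.η c.W.Q0) := hhi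
        _ = c.W.E.s ^ (-(S : ℝ)) * cyWt Y.η c.W.Q0 * c.W.E.ka := by ring
    calc c.W.E.s ^ (S : ℝ) * (c.W.E.e / c.W.E.ka) ≤ c.W.E.s ^ (S : ℝ) * (c.W.E.s ^ (-(S : ℝ)) * cyWt Y.η c.W.Q0) :=
          mul_le_mul_of_nonneg_left e1 (Real.rpow_nonneg hs0.le _)
      _ = cyWt Y.η c.W.Q0 := by
          rw [← mul_assoc, ← Real.rpow_add hs0, add_neg_cancel, Real.rpow_zero, one_mul]
  -- step 4
  have h4 : (Y.M.sys c.p).wt (c.W.ts g l) = c.W.r g ^ (3 + Y.η) * c.W.f g ^ (1 - Y.η) := by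
    rw [hO.wt]
    unfold cyWt
    rw [(hs.width g hg l).1, (hs.width g hg l).2]
  -- step 5
  have hgD : g ∈ c.D.G := by rw [c.sh.hG]; exact hg
  have h1D : (1 : ℝ) ∈ c.D.G := hin.good.1.gate.1
  have hg01 := hs.gate.2 g hg
  have ha0 : 0 ≤ |Ls| + 1 := by positivity
  have h5 : c.W.E.s ^ (|Ls| + 1) ≤ c.D.r g ∧ c.W.E.s ^ (|Ls| + 1) ≤ c.D.f g := by
    rcases lt_or_eq_of_le hg01.2 with hlt | heq
    · have hw := hin.good.2.wr g hgD 1 h1D hlt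
      rw [hin.good.1.hw.1, hin.good.1.hw.2.1, div_one, div_one, c.sh.hs] at hw
      have hexp : Ls * (1 - g) + α ≤ |Ls| + 1 := by
        have h1 : Ls * (1 - g) ≤ |Ls| * (1 - g) := mul_le_mul_of_nonneg_right (le_abs_self _) (by linarith)
        have h2 : |Ls| * (1 - g) ≤ |Ls| * 1 := mul_le_mul_of_nonneg_left (by linarith) (abs_nonneg _)
        linarith
      exact ⟨(gn_s_anti _ hexp).trans hw.1, (gn_s_anti _ hexp).trans hw.2.2.1⟩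
    · subst heq
      rw [hin.good.1.hw.1, hin.good.1.hw.2.1]
      have := Real.rpow_le_one hs0.le hs1 ha0
      exact ⟨this, this⟩
  -- step 6
  have h6r : c.W.E.s ^ (|Ls| + 1) * c.W.Q0.r ≤ c.W.r g := by
    have := h5.1
    rw [c.sh.hr g hg, le_div_iff₀ hQr] at this
    exact this
  have h6f : c.W.E.s ^ (|Ls| + 1) * c.W.Q0.f ≤ c.W.f g := by
    have := h5.2
    rw [c.sh.hf g hg, le_div_iff₀ hQf] at this
    exact this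
  have hsa : 0 ≤ c.W.E.s ^ (|Ls| + 1) := Real.rpow_nonneg hs0.le _
  -- step 7
  have h7r : c.W.E.s ^ ((|Ls| + 1) * (3 + Y.η)) * c.W.Q0.r ^ (3 + Y.η) ≤ c.W.r g ^ (3 + Y.η) := by
    rw [Real.rpow_mul hs0.le, ← Real.mul_rpow hsa hQr.le]
    exact Real.rpow_le_rpow (mul_nonneg hsa hQr.le) h6r (by linarith)
  have h7f : c.W.E.s ^ ((|Ls| + 1) * (1 - Y.η)) * c.W.Q0.f ^ (1 - Y.η) ≤ c.W.f g ^ (1 - Y.η) := by
    rw [Real.rpow_mul hs0.le, ← Real.mul_rpow hsa hQf.le]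
    exact Real.rpow_le_rpow (mul_nonneg hsa hQf.le) h6f (by linarith)
  rw [h4]
  have hprod := mul_le_mul h7r h7f (by positivity) (Real.rpow_nonneg ((mul_nonneg hsa hQr.le).trans h6r) _)
  refine le_trans ?_ hprod
  have e : c.W.E.s ^ ((|Ls| + 1) * (3 + Y.η)) * c.W.Q0.r ^ (3 + Y.η) * (c.W.E.s ^ ((|Ls| + 1) * (1 - Y.η)) * c.W.Q0.f ^ (1 - Y.η))
      = c.W.E.s ^ (4 * |Ls| + 4) * cyWt Y.η c.W.Q0 := by
    have : c.W.E.s ^ (4 * |Ls| + 4) = c.W.E.s ^ ((|Ls| + 1) * (3 + Y.η)) * c.W.E.s ^ ((|Ls| + 1) * (1 - Y.η)) := by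
      rw [← Real.rpow_add hs0]
      congr 1
      ring
    rw [this]
    unfold cyWt
    ring
  rw [e]
  have e2 : c.W.E.s ^ ((S : ℝ) + 4 * |Ls| + 4) = c.W.E.s ^ (4 * |Ls| + 4) * c.W.E.s ^ (S : ℝ) := by
    rw [← Real.rpow_add hs0]
    congr 1
    ring
  rw [e2, mul_assoc]
  exact mul_le_mul_of_nonneg_left h3 (Real.rpow_nonneg hs0.le _)

/-! ## 2. The family, cover form -/

/-- **(LEAF L-256-GA-F0)** operator free.   PLAN: `U0 ρ := (∃ b, Ub b ⟨j, ρ⟩) ∧ ¬ ∃ u : D.Rw, u.1 = i ∧ D.Conn u.1 j u.2 ρ`.   `hC.sp i _ j _ hij U0 (fun _ => False) _`: `pr U0 ≤ s^(-α) * (pr False)^(2/3) + s^(1/α) = s^(1/α)` (`FLaw.pr`, `if_neg`, `Finset.sum_const_zero`, `Real.zero_rpow`); `Pred`: `u = ⟨i, ρ⟩`.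
Pointwise (`FLaw.pr`, `Finset.sum_le_sum`, `Finset.sum_comm`): `[∃ b, Ub b ⟨j,ρ⟩] p ρ ≤ [U0 ρ] p ρ + ∑ b, [sfGeU D i Ub b ⟨j,ρ⟩] p ρ` (if `Ub b ⟨j,ρ⟩` and not `U0 ρ` then `sfGeU .. b ⟨j,ρ⟩`: `Finset.single_le_sum`).   `hcov.ub_mass`. -/
theorem sf_ga_f0 (D : SfDoc) (π : SfPar) (C0 α : ℝ) (hC : D.Core π C0 α) (i j : ℝ) (hij : i < j) (Gk : Finset ℝ) (ι : Type) [Fintype ι] (Sb Ub : ι → D.Rw → Prop)
    (hcov : SfGeCov D i j Gk ι Sb Ub α) : D.s ^ α - D.s ^ (1 / α) ≤ ∑ b, (D.P j).pr (fun ρ => sfGeU D i Ub b ⟨j, ρ⟩) := by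
  obtain ⟨U0, hU0⟩ : ∃ U0 : D.Row j → Prop, ∀ ρ, U0 ρ ↔ ((∃ b, Ub b ⟨j, ρ⟩) ∧ ¬ ∃ u : D.Rw, u.1 = i ∧ D.Conn u.1 j u.2 ρ) :=
    ⟨fun ρ => (∃ b, Ub b ⟨j, ρ⟩) ∧ ¬ ∃ u : D.Rw, u.1 = i ∧ D.Conn u.1 j u.2 ρ, fun _ => Iff.rfl⟩
  have hsp := hC.sp i hcov.gi j hcov.gj hij U0 (fun _ => False) (by
    intro ρ' hρ' ρ hc
    exact ((hU0 ρ').1 hρ').2 ⟨⟨i, ρ⟩, rfl, hc⟩)
  rw [ent_pr_false, Real.zero_rpow (by norm_num), mul_zero, zero_add] at hsp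
  have h1 : (D.P j).pr (fun ρ' => ∃ b, Ub b ⟨j, ρ'⟩) ≤ (D.P j).pr (fun ρ => U0 ρ ∨ ∃ b ∈ (Finset.univ : Finset ι), sfGeU D i Ub b ⟨j, ρ⟩) := by
    refine ent_pr_mono _ fun ρ _ hρ => ?_
    by_cases h : ∃ u : D.Rw, u.1 = i ∧ D.Conn u.1 j u.2 ρ
    · obtain ⟨b, hb⟩ := hρ
      exact Or.inr ⟨b, Finset.mem_univ b, hb, h⟩
    · exact Or.inl ((hU0 ρ).2 ⟨hρ, h⟩)
  have h2 := ent_pr_or_le (D.P j) U0 (fun ρ => ∃ b ∈ (Finset.univ : Finset ι), sfGeU D i Ub b ⟨j, ρ⟩)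
  have h3 := ent_pr_exists_le (D.P j) (Finset.univ : Finset ι) (fun b ρ => sfGeU D i Ub b ⟨j, ρ⟩)
  have h4 := hcov.ub_mass
  linarith

/-- **(LEAF L-256-GA-F3)** operator free.   PLAN: `FLaw.pr`, `Finset.sum_comm`: `∑ ρ, p ρ * #{b | chn_b ⟨i,ρ⟩}`;   `{b | D.chnU (sfGeU D i Ub b) ⟨i,ρ⟩} ⊆ {b | Sb b ⟨i,ρ⟩}`: `chnU`: `sfGeU .. b ⟨i,ρ⟩` is impossible (`ub_dep`: `i = j`), otherwise `v` with `Ub b v`, `Conn`: `sb_pred`;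
`∑ b, (if P b then x else 0) = (filter P univ).card * x` (`Finset.sum_ite`, `Finset.sum_const`), `Set.ncard_eq_toFinset_card'`, `Set.ncard_le_ncard` (`Set.toFinite`), `hcov.sb_ovl`;   `∑ ρ, p ρ = 1` (`FLaw.sum_one`), `FLaw.nonneg`. -/
theorem sf_ga_f3 (D : SfDoc) (α : ℝ) (i j : ℝ) (hij : i < j) (Gk : Finset ℝ) (ι : Type) [Fintype ι] (Sb Ub : ι → D.Rw → Prop) (hcov : SfGeCov D i j Gk ι Sb Ub α) :
    ∑ b, (D.P i).pr (fun ρ => D.chnU (sfGeU D i Ub b) ⟨i, ρ⟩) ≤ D.s ^ (-α) := by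
  classical
  unfold FLaw.pr
  rw [Finset.sum_comm]
  have key : ∀ ρ : D.Row i, ∑ b, (if D.chnU (sfGeU D i Ub b) ⟨i, ρ⟩ then (D.P i).p ρ else 0) ≤ D.s ^ (-α) * (D.P i).p ρ := by
    intro ρ
    rw [← Finset.sum_filter, Finset.sum_const, nsmul_eq_mul]
    refine mul_le_mul_of_nonneg_right ?_ ((D.P i).nonneg ρ)
    refine le_trans ?_ (hcov.sb_ovl ⟨i, ρ⟩)
    rw [Set.ncard_eq_toFinset_card']
    exact_mod_cast Finset.card_le_card (fun b hb => by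
      rw [Set.mem_toFinset]
      rcases (Finset.mem_filter.1 hb).2 with h | ⟨v, hv, hlt, hc⟩
      · exact absurd (hcov.ub_dep b _ h.1) (ne_of_lt hij)
      · exact hcov.sb_pred b ⟨i, ρ⟩ v hv.1 rfl hc)
  calc _ ≤ ∑ ρ, D.s ^ (-α) * (D.P i).p ρ := Finset.sum_le_sum fun ρ _ => key ρ
    _ = D.s ^ (-α) := by rw [← Finset.mul_sum, (D.P i).sum_one, mul_one]

/-- **(LEAF L-256-GA-F4)** PLAN: `SfCfg.gaCnt`, `Finset.sum_comm`, `Finset.mul_sum`; for every label `l`: `∑ b, (if ∃ ρ, chn_b ⟨k,ρ⟩ ∧ lb ρ = l then wt else 0) = #{b | ..} * wt ≤ s^(-α) wt` (`0 ≤ wt`: `Tight.wt_pos`, `Str.ok`; `k ∈ W.G`: `hcov.kept`, `c.sh.hG`).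
If no row has the label `l` the set is empty (`0 ≤ s^(-α)`).   Otherwise `ρ0` with `lb ρ0 = l`, `lam = D.lab k ρ0`; every `ρ` with `lb ρ = l` has `D.lab k ρ = lam` (`c.sh.hlab`);   the set is contained in the set of `hcov.lb_ovl k hk lam` (`u = ⟨k, ρ⟩`; `chnU`: `v = u` or the `v` of the chain; `sfGeU .. b v → Ub b v`). -/
theorem sf_ga_f4 {de : ℝ} (c : SfCfg Y de) (hs : c.W.Str (Y.tq c.p)) (hT : (Y.M.sys c.p).Tight) (α : ℝ) (i j : ℝ) (Gk : Finset ℝ) (ι : Type) [Fintype ι] (Sb Ub : ι → c.D.Rw → Prop)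
    (hcov : SfGeCov c.D i j Gk ι Sb Ub α) (k : ℝ) (hk : k ∈ Gk) :
    ∑ b, c.gaCnt (sfGeU c.D i Ub b) k ≤ c.D.s ^ (-α) * ∑ l, (Y.M.sys c.p).wt (c.W.ts k l) := by
  classical
  have hkG : k ∈ c.W.G := c.sh.hG ▸ (hcov.kept.2 k hk).1
  have hwt : ∀ l, 0 ≤ (Y.M.sys c.p).wt (c.W.ts k l) := fun l => (hT.wt_pos _ _ (hs.ok k hkG l)).le
  have hs0 : 0 ≤ c.D.s ^ (-α) := (Nat.cast_nonneg _).trans (hcov.lb_ovl k hk ⟨0, 0, 0, 0, 0, 0, 0, 0, 0, 0, 0⟩)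
  unfold SfCfg.gaCnt
  rw [Finset.sum_comm, Finset.mul_sum]
  refine Finset.sum_le_sum fun l _ => ?_
  rw [← Finset.sum_filter, Finset.sum_const, nsmul_eq_mul]
  refine mul_le_mul_of_nonneg_right ?_ (hwt l)
  by_cases hne : ∃ ρ0, c.sh.lb k ρ0 = l
  · obtain ⟨ρ0, hρ0⟩ := hne
    refine le_trans ?_ (hcov.lb_ovl k hk (c.D.lab k ρ0))
    rw [← Set.ncard_coe_finset]
    refine Nat.cast_le.2 (Set.ncard_le_ncard (fun b hb => ?_) (Set.toFinite _))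
    obtain ⟨ρ, hch, hl⟩ := (Finset.mem_filter.1 (Finset.mem_coe.1 hb)).2
    have hlab : c.D.lab k ρ = c.D.lab k ρ0 := by
      rw [c.sh.hlab k hkG ρ, c.sh.hlab k hkG ρ0, hl, hρ0]
    rcases hch with hU | ⟨v, hv, hlt, hcn⟩
    · exact ⟨⟨k, ρ⟩, ⟨k, ρ⟩, rfl, hlab, hU.1, Or.inl rfl⟩
    · exact ⟨⟨k, ρ⟩, v, rfl, hlab, hv.1, Or.inr ⟨hlt, hcn⟩⟩
  · have : (Finset.univ.filter fun b => ∃ ρ, c.D.chnU (sfGeU c.D i Ub b) ⟨k, ρ⟩ ∧ c.sh.lb k ρ = l) = ∅ := by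
      refine Finset.filter_eq_empty_iff.2 fun b _ h => ?_
      obtain ⟨ρ, -, hl⟩ := h
      exact hne ⟨ρ, hl⟩
    rw [this, Finset.card_empty, Nat.cast_zero]
    exact hs0

/-- **(LEAF L-256-GA-FB)** a nonempty group reaches a label.   PLAN: `obtain ⟨⟨g, ρ⟩, hv⟩ := hb`; `g = j` (`hdep`), `subst`;   `SfCfg.gaCnt`: the term `l = lb j ρ` is `wt (ts j l) ≥ w` (`if_pos ⟨ρ, Or.inl hv, rfl⟩`), `Finset.single_le_sum`, the other terms are `≥ 0` (`Tight.wt_pos`, `Str.ok`). -/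
theorem sf_ga_fb {de : ℝ} (c : SfCfg Y de) (hs : c.W.Str (Y.tq c.p)) (hT : (Y.M.sys c.p).Tight) (j : ℝ) (hj : j ∈ c.W.G) (U : c.D.Rw → Prop) (hdep : ∀ v, U v → v.1 = j) (hb : ∃ v, U v)
    (w : ℝ) (hw : ∀ l : c.W.Lb j, w ≤ (Y.M.sys c.p).wt (c.W.ts j l)) : w ≤ c.gaCnt U j := by
  classical
  obtain ⟨⟨g, ρ⟩, hv⟩ := hb
  obtain rfl : g = j := hdep _ hv
  unfold SfCfg.gaCnt
  have h1 := Finset.single_le_sum (f := fun l : c.W.Lb g => if ∃ ρ, c.D.chnU U ⟨g, ρ⟩ ∧ c.sh.lb g ρ = l then (Y.M.sys c.p).wt (c.W.ts g l) else 0)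
    (fun l _ => by
      split_ifs
      · exact (hT.wt_pos _ _ (hs.ok g hj l)).le
      · exact le_rfl) (Finset.mem_univ (c.sh.lb g ρ))
  refine le_trans ?_ h1
  beta_reduce
  rw [if_pos ⟨ρ, Or.inl hv, rfl⟩]
  exact hw _

end Claimed.Agent.R256
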