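import Claimed.Agent.R256.Soft.MGaDef
import Claimed.Agent.R256.Soft.MCoreTop

/-!
# Row 256 (S0496), unit SOFT, block M6 GE, sub-block SEL, file 2: NO `Conn`, NO TRANSPORT      (architect helper169; prefix `sf_ga_`)

`sf_ga_locg`: for every polynomial order `Cb` the shadows of the package `C` with `ε ≥ ε1` at small scales satisfy `c.LocG (s^Cb)`.      Hybrid: `sf_core_loc_step`, `sf_core_loc_ind`, `sf_core_loc_num` (no mesh: `card G ≤ C + 1`).   Classical: exact `0`.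
-/

set_option autoImplicit false

namespace Claimed.Agent.R256

open MeasureTheory Claimed.Agent.R255

variable {Y : SfCy}

/-- **(LEAF L-256-GA-LOCCL)** classical model: exact.   PLAN: `hs := hob.2.2.1`, `hx := sf_core_xtra c hs`, `m = ancI (k j) (k g) m'`.   The state is `Xp.run (k j) m' (⟨k g, gb g, c.wS g A⟩ :: c.mid g j) ψ` (`rfl`).
`sf_cl_en_congr` (θ = `c.wS j V m'`, `unfold SfCfg.rdE`) against the stack `⟨k g, gb g, fun _ _ => 0⟩ :: c.mid g j`:   if `θ x ≠ 0` then `x ∈ atm j ρ'`, `V ρ'`, `im ρ' = m'` (`sf_core_wS_supp`, `SfCfg.aS`);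
`wS g A m x = 0`: otherwise `x ∈ atm g ρ`, `A ρ`, `im ρ = m` (`sf_core_wS_supp`), `Conn g j ρ ρ'` (`sf_cl_chain`, `sf_core_conn`), excluded by `hno`;   so both products `sfPr` vanish (`sf_cl_pr_mask_cons`, `zero_mul`).
The second run is `run .. (tz .. (fun _ => 0) ψ)`, `tz .. 0 ψ = 0` (`PkSys.tz`; `mulR k (fun _ => 0) F = 0`: `Lp.ext`, `gn_mulR_coe` for the mask `0`; `map_zero`), `gn_run_zero`, `gn_en_zero`, `Real.sqrt_zero`.   Masks: `sf_core_wS_mask`, `sf_core_mid_ok`. -/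
theorem sf_ga_locg_cl (hO : SfCyOk Y) (hc : Y.hyb = false) {de : ℝ} (c : SfCfg Y de) (C : ℕ) (hob : c.ob C) (ϰ : ℝ) (hϰ : 0 ≤ ϰ) : c.LocG ϰ := by
  intro g hg j hj hgj A V hno m' ψ
  have hs : c.W.Str (Y.tq c.p) := hob.2.2.1
  have hx := sf_core_xtra c hs
  have hl : StM ((⟨c.W.k g, c.W.gb g, c.wS g A⟩ : Stg (Y.M.sys c.p)) :: c.mid g j) := by
    intro σ hσ i
    rcases List.mem_cons.1 hσ with rfl | h
    · exact sf_core_wS_mask c hs g hg A i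
    · exact (sf_core_mid_ok c C hob g hg j hj hgj).msk σ h i
  have hpr : ∀ x, c.wS j V m' x ≠ 0 →
      sfPr (c.W.k j) m' ((⟨c.W.k g, c.W.gb g, c.wS g A⟩ : Stg (Y.M.sys c.p)) :: c.mid g j) x = 0 := by
    intro x hθ
    rw [sf_cl_pr_mask_cons]
    have h0 : c.wS g A (ancI (c.W.k j) (c.W.k g) m') x = 0 := by
      by_contra hne
      have h1 := sf_core_wS_supp c g A _ x hne
      have h2 := sf_core_wS_supp c j V _ x hθ
      unfold SfCfg.aS at h1 h2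
      simp only [Set.mem_iUnion] at h1 h2
      obtain ⟨ρ, ⟨hA, him⟩, hxρ⟩ := h1
      obtain ⟨ρ', ⟨hV, him'⟩, hxρ'⟩ := h2
      refine hno ρ hA ρ' hV ((sf_core_conn c g hg j hj ρ ρ').2 (sf_cl_chain hO hc c hs hx g hg j hj hgj ρ ρ' x hxρ hxρ' ?_))
      rw [him, him']
    show c.wS g A (ancI (c.W.k j) (c.W.k g) m') x * _ = 0
    rw [h0, zero_mul]
  have hz : c.rdE j V m' (Xp.run (c.W.k j) m' (c.mid g j) ((Y.M.sys c.p).tz (tmL (c.W.k g) (ancI (c.W.k j) (c.W.k g) m')) (c.W.k g) (c.W.gb g)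
      (c.wS g A (ancI (c.W.k j) (c.W.k g) m')) ψ)) = 0 := by
    have e0 : Xp.run (c.W.k j) m' (c.mid g j) ((Y.M.sys c.p).tz (tmL (c.W.k g) (ancI (c.W.k j) (c.W.k g) m')) (c.W.k g) (c.W.gb g)
      (c.wS g A (ancI (c.W.k j) (c.W.k g) m')) ψ) = Xp.run (c.W.k j) m' ((⟨c.W.k g, c.W.gb g, c.wS g A⟩ : Stg (Y.M.sys c.p)) :: c.mid g j) ψ := rfl
    rw [e0]
    unfold SfCfg.rdE PkSys.en
    refine integral_eq_zero_of_ae ?_
    filter_upwards [sf_cl_run hO hc c.p (c.W.k j) m' _ hl ψ (tmL (c.W.k j) m') (c.W.k j) (c.W.gb j)] with x e1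
    by_cases hθ : c.wS j V m' x = 0
    · simp [hθ]
    · simp only [e1, hpr x hθ]
      simp
  rw [hz, Real.sqrt_zero]
  exact mul_nonneg hϰ (norm_nonneg _)

/-- **no `Conn`, no transport** -/
theorem sf_ga_locg (hO : SfCyOk Y) (hS : SfSep Y) (π : SfPar) (hE : SfCoreHyp Y π) (ε1 : ℝ) (hε1 : 0 < ε1) (Cb C : ℕ) :
    ∃ n0 : ℕ, ∀ c : SfCfg Y π.d, c.ob C → ε1 ≤ c.ε → n0 ≤ c.W.E.n → c.LocG (c.W.E.s ^ (Cb : ℝ)) := by
  cases hy : Y.hyb
  · exact ⟨0, fun c hob _ _ => sf_ga_locg_cl hO hy c C hob _ (Real.rpow_nonneg (gn_s_pos _).le _)⟩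
  · obtain ⟨L, hL⟩ := hE.loc
    have hh : (0 : ℝ) < 1 / ((C : ℝ) + 1) := by positivity
    obtain ⟨N, n0, hnum⟩ := sf_core_loc_num ε1 (1 / ((C : ℝ) + 1)) hε1 hh Cb C L.Cl (L.CN C)
    refine ⟨n0, fun c hob hε hn g hg j hj hgj A V hno m' ψ => ?_⟩
    obtain ⟨Λ, κ, hΛ, hΛε, hκ, hker, hcard⟩ := hnum c.W.E.n hn c.ε hε
    have hs : c.W.Str (Y.tq c.p) := hob.2.2.1
    have hgd : Y.M.gd c.p := (hO.af C c.A c.p c.W.E c.W.Q0 hob.2.1).1
    have hT : (Y.M.sys c.p).Tight := hE.gen.tight c.p hgd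
    have hΛε' : (4 * (C : ℝ) + 1) * Λ ≤ c.W.E.s ^ (-c.ε) := by
      rw [gn_s_rpow]
      refine hΛε.trans (le_of_eq ?_)
      congr 1
      ring
    have hstep : ∀ g g' : ℝ, sfNext c.W.G g g' → ∀ (A : c.D.Row g → Prop) (V : c.D.Row g' → Prop), (∀ ρ, A ρ → ∀ ρ', V ρ' → ¬ c.Lk ⟨g, ρ⟩ ⟨g', ρ'⟩) →
        ∀ (m' : ℕ) (ψ : (Y.M.sys c.p).Kc),
        Real.sqrt (c.rdE g' V m' (Xp.run (c.W.k g') m' (c.mid g g') ((Y.M.sys c.p).tz (tmL (c.W.k g) (ancI (c.W.k g') (c.W.k g) m')) (c.W.k g) (c.W.gb g)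
          (c.wS g A (ancI (c.W.k g') (c.W.k g) m')) ψ))) ≤ κ * ‖ψ‖ := by
      intro g g' hn' A V' hno m'' ψ
      refine (sf_core_loc_step hO hS _ L hL c C hob hT N Λ hΛ hΛε' g g' hn' A V' hno m'' ψ).trans ?_
      refine mul_le_mul_of_nonneg_right ?_ (norm_nonneg _)
      unfold sfKer
      refine hker _ ?_
      have a1 := (hs.k_rg g hn'.1).1
      have a2 := (hs.k_rg g' hn'.2.1).2
      have a3 : c.W.k g' ≤ c.W.k g + c.W.E.n := by
        unfold Xp.kf at a2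
        omega
      have a4 : (c.W.k g' : ℝ) ≤ (c.W.k g : ℝ) + c.W.E.n := by exact_mod_cast a3
      linarith
    have hcd : (c.W.G.card : ℝ) ≤ 1 / (1 / ((C : ℝ) + 1)) + 1 := by
      have h1 : (c.W.G.card : ℝ) ≤ (C : ℝ) + 1 := by exact_mod_cast sf_ga_card c C hob
      rw [one_div_one_div]
      linarith
    refine (sf_core_loc_ind hy c C hob hT κ hκ hstep g hg j hj hgj A V hno m' ψ).trans ?_
    refine mul_le_mul_of_nonneg_right ?_ (norm_nonneg _)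
    rw [gn_s_rpow]
    exact hcard _ (Nat.cast_nonneg _) hcd

end Claimed.Agent.R256
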