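import Claimed.Agent.R256.Gen.Contract

/-!
# Row 256 (S0496), unit SOFT, block M6 GE, file 2: COMPARISON OF A STACK WITH A RESTRICTED STACK      (architect helper105; prefix `sf_ge_`)

Generic (`P : PkSys`, `Tight`), paper free.   02 l.150-152, 184-190, 806-812 ("all other transfers must be negligible by uniform packet locality").
* `stRes st B`     the stack `st` whose stage number `t` has the mask `1_{B t m} σ.M m`.
* `NegM`           NEGLIGIBLE TRANSFER of a mask `M0`: for every state `v`, `An^* M0 An v` sent through `st` along the branch of `(k',i')` is read by the weight `θ` with amplitude `≤ ϰ ‖v‖`.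
                   (SOURCE: hybrid `Soft/MCoreLoc.lean` `sf_core_loc_ind` (helper169), `Hyb/Stack.lean` (helper218); classical: exact `0` by `Soft/MCoreCl.lean` `sf_cl_run`.)
* `BarT st B`      the masks dropped by `stRes st B` have negligible transfer through the rest of the ORIGINAL stack;   `sf_ge_bart_of`: index form.
* `sf_ge_bc`       `√en θ (run st v - run (stRes st B) v) ≤ len ϰ ‖v‖`.
* `sf_ge_cmp`      the same with a restriction of the synthesised row function to `Pb` and an inserted root stage `1_N`   (= group experiment against the full experiment).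
-/

set_option autoImplicit false

namespace Claimed.Agent.R256

open MeasureTheory

variable {P : PkSys}

/-- the masks of a stack are cut by row sets: the stage number `t` gets the mask `1_{B t m} σ.M m` -/
noncomputable def stRes : List (Stg P) → (ℕ → ℕ → Set P.X) → List (Stg P)
  | [], _ => []
  | σ :: l, B => ⟨σ.k, σ.b, fun m => (B 0 m).indicator (σ.M m)⟩ :: stRes l (fun t => B (t + 1))

/-- negligible transfer of the mask `M0` at the cut `(T,k)` (generation `c`) through `st` to the weight `θ` at the interval `i'` of depth `k'` -/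
def NegM (P : PkSys) (ϰ : ℝ) (k' i' b' : ℕ) (θ : P.X → ℝ) (T : ℝ) (k c : ℕ) (M0 : P.X → ℝ) (st : List (Stg P)) : Prop :=
  ∀ v : P.Kc, Real.sqrt (P.en (tmL k' i') k' b' θ (Xp.run k' i' st (P.tz T k c M0 v))) ≤ ϰ * ‖v‖

/-- the masks dropped by `stRes st B` have negligible transfer through the rest of the ORIGINAL stack -/
def BarT (P : PkSys) (ϰ : ℝ) (k' i' b' : ℕ) (θ : P.X → ℝ) : List (Stg P) → (ℕ → ℕ → Set P.X) → Prop
  | [], _ => True
  | σ :: st, B =>
      NegM P ϰ k' i' b' θ (tmL σ.k (ancI k' σ.k i')) σ.k σ.b ((B 0 (ancI k' σ.k i'))ᶜ.indicator (σ.M (ancI k' σ.k i'))) st ∧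
      BarT P ϰ k' i' b' θ st (fun t => B (t + 1))

theorem sf_ge_bar_eqns_cite : True := by
  have := @stRes.eq_1
  have := @stRes.eq_2
  have := @NegM.eq_1
  have := @BarT.eq_1
  have := @BarT.eq_2
  trivial

/-- `BarT` from the index form -/
theorem sf_ge_bart_of (ϰ : ℝ) (k' i' b' : ℕ) (θ : P.X → ℝ) (st : List (Stg P)) (B : ℕ → ℕ → Set P.X)
    (h : ∀ (t : ℕ) (σ : Stg P), st[t]? = some σ →
      NegM P ϰ k' i' b' θ (tmL σ.k (ancI k' σ.k i')) σ.k σ.b ((B t (ancI k' σ.k i'))ᶜ.indicator (σ.M (ancI k' σ.k i'))) (st.drop (t + 1))) :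
    BarT P ϰ k' i' b' θ st B := by
  induction st generalizing B with
  | nil => trivial
  | cons σ l ih =>
    refine ⟨by simpa using h 0 σ (by simp), ih (fun t => B (t + 1)) fun t τ hτ => ?_⟩
    simpa using h (t + 1) τ (by simpa using hτ)

theorem sf_ge_res_length (st : List (Stg P)) (B : ℕ → ℕ → Set P.X) : (stRes st B).length = st.length := by
  induction st generalizing B with
  | nil => rfl
  | cons σ l ih => simp [stRes, ih]

theorem sf_ge_res_get (st : List (Stg P)) (B : ℕ → ℕ → Set P.X) (t : ℕ) (σ : Stg P) (h : st[t]? = some σ) :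
    (stRes st B)[t]? = some ⟨σ.k, σ.b, fun m => (B t m).indicator (σ.M m)⟩ := by
  induction st generalizing B t with
  | nil => simp at h
  | cons τ l ih =>
    cases t with
    | zero =>
      simp only [List.getElem?_cons_zero, Option.some.injEq] at h
      subst h
      simp [stRes]
    | succ t =>
      simp only [List.getElem?_cons_succ] at h
      simpa [stRes] using ih (fun t => B (t + 1)) t h

theorem sf_ge_res_append (l1 l2 : List (Stg P)) (B : ℕ → ℕ → Set P.X) :
    stRes (l1 ++ l2) B = stRes l1 B ++ stRes l2 (fun t => B (l1.length + t)) := by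
  induction l1 generalizing B with
  | nil => simp [stRes]
  | cons σ l ih =>
    simp only [List.cons_append, stRes, List.length_cons, ih]
    congr 3
    funext t
    congr 1
    omega

/-- a mask cut by a measurable set is a mask -/
theorem sf_ge_mask_ind {M : P.X → ℝ} (hM : IsMask M) {S : Set P.X} (hS : MeasurableSet S) : IsMask (S.indicator M) := by
  refine ⟨hM.1.indicator hS, fun x => ?_⟩
  by_cases hx : x ∈ S
  · rw [Set.indicator_of_mem hx]; exact hM.2 x
  · rw [Set.indicator_of_notMem hx]; exact ⟨le_rfl, zero_le_one⟩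

/-- the restricted stack consists of masks (all row sets measurable) -/
theorem sf_ge_res_stm (st : List (Stg P)) (hst : StM st) (B : ℕ → ℕ → Set P.X) (hB : ∀ t m, MeasurableSet (B t m)) : StM (stRes st B) := by
  induction st generalizing B with
  | nil => intro σ hσ; simp [stRes] at hσ
  | cons σ l ih =>
    intro τ hτ i
    simp only [stRes, List.mem_cons] at hτ
    rcases hτ with rfl | hτ
    · exact sf_ge_mask_ind (hst σ (by simp) i) (hB 0 i)
    · exact ih (fun σ' h' => hst σ' (by simp [h'])) _ (fun t m => hB (t + 1) m) τ hτ i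

theorem sf_ge_res_map_k (st : List (Stg P)) (B : ℕ → ℕ → Set P.X) : (stRes st B).map (·.k) = st.map (·.k) := by
  induction st generalizing B with
  | nil => rfl
  | cons σ l ih => simp [stRes, ih]

theorem sf_ge_res_map_b (st : List (Stg P)) (B : ℕ → ℕ → Set P.X) : (stRes st B).map (·.b) = st.map (·.b) := by
  induction st generalizing B with
  | nil => rfl
  | cons σ l ih => simp [stRes, ih]

/-- depths and generations of the restricted stack -/
theorem sf_ge_res_ok {klo khi bm K : ℕ} (st : List (Stg P)) (h : StOk klo khi bm K st) (B : ℕ → ℕ → Set P.X) (hB : ∀ t m, MeasurableSet (B t m)) :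
    StOk klo khi bm K (stRes st B) := by
  refine ⟨by rw [sf_ge_res_length]; exact h.len, fun τ hτ => ?_, ?_, fun τ hτ => ?_, sf_ge_res_stm st h.msk B hB⟩
  · have : τ.k ∈ (stRes st B).map (·.k) := List.mem_map_of_mem hτ
    rw [sf_ge_res_map_k] at this
    obtain ⟨σ, hσ, e⟩ := List.mem_map.1 this
    rw [← e]; exact h.dep σ hσ
  · have h1 : (st.map (·.k)).Pairwise (· ≤ ·) := (List.pairwise_map).2 h.mono
    rw [← sf_ge_res_map_k st B] at h1
    exact (List.pairwise_map).1 h1
  · have : τ.b ∈ (stRes st B).map (·.b) := List.mem_map_of_mem hτ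
    rw [sf_ge_res_map_b] at this
    obtain ⟨σ, hσ, e⟩ := List.mem_map.1 this
    rw [← e]; exact h.gen σ hσ

/-- `√en` of a difference -/
theorem sf_ge_en_tri3 (T : ℝ) (k b : ℕ) {θ : P.X → ℝ} (hθ : IsMask θ) (u v w : P.Kc) :
    Real.sqrt (P.en T k b θ (u + v + w)) ≤ Real.sqrt (P.en T k b θ u) + Real.sqrt (P.en T k b θ v) + Real.sqrt (P.en T k b θ w) :=
  (gn_en_tri T k b hθ (u + v) w).trans (add_le_add_left (gn_en_tri T k b hθ u v) _)

/-- splitting of the mask of a stage by a row set -/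
theorem sf_ge_tz_split (T : ℝ) (k b : ℕ) {M : P.X → ℝ} (hM : IsMask M) {S : Set P.X} (hS : MeasurableSet S) (v : P.Kc) :
    P.tz T k b M v = P.tz T k b (S.indicator M) v + P.tz T k b (Sᶜ.indicator M) v := by
  unfold PkSys.tz
  rw [← map_add]
  congr 1
  have h2 := gn_mulR_sum (P := P) k (Finset.univ : Finset Bool)
    (fun j => if j then S.indicator M else Sᶜ.indicator M)
    (by
      intro j _
      cases j
      · exact sf_ge_mask_ind hM hS.compl
      · exact sf_ge_mask_ind hM hS) hM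
    (by
      intro x
      simp only [Fintype.univ_bool, Finset.mem_singleton, Bool.true_eq_false, not_false_eq_true, Finset.sum_insert, if_true,
        Finset.sum_singleton, Bool.false_eq_true, if_false]
      by_cases hx : x ∈ S
      · rw [Set.indicator_of_mem hx, Set.indicator_of_notMem (show x ∉ Sᶜ from fun h => h hx)]; ring
      · rw [Set.indicator_of_notMem hx, Set.indicator_of_mem (show x ∈ Sᶜ from hx)]; ring) (P.An T k b v)
  rw [← h2]
  simp

/-- **(BC)** comparison of a stack with its restriction, same initial state -/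
theorem sf_ge_bc (hT : P.Tight) (ϰ : ℝ) (hϰ : 0 ≤ ϰ) (k' i' b' : ℕ) {θ : P.X → ℝ} (hθ : IsMask θ) (st : List (Stg P)) (hst : StM st)
    (B : ℕ → ℕ → Set P.X) (hBm : ∀ t m, MeasurableSet (B t m)) (hB : BarT P ϰ k' i' b' θ st B) (v : P.Kc) :
    Real.sqrt (P.en (tmL k' i') k' b' θ (Xp.run k' i' st v - Xp.run k' i' (stRes st B) v)) ≤ st.length * ϰ * ‖v‖ := by
  induction st generalizing B v with
  | nil => simp [stRes, gn_en_zero]
  | cons σ l ih =>
    have hl : StM l := fun σ' h' => hst σ' (by simp [h'])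
    have hσ : IsMask (σ.M (ancI k' σ.k i')) := hst σ (by simp) _
    obtain ⟨hN, hB'⟩ := hB
    set m := ancI k' σ.k i' with hm
    set T1 := tmL σ.k m with hT1
    set w := P.tz T1 σ.k σ.b ((B 0 m).indicator (σ.M m)) v with hw
    set c := P.tz T1 σ.k σ.b ((B 0 m)ᶜ.indicator (σ.M m)) v with hc
    have e1 : Xp.run k' i' (σ :: l) v = Xp.run k' i' l w + Xp.run k' i' l c := by
      show Xp.run k' i' l (P.tz T1 σ.k σ.b (σ.M m) v) = _
      rw [sf_ge_tz_split T1 σ.k σ.b hσ (hBm 0 m) v, gn_run_add k' i' l hl]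
    have e2 : Xp.run k' i' (stRes (σ :: l) B) v = Xp.run k' i' (stRes l fun t => B (t + 1)) w := rfl
    have e3 : Xp.run k' i' (σ :: l) v - Xp.run k' i' (stRes (σ :: l) B) v
        = Xp.run k' i' l c + (Xp.run k' i' l w - Xp.run k' i' (stRes l fun t => B (t + 1)) w) := by
      rw [e1, e2]; abel
    rw [e3]
    refine (gn_en_tri _ _ _ hθ _ _).trans ?_
    have h1 := hN v
    have h2 := ih hl (fun t => B (t + 1)) (fun t m => hBm (t + 1) m) hB' w
    have h4 : ‖w‖ ≤ ‖v‖ := gn_tz_norm_le hT _ _ _ (sf_ge_mask_ind hσ (hBm 0 m)) v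
    have h6 : (l.length : ℝ) * ϰ * ‖w‖ ≤ (l.length : ℝ) * ϰ * ‖v‖ := mul_le_mul_of_nonneg_left h4 (by positivity)
    have h7 : (((σ :: l).length : ℕ) : ℝ) = (l.length : ℝ) + 1 := by simp
    rw [h7]
    calc _ ≤ ϰ * ‖v‖ + (l.length : ℝ) * ϰ * ‖w‖ := add_le_add h1 h2
      _ ≤ ϰ * ‖v‖ + (l.length : ℝ) * ϰ * ‖v‖ := by linarith
      _ = _ := by ring

/-- **(CMP)** the full run after a gate (mask `M`) against the run of a group: the mask is restricted to `Pb`, a root stage `1_N` is inserted, the later masks are cut by `B` -/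
theorem sf_ge_cmp (hT : P.Tight) (ϰ : ℝ) (hϰ : 0 ≤ ϰ) (k k' i' c b0 b' : ℕ) {θ : P.X → ℝ} (hθ : IsMask θ) (seg : List (Stg P)) (hseg : StM seg)
    (B : ℕ → ℕ → Set P.X) (hBm : ∀ t m, MeasurableSet (B t m)) (Pb N : Set P.X) (hPb : MeasurableSet Pb) (hN : MeasurableSet N)
    {M : P.X → ℝ} (hM : IsMask M)
    (h1 : NegM P ϰ k' i' b' θ (tmL k (ancI k' k i')) k c (Pbᶜ.indicator M) seg) (h2 : BarT P ϰ k' i' b' θ seg B)
    (h3 : ∀ v : P.Kc, Real.sqrt (P.ms (tmL k (ancI k' k i')) k b0 Nᶜ (P.tz (tmL k (ancI k' k i')) k c (Pb.indicator M) v)) ≤ ϰ * ‖v‖)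
    (hpl : ∀ v : P.Kc, P.tz (tmL k (ancI k' k i')) k c (Pb.indicator M) v ∈ P.Pl b0) (v : P.Kc) :
    Real.sqrt (P.en (tmL k' i') k' b' θ (Xp.run k' i' seg (P.tz (tmL k (ancI k' k i')) k c M v)
      - Xp.run k' i' (⟨k, b0, fun _ => N.indicator fun _ => 1⟩ :: stRes seg B) (P.tz (tmL k (ancI k' k i')) k c (Pb.indicator M) v)))
      ≤ ((seg.length : ℝ) + 2) * ϰ * ‖v‖ := by
  set T := tmL k (ancI k' k i') with hTdef
  set ψ := P.tz T k c (Pb.indicator M) v with hψ
  set r := P.tz T k c (Pbᶜ.indicator M) v with hr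
  have hseg' : StM (stRes seg B) := sf_ge_res_stm seg hseg B hBm
  have hone : IsMask (fun _ : P.X => (1 : ℝ)) := ⟨measurable_const, fun _ => ⟨zero_le_one, le_rfl⟩⟩
  set d := P.tz T k b0 (Nᶜ.indicator fun _ => 1) ψ with hd
  have e0 : P.tz T k c M v = ψ + r := sf_ge_tz_split T k c hM hPb v
  have e1 : ψ = P.tz T k b0 (N.indicator fun _ => 1) ψ + d := by
    have h := sf_ge_tz_split T k b0 hone hN ψ
    have h' : P.tz T k b0 (fun _ => 1) ψ = ψ := by
      unfold PkSys.tz
      rw [gn_mulR_one, gn_adj_an hT T k b0 (hpl v)]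
    rw [h'] at h
    exact h
  have e2 : Xp.run k' i' (⟨k, b0, fun _ => N.indicator fun _ => 1⟩ :: stRes seg B) ψ
      = Xp.run k' i' (stRes seg B) (P.tz T k b0 (N.indicator fun _ => 1) ψ) := rfl
  have e3 : Xp.run k' i' (stRes seg B) ψ = Xp.run k' i' (stRes seg B) (P.tz T k b0 (N.indicator fun _ => 1) ψ) + Xp.run k' i' (stRes seg B) d := by
    rw [← gn_run_add k' i' _ hseg', ← e1]
  have e4 : Xp.run k' i' seg (P.tz T k c M v) - Xp.run k' i' (⟨k, b0, fun _ => N.indicator fun _ => 1⟩ :: stRes seg B) ψ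
      = Xp.run k' i' seg r + (Xp.run k' i' seg ψ - Xp.run k' i' (stRes seg B) ψ) + Xp.run k' i' (stRes seg B) d := by
    rw [e0, gn_run_add k' i' seg hseg, e2, e3]; abel
  rw [e4]
  refine (sf_ge_en_tri3 _ _ _ hθ _ _ _).trans ?_
  have b1 := h1 v
  have b2 := sf_ge_bc hT ϰ hϰ k' i' b' hθ seg hseg B hBm h2 ψ
  have hψF : ‖ψ‖ ≤ ‖v‖ := gn_tz_norm_le hT _ _ _ (sf_ge_mask_ind hM hPb) v
  have b3 : Real.sqrt (P.en (tmL k' i') k' b' θ (Xp.run k' i' (stRes seg B) d)) ≤ ϰ * ‖v‖ := by
    have g1 : P.en (tmL k' i') k' b' θ (Xp.run k' i' (stRes seg B) d) ≤ ‖Xp.run k' i' (stRes seg B) d‖ ^ 2 := gn_en_le hT _ _ _ hθ _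
    have g2 : ‖Xp.run k' i' (stRes seg B) d‖ ≤ ‖d‖ := gn_run_norm_le hT _ _ _ hseg' _
    have g3 : ‖d‖ ≤ ‖P.mulR k (Nᶜ.indicator fun _ => 1) (P.An T k b0 ψ)‖ := by
      rw [hd]
      exact gn_adj_norm_le hT _ _ _ _
    have g4 : ‖P.mulR k (Nᶜ.indicator fun _ => 1) (P.An T k b0 ψ)‖ = Real.sqrt (P.ms T k b0 Nᶜ ψ) := by
      rw [gn_ms_eq T k b0 hN.compl, ← gn_mulR_ind_normsq k hN.compl, Real.sqrt_sq (norm_nonneg _)]
    have g5 := h3 v
    calc Real.sqrt (P.en (tmL k' i') k' b' θ (Xp.run k' i' (stRes seg B) d)) ≤ Real.sqrt (‖Xp.run k' i' (stRes seg B) d‖ ^ 2) := Real.sqrt_le_sqrt g1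
      _ = ‖Xp.run k' i' (stRes seg B) d‖ := Real.sqrt_sq (norm_nonneg _)
      _ ≤ ‖d‖ := g2
      _ ≤ _ := g3
      _ = _ := g4
      _ ≤ _ := g5
  have b2' : (seg.length : ℝ) * ϰ * ‖ψ‖ ≤ (seg.length : ℝ) * ϰ * ‖v‖ := mul_le_mul_of_nonneg_left hψF (by positivity)
  calc _ ≤ ϰ * ‖v‖ + (seg.length : ℝ) * ϰ * ‖ψ‖ + ϰ * ‖v‖ := add_le_add (add_le_add b1 b2) b3
    _ ≤ ϰ * ‖v‖ + (seg.length : ℝ) * ϰ * ‖v‖ + ϰ * ‖v‖ := by linarith
    _ = _ := by ring

end Claimed.Agent.R256
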