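import Claimed.Agent.R256.Soft.MCoreLoc
import Claimed.Agent.R256.Soft.MGeBar

/-!
# Row 256 (S0496), unit SOFT, block M6 GE, file 3: THE GROUP EXPERIMENT      (architect helper105; prefix `sf_ge_`)

DEFINITIONS ONLY.   Vocabulary of helper169 (`Soft/MCoreDefs.lean`, `Soft/MCorePat.lean`): `c.mid`, `c.W.gM`, `c.W.stg`, `c.aS`, `c.im`.
`d : SfGeD c` = the data of ONE group on the gap `[i,j]` of the shadow `c`: marked end rows `U` (rows of the gate `j`), admitted root rows `S0` (cover form: all), root interval `m0` (depth `k_i`), kept gates `Gk`, restored root rows `Nr`, root normal width `f0`, frame `Q0`, budget `e`, regularity `ka`.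
* `d.γ g' = i + g' (j - i)`     the old gate of a new gate           * `d.chf u`      the row `u` lies on a connecting chain to `U` (or in `U`);      `d.chn u` = `d.chf u` and, at the root gate, `d.S0 u` (admitted root rows)
* `d.lS g l`, `d.gS g m`        the union of the atoms on chains: of the label `l`; of the interval `m` (only intervals below the root)
* `d.B t m`                     the row sets that cut the stack `c.mid i j`: chain atoms at the gates, everything at the other stages
* `d.psi`                       the root state `An^* 1_{gS i m0} M_i An (pre i m0)`           * `d.N`   the restored root rows (`univ` if `i ∉ Gk`)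
* `d.X : Xp`                    the group experiment: root `(k_i, m0)`, generation `b0 = gb_i + 1`, state `psi`, stack `1_N :: stRes (mid i j) B`, labels = kept labels of the gate `j` with the weights cut to the atoms of `U`
* `d.W : SfMD`                  the documented group experiment, gates `(Gk - i)/(j - i)`.
NO CAST: a new gate `g'` is always read through the real number `d.γ g'` (labels `c.W.Lb (d.γ g')`): THE ROOT GATE IS `d.γ 0`, THE END GATE IS `d.γ 1` (propositionally `i`, `j`); cite the lemmas of helper169 at the gates `d.γ 0`, `d.γ 1`.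
-/

set_option autoImplicit false

namespace Claimed.Agent.R256

open MeasureTheory Claimed.Agent.R255

/-- the data of one group -/
structure SfGeD {Y : SfCy} {de : ℝ} (c : SfCfg Y de) where
  i : ℝ
  j : ℝ
  Gk : Finset ℝ
  U : c.D.Rw → Prop
  /-- the admitted root rows (PARTITION form, helper206: the start rows of the group; COVER form: `fun _ => True`) -/
  S0 : c.D.Rw → Prop
  m0 : ℕ
  Nr : ∀ g, c.D.Row g → Set (Y.M.sys c.p).X
  f0 : ℝ
  Q0 : CyT
  e : ℝ
  ka : ℝ

namespace SfGeD

variable {Y : SfCy} {de : ℝ} {c : SfCfg Y de} (d : SfGeD c)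

/-- the old gate of a new gate -/
def γ (g' : ℝ) : ℝ := d.i + g' * (d.j - d.i)

/-- the new gates -/
noncomputable def G : Finset ℝ := d.Gk.image fun k => (k - d.i) / (d.j - d.i)

/-- the row lies in `U` or on a connecting chain to `U` -/
def chf (u : c.D.Rw) : Prop := d.U u ∨ ∃ v, d.U v ∧ u.1 < v.1 ∧ c.D.Conn u.1 v.1 u.2 v.2

/-- the row lies in `U` or on a connecting chain to `U`; at the root gate: it is admitted -/
def chn (u : c.D.Rw) : Prop := d.chf u ∧ (u.1 = d.i → d.S0 u)

/-- COVER form: all predecessors of the marked rows are admitted -/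
def Full : Prop := ∀ u v : c.D.Rw, d.U v → u.1 = d.i → c.D.Conn u.1 v.1 u.2 v.2 → d.S0 u

/-- the interval `m` of the gate `g` lies below the root interval -/
def bel (g : ℝ) (m : ℕ) : Prop := ancI (c.W.k g) (c.W.k (d.γ 0)) m = d.m0

/-- the atoms on chains of the label `l` -/
def lS (g : ℝ) (l : c.W.Lb g) : Set (Y.M.sys c.p).X := ⋃ ρ, ⋃ (_ : d.chn ⟨g, ρ⟩ ∧ c.sh.lb g ρ = l), c.sh.atm g ρ

/-- the atoms on chains of the interval `m` (empty if `m` is not below the root) -/
def gS (g : ℝ) (m : ℕ) : Set (Y.M.sys c.p).X := {x | d.bel g m ∧ x ∈ c.aS g (fun ρ => d.chn ⟨g, ρ⟩) m}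

open Classical in
/-- the row sets that cut the stack `c.mid (γ 0) (γ 1)`: ALL gates of `c.W` between the root and the end are cut (also those that are not kept) -/
noncomputable def B (t m : ℕ) : Set (Y.M.sys c.p).X :=
  if h : ∃ g ∈ c.W.G, c.W.pos g = c.W.pos (d.γ 0) + 1 + t then d.gS h.choose m else Set.univ

/-- the root state -/
noncomputable def psi : (Y.M.sys c.p).Kc :=
  (Y.M.sys c.p).tz (tmL (c.W.k (d.γ 0)) d.m0) (c.W.k (d.γ 0)) (c.W.gb (d.γ 0)) ((d.gS (d.γ 0) d.m0).indicator (c.W.gM (d.γ 0) d.m0)) (c.W.pre (d.γ 0) d.m0)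

/-- the restored root rows of a label -/
def lN (g : ℝ) (l : c.W.Lb g) : Set (Y.M.sys c.p).X := ⋃ ρ, ⋃ (_ : d.chn ⟨g, ρ⟩ ∧ c.sh.lb g ρ = l), d.Nr g ρ

open Classical in
/-- the restored root rows (everything if the root gate is not kept) -/
noncomputable def N : Set (Y.M.sys c.p).X :=
  if d.i ∈ d.Gk then ⋃ ρ, ⋃ (_ : d.chn ⟨d.γ 0, ρ⟩ ∧ c.im (d.γ 0) ρ = d.m0), d.Nr (d.γ 0) ρ else Set.univ

/-- generation of the root of the group experiment (`psi` is a synthesis of generation `gb (γ 0)`: `Tight.syn`) -/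
def b0 : ℕ := c.W.gb (d.γ 0) + 1

/-- the stack of the group experiment -/
noncomputable def st : List (Stg (Y.M.sys c.p)) :=
  ⟨c.W.k (d.γ 0), d.b0, fun m => open Classical in if m = d.m0 then d.N.indicator fun _ => 1 else fun _ => 0⟩ :: stRes (c.mid (d.γ 0) (d.γ 1)) d.B

open Classical in
/-- the new weight of an old label -/
noncomputable def th (g' : ℝ) (l : c.W.Lb (d.γ g')) : (Y.M.sys c.p).X → ℝ :=
  if g' ≤ 0 then (d.lN (d.γ g') l).indicator fun _ => 1 else (d.lS (d.γ g') l).indicator (c.W.th (d.γ g') l)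

open Classical in
/-- the new test of an old label: at the root gate the normal width is enlarged to `f0` -/
noncomputable def ts (g' : ℝ) (l : c.W.Lb (d.γ g')) : (Y.M.sys c.p).Tst :=
  if h : g' ≤ 0 ∧ ∃ Q, Y.tq c.p Q = { Y.tq c.p (c.W.ts (d.γ g') l) with f := d.f0 } then h.2.choose else c.W.ts (d.γ g') l

/-- the label is kept: its interval lies below the root, its new weight does not vanish -/
def Kept (g' : ℝ) (l : c.W.Lb (d.γ g')) : Prop := d.bel (d.γ g') (c.W.iv (d.γ g') l) ∧ ∃ x, d.th g' l x ≠ 0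

/-- the new labels (off the mesh: all old labels) -/
def Lb (g' : ℝ) : Type := {l : c.W.Lb (d.γ g') // g' ∈ d.G → d.Kept g' l}

noncomputable instance fLb (g' : ℝ) : Fintype (d.Lb g') := by
  classical
  exact Subtype.fintype _

/-- **the group experiment** -/
noncomputable def X : Xp (Y.M.sys c.p) where
  k0 := c.W.k (d.γ 0)
  i0 := d.m0
  n := c.W.k (d.γ 1) - c.W.k (d.γ 0)
  v := d.psi
  e := d.e
  ka := d.ka
  b0 := d.b0
  st := d.st
  bT := c.W.gb (d.γ 1)
  L := Fintype.card (d.Lb 1)
  iv := fun a => c.W.iv (d.γ 1) ((Fintype.equivFin (d.Lb 1)).symm a).1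
  ts := fun a => d.ts 1 ((Fintype.equivFin (d.Lb 1)).symm a).1
  th := fun a => d.th 1 ((Fintype.equivFin (d.Lb 1)).symm a).1

open Classical in
/-- **the documented group experiment** -/
noncomputable def W : SfMD (Y.M.sys c.p) where
  E := d.X
  Q0 := d.Q0
  G := d.G
  k := fun g' => c.W.k (d.γ g')
  pos := fun g' => if g' ≤ 0 then 0 else c.W.pos (d.γ g') - c.W.pos (d.γ 0)
  gb := fun g' => if g' ≤ 0 then d.b0 else c.W.gb (d.γ g')
  Lb := d.Lb
  fLb := d.fLb
  iv := fun g' l => c.W.iv (d.γ g') l.1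
  ts := fun g' l => d.ts g' l.1
  th := fun g' l => d.th g' l.1
  r := fun g' => c.W.r (d.γ g')
  f := fun g' => if g' ≤ 0 then d.f0 else c.W.f (d.γ g')

end SfGeD

theorem sf_ge_def_eqns_cite : True := by
  have := @SfGeD.γ.eq_1
  have := @SfGeD.G.eq_1
  have := @SfGeD.chf.eq_1
  have := @SfGeD.chn.eq_1
  have := @SfGeD.Full.eq_1
  have := @SfGeD.bel.eq_1
  have := @SfGeD.lS.eq_1
  have := @SfGeD.gS.eq_1
  have := @SfGeD.B.eq_1
  have := @SfGeD.psi.eq_1
  have := @SfGeD.lN.eq_1
  have := @SfGeD.N.eq_1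
  have := @SfGeD.b0.eq_1
  have := @SfGeD.st.eq_1
  have := @SfGeD.th.eq_1
  have := @SfGeD.ts.eq_1
  have := @SfGeD.Kept.eq_1
  have := @SfGeD.Lb.eq_1
  have := @SfGeD.X.eq_1
  have := @SfGeD.W.eq_1
  trivial

end Claimed.Agent.R256
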