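import Claimed.Agent.R256.Cyl.Frm2
import Claimed.Agent.R256.Cyl.TopC
import Claimed.Agent.R256.Soft.MGeDef

/-!
# Row 256 (S0496), unit SOFT, block M6 GE, part HEAVY/AF: THE GROUP EXPERIMENT OBEYS THE SETUP IN ITS OWN FRAME      (architect helper163; prefix `sf_gh_`; request of helper105, msg 35496)

MODEL FREE (`H : CyHyp Y`, both models at once: the same-cut locality `H.L.ker` is exact in the classical model).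
`SfGhHyp Y C K A p E Q1`:   `E ∈ Cls C A`, `val ≥ 2^(-n/2)`, all labels have the widths of `Q1`, the root state is a synthesis `An^* 1_S F` with `‖F‖² ≤ s^-K e` and every row of `S` has normalised coordinates `≤ s^-K` in the frame `Q1`.
EXIT `sf_gh_af` : `Y.af C' A p E Q1`.         EXIT for groups `sf_gh_d` : the same for `E = d.X`, `Q1 = d.Q0`, `d : SfGeD c`.
PROOF.  (G1) a heavy label: `s^5 κ w < m_l ≤ ‖v‖²`, `w = cyWt η Q1`.   (G2) POLY for that label in SOME frame of the class: `e ≤ s^-D1 κ w`.   (G3) `Q = cyEnl Q1 t`, `t = s^-(K+2)`: rows of size `≤ t` lie in the cell of `Q`.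
(G4) a `Λ`-successor at the SAME cut of a row of size `≤ t0` has size `≤ t0 + Λ` (`d_ℓ ≤ f`).   (G5) `H.L.ker` with `Λ = s^-1`: `ms (cell Q)ᶜ v ≤ (CN s^N)² ‖F‖²`.   (G6) numerics.   (G7) `ms (cell Q) v = ‖v‖² - ms (cell Q)ᶜ v > s^6 κ w = s^(4K+14) κ wt Q`.
(G8) `cy_frm3` (frame `Q`), `cy_frm` (widths back to those of `Q1`).
-/

set_option autoImplicit false

namespace Claimed.Agent.R256

open MeasureTheory Claimed.Agent.R255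

/-- the frame / test `Q1` with both widths multiplied by `t` -/
def cyEnl (Q1 : CyT) (t : ℝ) : CyT := { Q1 with r := t * Q1.r, f := t * Q1.f }

/-- hypotheses of HEAVY/AF -/
structure SfGhHyp (Y : SfCy) (C K A : ℕ) (p : Y.M.Par) (E : Xp (Y.M.sys p)) (Q1 : CyT) : Prop where
  cls : Y.M.Cls C A p E
  val : 2 ^ (-((E.n : ℝ) / 2)) ≤ E.val
  wd : ∀ l, (Y.tq p (E.ts l)).r = Q1.r ∧ (Y.tq p (E.ts l)).f = Q1.f
  syn : ∃ (S : Set (Y.M.sys p).X) (b : ℕ) (F : Lp (Y.M.sys p).Fb 2 ((Y.M.sys p).rho E.k0)), MeasurableSet S ∧ b ≤ C ∧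
    E.v = ContinuousLinearMap.adjoint ((Y.M.sys p).An (tmL E.k0 E.i0) E.k0 b) ((Y.M.sys p).mulR E.k0 (S.indicator fun _ => 1) F) ∧
    ‖F‖ ^ 2 ≤ E.s ^ (-(K : ℝ)) * E.e ∧
    ∀ x ∈ S, cyBaseSz Q1 ((2 : ℝ)⁻¹ ^ E.k0) (Y.co p (tmL E.k0 E.i0) x) ≤ E.s ^ (-(K : ℝ)) ∧
      cyNorSz Q1 ((2 : ℝ)⁻¹ ^ E.k0) (Y.co p (tmL E.k0 E.i0) x) ≤ E.s ^ (-(K : ℝ))

theorem sf_gh_eqns_cite : True := by
  have := @cyEnl.eq_1
  trivial

/-! ## G1, G2 : the heavy label -/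

/-- **G1**.   PLAN: `cy_tp_heavy (H.gen.tight p h.cls.1) E h.cls.2.1 hn h.val` gives `l`; `E.w l = cyWt η Q1` (`Xp.w`, `H.wt`, `unfold cyWt`, `(h.wd l).1`, `(h.wd l).2`);   `E.m l ≤ ‖E.fin (E.iv l)‖² ≤ ‖E.v‖²`: `gn_en_le hT _ _ _ (gn_th_mask E hE l) _`,
`gn_run_norm_le hT _ _ _ (gn_valid_stm E hE) _`, `pow_le_pow_left₀`.   Widths: `(H.ok p (E.ts l) E.kf).1 (hE.ts_ok l)` + `h.wd l`; `H.dl_mono p E.k0 E.kf (Nat.le_add_right _ _)`. -/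
theorem sf_gh_norm {Y : SfCy} (H : CyHyp Y) {C K A : ℕ} {p : Y.M.Par} {E : Xp (Y.M.sys p)} {Q1 : CyT} (hn : 1 ≤ E.n) (h : SfGhHyp Y C K A p E Q1) :
    0 < Q1.r ∧ 0 < Q1.f ∧ Y.dl p E.k0 ≤ Q1.f ∧ E.s ^ (5 : ℝ) * (E.ka * cyWt Y.η Q1) < ‖E.v‖ ^ 2 := by
  have hE := h.cls.2.1
  have hT := H.gen.tight p h.cls.1
  obtain ⟨l, hl⟩ := cy_tp_heavy hT E hE hn h.val
  have hok := (H.ok p (E.ts l) E.kf).1 (hE.ts_ok l)
  rw [(h.wd l).1, (h.wd l).2] at hok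
  have hw : E.w l = cyWt Y.η Q1 := by
    unfold Xp.w
    rw [H.wt]
    unfold cyWt
    rw [(h.wd l).1, (h.wd l).2]
  rw [hw] at hl
  have hm : E.m l ≤ ‖E.v‖ ^ 2 := by
    refine (gn_en_le hT _ _ _ (gn_th_mask E hE l) _).trans ?_
    exact pow_le_pow_left₀ (norm_nonneg _) (gn_run_norm_le hT _ _ _ (gn_valid_stm E hE) _) 2
  exact ⟨hok.1, hok.2.1, (H.dl_mono p E.k0 E.kf (Nat.le_add_right _ _)).trans hok.2.2, lt_of_lt_of_le hl hm⟩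

/-- **G2**.   PLAN: copy the proof of `cy_tp_frame` (`Cyl/TopC.lean`) up to `b1 .. b4`: `D', Ap, np` from `H.poly C 5`; `D1 = C + 4 * D'`, `A0 = Ap`, `n0 = max np 1`; `Q0` from `H.af_iff`; `hset.ek_hi : e ≤ s^-C (κ cyWt η Q0)`;
`b1 : s^D' ≤ Q1.r / Q0.r`, `b3` the same for `f`, so `Q0.r ≤ s^-D' Q1.r`, ..; `cy_frm_wt H.eta` with `u = s^-D'`: `cyWt η Q0 ≤ (s^-D')⁴ cyWt η Q1`; `Real.rpow_add`/`gn_s_rpow` bookkeeping. -/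
theorem sf_gh_e_le {Y : SfCy} (H : CyHyp Y) (C : ℕ) : ∃ D1 A0 n0 : ℕ, ∀ (K A : ℕ) (p : Y.M.Par) (E : Xp (Y.M.sys p)) (Q1 : CyT), n0 ≤ E.n → A0 ≤ A →
    SfGhHyp Y C K A p E Q1 → E.e ≤ E.s ^ (-(D1 : ℝ)) * (E.ka * cyWt Y.η Q1) := by
  obtain ⟨D', Ap, np, HP⟩ := H.poly C 5
  refine ⟨C + 4 * D', Ap, max np 1, fun K A p E Q1 hn hA h => ?_⟩
  have hE := h.cls
  have hT := H.gen.tight p hE.1
  obtain ⟨Q0, hQ0⟩ := (H.af_iff C A p E hE.1).1 hE.2.2.2.2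
  obtain ⟨l, hl⟩ := cy_tp_heavy hT E hE.2.1 ((le_max_right _ _).trans hn) h.val
  have hok := (H.ok p (E.ts l) E.kf).1 (hE.2.1.ts_ok l)
  rw [(h.wd l).1, (h.wd l).2] at hok
  have hset := ((H.af_def C A p E Q0).1 hQ0).2.1
  have hb := HP p E Q0 ((le_max_left _ _).trans hn) (gn_cls_anti Y.M H.gen.scale hA hE) (cy_tp_af H hQ0 ⟨rfl, rfl, rfl, rfl, rfl, rfl⟩ rfl le_rfl hA)
    E.kf (E.iv l) E.bT E.st (E.ts l) (Nat.le_add_right _ _) le_rfl (hE.2.1.iv_in l) hE.2.2.2.1.2.1 (cy_tp_stok hE) (hE.2.1.ts_ok l)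
    (lt_of_lt_of_le hl (gn_m_le_ms hT E hE.2.1 l))
  obtain ⟨-, b1, -, b3, -⟩ := hb
  have e1 : (cyNrm (tmL E.k0 E.i0) E.k0 Q0 (tmL E.kf (E.iv l)) (Y.tq p (E.ts l))).r = Q1.r / Q0.r := by
    rw [← (h.wd l).1]; rfl
  have e2 : (cyNrm (tmL E.k0 E.i0) E.k0 Q0 (tmL E.kf (E.iv l)) (Y.tq p (E.ts l))).f = Q1.f / Q0.f := by
    rw [← (h.wd l).2]; rfl
  rw [e1] at b1
  rw [e2] at b3
  have hs := gn_s_pos E
  have hD : 0 < E.s ^ (D' : ℝ) := Real.rpow_pos_of_pos hs _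
  have hu : 0 < E.s ^ (-(D' : ℝ)) := Real.rpow_pos_of_pos hs _
  have c1 : Q0.r ≤ E.s ^ (-(D' : ℝ)) * Q1.r := by
    have := (le_div_iff₀ hset.r_pos).1 b1
    rw [Real.rpow_neg hs.le, ← div_eq_inv_mul, le_div_iff₀ hD]
    linarith
  have c2 : Q0.f ≤ E.s ^ (-(D' : ℝ)) * Q1.f := by
    have := (le_div_iff₀ hset.f_pos).1 b3
    rw [Real.rpow_neg hs.le, ← div_eq_inv_mul, le_div_iff₀ hD]
    linarith
  have hw : cyWt Y.η Q0 ≤ (E.s ^ (-(D' : ℝ))) ^ 4 * cyWt Y.η Q1 := cy_frm_wt H.eta hu hok.1 hok.2.1 hset.r_pos hset.f_pos c1 c2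
  have e4 : E.s ^ (-(C : ℝ)) * (E.s ^ (-(D' : ℝ))) ^ 4 = E.s ^ (-((C + 4 * D' : ℕ) : ℝ)) := by
    rw [← Real.rpow_natCast (E.s ^ (-(D' : ℝ))) 4, ← Real.rpow_mul hs.le, ← Real.rpow_add hs]
    congr 1
    push_cast
    ring
  calc E.e ≤ E.s ^ (-(C : ℝ)) * (E.ka * cyWt Y.η Q0) := hset.ek_hi
    _ ≤ E.s ^ (-(C : ℝ)) * (E.ka * ((E.s ^ (-(D' : ℝ))) ^ 4 * cyWt Y.η Q1)) :=
        mul_le_mul_of_nonneg_left (mul_le_mul_of_nonneg_left hw hE.2.1.ka_pos.le) (Real.rpow_pos_of_pos hs _).le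
    _ = (E.s ^ (-(C : ℝ)) * (E.s ^ (-(D' : ℝ))) ^ 4) * (E.ka * cyWt Y.η Q1) := by ring
    _ = _ := by rw [e4]

/-! ## G3, G4 : geometry (no state) -/

/-- **G3**.   PLAN: `unfold cyBaseSz cyBase cyNorSz cyNor at *`, `max_le_iff`, `abs_div`, `div_le_iff₀`; `cyIn (cyEnl Q1 t) l z` unfolds to the five inequalities with the SAME `cyTilt`, `cyVel`, `cyPos` (they do not see the widths: `rfl`); third one: `t l r² ≤ l (t r)²` as `1 ≤ t`. -/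
theorem sf_gh_cell (Q1 : CyT) (hr : 0 < Q1.r) (hf : 0 < Q1.f) (l t : ℝ) (hl : 0 < l) (ht : 1 ≤ t) (z : Cy5) (h1 : cyBaseSz Q1 l z ≤ t) (h2 : cyNorSz Q1 l z ≤ t) :
    cyIn (cyEnl Q1 t) l z := by
  unfold cyBaseSz cyBase at h1
  unfold cyNorSz cyNor at h2
  simp only [max_le_iff, abs_div] at h1 h2
  obtain ⟨a1, a2, a3⟩ := h1
  obtain ⟨b1, b2⟩ := h2
  have hlr : 0 < l * Q1.r := mul_pos hl hr
  have hlr2 : 0 < l * Q1.r ^ 2 := by positivity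
  have hlf : 0 < l * Q1.f := mul_pos hl hf
  rw [abs_of_pos hr, div_le_iff₀ hr] at a1
  rw [abs_of_pos hlr, div_le_iff₀ hlr] at a2
  rw [abs_of_pos hlr2, div_le_iff₀ hlr2] at a3
  rw [abs_of_pos hf, div_le_iff₀ hf] at b1
  rw [abs_of_pos hlf, div_le_iff₀ hlf] at b2
  refine ⟨a1, ?_, ?_, b1, ?_⟩
  · show |z.B - Q1.b| ≤ l * (t * Q1.r)
    linarith
  · show |cyTilt Q1 z| ≤ l * (t * Q1.r) ^ 2
    have e : l * (t * Q1.r) ^ 2 = t * (t * (l * Q1.r ^ 2)) := by ring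
    have h0 : 0 ≤ t * (l * Q1.r ^ 2) := by positivity
    rw [e]
    nlinarith
  · show |cyPos Q1 z| ≤ l * (t * Q1.f)
    linarith

/-- the weight of the enlarged test (`Real.mul_rpow`, `← Real.rpow_add`, `3 + η + (1 - η) = 4`; cf. `cy_frm_wt`) -/
theorem sf_gh_wt (η : ℝ) (Q1 : CyT) (hr : 0 < Q1.r) (hf : 0 < Q1.f) (t : ℝ) (ht : 0 < t) : cyWt η (cyEnl Q1 t) = t ^ 4 * cyWt η Q1 := by
  unfold cyWt
  show (t * Q1.r) ^ (3 + η) * (t * Q1.f) ^ (1 - η) = t ^ 4 * (Q1.r ^ (3 + η) * Q1.f ^ (1 - η))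
  rw [Real.mul_rpow ht.le hr.le, Real.mul_rpow ht.le hf.le]
  have e : t ^ (3 + η) * t ^ (1 - η) = t ^ 4 := by
    rw [← Real.rpow_add ht, ← Real.rpow_natCast]
    congr 1
    push_cast
    ring
  calc t ^ (3 + η) * Q1.r ^ (3 + η) * (t ^ (1 - η) * Q1.f ^ (1 - η)) = (t ^ (3 + η) * t ^ (1 - η)) * (Q1.r ^ (3 + η) * Q1.f ^ (1 - η)) := by ring
    _ = _ := by rw [e]

/-- **G4**.   PLAN: `(H.cn ..).1 hc` gives `ix`, `|N' - N| ≤ Λ d`, `|D' - D - (T - T) N| ≤ Λ (l d)`; `H.base p T T x x' hix`: `X' = X`, `B' = B + (T - T) X`, `Y' = Y + (T - T) X²` (`sub_self`, `zero_mul`, `add_zero`).   So `cyBase Q1 l z' = cyBase Q1 l z`;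
`cyVel Q1 z' = cyVel Q1 z + (N' - N)`, `cyPos Q1 z' = cyPos Q1 z + (D' - D)`; divide by `f`, `l f`; `d ≤ f`. -/
theorem sf_gh_succ {Y : SfCy} (H : CyHyp Y) (p : Y.M.Par) (Q1 : CyT) (hf : 0 < Q1.f) (T : ℝ) (k : ℕ) (hd : Y.dl p k ≤ Q1.f) (Λ t0 : ℝ) (hΛ : 0 ≤ Λ)
    (x x' : (Y.M.sys p).X) (hc : H.L.cn p Λ T k T k x x') (h1 : cyBaseSz Q1 ((2 : ℝ)⁻¹ ^ k) (Y.co p T x) ≤ t0) (h2 : cyNorSz Q1 ((2 : ℝ)⁻¹ ^ k) (Y.co p T x) ≤ t0) :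
    cyBaseSz Q1 ((2 : ℝ)⁻¹ ^ k) (Y.co p T x') ≤ t0 ∧ cyNorSz Q1 ((2 : ℝ)⁻¹ ^ k) (Y.co p T x') ≤ t0 + Λ := by
  obtain ⟨hix, hN, hD⟩ := (H.cn p Λ T k T k x x').1 hc
  obtain ⟨eX, eB, eY⟩ := H.base p T T x x' hix
  simp only [sub_self, zero_mul, add_zero, sub_zero] at eB eY hD
  have hl : 0 < (2 : ℝ)⁻¹ ^ k := by positivity
  have hlf : 0 < (2 : ℝ)⁻¹ ^ k * Q1.f := mul_pos hl hf
  constructor
  · have e : cyBaseSz Q1 ((2 : ℝ)⁻¹ ^ k) (Y.co p T x') = cyBaseSz Q1 ((2 : ℝ)⁻¹ ^ k) (Y.co p T x) := by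
      unfold cyBaseSz cyBase cyTilt
      rw [eX, eB, eY]
    rw [e]
    exact h1
  · have eV : cyVel Q1 (Y.co p T x') = cyVel Q1 (Y.co p T x) + ((Y.co p T x').N - (Y.co p T x).N) := by
      unfold cyVel
      rw [eX, eB, eY]
      ring
    have eP : cyPos Q1 (Y.co p T x') = cyPos Q1 (Y.co p T x) + ((Y.co p T x').D - (Y.co p T x).D) := by
      unfold cyPos
      rw [eB, eY]
      ring
    unfold cyNorSz cyNor at h2 ⊢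
    simp only [max_le_iff, abs_div] at h2 ⊢
    obtain ⟨b1, b2⟩ := h2
    rw [abs_of_pos hf, div_le_iff₀ hf] at b1 ⊢
    rw [abs_of_pos hlf, div_le_iff₀ hlf] at b2 ⊢
    constructor
    · rw [eV]
      have := abs_add_le (cyVel Q1 (Y.co p T x)) ((Y.co p T x').N - (Y.co p T x).N)
      have h3 : Λ * Y.dl p k ≤ Λ * Q1.f := mul_le_mul_of_nonneg_left hd hΛ
      linarith
    · rw [eP]
      have := abs_add_le (cyPos Q1 (Y.co p T x)) ((Y.co p T x').D - (Y.co p T x).D)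
      have h3 : Λ * ((2 : ℝ)⁻¹ ^ k * Y.dl p k) ≤ Λ * ((2 : ℝ)⁻¹ ^ k * Q1.f) := mul_le_mul_of_nonneg_left (mul_le_mul_of_nonneg_left hd hl.le) hΛ
      linarith

/-! ## G5 - G7 : the enlarged test is heavy -/

/-- **G5**: nothing outside the enlarged test.   PLAN: `S, b, F` from `h.syn`; `rw` the root state; `H.L.ker p gd C N (s^-1) (1 ≤ s^-1) T0 k0 T0 k0 b E.b0 (gn_cutle_refl _ _) hb h.cls.2.2.2.1.1 S (cell Q)ᶜ hS (hT.cellM ..).compl ?_ F`; `sub_self`, `mul_zero`, `Real.rpow_zero`, `mul_one`.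
No correspondence: if `x ∈ S`, `cn`, then `sf_gh_succ` (`t0 = s^-K`, `Λ = s^-1`) + `s^-K + s^-1 ≤ 2 s^-(K+1) ≤ s^-(K+2)` (`2 ≤ s^-1` as `1 ≤ n`) + `sf_gh_cell` + `H.cell`, `H.tq_mk` put `x'` in the cell. -/
theorem sf_gh_out {Y : SfCy} (H : CyHyp Y) {C K A : ℕ} {p : Y.M.Par} {E : Xp (Y.M.sys p)} {Q1 : CyT} (hn : 1 ≤ E.n) (h : SfGhHyp Y C K A p E Q1) (N : ℕ) :
    (Y.M.sys p).ms (tmL E.k0 E.i0) E.k0 E.b0 ((Y.M.sys p).cell (H.mkT p (cyEnl Q1 (E.s ^ (-((K : ℝ) + 2))))) (tmL E.k0 E.i0) E.k0)ᶜ E.v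
      ≤ (H.L.CN C N * E.s ^ (N : ℝ)) ^ 2 * (E.s ^ (-(K : ℝ)) * E.e) := by
  obtain ⟨hr, hf, hd, -⟩ := sf_gh_norm H hn h
  obtain ⟨S, b, F, hS, hb, hv, hF, hx⟩ := h.syn
  have hT := H.gen.tight p h.cls.1
  have hs := gn_s_pos E
  have hK : (0 : ℝ) ≤ K := Nat.cast_nonneg _
  have hs2 : E.s ≤ 2⁻¹ := by
    unfold Xp.s
    calc (2 : ℝ)⁻¹ ^ E.n ≤ (2 : ℝ)⁻¹ ^ 1 := pow_le_pow_of_le_one (by norm_num) (by norm_num) hn
      _ = _ := pow_one _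
  have hΛ2 : 2 ≤ E.s ^ (-(1 : ℝ)) := by
    rw [Real.rpow_neg_one]
    have := inv_anti₀ hs hs2
    simpa using this
  have hΛ : 1 ≤ E.s ^ (-(1 : ℝ)) := by linarith
  have e2 : E.s ^ (-((K : ℝ) + 2)) = E.s ^ (-((K : ℝ) + 1)) * E.s ^ (-(1 : ℝ)) := by
    rw [← Real.rpow_add hs]
    congr 1
    ring
  have a1 : E.s ^ (-(K : ℝ)) ≤ E.s ^ (-((K : ℝ) + 1)) := gn_s_anti E (by linarith)
  have a2 : E.s ^ (-(1 : ℝ)) ≤ E.s ^ (-((K : ℝ) + 1)) := gn_s_anti E (by linarith)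
  have a3 : 0 < E.s ^ (-((K : ℝ) + 1)) := Real.rpow_pos_of_pos hs _
  have hle2 : E.s ^ (-(K : ℝ)) + E.s ^ (-(1 : ℝ)) ≤ E.s ^ (-((K : ℝ) + 2)) := by
    rw [e2]
    nlinarith
  have hle1 : E.s ^ (-(K : ℝ)) ≤ E.s ^ (-((K : ℝ) + 2)) := gn_s_anti E (by linarith)
  have ht1 : 1 ≤ E.s ^ (-((K : ℝ) + 2)) := by
    have := gn_s_anti E (y := -((K : ℝ) + 2)) (y' := 0) (by linarith)
    rwa [Real.rpow_zero] at this
  have hno : ∀ x ∈ S, ∀ x' ∈ ((Y.M.sys p).cell (H.mkT p (cyEnl Q1 (E.s ^ (-((K : ℝ) + 2))))) (tmL E.k0 E.i0) E.k0)ᶜ,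
      ¬ H.L.cn p (E.s ^ (-(1 : ℝ))) (tmL E.k0 E.i0) E.k0 (tmL E.k0 E.i0) E.k0 x x' := by
    intro x hxS x' hx' hc
    apply hx'
    obtain ⟨c1, c2⟩ := hx x hxS
    obtain ⟨d1, d2⟩ := sf_gh_succ H p Q1 hf (tmL E.k0 E.i0) E.k0 hd (E.s ^ (-(1 : ℝ))) (E.s ^ (-(K : ℝ))) (by linarith) x x' hc c1 c2
    rw [H.cell, H.tq_mk]
    exact sf_gh_cell Q1 hr hf _ _ (by positivity) ht1 _ (d1.trans hle1) (d2.trans hle2)
  have key := H.L.ker p h.cls.1 C N (E.s ^ (-(1 : ℝ))) hΛ (tmL E.k0 E.i0) E.k0 (tmL E.k0 E.i0) E.k0 b E.b0 (gn_cutle_refl _ _) hb h.cls.2.2.2.1.1 S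
    ((Y.M.sys p).cell (H.mkT p (cyEnl Q1 (E.s ^ (-((K : ℝ) + 2))))) (tmL E.k0 E.i0) E.k0)ᶜ hS (hT.cellM _ _ _).compl hno F
  have e : (-(1 : ℝ)) * (-(N : ℝ)) = N := by ring
  rw [← hv, sub_self, mul_zero, Real.rpow_zero, mul_one, ← Real.rpow_mul hs.le, e] at key
  exact key.trans (mul_le_mul_of_nonneg_left hF (sq_nonneg _))

/-- **G6**: numerics.   PLAN: `N = K + D1 + 7` (any `2N ≥ K + D1 + 7`); `n0 ≥ 1` with `cn² ≤ 2^n0` (`gn_absorb (cn ^ 2) 1`); `s = 2⁻¹^n`: `cn² s^(2N) s^-K s^-D1 ≤ s^-1 s^(2N-K-D1) ≤ s^6`; and `s^6 + s^6 ≤ s^5` as `s ≤ 1/2`. -/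
theorem sf_gh_num (K D1 : ℕ) (cn : ℕ → ℝ) : ∃ N n0 : ℕ, 1 ≤ n0 ∧ ∀ (n : ℕ) (s X e : ℝ), n0 ≤ n → s = (2 : ℝ)⁻¹ ^ n → 0 ≤ X → 0 ≤ e → e ≤ s ^ (-(D1 : ℝ)) * X →
    (cn N * s ^ (N : ℝ)) ^ 2 * (s ^ (-(K : ℝ)) * e) + s ^ (6 : ℝ) * X ≤ s ^ (5 : ℝ) * X := by
  obtain ⟨n1, hn1⟩ := gn_absorb (cn (K + D1 + 7) ^ 2) 1 one_pos
  refine ⟨K + D1 + 7, max n1 1, le_max_right _ _, fun n s X e hn hs hX he hle => ?_⟩
  have hc := hn1 n ((le_max_left _ _).trans hn)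
  have hn2 : (1 : ℝ) ≤ n := by exact_mod_cast (le_max_right _ _).trans hn
  have hy : ∀ y : ℝ, s ^ y = 2 ^ (-(y * n)) := by
    intro y
    rw [hs, ← Real.rpow_natCast, ← Real.rpow_mul (by norm_num), Real.inv_rpow (by norm_num), ← Real.rpow_neg (by norm_num)]
    congr 1
    ring
  simp only [hy] at hle ⊢
  have e1 : ((2 : ℝ) ^ (-(((K + D1 + 7 : ℕ) : ℝ) * n))) ^ 2 = 2 ^ (-(((K + D1 + 7 : ℕ) : ℝ) * n) * ((2 : ℕ) : ℝ)) := by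
    rw [← Real.rpow_natCast, gn_two_mul]
  have t1 : (cn (K + D1 + 7) * 2 ^ (-(((K + D1 + 7 : ℕ) : ℝ) * n))) ^ 2 * (2 ^ (-(-(K : ℝ) * n)) * e) ≤ 2 ^ (-(6 * (n : ℝ))) * X := by
    calc (cn (K + D1 + 7) * 2 ^ (-(((K + D1 + 7 : ℕ) : ℝ) * n))) ^ 2 * (2 ^ (-(-(K : ℝ) * n)) * e)
        = cn (K + D1 + 7) ^ 2 * (2 ^ (-(((K + D1 + 7 : ℕ) : ℝ) * n) * ((2 : ℕ) : ℝ)) * (2 ^ (-(-(K : ℝ) * n)) * e)) := by
          rw [mul_pow, e1, mul_assoc]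
      _ ≤ 2 ^ (1 * (n : ℝ)) * (2 ^ (-(((K + D1 + 7 : ℕ) : ℝ) * n) * ((2 : ℕ) : ℝ)) * (2 ^ (-(-(K : ℝ) * n)) * (2 ^ (-(-(D1 : ℝ) * n)) * X))) := by
          have p1 := gn_two_pos (-(((K + D1 + 7 : ℕ) : ℝ) * n) * ((2 : ℕ) : ℝ))
          have p2 := gn_two_pos (-(-(K : ℝ) * n))
          have p3 := gn_two_pos (-(-(D1 : ℝ) * n))
          refine mul_le_mul hc ?_ (by positivity) (gn_two_pos _).le
          exact mul_le_mul_of_nonneg_left (mul_le_mul_of_nonneg_left hle p2.le) p1.le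
      _ = 2 ^ (1 * (n : ℝ) + (-(((K + D1 + 7 : ℕ) : ℝ) * n) * ((2 : ℕ) : ℝ) + (-(-(K : ℝ) * n) + -(-(D1 : ℝ) * n)))) * X := by
          rw [gn_two_add, gn_two_add, gn_two_add]
          ring
      _ ≤ 2 ^ (-(6 * (n : ℝ))) * X := by
          refine mul_le_mul_of_nonneg_right (gn_two_mono ?_) hX
          push_cast
          have a1 : (0 : ℝ) ≤ (K : ℝ) * n := by positivity
          have a2 : (0 : ℝ) ≤ (D1 : ℝ) * n := by positivity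
          nlinarith
  have t2 : 2 * (2 : ℝ) ^ (-(6 * (n : ℝ))) ≤ 2 ^ (-(5 * (n : ℝ))) := by
    calc 2 * (2 : ℝ) ^ (-(6 * (n : ℝ))) = 2 ^ (1 + -(6 * (n : ℝ))) := by rw [gn_two_add, Real.rpow_one]
      _ ≤ _ := gn_two_mono (by linarith)
  have t3 := mul_le_mul_of_nonneg_right t2 hX
  linarith

/-- the two parts of the root row measure (`gn_ms_eq_mu`, `measureReal_add_measureReal_compl` / `gn_ms_iUnion`; `gn_en_one`: `ms univ v = ‖An v‖²`; `hv : v ∈ Pl b` gives `‖An T k b v‖ = ‖v‖`) -/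
theorem sf_gh_split {P : PkSys} (T : ℝ) (k b : ℕ) {S : Set P.X} (hS : MeasurableSet S) {v : P.Kc} (hv : v ∈ P.Pl b) :
    P.ms T k b S v + P.ms T k b Sᶜ v = ‖v‖ ^ 2 := by
  haveI := gn_mu_finite (P := P) T k b v
  rw [gn_ms_eq_mu T k b hS v, gn_ms_eq_mu T k b hS.compl v, measureReal_add_measureReal_compl hS, ← gn_ms_eq_mu T k b MeasurableSet.univ v]
  unfold PkSys.ms
  rw [Set.indicator_univ, gn_en_one, hv T k]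

/-- **G7**: the enlarged test is admissible and heavy -/
theorem sf_gh_heavy {Y : SfCy} (H : CyHyp Y) (C K D1 : ℕ) : ∃ n0 : ℕ, 1 ≤ n0 ∧ ∀ (A : ℕ) (p : Y.M.Par) (E : Xp (Y.M.sys p)) (Q1 : CyT), n0 ≤ E.n →
    SfGhHyp Y C K A p E Q1 → E.e ≤ E.s ^ (-(D1 : ℝ)) * (E.ka * cyWt Y.η Q1) →
    (Y.M.sys p).ok (H.mkT p (cyEnl Q1 (E.s ^ (-((K : ℝ) + 2))))) E.k0 ∧
    E.s ^ ((4 * K + 14 : ℕ) : ℝ) * (E.ka * (Y.M.sys p).wt (H.mkT p (cyEnl Q1 (E.s ^ (-((K : ℝ) + 2)))))) <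
      (Y.M.sys p).ms (tmL E.k0 E.i0) E.k0 E.b0 ((Y.M.sys p).cell (H.mkT p (cyEnl Q1 (E.s ^ (-((K : ℝ) + 2))))) (tmL E.k0 E.i0) E.k0) E.v := by
  obtain ⟨N, n0, hn0, hnum⟩ := sf_gh_num K D1 (H.L.CN C)
  refine ⟨n0, hn0, fun A p E Q1 hn h he => ?_⟩
  have hn1 : 1 ≤ E.n := hn0.trans hn
  obtain ⟨hr, hf, hd, hv⟩ := sf_gh_norm H hn1 h
  have hT := H.gen.tight p h.cls.1
  have hs := gn_s_pos E
  have ht0 : 0 < E.s ^ (-((K : ℝ) + 2)) := Real.rpow_pos_of_pos hs _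
  have ht1 : 1 ≤ E.s ^ (-((K : ℝ) + 2)) := by
    have := gn_s_anti E (y := -((K : ℝ) + 2)) (y' := 0) (by have : (0 : ℝ) ≤ K := Nat.cast_nonneg _; linarith)
    rwa [Real.rpow_zero] at this
  have hw0 : 0 < cyWt Y.η Q1 := by
    unfold cyWt
    positivity
  have hX : 0 ≤ E.ka * cyWt Y.η Q1 := mul_nonneg h.cls.2.1.ka_pos.le hw0.le
  constructor
  · rw [H.ok, H.tq_mk]
    refine ⟨mul_pos ht0 hr, mul_pos ht0 hf, hd.trans ?_⟩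
    show Q1.f ≤ E.s ^ (-((K : ℝ) + 2)) * Q1.f
    nlinarith
  · have h1 := sf_gh_out H hn1 h N
    have h2 := sf_gh_split (P := Y.M.sys p) (tmL E.k0 E.i0) E.k0 E.b0
      (hT.cellM (H.mkT p (cyEnl Q1 (E.s ^ (-((K : ℝ) + 2))))) (tmL E.k0 E.i0) E.k0) h.cls.2.1.plat
    have h3 := hnum E.n E.s (E.ka * cyWt Y.η Q1) E.e hn rfl hX h.cls.2.1.e_pos.le he
    have h4 : E.s ^ ((4 * K + 14 : ℕ) : ℝ) * (E.ka * (Y.M.sys p).wt (H.mkT p (cyEnl Q1 (E.s ^ (-((K : ℝ) + 2)))))) = E.s ^ (6 : ℝ) * (E.ka * cyWt Y.η Q1) := by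
      rw [H.wt, H.tq_mk, sf_gh_wt Y.η Q1 hr hf _ ht0, ← Real.rpow_natCast (E.s ^ (-((K : ℝ) + 2))) 4, ← Real.rpow_mul hs.le]
      have e1 : E.s ^ ((4 * K + 14 : ℕ) : ℝ) * E.s ^ (-((K : ℝ) + 2) * ((4 : ℕ) : ℝ)) = E.s ^ (6 : ℝ) := by
        rw [← Real.rpow_add hs]
        congr 1
        push_cast
        ring
      calc E.s ^ ((4 * K + 14 : ℕ) : ℝ) * (E.ka * (E.s ^ (-((K : ℝ) + 2) * ((4 : ℕ) : ℝ)) * cyWt Y.η Q1))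
          = (E.s ^ ((4 * K + 14 : ℕ) : ℝ) * E.s ^ (-((K : ℝ) + 2) * ((4 : ℕ) : ℝ))) * (E.ka * cyWt Y.η Q1) := by ring
        _ = _ := by rw [e1]
    rw [h4]
    linarith

/-! ## G8 : the exit -/

/-- **HEAVY/AF** -/
theorem sf_gh_af {Y : SfCy} (H : CyHyp Y) (C K : ℕ) : ∃ C' A0 n0 : ℕ, ∀ (A : ℕ) (p : Y.M.Par) (E : Xp (Y.M.sys p)) (Q1 : CyT), n0 ≤ E.n → A0 ≤ A →
    SfGhHyp Y C K A p E Q1 → Y.af C' A p E Q1 := by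
  obtain ⟨D1, A1, n1, h2⟩ := sf_gh_e_le H C
  obtain ⟨n2, hn2, h7⟩ := sf_gh_heavy H C K D1
  obtain ⟨C3, A3, n3, h3⟩ := cy_frm3 Y H C (4 * K + 14)
  obtain ⟨C4, h4⟩ := cy_frm Y H C3 (K + 2)
  refine ⟨C4, max A1 A3, max (max n1 n2) n3, fun A p E Q1 hn hA h => ?_⟩
  have hn1 : n1 ≤ E.n := ((le_max_left _ _).trans (le_max_left _ _)).trans hn
  have hn2' : n2 ≤ E.n := ((le_max_right _ _).trans (le_max_left _ _)).trans hn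
  have hn3 : n3 ≤ E.n := (le_max_right _ _).trans hn
  obtain ⟨hr, hf, -, -⟩ := sf_gh_norm H (hn2.trans hn2') h
  obtain ⟨hok, hhv⟩ := h7 A p E Q1 hn2' h (h2 K A p E Q1 hn1 ((le_max_left _ _).trans hA) h)
  have haf := h3 A p E _ hn3 ((le_max_right _ _).trans hA) h.cls hok hhv
  rw [H.tq_mk] at haf
  have hs := gn_s_pos E
  have e0 : E.s ^ (((K + 2 : ℕ) : ℝ)) * E.s ^ (-((K : ℝ) + 2)) = 1 := by
    rw [← Real.rpow_add hs]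
    have : (((K + 2 : ℕ) : ℝ)) + -((K : ℝ) + 2) = 0 := by push_cast; ring
    rw [this, Real.rpow_zero]
  have e1 : (1 : ℝ) ≤ E.s ^ (-(((K + 2 : ℕ) : ℝ))) * E.s ^ (-((K : ℝ) + 2)) := by
    have a1 : (1 : ℝ) ≤ E.s ^ (-(((K + 2 : ℕ) : ℝ))) := by
      have := gn_s_anti E (y := -(((K + 2 : ℕ) : ℝ))) (y' := 0) (by have : (0 : ℝ) ≤ ((K + 2 : ℕ) : ℝ) := Nat.cast_nonneg _; linarith)
      rwa [Real.rpow_zero] at this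
    have a2 : (1 : ℝ) ≤ E.s ^ (-((K : ℝ) + 2)) := by
      have := gn_s_anti E (y := -((K : ℝ) + 2)) (y' := 0) (by have : (0 : ℝ) ≤ K := Nat.cast_nonneg _; linarith)
      rwa [Real.rpow_zero] at this
    nlinarith
  have key := h4 A p E (cyEnl Q1 (E.s ^ (-((K : ℝ) + 2)))) Q1.r Q1.f haf
    (by show E.s ^ (((K + 2 : ℕ) : ℝ)) * (E.s ^ (-((K : ℝ) + 2)) * Q1.r) ≤ Q1.r
        rw [← mul_assoc, e0, one_mul])
    (by show Q1.r ≤ E.s ^ (-(((K + 2 : ℕ) : ℝ))) * (E.s ^ (-((K : ℝ) + 2)) * Q1.r)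
        rw [← mul_assoc]
        nlinarith)
    (by show E.s ^ (((K + 2 : ℕ) : ℝ)) * (E.s ^ (-((K : ℝ) + 2)) * Q1.f) ≤ Q1.f
        rw [← mul_assoc, e0, one_mul])
    (by show Q1.f ≤ E.s ^ (-(((K + 2 : ℕ) : ℝ))) * (E.s ^ (-((K : ℝ) + 2)) * Q1.f)
        rw [← mul_assoc]
        nlinarith)
  exact key

/-! ## G9 : groups -/

/-- hypotheses of HEAVY/AF for a group -/
structure SfGhD {Y : SfCy} {de : ℝ} (c : SfCfg Y de) (d : SfGeD c) (C K A : ℕ) : Prop where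
  str : c.W.Str (Y.tq c.p)
  gate : d.γ 0 ∈ c.W.G
  cls : Y.M.Cls C A c.p d.X
  val : 2 ^ (-((d.X.n : ℝ) / 2)) ≤ d.X.val
  /-- the frame has the widths of the end gate -/
  wd : ∀ l : c.W.Lb (d.γ 1), (Y.tq c.p (c.W.ts (d.γ 1) l)).r = d.Q0.r ∧ (Y.tq c.p (c.W.ts (d.γ 1) l)).f = d.Q0.f
  /-- the raw mass read on the chain atoms of the root gate is polynomial in the budget -/
  raw : (Y.M.sys c.p).en (tmL (c.W.k (d.γ 0)) d.m0) (c.W.k (d.γ 0)) (c.W.gb (d.γ 0)) ((d.gS (d.γ 0) d.m0).indicator (c.W.gM (d.γ 0) d.m0)) (c.W.pre (d.γ 0) d.m0)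
    ≤ d.X.s ^ (-(K : ℝ)) * d.e
  /-- the chain atoms of the root gate have polynomial rays in the frame -/
  ray : ∀ x ∈ d.gS (d.γ 0) d.m0, ((sfFrameOf (tmL (c.W.k (d.γ 0)) d.m0) ((2 : ℝ)⁻¹ ^ c.W.k (d.γ 0)) d.Q0).ray
    (sfRayAt (tmL (c.W.k (d.γ 0)) d.m0) (Y.co c.p (tmL (c.W.k (d.γ 0)) d.m0) x))).size ≤ d.X.s ^ (-(K : ℝ))

/-- **G9**.   PLAN: `cls`, `val` as they are.   `wd`: `d.X.ts a = d.ts 1 _ = c.W.ts (d.γ 1) _` (`unfold SfGeD.ts`, `dif_neg` as `¬ (1:ℝ) ≤ 0`).   `syn`: `S = d.gS (d.γ 0) d.m0` (measurable: `by_cases d.bel ..`: `= c.aS ..` (`sf_core_aS_meas c _ h.gate`) or `∅`),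
`b = c.W.gb (d.γ 0)` (`h.cls.2.2.2.1.1 : d.b0 ≤ C`, `d.b0 = gb + 1`), `F = mulR k (S.indicator M) (An T k b (c.W.pre (d.γ 0) d.m0))`, `M = c.W.gM (d.γ 0) d.m0`;   `d.X.v = d.psi` (`rfl`), `unfold SfGeD.psi PkSys.tz`; `gn_mulR_mulR k (gn_mask_ind hS) (sf_ge_mask_ind ..)` and
`(fun x => S.indicator 1 x * S.indicator M x) = S.indicator M` (`funext`, `by_cases x ∈ S`, `simp`);   `‖F‖² = ∫ (1_S M)² |An pre|² ≤ en (1_S M) pre` (`gn_mulR_normsq`, `unfold PkSys.en`, `integral_mono` / `gn_en_mono` with `gn_mask_sq`: `m² ≤ m` on `[0,1]`), `h.raw`.   Sizes: `cy_nr_ray` turns `h.ray` into `(cyRay (cyU Q0 l z)).size ≤ ..`; `unfold SfRay.size cyRay cyU cyBaseSz cyNorSz`, `max_le_iff`. -/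
theorem sf_gh_d_hyp {Y : SfCy} (H : CyHyp Y) {de : ℝ} {c : SfCfg Y de} {d : SfGeD c} {C K A : ℕ} (h : SfGhD c d C K A) : SfGhHyp Y C K A c.p d.X d.Q0 := by
  have hS : MeasurableSet (d.gS (d.γ 0) d.m0) := by
    by_cases hb : d.bel (d.γ 0) d.m0
    · have e : d.gS (d.γ 0) d.m0 = c.aS (d.γ 0) (fun ρ => d.chn ⟨d.γ 0, ρ⟩) d.m0 := by
        ext x
        exact ⟨fun hx => hx.2, fun hx => ⟨hb, hx⟩⟩
      rw [e]
      exact sf_core_aS_meas c _ h.gate _ _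
    · have e : d.gS (d.γ 0) d.m0 = ∅ := by
        ext x
        exact ⟨fun hx => absurd hx.1 hb, fun hx => absurd hx (Set.notMem_empty x)⟩
      rw [e]
      exact MeasurableSet.empty
  have hM := sf_core_gM_mask c h.str (d.γ 0) h.gate d.m0
  have hT := H.gen.tight c.p h.cls.1
  refine ⟨h.cls, h.val, ?_, ?_⟩
  · intro a
    have e : d.X.ts a = c.W.ts (d.γ 1) ((Fintype.equivFin (d.Lb 1)).symm a).1 := by
      show d.ts 1 _ = _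
      unfold SfGeD.ts
      rw [dif_neg]
      rintro ⟨h1, _⟩
      linarith
    rw [e]
    exact h.wd _
  · have hSM := sf_ge_mask_ind hM hS
    refine ⟨d.gS (d.γ 0) d.m0, c.W.gb (d.γ 0), (Y.M.sys c.p).mulR (c.W.k (d.γ 0)) ((d.gS (d.γ 0) d.m0).indicator (c.W.gM (d.γ 0) d.m0))
      ((Y.M.sys c.p).An (tmL (c.W.k (d.γ 0)) d.m0) (c.W.k (d.γ 0)) (c.W.gb (d.γ 0)) (c.W.pre (d.γ 0) d.m0)), hS, ?_, ?_, ?_, ?_⟩
    · have h1 : d.b0 ≤ C := h.cls.2.2.2.1.1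
      unfold SfGeD.b0 at h1
      omega
    · show d.psi = ContinuousLinearMap.adjoint ((Y.M.sys c.p).An (tmL (c.W.k (d.γ 0)) d.m0) (c.W.k (d.γ 0)) (c.W.gb (d.γ 0)))
        ((Y.M.sys c.p).mulR (c.W.k (d.γ 0)) ((d.gS (d.γ 0) d.m0).indicator fun _ => 1) _)
      unfold SfGeD.psi PkSys.tz
      rw [gn_mulR_mulR _ (gn_mask_ind hS) hSM]
      have e : (fun x => (d.gS (d.γ 0) d.m0).indicator (fun _ => (1 : ℝ)) x * (d.gS (d.γ 0) d.m0).indicator (c.W.gM (d.γ 0) d.m0) x)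
          = (d.gS (d.γ 0) d.m0).indicator (c.W.gM (d.γ 0) d.m0) := by
        funext x
        by_cases hx : x ∈ d.gS (d.γ 0) d.m0
        · rw [Set.indicator_of_mem hx, Set.indicator_of_mem hx, one_mul]
        · rw [Set.indicator_of_notMem hx, Set.indicator_of_notMem hx, zero_mul]
      rw [e]
    · have key : ‖(Y.M.sys c.p).mulR (c.W.k (d.γ 0)) ((d.gS (d.γ 0) d.m0).indicator (c.W.gM (d.γ 0) d.m0))
          ((Y.M.sys c.p).An (tmL (c.W.k (d.γ 0)) d.m0) (c.W.k (d.γ 0)) (c.W.gb (d.γ 0)) (c.W.pre (d.γ 0) d.m0))‖ ^ 2 ≤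
          (Y.M.sys c.p).en (tmL (c.W.k (d.γ 0)) d.m0) (c.W.k (d.γ 0)) (c.W.gb (d.γ 0)) ((d.gS (d.γ 0) d.m0).indicator (c.W.gM (d.γ 0) d.m0)) (c.W.pre (d.γ 0) d.m0) := by
        rw [gn_mulR_normsq _ hSM]
        exact gn_en_mono _ _ _ (gn_mask_sq hSM) hSM (fun x => by
          have h0 := (hSM.2 x).1
          have h1 := (hSM.2 x).2
          nlinarith) _
      exact key.trans h.raw
    · intro x hx
      have h1 := h.ray x hx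
      rw [cy_nr_ray] at h1
      unfold SfRay.size cyRay cyU at h1
      simp only [max_le_iff] at h1
      obtain ⟨a1, a2, a3, a4, a5⟩ := h1
      exact ⟨max_le a1 (max_le a2 a3), max_le a4 a5⟩

/-- **HEAVY/AF for groups** -/
theorem sf_gh_d {Y : SfCy} (H : CyHyp Y) (C K : ℕ) : ∃ C' A0 n0 : ℕ, ∀ {de : ℝ} (c : SfCfg Y de) (d : SfGeD c) (A : ℕ), n0 ≤ d.X.n → A0 ≤ A →
    SfGhD c d C K A → Y.af C' A c.p d.X d.Q0 := by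
  obtain ⟨C', A0, n0, h⟩ := sf_gh_af H C K
  exact ⟨C', A0, n0, fun c d A hn hA hd => h A c.p d.X d.Q0 hn hA (sf_gh_d_hyp H hd)⟩

end Claimed.Agent.R256
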