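import Claimed.Agent.R256.Soft.MResAt
import Claimed.Agent.R256.Soft.Cal
import Claimed.Agent.R255.Ent.Basic

/-!
# Row 256 (S0496), unit SOFT, M4 RES, file 5: LAWS AND GEOMETRY OF THE SHADOW OF A REFINEMENT      (architect helper200; block BP-256-SOFT-RES; prefix `sf_res_`)

PAPER FREE.   `sfResDoc` = the operator-free configuration of `sfResAt`, `sfResE` = the inclusion of its rows into the old rows.
EXITS: `sf_res_ray_eq`, `sf_res_lab_eq` (same rays and labels), `sf_res_sub` (`Sub .. 0 1 sfFrame1 D.G 0`), `sf_res_law` (at the gates `≤ i0` the new law is the old law conditioned on the surviving rows),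
`sf_res_keep_lt`, `sf_res_keep_at` (which rows survive at the gates `≤ i0`), `sf_res_rs`, `sf_res_cls_*` (the row sets of a class of atoms).
LEAVES `L-256-RES-C*`: prove IN PLACE, statement verbatim, helpers directly above.
-/

set_option autoImplicit false

namespace Claimed.Agent.R256

open MeasureTheory Claimed.Agent.R255

section

variable {Y : SfCy} {p : Y.M.Par} {W W' : SfMD (Y.M.sys p)} {de ε μ : ℝ} {D : SfDoc} (sh : SfSh Y p W de ε μ D) {i0 : ℝ}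
  {R : ∀ j, W.Lb j → Set (Y.M.sys p).X} (F : SfRn W' W i0 R) (hR : SfRs sh i0 R) (hS : W.Str (Y.tq p)) (hl : ∀ j, Nonempty (W'.Lb j))
  (hne : ∀ j ∈ W.G, ∃ l', (sfDocSup Y p W' j l').Nonempty)

/-- the operator-free configuration of the refinement -/
noncomputable def sfResDoc : SfDoc := (sfResAt sh F hR hS hl hne).doc de ε

/-- the inclusion of the rows -/
def sfResE (u : (sfResDoc sh F hR hS hl hne).Rw) : D.Rw := ⟨u.1, (u.2 : {ρ : D.Row u.1 // sfResKeep sh F u.1 ρ}).1⟩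

theorem sf_res_law_eqns_cite : True := by
  have := @sfResDoc.eq_1
  have := @sfResE.eq_1
  trivial

/-! ## LEAF L-256-RES-C1 : same rays, same labels -/

/-- PLAN: `show sfDocRay Y p W' j (sfResLb ..) (sh.rp j ρ.1) = _`; `sf_res_tr`, `sf_res_lb_g`, `sh.hray` (unfold `sfDocRay`, `SfMD.fr`). -/
theorem sf_res_ray_eq {j : ℝ} (hj : j ∈ W.G) (ρ : {ρ : D.Row j // sfResKeep sh F j ρ}) : (sfResDoc sh F hR hS hl hne).ray j ρ = D.ray j ρ.1 := by
  show sfDocRay Y p W' j (sfResLb sh F hl j ρ) (sh.rp j ρ.1) = _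
  rw [(sf_res_tr F j _).2.2.2.1, sf_res_lb_g sh F hl hj ρ, sh.hray j hj ρ.1]
  rfl

/-- PLAN: the same with `sfDocLab`, `sh.hlab`. -/
theorem sf_res_lab_eq {j : ℝ} (hj : j ∈ W.G) (ρ : {ρ : D.Row j // sfResKeep sh F j ρ}) : (sfResDoc sh F hR hS hl hne).lab j ρ = D.lab j ρ.1 := by
  show sfDocLab Y p W' j (sfResLb sh F hl j ρ) = _
  rw [(sf_res_tr F j _).2.2.2.2, sf_res_lb_g sh F hl hj ρ, sh.hlab j hj ρ.1]
  rfl

/-- the scalar data.   PLAN: all fields of `SfAt.doc` are explicit (`show`); `F.hn`, `F.hG`, `F.hk`, `F.hk0`, `F.hr`, `F.hf`, `F.hq0`, `F.he`, `F.hka`; `sh.hs`, `sh.hG`, `sh.hlen`, `sh.hr`, `sh.hf`, `sh.hek`. -/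
theorem sf_res_scal : (sfResDoc sh F hR hS hl hne).s = D.s ∧ (sfResDoc sh F hR hS hl hne).G = D.G ∧ (sfResDoc sh F hR hS hl hne).ek = D.ek ∧
    ∀ j ∈ W.G, (sfResDoc sh F hR hS hl hne).len j = D.len j ∧ (sfResDoc sh F hR hS hl hne).r j = D.r j ∧ (sfResDoc sh F hR hS hl hne).f j = D.f j := by
  refine ⟨?_, ?_, ?_, fun j hj => ⟨?_, ?_, ?_⟩⟩
  · show W'.E.s = D.s
    rw [(sf_res_tr F 0 (hl 0).some).2.2.1, sh.hs]
  · show W'.G = D.G
    rw [F.hG, sh.hG]
  · show W'.E.e / (W'.E.ka * cyWt Y.η W'.Q0) = D.ek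
    rw [F.he, F.hka, F.hq0, sh.hek]
  · show (2 : ℝ)⁻¹ ^ (W'.k j - W'.E.k0) = D.len j
    rw [F.hk, F.hk0, sh.hlen j hj]
  · show W'.r j / W'.Q0.r = D.r j
    rw [F.hr, F.hq0, sh.hr j hj]
  · show W'.f j / W'.Q0.f = D.f j
    rw [F.hf, F.hq0, sh.hf j hj]

/-! ## LEAF L-256-RES-C2 : the trivial frame (pure algebra) -/

/-- PLAN: `SfTest` extensionality (`cases Q`; `simp [sfFrame1, SfFrame.tst, SfFrame.bc, SfFrame.yc, sfZero, SfTest.beAt]`). -/
theorem sf_res_frame1_tst (Q : SfTest) : sfFrame1.tst Q = Q := by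
  cases Q
  simp [sfFrame1, SfFrame.tst, SfFrame.bc, SfFrame.yc, sfZero, SfTest.beAt]

/-- PLAN: `cases z`; `simp [sfFrame1, SfFrame.ray, SfRay.Bt, SfRay.Yt, SfRay.Dt, SfTest.shA, SfTest.shS, sfZero, SfTest.beAt]`. -/
theorem sf_res_frame1_ray (z : SfRay) : sfFrame1.ray z = z := by
  cases z
  simp [sfFrame1, SfFrame.ray, SfRay.Bt, SfRay.Yt, SfRay.Dt, SfTest.shA, SfTest.shS, sfZero, SfTest.beAt]

/-! ## LEAF L-256-RES-C3 : connecting chains -/

theorem sf_res_conn_step (u v : Σ i, (sfResAt sh F hR hS hl hne).R i) (h : (sfResAt sh F hR hS hl hne).step ε u v) :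
    sfNext W.G (sfResE sh F hR hS hl hne u).1 (sfResE sh F hR hS hl hne v).1 ∧ ∃ x ∈ sh.atm (sfResE sh F hR hS hl hne u).1 (sfResE sh F hR hS hl hne u).2, ∃ x' ∈ sh.atm (sfResE sh F hR hS hl hne v).1 (sfResE sh F hR hS hl hne v).2,
      sfCn Y p (W.E.s ^ (-ε)) (W.T (sfResE sh F hR hS hl hne u).1 (sh.lb (sfResE sh F hR hS hl hne u).1 (sfResE sh F hR hS hl hne u).2)) (W.k (sfResE sh F hR hS hl hne u).1)
        (W.T (sfResE sh F hR hS hl hne v).1 (sh.lb (sfResE sh F hR hS hl hne v).1 (sfResE sh F hR hS hl hne v).2)) (W.k (sfResE sh F hR hS hl hne v).1) x x' := by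
  obtain ⟨i, ρ⟩ := u
  obtain ⟨j, ρ'⟩ := v
  obtain ⟨h1, x, hx, x', hx', h2⟩ := h
  rw [F.hG] at h1
  refine ⟨h1, x, hx, x', hx', ?_⟩
  have h1' : sfNext W.G i j := h1
  have e1 := (sf_res_tr F i (sfResLb sh F hl i ρ)).1
  have e2 := (sf_res_tr F j (sfResLb sh F hl j ρ')).1
  have e3 := (sf_res_tr F j (sfResLb sh F hl j ρ')).2.2.1
  have g1 : F.g i (sfResLb sh F hl i ρ) = sh.lb i (ρ : {ρ : D.Row i // sfResKeep sh F i ρ}).1 := sf_res_lb_g sh F hl h1'.1 ρ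
  have g2 : F.g j (sfResLb sh F hl j ρ') = sh.lb j (ρ' : {ρ : D.Row j // sfResKeep sh F j ρ}).1 := sf_res_lb_g sh F hl h1'.2.1 ρ'
  rw [g1] at e1
  rw [g2] at e2
  have h3 : sfCn Y p (W'.E.s ^ (-ε)) (W'.T i (sfResLb sh F hl i ρ)) (W'.k i) (W'.T j (sfResLb sh F hl j ρ')) (W'.k j) x x' := h2
  rw [e1, e2, e3, F.hk] at h3
  exact h3
/-- PLAN: `(sfResDoc ..).Conn u.1 v.1 u.2 v.2` is `Relation.TransGen ((sfResAt ..).step ε) ⟨u.1,u.2⟩ ⟨v.1,v.2⟩` (`show`; `Sigma.eta`).   `Relation.TransGen.lift (sfResE ..)` maps it to a chain of the relation of `sh.conn`: one step: `sfNext W'.G = sfNext W.G` (`F.hG`), same atoms,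
`W'.E.s = W.E.s`, `W'.T = W.T ∘ g`, `W'.k = W.k` (`sf_res_tr`, `F.hk`, `sf_res_lb_g`; the gates of a step lie in `G`).   The end points of a chain lie in `G` (`Relation.TransGen.head'`/`tail'` or induction: `sfNext` contains both memberships), so `(sh.conn ..).2` applies. -/
theorem sf_res_conn (u v : (sfResDoc sh F hR hS hl hne).Rw) (h : (sfResDoc sh F hR hS hl hne).Conn u.1 v.1 u.2 v.2) :
    D.Conn (sfResE sh F hR hS hl hne u).1 (sfResE sh F hR hS hl hne v).1 (sfResE sh F hR hS hl hne u).2 (sfResE sh F hR hS hl hne v).2 := by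
  have h0 : Relation.TransGen ((sfResAt sh F hR hS hl hne).step ε) u v := h
  clear h
  have h1 : Relation.TransGen (fun (u v : Σ i, D.Row i) => sfNext W.G u.1 v.1 ∧ ∃ x ∈ sh.atm u.1 u.2, ∃ x' ∈ sh.atm v.1 v.2,
      sfCn Y p (W.E.s ^ (-ε)) (W.T u.1 (sh.lb u.1 u.2)) (W.k u.1) (W.T v.1 (sh.lb v.1 v.2)) (W.k v.1) x x')
      (sfResE sh F hR hS hl hne u) (sfResE sh F hR hS hl hne v) := by
    induction h0 with
    | single h' => exact Relation.TransGen.single (sf_res_conn_step sh F hR hS hl hne _ _ h')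
    | tail _ h' ih => exact ih.tail (sf_res_conn_step sh F hR hS hl hne _ _ h')
  have hu : (sfResE sh F hR hS hl hne u).1 ∈ W.G := by
    obtain ⟨c, hc, _⟩ := Relation.TransGen.head'_iff.mp h1
    exact hc.1.1
  have hv : (sfResE sh F hR hS hl hne v).1 ∈ W.G := by
    obtain ⟨c, _, hc⟩ := Relation.TransGen.tail'_iff.mp h1
    exact hc.1.2.1
  exact (sh.conn _ hu _ hv _ _).mpr h1

/-! ## LEAF L-256-RES-C4 : `Sub` -/

/-- PLAN: field by field; `0 + k * (1 - 0) = k`, `(k - 0) / (1 - 0) = k` (`by ring`, rewrite under `D.len`, `D.r`, `D.f`, membership);  `sf_res_scal`;  `D.len 1 = D.s`: `sh.hlen`, `sh.hs`, `hS.k_one`, `Xp.kf`, `Xp.s`, `Nat.add_sub_cancel_left`;  `D.r 1 = D.f 1 = 1`: `sh.hr`, `sh.hf`, `hS.frame`, `div_self`;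
`sfFrame1.L = sfFrame1.r0 = sfFrame1.F0 = 1` by `rfl`;  `hf`: `Real.rpow_zero`/`neg_zero`;  `hlab`: `sf_res_lab_eq`, `sf_res_frame1_tst`, the widths of `D.lab` are `D.r`, `D.f` (`sh.hlab`, `SfFrame.tst`, `sfTestAt`, `sfFrameOf`, `hS.width`, `sh.hr`, `sh.hf`), structure eta;
`hray`: `sf_res_ray_eq`, `sf_res_frame1_ray`, `SfRay.bdist z z = 0` (`simp [SfRay.bdist]`);  `conn`: `sf_res_conn`. -/
theorem sf_res_sub : (sfResDoc sh F hR hS hl hne).Sub D 0 1 sfFrame1 D.G 0 (sfResE sh F hR hS hl hne) := by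
  obtain ⟨s1, s2, s3, s4⟩ := sf_res_scal sh F hR hS hl hne
  have e1 : ∀ k : ℝ, 0 + k * (1 - 0) = k := fun k => by ring
  have e2 : ∀ k : ℝ, (k - 0) / (1 - 0) = k := fun k => by ring
  have h1G : (1 : ℝ) ∈ W.G := hS.gate.1
  have hr1 : D.r 1 = 1 := by
    rw [sh.hr 1 h1G, hS.frame.1, div_self (hS.frame.2.2 1 h1G).1.ne']
  have hf1 : D.f 1 = 1 := by
    rw [sh.hf 1 h1G, hS.frame.2.1, div_self (hS.frame.2.2 1 h1G).2.ne']
  have hl1 : D.len 1 = D.s := by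
    rw [sh.hlen 1 h1G, sh.hs, hS.k_one.1]
    unfold Xp.kf Xp.s
    rw [Nat.add_sub_cancel_left]
  have hL : sfFrame1.L = 1 := rfl
  refine ⟨?_, ?_, ?_, ?_, ?_, ?_, ?_, ?_, ?_, ?_, ?_⟩
  · intro u
    rw [e1]; rfl
  · intro k hk
    rw [e1, ← s2]; exact hk
  · intro k hk
    rw [e2, s2]; exact hk
  · rw [s1, hl1, hL, div_one]
  · intro k hk
    rw [s2, sh.hG] at hk
    rw [e1, hL, div_one]; exact (s4 k hk).1
  · exact ⟨hr1.symm, hf1.symm⟩
  · intro k hk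
    rw [s2, sh.hG] at hk
    rw [e1, hr1, div_one]; exact (s4 k hk).2.1
  · intro k hk
    rw [s2, sh.hG] at hk
    rw [e1, hf1, div_one, neg_zero, Real.rpow_zero, one_mul, (s4 k hk).2.2]
    exact ⟨le_refl _, le_refl _, fun _ => rfl⟩
  · intro u hu
    rw [s2, sh.hG] at hu
    obtain ⟨j, ρ⟩ := u
    have hu' : j ∈ W.G := hu
    rw [sf_res_frame1_tst]
    have a1 : (sfResDoc sh F hR hS hl hne).lab j ρ = D.lab j (ρ : {ρ : D.Row j // sfResKeep sh F j ρ}).1 := sf_res_lab_eq sh F hR hS hl hne hu' ρ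
    show (sfResDoc sh F hR hS hl hne).lab j ρ = { D.lab j (ρ : {ρ : D.Row j // sfResKeep sh F j ρ}).1 with r := (sfResDoc sh F hR hS hl hne).r j, f := (sfResDoc sh F hR hS hl hne).f j }
    rw [a1, (s4 j hu').2.1, (s4 j hu').2.2]
    have w1 : (D.lab j (ρ : {ρ : D.Row j // sfResKeep sh F j ρ}).1).r = D.r j := by
      rw [sh.hlab j hu', sh.hr j hu', ← (hS.width j hu' (sh.lb j (ρ : {ρ : D.Row j // sfResKeep sh F j ρ}).1)).1]
      rfl
    have w2 : (D.lab j (ρ : {ρ : D.Row j // sfResKeep sh F j ρ}).1).f = D.f j := by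
      rw [sh.hlab j hu', sh.hf j hu', ← (hS.width j hu' (sh.lb j (ρ : {ρ : D.Row j // sfResKeep sh F j ρ}).1)).2]
      rfl
    rw [← w1, ← w2]
  · intro u hu
    rw [s2, sh.hG] at hu
    obtain ⟨j, ρ⟩ := u
    have hu' : j ∈ W.G := hu
    rw [sf_res_frame1_ray]
    have a1 : (sfResDoc sh F hR hS hl hne).ray j ρ = D.ray j (ρ : {ρ : D.Row j // sfResKeep sh F j ρ}).1 := sf_res_ray_eq sh F hR hS hl hne hu' ρ
    show ((sfResDoc sh F hR hS hl hne).ray j ρ).bdist (D.ray j (ρ : {ρ : D.Row j // sfResKeep sh F j ρ}).1) = 0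
    rw [a1]
    simp [SfRay.bdist]
  · exact sf_res_conn sh F hR hS hl hne

/-! ## LEAF L-256-RES-C5 : the laws at the gates `≤ i0` -/

/-- the mass of a surviving atom is unchanged.   PLAN: unfold `SfAt.q` (`show`): time, depth, generation, interval: `sf_res_tr`, `F.hk`, `F.hgb`, `F.iv`, `sf_res_lb_g`;  state: `F.old`;  weight: `F.th`, and `(atm).indicator ((R ..).indicator θ) = (atm).indicator θ` since `atm ⊆ R`
(`sf_res_lb_sup`, `sf_res_sup_sub`; `funext`, `Set.indicator_apply`);  `sh.law`. -/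
theorem sf_res_q_old {j : ℝ} (hj : j ∈ W.G) (hji : j ≤ i0) (ρ : {ρ : D.Row j // sfResKeep sh F j ρ}) :
    (sfResAt sh F hR hS hl hne).q j ρ = (D.P j).p ρ.1 * W.tot j := by
  show (Y.M.sys p).en (W'.T j (sfResLb sh F hl j ρ)) (W'.k j) (W'.gb j) ((sh.atm j ρ.1).indicator (W'.th j (sfResLb sh F hl j ρ))) (W'.pre j (W'.iv j (sfResLb sh F hl j ρ))) = _
  have g1 := sf_res_lb_g sh F hl hj ρ
  have e0 : (sh.atm j ρ.1).indicator (W'.th j (sfResLb sh F hl j ρ)) = (sh.atm j ρ.1).indicator (W.th j (sh.lb j ρ.1)) := by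
    funext x
    by_cases hx : x ∈ sh.atm j ρ.1
    · rw [Set.indicator_of_mem hx, Set.indicator_of_mem hx, F.th]
      have hxR := (sf_res_sup_sub F (sf_res_lb_sup sh F hl hj ρ hx)).2
      rw [Set.indicator_of_mem hxR, g1]
    · rw [Set.indicator_of_notMem hx, Set.indicator_of_notMem hx]
  rw [e0, (sf_res_tr F j _).1, F.hk, F.hgb, F.iv, F.old j hj hji, g1, sh.law j hj ρ.1]

/-- PLAN: `e ⟨j,ρ'⟩ = ⟨j,ρ⟩ ↔ ρ' = ⟨ρ,hk⟩` (`Sigma.mk.injEq`, `heq_eq_eq`, `Subtype.ext_iff`); `FLaw.pr` is a sum of `if`s: `Finset.sum_ite_eq`. -/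
theorem sf_res_pr_single {j : ℝ} (ρ : D.Row j) (hk : sfResKeep sh F j ρ) :
    ((sfResDoc sh F hR hS hl hne).P j).pr (fun ρ' => sfResE sh F hR hS hl hne ⟨j, ρ'⟩ = ⟨j, ρ⟩) = ((sfResDoc sh F hR hS hl hne).P j).p (⟨ρ, hk⟩ : {ρ : D.Row j // sfResKeep sh F j ρ}) := by
  unfold FLaw.pr
  refine (Finset.sum_eq_single (M := ℝ) (ι := (sfResDoc sh F hR hS hl hne).Row j) (⟨ρ, hk⟩ : {ρ : D.Row j // sfResKeep sh F j ρ}) ?_ ?_).trans ?_
  · intro b _ hb
    rw [if_neg]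
    intro h
    apply hb
    have h2 : (⟨j, (b : {ρ : D.Row j // sfResKeep sh F j ρ}).1⟩ : D.Rw) = ⟨j, ρ⟩ := h
    have h3 := eq_of_heq (Sigma.mk.inj_iff.mp h2).2
    exact Subtype.ext h3
  · intro h
    exact absurd (Finset.mem_univ _) h
  · exact if_pos rfl

/-- **the new law is the old law conditioned on the surviving rows**.   PLAN: `a := sfResAt ..`; `a.law_p hsum` : `p' ρ' * W'.tot j = a.q j ρ'`;  `hsum j` : `∑ ρ', a.q j ρ' = W'.tot j`;  `sf_res_q_old`: `W'.tot j = (∑ ρ', p ρ'.1) * W.tot j = (D.P j).pr keep * W.tot j`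
(`FLaw.pr`, sum over a subtype = sum of `if`s: `Finset.sum_subtype`/`Finset.sum_filter`; mind the instance `Fintype.ofFinite` of `a.fR`);  cancel `W.tot j > 0`;  `sf_res_pr_single`. -/
theorem sf_res_law (hsum : (sfResAt sh F hR hS hl hne).Sum) {j : ℝ} (hj : j ∈ W.G) (hji : j ≤ i0) (htot : 0 < W.tot j) (ρ : D.Row j) (hk : sfResKeep sh F j ρ) :
    ((sfResDoc sh F hR hS hl hne).P j).pr (fun ρ' => sfResE sh F hR hS hl hne ⟨j, ρ'⟩ = ⟨j, ρ⟩) * (D.P j).pr (sfResKeep sh F j) = (D.P j).p ρ := by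
  rw [sf_res_pr_single sh F hR hS hl hne ρ hk]
  have hj' : j ∈ W'.G := by rw [F.hG]; exact hj
  have a1 := (sfResAt sh F hR hS hl hne).law_p hsum hj' (⟨ρ, hk⟩ : {ρ : D.Row j // sfResKeep sh F j ρ})
  rw [sf_res_q_old sh F hR hS hl hne hj hji] at a1
  have a2 := (hsum j hj').2.2
  have a3 : W'.tot j = (D.P j).pr (sfResKeep sh F j) * W.tot j := by
    rw [← a2]
    have : ∀ ρ' : (sfResAt sh F hR hS hl hne).R j, (sfResAt sh F hR hS hl hne).q j ρ' = (D.P j).p (ρ' : {ρ : D.Row j // sfResKeep sh F j ρ}).1 * W.tot j :=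
      fun ρ' => sf_res_q_old sh F hR hS hl hne hj hji ρ'
    rw [Finset.sum_congr rfl (fun ρ' _ => this ρ'), ← Finset.sum_mul]
    congr 1
    unfold FLaw.pr
    classical
    rw [← Finset.sum_filter]
    symm
    exact @Finset.sum_subtype _ _ _ (sfResKeep sh F j) ((sfResAt sh F hR hS hl hne).fR j) (Finset.univ.filter (sfResKeep sh F j)) (fun x => by simp) (fun ρ => (D.P j).p ρ)
  rw [a3] at a1
  have a4 : (((sfResDoc sh F hR hS hl hne).P j).p (⟨ρ, hk⟩ : {ρ : D.Row j // sfResKeep sh F j ρ}) * (D.P j).pr (sfResKeep sh F j)) * W.tot j = (D.P j).p ρ * W.tot j := by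
    rw [mul_assoc]; exact a1
  exact mul_right_cancel₀ htot.ne' a4

/-- the read mass of a gate `≤ i0` is multiplied by the probability of the surviving rows -/
theorem sf_res_tot (hsum : (sfResAt sh F hR hS hl hne).Sum) {j : ℝ} (hj : j ∈ W.G) (hji : j ≤ i0) : W'.tot j = (D.P j).pr (sfResKeep sh F j) * W.tot j := by
  have hj' : j ∈ W'.G := by rw [F.hG]; exact hj
  rw [← (hsum j hj').2.2]
  have : ∀ ρ' : (sfResAt sh F hR hS hl hne).R j, (sfResAt sh F hR hS hl hne).q j ρ' = (D.P j).p (ρ' : {ρ : D.Row j // sfResKeep sh F j ρ}).1 * W.tot j :=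
    fun ρ' => sf_res_q_old sh F hR hS hl hne hj hji ρ'
  rw [Finset.sum_congr rfl (fun ρ' _ => this ρ'), ← Finset.sum_mul]
  congr 1
  unfold FLaw.pr
  classical
  rw [← Finset.sum_filter]
  symm
  exact @Finset.sum_subtype _ _ _ (sfResKeep sh F j) ((sfResAt sh F hR hS hl hne).fR j) (Finset.univ.filter (sfResKeep sh F j)) (fun x => by simp) (fun ρ => (D.P j).p ρ)

/-- the normalised mass of a gate `≤ i0` -/
theorem sf_res_mass (hsum : (sfResAt sh F hR hS hl hne).Sum) {j : ℝ} (hj : j ∈ W.G) (hji : j ≤ i0) :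
    (sfResDoc sh F hR hS hl hne).mass j = D.mass j * (D.P j).pr (sfResKeep sh F j) := by
  show W'.tot j / (W'.E.e * W'.E.s ^ (-(de * j))) = _
  rw [sf_res_tot sh F hR hS hl hne hsum hj hji, F.he, (sf_res_tr F 0 (hl 0).some).2.2.1, sh.hmass j hj]
  ring

/-! ## LEAF L-256-RES-C6 : which rows survive at the gates `≤ i0` -/

include hR hS in
/-- a row of a gate `j ≤ i0` survives iff its atom lies in the row set.   PLAN: (→) `sf_res_sup_sub` on the points of the atom (`hl'` identifies the label).   (←) label: `F.rng` with a point of the atom (`sh.at_ne`, `sh.at_cov` ←).   `atm ⊆ sfDocSup Y p W' j l'`: `sf_res_th_ne`;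
`W'.Anc j l' y` (classical): from `W.Anc j (lb ρ) y` (`sh.at_cov` ←): for `g < j ≤ i0`, `g ≠ i0`, so `R g _ = univ` (`hR.univ`), `F.rng` gives the new label, `F.iv`, `F.hk`, `sf_res_th_ne`. -/
theorem sf_res_keep_iff {j : ℝ} (hj : j ∈ W.G) (hji : j ≤ i0) (ρ : D.Row j) : sfResKeep sh F j ρ ↔ sh.atm j ρ ⊆ R j (sh.lb j ρ) := by
  constructor
  · intro h x hx
    obtain ⟨l', h1, h2⟩ := h hj
    have := (sf_res_sup_sub F (h2 hx)).2
    rw [h1] at this
    exact this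
  · intro h _
    obtain ⟨x0, hx0⟩ := sh.at_ne j hj ρ
    have h0 := (sh.at_cov j hj (sh.lb j ρ) x0).2 ⟨ρ, rfl, hx0⟩
    obtain ⟨l', hl'⟩ := (F.rng j hj (sh.lb j ρ)).2 ⟨x0, h hx0, h0.1⟩
    refine ⟨l', hl', fun y hy => ?_⟩
    have hy0 := (sh.at_cov j hj (sh.lb j ρ) y).2 ⟨ρ, rfl, hy⟩
    refine ⟨(sf_res_th_ne F).2 ⟨by rw [hl']; exact h hy, by rw [hl']; exact hy0.1⟩, fun hc g hg hgj => ?_⟩
    have hg' : g ∈ W.G := F.hG ▸ hg
    obtain ⟨l0, e1, e2⟩ := hy0.2 hc g hg' hgj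
    have hgi : g ≠ i0 := (lt_of_lt_of_le hgj hji).ne
    obtain ⟨l0', hl0'⟩ := (F.rng g hg' l0).2 ⟨y, by rw [hR.univ g hgi l0]; exact Set.mem_univ _, e2⟩
    refine ⟨l0', ?_, (sf_res_th_ne F).2 ⟨by rw [hl0', hR.univ g hgi l0]; exact Set.mem_univ _, by rw [hl0']; exact e2⟩⟩
    rw [F.iv, F.iv, F.hk, hl0', hl', e1]

include hR hS in
theorem sf_res_keep_lt {j : ℝ} (hj : j ∈ W.G) (hji : j < i0) (ρ : D.Row j) : sfResKeep sh F j ρ := by
  rw [sf_res_keep_iff sh F hR hS hj hji.le ρ, hR.univ j hji.ne]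
  exact Set.subset_univ _

end

/-! ## LEAF L-256-RES-C7 : the row sets of a family of atoms -/

section

variable {Y : SfCy} {p : Y.M.Par} {W : SfMD (Y.M.sys p)} {de ε μ : ℝ} {D : SfDoc} (sh : SfSh Y p W de ε μ D) {i0 : ℝ}

/-- PLAN: `ext x; simp [sfResR]`. -/
theorem sf_res_R_at (Kp : D.Row i0 → Prop) (l : W.Lb i0) : sfResR sh i0 Kp i0 l = {x | ∃ ρ : D.Row i0, Kp ρ ∧ sh.lb i0 ρ = l ∧ x ∈ sh.atm i0 ρ} := by
  ext x
  simp [sfResR]

/-- PLAN: `ext x; simp [sfResR, h]`. -/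
theorem sf_res_R_off (Kp : D.Row i0 → Prop) {j : ℝ} (h : j ≠ i0) (l : W.Lb j) : sfResR sh i0 Kp j l = Set.univ := by
  ext x
  simp [sfResR, h]

/-- an atom lies in the row set iff it belongs to the family.   PLAN: `sf_res_R_at`; (←) trivial; (→) a point of the atom (`sh.at_ne`) lies in an atom `ρ2` of the family with the same label: `ρ2 = ρ` by `sh.at_disj` (`Set.disjoint_left`). -/
theorem sf_res_R_sub (hi : i0 ∈ W.G) (Kp : D.Row i0 → Prop) (ρ : D.Row i0) : sh.atm i0 ρ ⊆ sfResR sh i0 Kp i0 (sh.lb i0 ρ) ↔ Kp ρ := by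
  rw [sf_res_R_at]
  constructor
  · intro h
    obtain ⟨x, hx⟩ := sh.at_ne i0 hi ρ
    obtain ⟨ρ2, h1, h2, h3⟩ := h hx
    by_cases e : ρ2 = ρ
    · rw [← e]; exact h1
    · exact absurd hx (Set.disjoint_left.mp (sh.at_disj i0 hi ρ2 ρ h2 e) h3)
  · intro h x hx
    exact ⟨ρ, h, rfl, hx⟩

/-- PLAN: `meas`: `by_cases j = i0`: `subst`, `sf_res_R_at`, the set is `⋃ ρ, ⋃ (_ : Kp ρ ∧ lb ρ = l), atm ρ` (`MeasurableSet.iUnion`, `D.Row i0` is finite; `sh.at_meas`); else `sf_res_R_off`.   `univ`: `sf_res_R_off`.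
`sat`: `by_cases Kp ρ`: left by `sf_res_R_sub`; else right: a common point lies in an atom `ρ2` of the family with the same label, `ρ2 = ρ` by `sh.at_disj`. -/
theorem sf_res_rs (hi : i0 ∈ W.G) (Kp : D.Row i0 → Prop) : SfRs sh i0 (sfResR sh i0 Kp) := by
  refine ⟨?_, ?_, ?_⟩
  · intro j l
    by_cases h : j = i0
    · subst h
      rw [sf_res_R_at]
      have e : {x | ∃ ρ : D.Row j, Kp ρ ∧ sh.lb j ρ = l ∧ x ∈ sh.atm j ρ} = ⋃ ρ : D.Row j, ⋃ (_ : Kp ρ ∧ sh.lb j ρ = l), sh.atm j ρ := by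
        ext x
        simp only [Set.mem_iUnion, exists_prop, Set.mem_ofPred_eq, and_assoc]
      rw [e]
      exact MeasurableSet.iUnion fun ρ => MeasurableSet.iUnion fun _ => sh.at_meas j hi ρ
    · rw [sf_res_R_off sh Kp h]
      exact MeasurableSet.univ
  · intro j h l
    exact sf_res_R_off sh Kp h l
  · intro ρ
    by_cases h : Kp ρ
    · left
      exact (sf_res_R_sub sh hi Kp ρ).mpr h
    · right
      rw [Set.disjoint_left, sf_res_R_at]
      rintro x hx ⟨ρ2, h1, h2, h3⟩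
      by_cases e : ρ2 = ρ
      · exact h (e ▸ h1)
      · exact absurd hx (Set.disjoint_left.mp (sh.at_disj i0 hi ρ2 ρ h2 e) h3)

/-- different classes have disjoint row sets.   PLAN: `sf_res_R_at`, `Set.disjoint_left`, `sh.at_disj`. -/
theorem sf_res_cls_disj (hi : i0 ∈ W.G) {ι : Type} (cl : D.Row i0 → ι) (b b' : ι) (l : W.Lb i0) (h : b ≠ b') :
    Disjoint (sfResR sh i0 (fun ρ => cl ρ = b) i0 l) (sfResR sh i0 (fun ρ => cl ρ = b') i0 l) := by
  rw [sf_res_R_at, sf_res_R_at, Set.disjoint_left]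
  rintro x ⟨ρ, h1, h2, h3⟩ ⟨ρ', h1', h2', h3'⟩
  by_cases e : ρ = ρ'
  · subst e
    exact h (h1.symm.trans h1')
  · exact absurd h3' (Set.disjoint_left.mp (sh.at_disj i0 hi ρ ρ' (h2.trans h2'.symm) e) h3)

/-- the rows outside all classes are the rows that the shadow does not cover.   PLAN: `ext x`; `Set.mem_compl_iff`, `Set.mem_iUnion`, `sf_res_R_at`, `sh.at_cov` (unfold `sfDocSup`); the class of `ρ` is `cl ρ`. -/
theorem sf_res_cls_compl (hi : i0 ∈ W.G) {ι : Type} (cl : D.Row i0 → ι) (l : W.Lb i0) :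
    (⋃ b, sfResR sh i0 (fun ρ => cl ρ = b) i0 l)ᶜ = (sfDocSup Y p W i0 l)ᶜ := by
  congr 1
  ext x
  rw [Set.mem_iUnion]
  constructor
  · rintro ⟨b, hb⟩
    rw [sf_res_R_at] at hb
    obtain ⟨ρ, _, h2, h3⟩ := hb
    exact (sh.at_cov i0 hi l x).mpr ⟨ρ, h2, h3⟩
  · intro hx
    obtain ⟨ρ, h2, h3⟩ := (sh.at_cov i0 hi l x).mp hx
    refine ⟨cl ρ, ?_⟩
    rw [sf_res_R_at]
    exact ⟨ρ, rfl, h2, h3⟩

/-- the rows that a shadow does not cover carry no mass.   PLAN: hybrid: the weight `(sfDocSup ..)ᶜ.indicator (th l)` is identically `0` (`x ∉ sfDocSup → th = 0`), `simp [PkSys.en]`.   Classical: it equals `{x | ¬ Anc}.indicator (th l)` (`funext`, cases on `th l x = 0`), `hO hc i0 hi l`. -/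
theorem sf_res_orph (hO : Y.hyb = false → W.NoOrph) (hi : i0 ∈ W.G) (l : W.Lb i0) :
    (Y.M.sys p).en (W.T i0 l) (W.k i0) (W.gb i0) ((sfDocSup Y p W i0 l)ᶜ.indicator (W.th i0 l)) (W.pre i0 (W.iv i0 l)) = 0 := by
  cases hc : Y.hyb with
  | true =>
    have e : (sfDocSup Y p W i0 l)ᶜ.indicator (W.th i0 l) = fun _ => 0 := by
      funext x
      by_cases hx : x ∈ sfDocSup Y p W i0 l
      · exact Set.indicator_of_notMem (by simpa using hx) _
      · rw [Set.indicator_of_mem (by simpa using hx)]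
        by_contra h0
        exact hx ⟨h0, fun h => by rw [hc] at h; exact absurd h (by simp)⟩
    rw [e]
    simp [PkSys.en]
  | false =>
    have e : (sfDocSup Y p W i0 l)ᶜ.indicator (W.th i0 l) = {x | ¬ W.Anc i0 l x}.indicator (W.th i0 l) := by
      funext x
      by_cases h0 : W.th i0 l x = 0
      · rw [Set.indicator_apply_eq_zero.mpr (fun _ => h0), Set.indicator_apply_eq_zero.mpr (fun _ => h0)]
      · by_cases hA : W.Anc i0 l x
        · rw [Set.indicator_of_notMem, Set.indicator_of_notMem]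
          · simpa using hA
          · have : x ∈ sfDocSup Y p W i0 l := ⟨h0, fun _ => hA⟩
            simpa using this
        · rw [Set.indicator_of_mem, Set.indicator_of_mem]
          · exact hA
          · intro hx
            exact hA (hx.2 hc)
    rw [e]
    exact hO hc i0 hi l

end

end Claimed.Agent.R256
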