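import Claimed.Agent.R256.Soft.MDocAf
import Claimed.Agent.R256.Soft.MValAux
import Claimed.Agent.R256.Soft.MCoreDefs
import Claimed.Agent.R256.Soft.MResTri
import Claimed.Agent.R256.Soft.MResLaw

/-!
# Row 256 (S0496), unit SOFT, M4 RES, file 6: RESTRICTION + FORWARD PREPARATION AT THE MODEL LEVEL      (architect helper200; block BP-256-SOFT-RES; prefix `sf_res_`)

EXIT `sf_res_model`: a documented experiment `W` with `Ext` at a package-free accuracy `a`, a gate `i0`, `≤ s^-a` disjoint classes of rows of that gate  ⟹  a class `b` and `W'` with `SfRn W' W i0 (R b)` and `Ext` at the accuracy `a2`.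
(`sf_res_pick` picks the class; `sf_res_pre`, `sf_res_prep` = hypotheses of `CyForward`; `SfRn.fwd`.)
LEAVES `L-256-RES-D*`: prove IN PLACE, statement verbatim, helpers directly above.   PAPER FREE.
-/

set_option autoImplicit false

namespace Claimed.Agent.R256

open MeasureTheory Claimed.Agent.R255

section

variable {Y : SfCy} {p : Y.M.Par} {W W' : SfMD (Y.M.sys p)} {i0 : ℝ} {R : ∀ j, W.Lb j → Set (Y.M.sys p).X}

/-! ## LEAF L-256-RES-D1 : (i), (iv) pass to a refinement -/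

/-- PLAN.   `W'.E.s = W.E.s` (`Xp.s`, `F.hn`); rewrite `F.hG, F.hk, F.hk0, F.hn, F.he, F.hka, F.hr, F.hf` in every field; first pass to the accuracy `a'` by `sf_ext_mono`.   `depth`, `wr`: verbatim.
`cnt`: `∑ l', wt (W'.ts i l') = ∑ l', wt (W.ts i (F.g i l'))` (`F.ts`) `≤ ∑ l, wt (W.ts i l)`: `F.inj i` is injective, the terms are `≥ 0` (`hT.wt_pos _ _ (h.str.ok i hi l)`): `Finset.sum_image`/`Finset.sum_le_sum_of_subset_of_nonneg` on `univ.image (F.g i)` (or `Fintype.sum_le_sum`-free: `Finset.sum_map` with `⟨F.g i, F.inj i⟩`).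
`mm`: `(sf_res_th_ne F).1` gives the old weights `≠ 0`; `(sf_res_tr F _ _).1` for the times, `F.ts`, `F.hk`; apply `h.mm` at `F.g i l`, `F.g j l'`. -/
theorem sf_res_pre (hT : (Y.M.sys p).Tight) (F : SfRn W' W i0 R) (hS' : W'.Str (Y.tq p)) {pe de Ls ε a a' : ℝ} (haa : a ≤ a') (h : W.Ext Y p pe de Ls ε a) :
    W'.Pre Y p pe de Ls ε a' := by
  have h' := sf_ext_mono Y p W pe de Ls ε a a' haa h
  have es : W'.E.s = W.E.s := by
    unfold Xp.s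
    rw [F.hn]
  refine ⟨hS', fun i hi => ?_, fun i hi => ?_, fun i j hij => ?_, fun i j hij l l' x x' h1 h2 h3 => ?_⟩
  · rw [F.hG] at hi
    rw [F.hk, F.hk0, F.hn]
    exact h'.depth i hi
  · rw [F.hG] at hi
    rw [es, F.he, F.hka]
    refine le_trans ?_ (h'.cnt i hi)
    calc ∑ l, (Y.M.sys p).wt (W'.ts i l) = ∑ l, (Y.M.sys p).wt (W.ts i (F.g i l)) :=
          Finset.sum_congr rfl fun l _ => by rw [F.ts]
      _ = ∑ l ∈ Finset.univ.map ⟨F.g i, F.inj i⟩, (Y.M.sys p).wt (W.ts i l) := by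
          rw [Finset.sum_map]
          rfl
      _ ≤ ∑ l, (Y.M.sys p).wt (W.ts i l) :=
          Finset.sum_le_sum_of_subset_of_nonneg (Finset.subset_univ _) fun l _ _ => (hT.wt_pos _ _ (h.str.ok i hi l)).le
  · rw [F.hG] at hij
    rw [es, F.hr, F.hf]
    exact h'.wr i j hij
  · rw [F.hG] at hij
    have t1 := (sf_res_tr F i l).1
    have t2 := (sf_res_tr F j l').1
    rw [es, t1, t2, F.hk] at h3
    rw [es, t1, t2, F.hk, F.ts, F.ts, F.hf, F.hr]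
    exact h'.mm i j hij (F.g i l) (F.g j l') x x' ((sf_res_th_ne F).1 h1).2 ((sf_res_th_ne F).1 h2).2 h3

/-! ## LEAF L-256-RES-D2 : (ii) at the gates `≤ i0` -/

/-- PLAN: `sf_ext_mono` to `a'`; unfold `SfMD.Prep`, `SfMD.ivs`; rewrite `F.hk, F.hgb, F.hk0, F.hi0, F.he, F.hka`, `W'.E.s = W.E.s`, `F.old j hj hji m`; `h.en`, `h.reg`. -/
theorem sf_res_prep (F : SfRn W' W i0 R) {pe de Ls ε a a' : ℝ} (haa : a ≤ a') (h : W.Ext Y p pe de Ls ε a) {j : ℝ} (hj : j ∈ W.G) (hji : j ≤ i0) :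
    W'.Prep Y p pe de a' j := by
  have h' := sf_ext_mono Y p W pe de Ls ε a a' haa h
  have hs : W'.E.s = W.E.s := by
    unfold Xp.s
    rw [F.hn]
  have hivs : W'.ivs j = W.ivs j := by
    unfold SfMD.ivs
    rw [F.hk, F.hk0, F.hi0]
  unfold SfMD.Prep
  rw [hivs, hs, F.he, F.hka, F.hk, F.hgb]
  refine ⟨?_, fun m hm => ?_⟩
  · rw [Finset.sum_congr rfl fun m _ => by rw [F.old j hj hji m]]
    exact h'.en j hj
  · rw [F.old j hj hji m]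
    exact h'.reg j hj m hm

/-! ## LEAF L-256-RES-D3 : the value -/

/-- PLAN: `Xp.val`; `F.hn, F.he, F.hka`; the factor `2^(n/2) / (e √κ)` is `≥ 0`; `mul_le_mul_of_nonneg_left`, `mul_left_comm`. -/
theorem sf_res_val (F : SfRn W' W i0 R) (hv : W.E.Valid) {K : ℝ} (h : W.E.rd ≤ K * W'.E.rd) : W.E.val ≤ K * W'.E.val := by
  unfold Xp.val
  rw [F.hn, F.he, F.hka]
  have hc : 0 ≤ (2 : ℝ) ^ ((W.E.n : ℝ) / 2) / (W.E.e * Real.sqrt W.E.ka) := by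
    have := hv.e_pos
    positivity
  calc (2 : ℝ) ^ ((W.E.n : ℝ) / 2) / (W.E.e * Real.sqrt W.E.ka) * W.E.rd
      ≤ (2 : ℝ) ^ ((W.E.n : ℝ) / 2) / (W.E.e * Real.sqrt W.E.ka) * (K * W'.E.rd) := mul_le_mul_of_nonneg_left h hc
    _ = K * ((2 : ℝ) ^ ((W.E.n : ℝ) / 2) / (W.E.e * Real.sqrt W.E.ka) * W'.E.rd) := by ring

end

/-- PLAN: `Xp.val = c * rd` with `c > 0` (`hv.e_pos`, `hv.ka_pos`): `pos_of_mul_pos..`/`(mul_pos_iff_of_pos_left _).1`. -/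
theorem sf_res_rd_pos {P : PkSys} (E : Xp P) (hv : E.Valid) (h : 0 < E.val) : 0 < E.rd := by
  unfold Xp.val at h
  have hc : 0 < (2 : ℝ) ^ ((E.n : ℝ) / 2) / (E.e * Real.sqrt E.ka) := by
    have h1 := hv.e_pos
    have h2 := Real.sqrt_pos.2 hv.ka_pos
    positivity
  exact (mul_pos_iff_of_pos_left hc).1 h

/-- numerics of the loss.   PLAN: `K^3 ≤ s^(-3a) = 2^(3 a n)` (`gn_s_rpow`, `pow_le_pow_left₀`, `← Real.rpow_natCast`, `← Real.rpow_mul`);  `2^((Γ-3a)n) ≤ v ≤ 2^(3an) v'`, so `v' ≥ 2^((Γ-6a)n) ≥ 2^((Γ-τ)n)` (`gn_two_add`, `gn_two_mono`, `gn_two_pos`). -/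
theorem sf_res_num {P : PkSys} (E : Xp P) (Γ a τ K v v' : ℝ) (ha : 0 < a) (h6 : 6 * a ≤ τ) (hK0 : 0 ≤ K) (hK : K ≤ E.s ^ (-a)) (hv : (2 : ℝ) ^ ((Γ - 3 * a) * E.n) ≤ v)
    (hvv : v ≤ K ^ 3 * v') : (2 : ℝ) ^ ((Γ - τ) * E.n) ≤ v' := by
  have hn : (0 : ℝ) ≤ E.n := Nat.cast_nonneg _
  have hK3 : K ^ 3 ≤ (2 : ℝ) ^ (3 * a * E.n) := by
    have h1 : K ^ 3 ≤ (E.s ^ (-a)) ^ 3 := pow_le_pow_left₀ hK0 hK 3
    rw [gn_s_rpow] at h1
    refine h1.trans (le_of_eq ?_)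
    rw [← Real.rpow_natCast, ← Real.rpow_mul (by norm_num)]
    congr 1
    push_cast
    ring
  have hv0 : 0 < v := lt_of_lt_of_le (gn_two_pos _) hv
  have hv'0 : 0 < v' := by
    by_contra hcon
    rw [not_lt] at hcon
    have : K ^ 3 * v' ≤ 0 := mul_nonpos_of_nonneg_of_nonpos (pow_nonneg hK0 3) hcon
    linarith
  have h2 : (2 : ℝ) ^ ((Γ - 3 * a) * E.n) ≤ (2 : ℝ) ^ (3 * a * E.n) * v' :=
    hv.trans (hvv.trans (mul_le_mul_of_nonneg_right hK3 hv'0.le))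
  have h3 : (2 : ℝ) ^ ((Γ - 3 * a) * E.n) = (2 : ℝ) ^ (3 * a * E.n) * (2 : ℝ) ^ ((Γ - 6 * a) * E.n) := by
    rw [← gn_two_add]
    congr 1
    ring
  rw [h3] at h2
  have h4 : (2 : ℝ) ^ ((Γ - 6 * a) * E.n) ≤ v' := le_of_mul_le_mul_left h2 (gn_two_pos _)
  refine le_trans (gn_two_mono ?_) h4
  exact mul_le_mul_of_nonneg_right (by linarith) hn

/-! ## LEAF L-256-RES-D4 : the number of gates (Mathlib only) -/

/-- PLAN: the map `i ↦ ⌊i / h⌋₊` is injective on `G` (two points with the same floor differ by `< h`) with values in `Finset.range (⌊1/h⌋₊ + 1)`: `Finset.card_le_card_of_injOn`. -/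
theorem sf_res_card (G : Finset ℝ) (h : ℝ) (hh : 0 < h) (h01 : ∀ i ∈ G, 0 ≤ i ∧ i ≤ 1) (hg : ∀ i ∈ G, ∀ j ∈ G, i < j → h ≤ j - i) : G.card ≤ ⌊1 / h⌋₊ + 1 := by
  have key : ∀ i ∈ G, ∀ j ∈ G, i < j → ⌊i / h⌋₊ ≠ ⌊j / h⌋₊ := by
    intro i hi j hj hij e
    have h1 := hg i hi j hj hij
    have hi0 : 0 ≤ i / h := div_nonneg (h01 i hi).1 hh.le
    have a1 : (⌊i / h⌋₊ : ℝ) ≤ i / h := Nat.floor_le hi0
    have a2 : j / h < (⌊j / h⌋₊ : ℝ) + 1 := Nat.lt_floor_add_one _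
    rw [← e] at a2
    have a3 : j / h - i / h < 1 := by linarith
    rw [← sub_div, div_lt_one hh] at a3
    linarith
  have hc := Finset.card_le_card_of_injOn (s := G) (t := Finset.range (⌊1 / h⌋₊ + 1)) (fun i => ⌊i / h⌋₊) ?_ ?_
  · rwa [Finset.card_range] at hc
  · intro i hi
    have : ⌊i / h⌋₊ ≤ ⌊1 / h⌋₊ := Nat.floor_le_floor (div_le_div_of_nonneg_right (h01 i hi).2 hh.le)
    simp only [Finset.coe_range, Set.mem_Iio]
    omega
  · intro i hi j hj e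
    rcases lt_trichotomy i j with hij | hij | hij
    · exact absurd e (key i hi j hj hij)
    · exact hij
    · exact absurd e.symm (key j hj i hi hij)

/-- **(RES-MODEL)** -/
theorem sf_res_model (Y : SfCy) (H : CyHyp Y) (hF : CyForward Y) (h a2 : ℝ) (hh : 0 < h) (ha2 : 0 < a2) :
    ∃ a : ℝ, 0 < a ∧ ∀ S : ℕ, ∃ S' : ℕ, S ≤ S' ∧ ∃ A0 n0 : ℕ, ∀ (p : Y.M.Par) (W : SfMD (Y.M.sys p)) (A : ℕ) (Ls ε : ℝ), n0 ≤ W.E.n → A0 ≤ A →
      W.E.st.length ≤ S → W.E.GenLe S → Y.af S A p W.E W.Q0 → W.Ext Y p Y.M.p0 Y.M.d0 Ls ε a → CyGap W.G h →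
      ∀ i0 ∈ W.G, ∀ (ι : Type) [Finite ι] (R : ι → ∀ j, W.Lb j → Set (Y.M.sys p).X), (∀ b j l, MeasurableSet (R b j l)) →
        (∀ b j, j ≠ i0 → ∀ l, R b j l = Set.univ) → (∀ b b' l, b ≠ b' → Disjoint (R b i0 l) (R b' i0 l)) →
        (∀ l, (Y.M.sys p).en (W.T i0 l) (W.k i0) (W.gb i0) ((sfResC W R i0 l).indicator (W.th i0 l)) (W.pre i0 (W.iv i0 l)) = 0) →
        (Nat.card ι : ℝ) ≤ W.E.s ^ (-a) →
      ∃ (b : ι) (W' : SfMD (Y.M.sys p)), Nonempty (SfRn W' W i0 (R b)) ∧ W'.Ext Y p Y.M.p0 Y.M.d0 Ls ε a2 ∧ W'.E.st.length ≤ S' ∧ W'.E.GenLe S' ∧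
        Y.af S' A p W'.E W'.Q0 := by
  obtain ⟨a1, τ, ha1, hτ, HF⟩ := hF h a2 hh ha2
  refine ⟨min a1 (τ / 6), lt_min ha1 (by positivity), fun S => ?_⟩
  set a := min a1 (τ / 6) with ha
  have ha0 : 0 < a := lt_min ha1 (by positivity)
  have haa1 : a ≤ a1 := min_le_left _ _
  have ha6 : 6 * a ≤ τ := by
    have : a ≤ τ / 6 := min_le_right _ _
    linarith
  set C := max S (⌊1 / h⌋₊ + 1) with hC
  obtain ⟨C', HF⟩ := HF C
  obtain ⟨AF, nF, HF⟩ := HF 0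
  refine ⟨max C' C, (le_max_left _ _).trans (le_max_right _ _), AF, nF, ?_⟩
  intro p W A Ls ε hn hA hlen hgen haf hext hgap i0 hi0 ι _ R hRm hRu hRd hcov hcard
  have hS := hext.str
  have hgd : Y.M.gd p := ((H.af_def S A p W.E W.Q0).1 haf).1
  have hT := H.gen.tight p hgd
  have hΓ : Y.M.Gam = Y.M.d0 + (1 - Y.M.p0) / 2 := by
    unfold Mdl.d0
    ring
  have hval := sf_val_core W (Y.tq p) hS Y.M.Gam Y.M.p0 Y.M.d0 a hΓ ha0 (hext.read 1 hS.gate.1) (hext.cnt 1 hS.gate.1)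
  have hrd : 0 < W.E.rd := sf_res_rd_pos W.E hS.valid (lt_of_lt_of_le (gn_two_pos _) hval)
  obtain ⟨b, W1, ⟨F1⟩, hS1, hrd1, hlen1, hgen1, -⟩ := sf_res_pick W hT hS hi0 R hRm hRu hRd hcov hrd
  have hval1 : (2 : ℝ) ^ ((Y.M.Gam - τ) * W1.E.n) ≤ W1.E.val := by
    rw [F1.hn]
    exact sf_res_num W.E Y.M.Gam a τ _ _ _ ha0 ha6 (Nat.cast_nonneg _) hcard hval (sf_res_val F1 hS.valid hrd1)
  have hroot1 : Mdl.SameRoot W.E W1.E := ⟨F1.hk0, F1.hi0, F1.hv, F1.he, F1.hka, F1.hb0⟩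
  have hSC : S ≤ C := le_max_left _ _
  have haf1 : Y.af C AF p W1.E W.Q0 := sf_doc_af_mono H (sf_doc_af_root H haf hroot1 F1.hn) hSC hA
  have hg1 : W1.E.GenLe C := by
    have := hgen1 S hgen
    exact ⟨this.1.trans hSC, this.2.1.trans hSC, fun σ hσ => (this.2.2 σ hσ).trans hSC⟩
  have hcls1 : Y.M.Cls C AF p W1.E := ⟨hgd, hS1.valid, by rw [hlen1]; exact hlen.trans hSC, hg1, (H.af_iff C AF p W1.E hgd).2 ⟨_, haf1⟩⟩
  have hcd : W1.G.card ≤ C := by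
    rw [F1.hG]
    exact (sf_res_card W.G h hh hS.gate.2 hgap.1).trans (le_max_right _ _)
  have hgap1 : CyGap W1.G h := by rw [F1.hG]; exact hgap
  obtain ⟨st', pos', -, hold, hcls', -, hext'⟩ := HF p W1 Ls ε i0 (by rw [F1.hn]; exact hn) hcls1 hcd hgap1 (sf_res_pre hT F1 hS1 haa1 hext) hval1
    (fun j hj hji => sf_res_prep F1 haa1 hext (F1.hG ▸ hj) hji)
  have hC'S : C' ≤ max C' C := le_max_left _ _
  refine ⟨b, { W1 with E := W1.E.withSt st', pos := pos' }, ⟨F1.fwd st' pos' hold⟩, hext', hcls'.2.2.1.trans hC'S, ?_, ?_⟩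
  · have := hcls'.2.2.2.1
    exact ⟨this.1.trans hC'S, this.2.1.trans hC'S, fun σ hσ => (this.2.2 σ hσ).trans hC'S⟩
  · show Y.af (max C' C) A p (W1.E.withSt st') W1.Q0
    rw [F1.hq0]
    exact sf_doc_af_mono H (sf_doc_af_root H haf (E' := W1.E.withSt st') hroot1 F1.hn) (hSC.trans (le_max_right _ _)) le_rfl

end Claimed.Agent.R256
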