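import Claimed.Agent.R256.Soft.MGePa
import Claimed.Agent.R256.Soft.MGeFrD
import Claimed.Agent.R256.Soft.MResMod
import Claimed.Agent.R256.Soft.Mono

/-!
# Row 256 (S0496), unit SOFT, block M6 GE, sub-block DOC, file 1: THE MODEL STEP      (architect helper200; chief of GE helper105; prefix `sf_gd_`)

`SfGeDoc` (`Soft/MGeIface.lean`) = documentation of the extracted piece.   This file: mesh of the piece, depths, `SfGePre` + `CyForward` ⟹ `Ext` of `d.Wf st' pos'`, package of the prepared piece.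
PAPER FREE.   LEAVES `L-256-GD-A*`: prove IN PLACE, statement verbatim, helper lemmas directly above (names = name of the theorem + suffix).   Statements of this block and of the imports may be cited even if still `sorry`.
-/

set_option autoImplicit false

namespace Claimed.Agent.R256

open MeasureTheory Claimed.Agent.R255

section

variable {Y : SfCy} {π : SfPar} {Ls : ℝ} {c : SfCfg Y π.d} {S : ℕ} {C0 α : ℝ}

/-! ## LEAF L-256-GD-A1 : the mesh of the piece -/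

/-- the mesh of the piece has gaps `≥ h'`.   PLAN: `g ∈ d.G` iff `d.γ g ∈ d.Gk` (`sf_ge_mem_G`); `d.γ g2 - d.γ g1 = (g2 - g1) (j - i)` (`SfGeD.γ`, `ring`); `γ` increasing (`sf_ge_s_gam_lt`); divide by `j - i > 0` (`le_of_mul_le_mul_right`);
second part: `d.γ g = d.i` gives `g (j - i) = 0`, so `g = 0`. -/
theorem sf_gd_gap (d : SfGeD c) (hd : d.Ok) (h' : ℝ) (h1 : ∀ k ∈ d.Gk, ∀ l ∈ d.Gk, k < l → h' * (d.j - d.i) ≤ l - k)
    (h2 : ∀ k ∈ d.Gk, k = d.i ∨ h' * (d.j - d.i) ≤ k - d.i) : CyGap d.G h' := by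
  have hji : 0 < d.j - d.i := by linarith [hd.hij]
  constructor
  · intro g1 hg1 g2 hg2 hlt
    have a1 := (sf_ge_mem_G d hd.hij g1).1 hg1
    have a2 := (sf_ge_mem_G d hd.hij g2).1 hg2
    have hlt' : d.γ g1 < d.γ g2 := by
      unfold SfGeD.γ
      have := mul_lt_mul_of_pos_right hlt hji
      linarith
    have a3 := h1 _ a1 _ a2 hlt'
    have e : d.γ g2 - d.γ g1 = (g2 - g1) * (d.j - d.i) := by
      unfold SfGeD.γ
      ring
    rw [e] at a3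
    exact le_of_mul_le_mul_right a3 hji
  · intro g hg
    have a1 := (sf_ge_mem_G d hd.hij g).1 hg
    rcases h2 _ a1 with a2 | a2
    · left
      have e : g * (d.j - d.i) = 0 := by
        unfold SfGeD.γ at a2
        linarith
      rcases mul_eq_zero.1 e with e | e
      · exact e
      · exact absurd e hji.ne'
    · right
      have e : d.γ g - d.i = g * (d.j - d.i) := by
        unfold SfGeD.γ
        ring
      rw [e] at a2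
      exact le_of_mul_le_mul_right a2 hji

theorem sf_gd_card (d : SfGeD c) (hd : d.Ok) (h' : ℝ) (hh : 0 < h') (hg : CyGap d.G h') : d.G.card ≤ ⌊1 / h'⌋₊ + 1 :=
  sf_res_card d.G h' hh (fun _ hg' => ⟨(sf_ge_pa_gate hd hg').2.2.1, (sf_ge_pa_gate hd hg').2.2.2.1⟩) hg.1

/-! ## LEAF L-256-GD-A2 : depths -/

/-- the depth of the piece.   PLAN: `d.X.n = c.W.k (d.γ 1) - c.W.k (d.γ 0)` (`rfl`), `sf_ge_gam0`, `sf_ge_gam1`; `k_i ≤ k_j` (`Str.k_mono`), cast of the natural subtraction (`Nat.cast_sub`);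
`hin.ext.depth` at `i` and `j` (`abs_le`): `k_j - k_i ≥ (j - i) n - 2 α n ≥ (3/4) (j - i) n`;   upper bound: `Str.k_rg` (`k0 ≤ k_i`, `k_j ≤ kf = k0 + n`: `Xp.kf`), `omega`. -/
theorem sf_gd_nn (hin : SfGeIn Y π Ls c S C0 α) (d : SfGeD c) (hd : d.Ok) (hα : α ≤ (d.j - d.i) / 8) :
    (d.j - d.i) / 2 * c.W.E.n ≤ d.X.n ∧ d.X.n ≤ c.W.E.n := by
  have hs := hin.ext.str
  have e : d.X.n = c.W.k d.j - c.W.k d.i := by
    show c.W.k (d.γ 1) - c.W.k (d.γ 0) = _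
    rw [sf_ge_gam0, sf_ge_gam1]
  have hkk : c.W.k d.i ≤ c.W.k d.j := (hs.k_mono d.i hd.gi d.j hd.gj hd.hij).1
  have r1 := (hs.k_rg d.i hd.gi).1
  have r2 : c.W.k d.j ≤ c.W.E.k0 + c.W.E.n := (hs.k_rg d.j hd.gj).2
  refine ⟨?_, by rw [e]; omega⟩
  rw [e, Nat.cast_sub hkk]
  have d1 := abs_le.1 (hin.ext.depth d.i hd.gi)
  have d2 := abs_le.1 (hin.ext.depth d.j hd.gj)
  have hn : (0 : ℝ) ≤ (c.W.E.n : ℝ) := Nat.cast_nonneg _
  have h1 : α * (c.W.E.n : ℝ) ≤ (d.j - d.i) / 8 * (c.W.E.n : ℝ) := mul_le_mul_of_nonneg_right hα hn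
  have hji : 0 ≤ (d.j - d.i) * (c.W.E.n : ℝ) := mul_nonneg (by linarith [hd.hij]) hn
  have e1 : (d.j - d.i) / 2 * (c.W.E.n : ℝ) = d.j * (c.W.E.n : ℝ) - d.i * (c.W.E.n : ℝ) - 2 * ((d.j - d.i) / 8 * (c.W.E.n : ℝ)) - (d.j - d.i) * (c.W.E.n : ℝ) / 4 := by ring
  linarith [d1.1, d1.2, d2.1, d2.2]

/-- a large old depth gives a large new depth.   PLAN: `sf_gd_nn`; `N ≤ h / 2 * n` from `⌈2 N / h⌉₊ ≤ n` (`Nat.le_ceil`, `div_le_iff₀`); `exact_mod_cast`. -/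
theorem sf_gd_nlarge (hin : SfGeIn Y π Ls c S C0 α) (d : SfGeD c) (hd : d.Ok) (hα : α ≤ (d.j - d.i) / 8) (h : ℝ) (hh : 0 < h) (hij : h ≤ d.j - d.i)
    (N : ℕ) (hn : ⌈2 * (N : ℝ) / h⌉₊ ≤ c.W.E.n) : N ≤ d.X.n := by
  have h0 := (sf_gd_nn hin d hd hα).1
  have h1 : 2 * (N : ℝ) / h ≤ (c.W.E.n : ℝ) := (Nat.le_ceil _).trans (by exact_mod_cast hn)
  rw [div_le_iff₀ hh] at h1
  have hn0 : (0 : ℝ) ≤ (c.W.E.n : ℝ) := Nat.cast_nonneg _
  have h2 : h / 2 * (c.W.E.n : ℝ) ≤ (d.j - d.i) / 2 * (c.W.E.n : ℝ) := mul_le_mul_of_nonneg_right (by linarith) hn0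
  have h3 : (N : ℝ) ≤ (d.X.n : ℝ) := by
    have e1 : h / 2 * (c.W.E.n : ℝ) = (c.W.E.n : ℝ) * h / 2 := by ring
    linarith
  exact_mod_cast h3

/-- the standing hypotheses are monotone in the accuracy -/
theorem sf_gd_in_mono {α' : ℝ} (hin : SfGeIn Y π Ls c S C0 α) (hα : α ≤ α') : SfGeIn Y π Ls c S C0 α' := by
  have h0 : 0 < α := lt_of_lt_of_le (lt_of_lt_of_le (by positivity) hin.eps.1) hin.eps.2
  exact ⟨hin.ob, ⟨hin.eps.1, hin.eps.2.trans hα⟩, sf_good_mono _ _ _ _ _ _ h0 hα hin.good, sf_ext_mono _ _ _ _ _ _ _ _ _ hα hin.ext⟩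

end

/-! ## the model step (glue) -/

/-- **(GD-MODEL)**: `SfGePre` + `CyForward`: the piece is prepared forward from its root gate.   `ε'` = any truncation exponent `≤ ε/4`. -/
theorem sf_gd_model (Y : SfCy) (H : CyHyp Y) (hF : CyForward Y) (π : SfPar) (Ls : ℝ) (hx : π.Γ = Y.M.Gam ∧ π.p = Y.M.p0 ∧ π.d = Y.M.d0)
    (hP : SfGePre Y π Ls) (h' aF : ℝ) (hh' : 0 < h') (haF : 0 < aF) :
    ∃ a a1 τ : ℝ, 0 < a ∧ a ≤ 1 / 8 ∧ 0 < a1 ∧ 0 < τ ∧ ∀ h : ℝ, 0 < h → ∀ S C : ℕ, ∃ S1 : ℕ, ∀ A' : ℕ, ∃ A n0 : ℕ,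
    ∀ (c : SfCfg Y π.d) (C0 ϰ ε' : ℝ) (d : SfGeD c), h ≤ d.j - d.i → SfGeIn Y π Ls c S C0 (a * (d.j - d.i)) → n0 ≤ c.W.E.n → d.Ok →
      (∀ k ∈ d.Gk, ∀ l ∈ d.Gk, k < l → h' * (d.j - d.i) ≤ l - k) → (∀ k ∈ d.Gk, k = d.i ∨ h' * (d.j - d.i) ≤ k - d.i) →
      d.Root (c.W.E.s ^ (-(c.ε / 4))) ϰ → SfGeSelC Y π d C A τ a1 → Y.af C A c.p d.X d.Q0 → d.Q0.r = c.W.r d.j → d.Q0.f = c.W.f d.j → 0 < ε' → ε' ≤ c.ε / 4 →
    ∃ (st' : List (Stg (Y.M.sys c.p))) (pos' : ℝ → ℕ), (d.Wf st' pos').Ext Y c.p π.p π.d Ls ε' aF ∧ st'.length ≤ S1 ∧ (d.X.withSt st').GenLe S1 ∧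
      Y.af S1 A' c.p (d.X.withSt st') d.Q0 := by
  obtain ⟨a1, τ, ha1, hτ, HF⟩ := hF h' aF hh' haF
  obtain ⟨aP, haP, HP⟩ := hP a1 ha1
  refine ⟨min aP (1 / 8), a1, τ, lt_min haP (by norm_num), min_le_right _ _, ha1, hτ, fun h hh S C => ?_⟩
  obtain ⟨nP, HP⟩ := HP h hh S
  obtain ⟨C', HF⟩ := HF (max C (⌊1 / h'⌋₊ + 1))
  refine ⟨max C' C, fun A' => ?_⟩
  obtain ⟨AF, nF, HF⟩ := HF A'
  refine ⟨max AF A', max nP ⌈2 * (nF : ℝ) / h⌉₊, ?_⟩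
  intro c C0 ϰ ε' d hij hin hn hd hg1 hg2 hroot hsel haf hQr hQf hε0 hε4
  have hji : 0 < d.j - d.i := by linarith [hd.hij]
  have hα8 : min aP (1 / 8) * (d.j - d.i) ≤ (d.j - d.i) / 8 := by
    have := mul_le_mul_of_nonneg_right (min_le_right aP (1 / 8)) hji.le
    linarith
  have hinP : SfGeIn Y π Ls c S C0 (aP * (d.j - d.i)) := sf_gd_in_mono hin (mul_le_mul_of_nonneg_right (min_le_left _ _) hji.le)
  have hcls := hsel.cls
  obtain ⟨hpre, hprep⟩ := HP c C0 ϰ ε' d hij hinP ((le_max_left _ _).trans hn) hd hroot hcls.2.1 hQr hQf hε0 hε4 hsel.cnt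
  have hgap := sf_gd_gap d hd h' hg1 hg2
  have hclsF : Y.M.Cls (max C (⌊1 / h'⌋₊ + 1)) AF c.p d.W.E :=
    gn_cls_mono Y.M H.gen.scale (le_max_left _ _) (gn_cls_anti Y.M H.gen.scale (le_max_left _ _) hcls)
  have hnF : nF ≤ d.W.E.n := sf_gd_nlarge hin d hd hα8 h hh hij nF ((le_max_right _ _).trans hn)
  have hval : (2 : ℝ) ^ ((Y.M.Gam - τ) * d.W.E.n) ≤ d.W.E.val := by
    rw [← hx.1]
    exact hsel.val
  have hpre' : d.W.Pre Y c.p Y.M.p0 Y.M.d0 Ls ε' a1 := by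
    rw [← hx.2.1, ← hx.2.2]
    exact hpre
  obtain ⟨st', pos', -, -, hcls', -, hext'⟩ := HF c.p d.W Ls ε' 0 hnF hclsF ((sf_gd_card d hd h' hh' hgap).trans (le_max_right _ _)) hgap hpre' hval
    (fun g hg hg0 => by
      obtain ⟨e0, hi⟩ := (sf_ge_pa_gate hd hg).2.2.2.2 hg0
      rw [← hx.2.1, ← hx.2.2, e0]
      exact hprep hi)
  have hC' : C' ≤ max C' C := le_max_left _ _
  refine ⟨st', pos', ?_, hcls'.2.2.1.trans hC', ?_, ?_⟩
  · have : (d.Wf st' pos').Ext Y c.p Y.M.p0 Y.M.d0 Ls ε' aF := hext'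
    rw [← hx.2.1, ← hx.2.2] at this
    exact this
  · have := hcls'.2.2.2.1
    exact ⟨this.1.trans hC', this.2.1.trans hC', fun σ hσ => (this.2.2 σ hσ).trans hC'⟩
  · exact sf_doc_af_mono H (sf_doc_af_root H haf (E' := d.X.withSt st') ⟨rfl, rfl, rfl, rfl, rfl, rfl⟩ rfl) (le_max_right _ _) (le_max_right _ _)

end Claimed.Agent.R256
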