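import Claimed.Agent.R256.Soft.MGeDocA
import Claimed.Agent.R256.Soft.MDocDisc

/-!
# Row 256 (S0496), unit SOFT, block M6 GE, sub-block DOC, file 2: THE SHADOW OF THE PIECE      (architect helper200; prefix `sf_gd_`)

Standing data: `h : SfGePaH d φ S K1 K Λ ϰ hq μ' ε' st' pos'` (bundle of helper105, `Soft/MGePa.lean`), `hne` (every gate of the prepared piece has rows to cover).
`sfGdAt` = atoms from the pre-atoms `sfGePa` (`sfPaAt` of helper39);   `sfGdDoc` = the operator free configuration;   `sfGdE` = the map of rows: new row ↦ old row of its pre-atom, at the old gate `d.γ g'`.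
`sf_gd_sub` : `sfGdDoc` is a sub-configuration of `c.D` on `[i,j]` in the frame `φ`.
PAPER FREE.   LEAVES `L-256-GD-B*`: prove IN PLACE, statement verbatim, helper lemmas directly above (names = name of the theorem + suffix).   Statements of this block and of the imports may be cited even if still `sorry`.
ALL FIELDS OF `SfAt.doc` ARE EXPLICIT: start with `show` (see `sf_gd_scal`).
-/

set_option autoImplicit false

namespace Claimed.Agent.R256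

open MeasureTheory Claimed.Agent.R255

section

variable {Y : SfCy} {π : SfPar} {c : SfCfg Y π.d} {d : SfGeD c} {φ : SfFrame} {S : ℕ} {K1 K Λ ϰ hq μ' ε' : ℝ} {st' : List (Stg (Y.M.sys c.p))} {pos' : ℝ → ℕ}
  (hO : SfCyOk Y) (hg0 : SfGeo Y) (hF : SfFib Y) (h : SfGePaH d φ S K1 K Λ ϰ hq μ' ε' st' pos')
  (hne : ∀ g ∈ (d.Wf st' pos').G, ∃ l, (sfDocSup Y c.p (d.Wf st' pos') g l).Nonempty)

/-- the atoms of the piece -/
noncomputable def sfGdAt : SfAt Y c.p (d.Wf st' pos') μ' := sfPaAt hg0 h.str (sfGePa hO hg0 hF h) hne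

/-- the shadow of the piece -/
noncomputable def sfGdDoc : SfDoc := (sfGdAt hO hg0 hF h hne).doc π.d ε'

/-- the old row of a new row -/
noncomputable def sfGdO (g' : ℝ) (u : (sfGdDoc hO hg0 hF h hne).Row g') : c.D.Row (d.γ g') :=
  (sfPaOf hg0 h.str (sfGePa hO hg0 hF h) hne g' u : d.PA hq g').1.1

/-- the map of rows -/
noncomputable def sfGdE (u : (sfGdDoc hO hg0 hF h hne).Rw) : c.D.Rw := ⟨d.γ u.1, sfGdO hO hg0 hF h hne u.1 u.2⟩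

theorem sf_gd_b_eqns_cite : True := by
  have := @sfGdAt.eq_1
  have := @sfGdDoc.eq_1
  have := @sfGdO.eq_1
  have := @sfGdE.eq_1
  trivial

/-- the scalar data -/
theorem sf_gd_scal : (sfGdDoc hO hg0 hF h hne).s = d.X.s ∧ (sfGdDoc hO hg0 hF h hne).G = d.G ∧ (sfGdDoc hO hg0 hF h hne).ek = d.e / (d.ka * cyWt Y.η d.Q0) ∧
    (∀ g', (sfGdDoc hO hg0 hF h hne).len g' = (2 : ℝ)⁻¹ ^ (c.W.k (d.γ g') - c.W.k (d.γ 0))) ∧
    (∀ g', (sfGdDoc hO hg0 hF h hne).r g' = c.W.r (d.γ g') / d.Q0.r) ∧ (∀ g', (sfGdDoc hO hg0 hF h hne).f g' = (d.Wf st' pos').f g' / d.Q0.f) :=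
  ⟨rfl, rfl, rfl, fun _ => rfl, fun _ => rfl, fun _ => rfl⟩

/-- the label of a new row is the label of its old row -/
theorem sf_gd_lb {g' : ℝ} (hg : g' ∈ d.G) (u : (sfGdDoc hO hg0 hF h hne).Row g') :
    c.sh.lb (d.γ g') (sfGdO hO hg0 hF h hne g' u) = (((sfGdAt hO hg0 hF h hne).lb g' u : (d.Wf st' pos').Lb g') : d.Lb g').1 :=
  (sf_doc_pa_sub hg0 h.str (sfGePa hO hg0 hF h) hne (i := g') hg u).2.2

/-! ## LEAF L-256-GD-B1 : lengths -/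

/-- `Sub.hs`, `Sub.hlen`.   PLAN: `sf_gd_scal`; `d.i + k' * (d.j - d.i)` IS `d.γ k'` (`rfl`);  `hs`: `sf_gf_xs hin d h.ok`, `hL`;   `hlen`: `c.sh.hlen` at `d.γ k'` (`sf_ge_pa_gate h.ok hk`) and at `d.i` (`h.ok.gi`), `sf_ge_gam0`; `k0 ≤ k_i ≤ k_(γ k')` (`Str.k_rg`, `sf_ge_s_str_k`-like: `Str.k_mono` or equality);
`eq_div_iff`, `← pow_add`, `congr 1`, `omega` (as in `sf_gf_xs`). -/
theorem sf_gd_sub_len {Ls C0 α : ℝ} (hin : SfGeIn Y π Ls c S C0 α) (hL : φ.L = c.D.len d.i) :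
    (sfGdDoc hO hg0 hF h hne).s = c.D.len d.j / φ.L ∧
      ∀ k' ∈ (sfGdDoc hO hg0 hF h hne).G, (sfGdDoc hO hg0 hF h hne).len k' = c.D.len (d.i + k' * (d.j - d.i)) / φ.L := by
  have hd := h.ok
  have hS := hin.ext.str
  refine ⟨?_, fun k' hk => ?_⟩
  · show d.X.s = c.D.len d.j / φ.L
    rw [hL]
    exact sf_gf_xs hin d hd
  · have hk' : k' ∈ d.G := hk
    obtain ⟨-, hg, h0, -, hz⟩ := sf_ge_pa_gate hd hk'
    show (2 : ℝ)⁻¹ ^ (c.W.k (d.γ k') - c.W.k (d.γ 0)) = c.D.len (d.γ k') / φ.L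
    have h2 := (hS.k_rg d.i hd.gi).1
    have h1 : c.W.k d.i ≤ c.W.k (d.γ k') := by
      rcases h0.eq_or_lt with e | e
      · rw [← e, sf_gf_g0]
      · refine (hS.k_mono d.i hd.gi (d.γ k') hg ?_).1
        have : 0 < k' * (d.j - d.i) := mul_pos e (by linarith [hd.hij])
        show d.i < d.i + k' * (d.j - d.i)
        linarith
    rw [hL, sf_gf_g0, c.sh.hlen d.i hd.gi, c.sh.hlen (d.γ k') hg, eq_div_iff (by positivity), ← pow_add]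
    congr 1
    omega

/-! ## LEAF L-256-GD-B2 : widths -/

/-- `Sub.hr`, `Sub.hf`.   PLAN: `sf_gd_scal`;  `d.Q0.r = c.W.r d.j`, `d.Q0.f = c.W.f d.j` (`h.fr.r`, `h.fr.f`);  `c.sh.hr`, `c.sh.hf` at `d.γ k'` and `d.j`: `(x / q) / (y / q) = x / y` (`div_div_div_cancel_right₀`, `q = c.W.Q0.r ≠ 0` by `Str.frame`: `Q0.r = r 1 > 0`);
`(d.Wf st' pos').f k' = if k' ≤ 0 then d.f0 else c.W.f (d.γ k')` (`show`, `if_pos`/`if_neg`);   `0 < k'`: equality, and `1 ≤ s'^(-t')` (`sf_gf_one_le`; `0 < d.X.s ≤ 1`);   `k' ≤ 0`: `k' = 0` (`sf_ge_pa_gate`), `h.root.wid`: `f_i ≤ (2 + Λ) f_i ≤ f0 ≤ 4 Λ f_i ≤ s'^(-t') f_i` (`h.hΛ`, `hΛt`), divide by `c.W.f d.j > 0`. -/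
theorem sf_gd_sub_w {t' : ℝ} (ht' : 0 ≤ t') (hΛt : 4 * Λ ≤ d.X.s ^ (-t')) :
    (∀ k' ∈ (sfGdDoc hO hg0 hF h hne).G, (sfGdDoc hO hg0 hF h hne).r k' = c.D.r (d.i + k' * (d.j - d.i)) / c.D.r d.j) ∧
      ∀ k' ∈ (sfGdDoc hO hg0 hF h hne).G, c.D.f (d.i + k' * (d.j - d.i)) / c.D.f d.j ≤ (sfGdDoc hO hg0 hF h hne).f k' ∧
        (sfGdDoc hO hg0 hF h hne).f k' ≤ (sfGdDoc hO hg0 hF h hne).s ^ (-t') * (c.D.f (d.i + k' * (d.j - d.i)) / c.D.f d.j) ∧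
        (0 < k' → (sfGdDoc hO hg0 hF h hne).f k' = c.D.f (d.i + k' * (d.j - d.i)) / c.D.f d.j) := by
  have hs := h.ob.2.2.1
  have hd := h.ok
  have hQr : c.W.Q0.r ≠ 0 := by
    rw [hs.frame.1]
    exact (hs.frame.2.2 1 hs.gate.1).1.ne'
  have hQf : c.W.Q0.f ≠ 0 := by
    rw [hs.frame.2.1]
    exact (hs.frame.2.2 1 hs.gate.1).2.ne'
  have hfj : 0 < c.W.f d.j := (hs.frame.2.2 d.j hd.gj).2
  have hs0 : 0 < d.X.s := by
    show 0 < (2 : ℝ)⁻¹ ^ (c.W.k (d.γ 1) - c.W.k (d.γ 0))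
    positivity
  have hs1 : d.X.s ≤ 1 := by
    show (2 : ℝ)⁻¹ ^ (c.W.k (d.γ 1) - c.W.k (d.γ 0)) ≤ 1
    exact pow_le_one₀ (by norm_num) (by norm_num)
  have h1t : 1 ≤ d.X.s ^ (-t') := sf_gf_one_le hs0 hs1 ht'
  have eF : ∀ k' ∈ d.G, c.D.f (d.γ k') / c.D.f d.j = c.W.f (d.γ k') / c.W.f d.j := by
    intro k' hk
    rw [c.sh.hf _ (sf_ge_pa_gate hd hk).2.1, c.sh.hf _ hd.gj, div_div_div_cancel_right₀ hQf]
  constructor
  · intro k' hk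
    have hk' : k' ∈ d.G := hk
    show c.W.r (d.γ k') / d.Q0.r = c.D.r (d.γ k') / c.D.r d.j
    rw [c.sh.hr _ (sf_ge_pa_gate hd hk').2.1, c.sh.hr _ hd.gj, div_div_div_cancel_right₀ hQr, h.fr.r]
  · intro k' hk
    have hk' : k' ∈ d.G := hk
    have hfk : 0 < c.W.f (d.γ k') := (hs.frame.2.2 _ (sf_ge_pa_gate hd hk').2.1).2
    show c.D.f (d.γ k') / c.D.f d.j ≤ (if k' ≤ 0 then d.f0 else c.W.f (d.γ k')) / d.Q0.f ∧
      (if k' ≤ 0 then d.f0 else c.W.f (d.γ k')) / d.Q0.f ≤ d.X.s ^ (-t') * (c.D.f (d.γ k') / c.D.f d.j) ∧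
      (0 < k' → (if k' ≤ 0 then d.f0 else c.W.f (d.γ k')) / d.Q0.f = c.D.f (d.γ k') / c.D.f d.j)
    rw [eF k' hk', h.fr.f]
    have hq : 0 < c.W.f (d.γ k') / c.W.f d.j := div_pos hfk hfj
    by_cases h0 : k' ≤ 0
    · rw [if_pos h0]
      obtain ⟨e0, -⟩ := (sf_ge_pa_gate hd hk').2.2.2.2 h0
      subst e0
      have hw := h.root.wid
      have hΛ := h.hΛ
      refine ⟨?_, ?_, fun hh => absurd hh (lt_irrefl _)⟩
      · apply div_le_div_of_nonneg_right _ hfj.le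
        have : c.W.f (d.γ 0) ≤ (2 + Λ) * c.W.f (d.γ 0) := by
          have := mul_le_mul_of_nonneg_right (show (1 : ℝ) ≤ 2 + Λ by linarith) hfk.le
          linarith
        linarith [hw.1]
      · rw [← mul_div_assoc]
        apply div_le_div_of_nonneg_right _ hfj.le
        have := mul_le_mul_of_nonneg_right hΛt hfk.le
        linarith [hw.2]
    · rw [if_neg h0]
      refine ⟨le_refl _, ?_, fun _ => rfl⟩
      have := mul_le_mul_of_nonneg_right h1t hq.le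
      linarith

/-! ## LEAF L-256-GD-B3 : labels -/

/-- `Sub.hlab`.   PLAN: destructure `u = ⟨g', ρ⟩`; the left side is `sfDocLab Y c.p (d.Wf st' pos') g' ((sfGdAt ..).lb g' ρ)` (`show`); `sf_ge_pa_lab hO h hg _ (sfGdO .. g' ρ) (sf_gd_lb ..)`;   it remains to see that the field `r` of `φ.tst (c.D.lab (d.γ g') ρ0)` is `(sfGdDoc ..).r g'`:
`(φ.tst Q).r = Q.r / φ.r0` (`rfl`, `SfFrame.tst`), `(c.D.lab k ρ0).r = c.D.r k` (`c.sh.hlab`, `Str.width`, `c.sh.hr`: as `w1` in `sf_res_sub`, `Soft/MResLaw.lean`), `hr0`, `sf_gd_sub_w` (first part; any `t'`) or directly `sf_gd_scal` + `h.fr.r`;   structure eta: rewrite the field, `rfl`. -/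
theorem sf_gd_sub_lab (hr0 : φ.r0 = c.D.r d.j) (u : (sfGdDoc hO hg0 hF h hne).Rw) (hu : u.1 ∈ (sfGdDoc hO hg0 hF h hne).G) :
    (sfGdDoc hO hg0 hF h hne).lab u.1 u.2 = { φ.tst (c.D.lab (sfGdE hO hg0 hF h hne u).1 (sfGdE hO hg0 hF h hne u).2) with
      r := (sfGdDoc hO hg0 hF h hne).r u.1, f := (sfGdDoc hO hg0 hF h hne).f u.1 } := by
  obtain ⟨g', ρ⟩ := u
  have hg : g' ∈ d.G := hu
  have hs : c.W.Str (Y.tq c.p) := h.ob.2.2.1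
  have hi : d.γ g' ∈ c.W.G := (sf_ge_pa_gate h.ok hg).2.1
  have e1 := sf_ge_pa_lab hO h hg ((sfGdAt hO hg0 hF h hne).lb g' ρ) (sfGdO hO hg0 hF h hne g' ρ) (sf_gd_lb hO hg0 hF h hne hg ρ)
  show sfDocLab Y c.p (d.Wf st' pos') g' ((sfGdAt hO hg0 hF h hne).lb g' ρ) = { φ.tst (c.D.lab (d.γ g') (sfGdO hO hg0 hF h hne g' ρ)) with
    r := c.W.r (d.γ g') / d.Q0.r, f := (d.Wf st' pos').f g' / d.Q0.f }
  rw [e1]
  have w1 : (c.D.lab (d.γ g') (sfGdO hO hg0 hF h hne g' ρ)).r = c.D.r (d.γ g') := by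
    rw [c.sh.hlab _ hi, c.sh.hr _ hi, ← (hs.width _ hi (c.sh.lb _ (sfGdO hO hg0 hF h hne g' ρ))).1]
    rfl
  have hq0 : c.W.Q0.r ≠ 0 := by
    rw [hs.frame.1]
    exact (hs.frame.2.2 1 hs.gate.1).1.ne'
  have w : (φ.tst (c.D.lab (d.γ g') (sfGdO hO hg0 hF h hne g' ρ))).r = c.W.r (d.γ g') / d.Q0.r := by
    show (c.D.lab (d.γ g') (sfGdO hO hg0 hF h hne g' ρ)).r / φ.r0 = _
    rw [w1, hr0, c.sh.hr _ hi, c.sh.hr _ h.ok.gj, h.fr.r, div_div_div_cancel_right₀ hq0]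
  rw [← w]

/-! ## rays, chains (glue) -/

/-- `Sub.hray` -/
theorem sf_gd_sub_ray (u : (sfGdDoc hO hg0 hF h hne).Rw) (hu : u.1 ∈ (sfGdDoc hO hg0 hF h hne).G) :
    ((sfGdDoc hO hg0 hF h hne).ray u.1 u.2).bdist (φ.ray (c.D.ray (sfGdE hO hg0 hF h hne u).1 (sfGdE hO hg0 hF h hne u).2)) = 0 := by
  obtain ⟨g', ρ⟩ := u
  exact sf_ge_pa_ray hO hF h hu _ _ (sf_gd_lb hO hg0 hF h hne hu ρ)

/-- every row of a gate, and every row at the depth `0`, comes from a row on a chain -/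
theorem sf_gd_chn (u : (sfGdDoc hO hg0 hF h hne).Rw) (hu : u.1 ∈ (sfGdDoc hO hg0 hF h hne).G ∨ u.1 = 0) : d.chn (sfGdE hO hg0 hF h hne u) :=
  sf_ge_pa_chn h hu _

/-- one link -/
theorem sf_gd_step (u v : Σ g', (sfGdAt hO hg0 hF h hne).R g') (hs : (sfGdAt hO hg0 hF h hne).step ε' u v) :
    c.Lk (sfGdE hO hg0 hF h hne u) (sfGdE hO hg0 hF h hne v) := by
  obtain ⟨h1, x, hx, x', hx', -, -, h2⟩ := sf_doc_pa_step hg0 h.str (sfGePa hO hg0 hF h) hne ε' hs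
  obtain ⟨g1, ρ1⟩ := u
  obtain ⟨g2, ρ2⟩ := v
  exact sf_ge_pa_link hO h h1 _ _ _ _ (sf_gd_lb hO hg0 hF h hne h1.1 ρ1) (sf_gd_lb hO hg0 hF h hne h1.2.1 ρ2) x x' hx hx' h2

/-- `Sub.conn` -/
theorem sf_gd_conn (u v : (sfGdDoc hO hg0 hF h hne).Rw) (hc : (sfGdDoc hO hg0 hF h hne).Conn u.1 v.1 u.2 v.2) :
    c.D.Conn (sfGdE hO hg0 hF h hne u).1 (sfGdE hO hg0 hF h hne v).1 (sfGdE hO hg0 hF h hne u).2 (sfGdE hO hg0 hF h hne v).2 := by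
  have h0 : Relation.TransGen ((sfGdAt hO hg0 hF h hne).step ε') u v := hc
  clear hc
  have h1 : Relation.TransGen c.Lk (sfGdE hO hg0 hF h hne u) (sfGdE hO hg0 hF h hne v) := by
    induction h0 with
    | single h' => exact Relation.TransGen.single (sf_gd_step hO hg0 hF h hne _ _ h')
    | tail _ h' ih => exact ih.tail (sf_gd_step hO hg0 hF h hne _ _ h')
  have hu : (sfGdE hO hg0 hF h hne u).1 ∈ c.W.G := by
    obtain ⟨w, hw, _⟩ := Relation.TransGen.head'_iff.mp h1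
    exact hw.1.1
  have hv : (sfGdE hO hg0 hF h hne v).1 ∈ c.W.G := by
    obtain ⟨w, _, hw⟩ := Relation.TransGen.tail'_iff.mp h1
    exact hw.1.2.1
  exact (sf_core_conn c _ hu _ hv _ _).mpr h1

/-- **the shadow of the piece is a sub-configuration** -/
theorem sf_gd_sub {Ls C0 α t' : ℝ} (hin : SfGeIn Y π Ls c S C0 α) (hL : φ.L = c.D.len d.i) (hr0 : φ.r0 = c.D.r d.j) (hF0 : φ.F0 = c.D.f d.j)
    (ht' : 0 ≤ t') (hΛt : 4 * Λ ≤ d.X.s ^ (-t')) : (sfGdDoc hO hg0 hF h hne).Sub c.D d.i d.j φ d.Gk t' (sfGdE hO hg0 hF h hne) where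
  dep := fun _ => rfl
  gate := fun k' hk => by
    rw [c.sh.hG]
    exact (sf_ge_pa_gate h.ok hk).2.1
  kept := fun k hk => Finset.mem_image_of_mem _ hk
  hs := (sf_gd_sub_len hO hg0 hF h hne hin hL).1
  hlen := (sf_gd_sub_len hO hg0 hF h hne hin hL).2
  frame := ⟨hr0, hF0⟩
  hr := (sf_gd_sub_w hO hg0 hF h hne ht' hΛt).1
  hf := (sf_gd_sub_w hO hg0 hF h hne ht' hΛt).2
  hlab := sf_gd_sub_lab hO hg0 hF h hne hr0
  hray := sf_gd_sub_ray hO hg0 hF h hne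
  conn := sf_gd_conn hO hg0 hF h hne

/-! ## LEAF L-256-GD-B4 : every label of the piece is polynomial -/

/-- every kept label carries a row on a chain.   PLAN: `(l : d.Lb g').2 hg : d.Kept g' l.1` gives `x` with `d.th g' l.1 x ≠ 0`;  `SfGeD.th`: `g' ≤ 0`: `if_pos`, `x ∈ d.lN ..` (`Set.indicator_apply_ne_zero`/`by_contra` + `Set.indicator_of_notMem`), `SfGeD.lN`, `Set.mem_iUnion`: a row `ρ` with `chn ∧ lb ρ = l.1`;   `0 < g'`: `if_neg`, `d.lS`, the same. -/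
theorem sf_gd_lab_row {g' : ℝ} (hg : g' ∈ d.G) (l : d.Lb g') : ∃ ρ : c.D.Row (d.γ g'), d.chn ⟨d.γ g', ρ⟩ ∧ c.sh.lb (d.γ g') ρ = l.1 := by
  classical
  obtain ⟨-, x, hx⟩ := l.2 hg
  unfold SfGeD.th at hx
  split_ifs at hx with h0
  · have hm : x ∈ d.lN (d.γ g') l.1 := Set.mem_of_indicator_ne_zero hx
    unfold SfGeD.lN at hm
    simp only [Set.mem_iUnion, exists_prop] at hm
    obtain ⟨ρ, ⟨h1, h2⟩, -⟩ := hm
    exact ⟨ρ, h1, h2⟩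
  · have hm : x ∈ d.lS (d.γ g') l.1 := Set.mem_of_indicator_ne_zero hx
    unfold SfGeD.lS at hm
    simp only [Set.mem_iUnion, exists_prop] at hm
    obtain ⟨ρ, ⟨h1, h2⟩, -⟩ := hm
    exact ⟨ρ, h1, h2⟩

include hO h in
/-- PLAN: `sf_gd_lab_row` gives `ρ`; `sf_ge_pa_lab hO h hg l ρ hl`: the size does not see the field `f` (`SfTest.size`, `rfl`), `h.bd.lab ⟨d.γ g', ρ⟩ hchn (sf_ge_pa_gate h.ok hg).1`;
widths: `sfDocLab = fr.tst (sfTestAt T (tq ts))`, its fields `r`, `f` are `(tq ts).r / d.Q0.r`, `(tq ts).f / d.Q0.f` (`rfl`: `SfFrame.tst`, `sfFrameOf`, `SfMD.fr`), `h.str.width g' hg l`. -/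
theorem sf_gd_lab_bd {B : ℝ} (h1 : d.X.s ^ (-K1) ≤ B) (h2 : ∀ g' ∈ d.G, c.W.r (d.γ g') / d.Q0.r ≤ B ∧ (d.Wf st' pos').f g' / d.Q0.f ≤ B) :
    ∀ g' ∈ (d.Wf st' pos').G, ∀ l, (sfDocLab Y c.p (d.Wf st' pos') g' l).size ≤ B ∧ (sfDocLab Y c.p (d.Wf st' pos') g' l).r ≤ B ∧
      (sfDocLab Y c.p (d.Wf st' pos') g' l).f ≤ B := by
  intro g' hg l
  have hg' : g' ∈ d.G := hg
  obtain ⟨ρ, hchn, hl⟩ := sf_gd_lab_row hg' (l : d.Lb g')
  have e := sf_ge_pa_lab hO h hg' l ρ hl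
  obtain ⟨w1, w2⟩ := h.str.width g' hg l
  refine ⟨?_, ?_, ?_⟩
  · rw [e]
    exact (h.bd.lab ⟨d.γ g', ρ⟩ hchn (sf_ge_pa_gate h.ok hg').1).trans h1
  · show (Y.tq c.p ((d.Wf st' pos').ts g' l)).r / d.Q0.r ≤ B
    rw [w1]
    exact (h2 g' hg').1
  · show (Y.tq c.p ((d.Wf st' pos').ts g' l)).f / d.Q0.f ≤ B
    rw [w2]
    exact (h2 g' hg').2

/-! ## LEAF L-256-GD-B5 : the widths of the piece are polynomial -/

theorem sf_gd_wid_numq {s a x y : ℝ} (hs0 : 0 < s) (hy : s ^ a ≤ y) (hx : x ≤ s ^ (-a)) : x / y ≤ s ^ (-(2 * a)) := by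
  have hp : 0 < s ^ a := Real.rpow_pos_of_pos hs0 _
  have hy0 : 0 < y := lt_of_lt_of_le hp hy
  rw [div_le_iff₀ hy0]
  have e : s ^ (-a) = s ^ (-(2 * a)) * s ^ a := by
    rw [← Real.rpow_add hs0]
    congr 1
    ring
  have := mul_le_mul_of_nonneg_left hy (Real.rpow_pos_of_pos hs0 (-(2 * a))).le
  linarith

theorem sf_gd_wlow_numq {s a x y : ℝ} (hs0 : 0 < s) (hy0 : 0 < y) (hy : y ≤ s ^ (-a)) (hx : s ^ a ≤ x) : s ^ (2 * a) ≤ x / y := by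
  rw [le_div_iff₀ hy0]
  have e : s ^ a = s ^ (2 * a) * s ^ (-a) := by
    rw [← Real.rpow_add hs0]
    congr 1
    ring
  have := mul_le_mul_of_nonneg_left hy (Real.rpow_pos_of_pos hs0 (2 * a)).le
  linarith

include h in
/-- PLAN: `d.Q0.r = c.W.r d.j`, `d.Q0.f = c.W.f d.j` (`h.fr`);  `c.W.r k / c.W.r j = c.D.r k / c.D.r j` (`c.sh.hr`, `div_div_div_cancel_right₀`, `Str.frame`), the same for `f`;  `sf_gf_units hin.good hα` at `k = d.γ g'` and at `j` (gates of `c.D`: `c.sh.hG`):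
`r k / r j ≤ 1 / s^(|Ls|+2)`, `f k / f j ≤ s^(-(|Ls|+2)) / s^(|Ls|+2)`; `Real.rpow_neg`, `Real.rpow_add`;   `(d.Wf ..).f g' = if g' ≤ 0 then d.f0 else c.W.f (d.γ g')`; root: `g' = 0`, `d.f0 ≤ 4 Λ f_i` (`h.root.wid`);  `1 ≤ 4 Λ` (`h.hΛ`). -/
theorem sf_gd_wid {Ls C0 α : ℝ} (hin : SfGeIn Y π Ls c S C0 α) (hα : 0 ≤ α ∧ α ≤ 1) :
    ∀ g' ∈ d.G, c.W.r (d.γ g') / d.Q0.r ≤ 4 * Λ * c.D.s ^ (-(2 * |Ls| + 4)) ∧ (d.Wf st' pos').f g' / d.Q0.f ≤ 4 * Λ * c.D.s ^ (-(2 * |Ls| + 4)) := by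
  intro g' hg
  have hs := h.ob.2.2.1
  have hd := h.ok
  obtain ⟨hs0, hs1⟩ := hin.good.1.hs
  have hQr : c.W.Q0.r ≠ 0 := by
    rw [hs.frame.1]
    exact (hs.frame.2.2 1 hs.gate.1).1.ne'
  have hQf : c.W.Q0.f ≠ 0 := by
    rw [hs.frame.2.1]
    exact (hs.frame.2.2 1 hs.gate.1).2.ne'
  have hfj : 0 < c.W.f d.j := (hs.frame.2.2 d.j hd.gj).2
  have hgk : d.γ g' ∈ c.W.G := (sf_ge_pa_gate hd hg).2.1
  have hfk : 0 < c.W.f (d.γ g') := (hs.frame.2.2 _ hgk).2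
  have uk := sf_gf_units hin.good hα (k := d.γ g') (by rw [c.sh.hG]; exact hgk)
  have uj := sf_gf_units hin.good hα (k := d.j) (by rw [c.sh.hG]; exact hd.gj)
  have hΛ := h.hΛ
  have hL := abs_nonneg Ls
  have e2 : -(2 * |Ls| + 4) = -(2 * (|Ls| + 2)) := by ring
  have hB : 0 < c.D.s ^ (-(2 * |Ls| + 4)) := Real.rpow_pos_of_pos hs0 _
  have h1 : (1 : ℝ) ≤ c.D.s ^ (-(|Ls| + 2)) := sf_gf_one_le hs0 hs1.le (by linarith)
  have eR : c.W.r (d.γ g') / c.W.r d.j = c.D.r (d.γ g') / c.D.r d.j := by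
    rw [c.sh.hr _ hgk, c.sh.hr _ hd.gj, div_div_div_cancel_right₀ hQr]
  have eF : c.W.f (d.γ g') / c.W.f d.j = c.D.f (d.γ g') / c.D.f d.j := by
    rw [c.sh.hf _ hgk, c.sh.hf _ hd.gj, div_div_div_cancel_right₀ hQf]
  have bR : c.W.r (d.γ g') / c.W.r d.j ≤ c.D.s ^ (-(2 * |Ls| + 4)) := by
    rw [eR, e2]
    exact sf_gd_wid_numq hs0 uj.2.1.1 (uk.2.1.2.trans h1)
  have bF : c.W.f (d.γ g') / c.W.f d.j ≤ c.D.s ^ (-(2 * |Ls| + 4)) := by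
    rw [eF, e2]
    exact sf_gd_wid_numq hs0 uj.2.2.1 uk.2.2.2
  have hup : c.D.s ^ (-(2 * |Ls| + 4)) ≤ 4 * Λ * c.D.s ^ (-(2 * |Ls| + 4)) := by
    have := mul_le_mul_of_nonneg_right (show (1 : ℝ) ≤ 4 * Λ by linarith) hB.le
    linarith
  constructor
  · rw [h.fr.r]
    exact bR.trans hup
  · show (if g' ≤ 0 then d.f0 else c.W.f (d.γ g')) / d.Q0.f ≤ _
    rw [h.fr.f]
    by_cases h0 : g' ≤ 0
    · rw [if_pos h0]
      obtain ⟨e0, -⟩ := (sf_ge_pa_gate hd hg).2.2.2.2 h0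
      subst e0
      have hw := h.root.wid
      calc d.f0 / c.W.f d.j ≤ (4 * Λ * c.W.f (d.γ 0)) / c.W.f d.j := div_le_div_of_nonneg_right hw.2 hfj.le
        _ = 4 * Λ * (c.W.f (d.γ 0) / c.W.f d.j) := by rw [mul_div_assoc]
        _ ≤ 4 * Λ * c.D.s ^ (-(2 * |Ls| + 4)) := mul_le_mul_of_nonneg_left bF (by linarith)
    · rw [if_neg h0]
      exact bF.trans hup

/-- the lower bound for the ratio of the normal widths (input `w` of `sf_ge_pa_num`).   PLAN: as above: `c.W.f (d.γ 0) / d.Q0.f = c.D.f i / c.D.f j ≥ s^(|Ls|+2) / s^(-(|Ls|+2))`; `sf_ge_gam0`. -/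
theorem sf_gd_wlow {Y : SfCy} {π : SfPar} {c : SfCfg Y π.d} {S : ℕ} {Ls C0 α : ℝ} (hin : SfGeIn Y π Ls c S C0 α) (hα : 0 ≤ α ∧ α ≤ 1) (d : SfGeD c) (hd : d.Ok)
    (hf : d.Q0.f = c.W.f d.j) : c.W.E.s ^ (2 * |Ls| + 4) ≤ c.W.f (d.γ 0) / d.Q0.f := by
  have hs := hin.ob.2.2.1
  obtain ⟨hs0, hs1⟩ := hin.good.1.hs
  have hQf : c.W.Q0.f ≠ 0 := by
    rw [hs.frame.2.1]
    exact (hs.frame.2.2 1 hs.gate.1).2.ne'
  have ui := sf_gf_units hin.good hα (k := d.i) (by rw [c.sh.hG]; exact hd.gi)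
  have uj := sf_gf_units hin.good hα (k := d.j) (by rw [c.sh.hG]; exact hd.gj)
  have e2 : 2 * |Ls| + 4 = 2 * (|Ls| + 2) := by ring
  have hj0 : 0 < c.D.f d.j := lt_of_lt_of_le (Real.rpow_pos_of_pos hs0 _) uj.2.2.1
  rw [hf, sf_gf_g0, ← c.sh.hs, e2]
  have eF : c.W.f d.i / c.W.f d.j = c.D.f d.i / c.D.f d.j := by
    rw [c.sh.hf _ hd.gi, c.sh.hf _ hd.gj, div_div_div_cancel_right₀ hQf]
  rw [eF]
  exact sf_gd_wlow_numq hs0 hj0 uj.2.2.2 ui.2.2.1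

/-! ## the configuration -/

variable (hsum : (sfGdAt hO hg0 hF h hne).Sum)

/-- the configuration of the piece: tail order `A'` -/
noncomputable def sfGdCfg (A' : ℕ) : SfCfg Y π.d where
  p := c.p
  W := d.Wf st' pos'
  A := A'
  ε := ε'
  μ := μ'
  D := sfGdDoc hO hg0 hF h hne
  sh := (sfGdAt hO hg0 hF h hne).sh π.d ε' hsum

theorem sf_gd_cfg_eqns_cite : True := by
  have := @sfGdCfg.eq_1
  trivial

include hsum in
/-- sizes of the shadow of the piece -/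
theorem sf_gd_size {B : ℝ} (hB : 1 ≤ B) (h1 : d.X.s ^ (-K1) ≤ B) (h2 : ∀ g' ∈ d.G, c.W.r (d.γ g') / d.Q0.r ≤ B ∧ (d.Wf st' pos').f g' / d.Q0.f ≤ B) :
    ∀ g' ∈ (sfGdDoc hO hg0 hF h hne).G, ∀ ρ, ((sfGdDoc hO hg0 hF h hne).ray g' ρ).size ≤ 32 * B ^ 3 ∧ ((sfGdDoc hO hg0 hF h hne).lab g' ρ).size ≤ B :=
  sf_doc_sizes Y hg0 c.p (d.Wf st' pos') h.str ((sfGdAt hO hg0 hF h hne).sh π.d ε' hsum) hB (sf_gd_lab_bd hO h h1 h2)

end

end Claimed.Agent.R256
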