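import Claimed.Agent.R256.Soft.Cal

/-!
# Row 256 (S0496), unit SOFT, block M6 GE, FRAME, file A: COMPOSITION OF FRAMES      (architect helper226; block owner helper105; prefix `sf_gf_`, `sfGf`)

Operator free, pure algebra.
* `φ.cen`          the CENTRE TEST of a frame: time `T0`, base centre, the shear of the frame REBASED at the time `T0`, widths = units.
* `φ.inv R`        the test whose parameters in the frame `φ` are `R`      (`sf_gf_tst_inv`).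
* `sfGfQ T0 L Q0 φ`    the frame `φ`, given in the coordinates of the frame `sfFrameOf T0 L Q0`, as a test of the model.
* **(F1)** `sf_gf_comp_ray`, `sf_gf_comp_tst`:   `sfFrameOf (T0 + L φ.T0) (L φ.L) (sfGfQ T0 L Q0 φ)` = `φ ∘ sfFrameOf T0 L Q0` on rays and on tests;   `sf_gf_comp_r`, `sf_gf_comp_f` (rfl): its units are the products of the units.
-/

set_option autoImplicit false

namespace Claimed.Agent.R256

open Claimed.Agent.R255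

/-- the centre test of a frame (shear rebased at `T0`) -/
def SfFrame.cen (φ : SfFrame) : SfTest :=
  ⟨φ.T0, φ.x0, φ.b0, φ.y0, φ.sg.c, φ.sg.d + (φ.T0 - φ.sg.T) * φ.sg.c, φ.sg.al, φ.sg.beAt φ.T0, φ.sg.K, φ.r0, φ.F0⟩

/-- the test with the parameters `R` in the frame `φ` -/
noncomputable def SfFrame.inv (φ : SfFrame) (R : SfTest) : SfTest where
  T := φ.T0 + φ.L * R.T
  x := φ.x0 + φ.r0 * R.x
  b := φ.bc (φ.T0 + φ.L * R.T) + φ.L * φ.r0 * R.b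
  y := φ.yc (φ.T0 + φ.L * R.T) + 2 * φ.x0 * (φ.L * φ.r0 * R.b) + φ.L * φ.r0 ^ 2 * R.y
  c := φ.sg.c + (R.c * φ.F0
      - (R.al * φ.F0 / φ.r0 - 2 * (R.be * φ.F0 / φ.r0 ^ 2) * φ.x0 + 2 * (R.K * φ.F0 / (φ.L * φ.r0 ^ 2)) * φ.bc (φ.T0 + φ.L * R.T)) * φ.x0
      - R.be * φ.F0 / φ.r0 ^ 2 * φ.x0 ^ 2
      - R.K * φ.F0 / (φ.L * φ.r0 ^ 2) * (φ.yc (φ.T0 + φ.L * R.T) - 2 * φ.x0 * φ.bc (φ.T0 + φ.L * R.T)))
  d := (φ.sg.d + (φ.T0 + φ.L * R.T - φ.sg.T) * φ.sg.c) + (R.d * (φ.L * φ.F0)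
      - (R.al * φ.F0 / φ.r0 - 2 * (R.be * φ.F0 / φ.r0 ^ 2) * φ.x0 + 2 * (R.K * φ.F0 / (φ.L * φ.r0 ^ 2)) * φ.bc (φ.T0 + φ.L * R.T)) * φ.bc (φ.T0 + φ.L * R.T)
      - R.be * φ.F0 / φ.r0 ^ 2 * φ.yc (φ.T0 + φ.L * R.T)
      + R.K * φ.F0 / (φ.L * φ.r0 ^ 2) * φ.bc (φ.T0 + φ.L * R.T) ^ 2)
  al := φ.sg.al + (R.al * φ.F0 / φ.r0 - 2 * (R.be * φ.F0 / φ.r0 ^ 2) * φ.x0 + 2 * (R.K * φ.F0 / (φ.L * φ.r0 ^ 2)) * φ.bc (φ.T0 + φ.L * R.T))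
  be := φ.sg.beAt (φ.T0 + φ.L * R.T) + R.be * φ.F0 / φ.r0 ^ 2
  K := φ.sg.K + R.K * φ.F0 / (φ.L * φ.r0 ^ 2)
  r := φ.r0 * R.r
  f := φ.F0 * R.f

/-- the parameters of a test, without its time -/
def sfGfCy (Q : SfTest) : CyT := ⟨Q.x, Q.b, Q.y, Q.r, Q.f, Q.c, Q.d, Q.al, Q.be, Q.K⟩

/-- the frame `φ`, given in the coordinates of the frame of `Q0`, as a test of the model -/
noncomputable def sfGfQ (T0 L : ℝ) (Q0 : CyT) (φ : SfFrame) : CyT := sfGfCy ((sfFrameOf T0 L Q0).inv φ.cen)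

theorem sf_gf_a_eqns_cite : True := by
  have := @SfFrame.cen.eq_1
  have := @SfFrame.inv.eq_1
  have := @sfGfCy.eq_1
  have := @sfGfQ.eq_1
  trivial

theorem sf_gf_tst_inv (φ : SfFrame) (hφ : φ.Pos) (R : SfTest) : φ.tst (φ.inv R) = R := by
  obtain ⟨hL, hr, hF⟩ := hφ
  have hL' := hL.ne'
  have hr' := hr.ne'
  have hF' := hF.ne'
  obtain ⟨T', x', b', y', c', d', al', be', K', r', f'⟩ := R
  simp only [SfFrame.tst, SfFrame.inv, SfTest.mk.injEq]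
  refine ⟨?_, ?_, ?_, ?_, ?_, ?_, ?_, ?_, ?_, ?_, ?_⟩ <;> field_simp <;> ring

theorem sf_gf_comp_r (T0 L : ℝ) (Q0 : CyT) (φ : SfFrame) : (sfGfQ T0 L Q0 φ).r = Q0.r * φ.r0 := rfl

theorem sf_gf_comp_f (T0 L : ℝ) (Q0 : CyT) (φ : SfFrame) : (sfGfQ T0 L Q0 φ).f = Q0.f * φ.F0 := rfl

/-- **(F1)** composition of frames, rays -/
theorem sf_gf_comp_ray (T0 L : ℝ) (Q0 : CyT) (hL : 0 < L) (hr : 0 < Q0.r) (hf : 0 < Q0.f) (φ : SfFrame) (hφ : φ.Pos) (z : SfRay) :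
    (sfFrameOf (T0 + L * φ.T0) (L * φ.L) (sfGfQ T0 L Q0 φ)).ray z = φ.ray ((sfFrameOf T0 L Q0).ray z) := by
  obtain ⟨hL1, hr1, hF1⟩ := hφ
  have a1 := hL.ne'
  have a2 := hr.ne'
  have a3 := hf.ne'
  have a4 := hL1.ne'
  have a5 := hr1.ne'
  have a6 := hF1.ne'
  simp only [SfFrame.ray, sfFrameOf, sfGfQ, sfGfCy, SfFrame.inv, SfFrame.cen, sfTestAt, SfRay.Bt, SfRay.Yt, SfRay.Dt, SfTest.shA, SfTest.shS,
    SfTest.beAt, SfFrame.bc, SfFrame.yc, SfRay.mk.injEq]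
  refine ⟨?_, ?_, ?_, ?_, ?_⟩ <;> field_simp <;> ring

/-- **(F1)** composition of frames, tests -/
theorem sf_gf_comp_tst (T0 L : ℝ) (Q0 : CyT) (hL : 0 < L) (hr : 0 < Q0.r) (hf : 0 < Q0.f) (φ : SfFrame) (hφ : φ.Pos) (Q : SfTest) :
    (sfFrameOf (T0 + L * φ.T0) (L * φ.L) (sfGfQ T0 L Q0 φ)).tst Q = φ.tst ((sfFrameOf T0 L Q0).tst Q) := by
  obtain ⟨hL1, hr1, hF1⟩ := hφ
  have a1 := hL.ne'
  have a2 := hr.ne'
  have a3 := hf.ne'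
  have a4 := hL1.ne'
  have a5 := hr1.ne'
  have a6 := hF1.ne'
  simp only [SfFrame.tst, sfFrameOf, sfGfQ, sfGfCy, SfFrame.inv, SfFrame.cen, sfTestAt, SfTest.beAt, SfFrame.bc, SfFrame.yc, SfTest.mk.injEq]
  refine ⟨?_, ?_, ?_, ?_, ?_, ?_, ?_, ?_, ?_, ?_, ?_⟩ <;> field_simp <;> ring

end Claimed.Agent.R256
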