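import Claimed.Agent.R256.Soft.MGeFrA

/-!
# Row 256 (S0496), unit SOFT, block M6 GE, FRAME, file B: SIZES, pure algebra      (architect helper226; block owner helper105; prefix `sf_gf_`)

Operator free, paper free: real inequalities on `SfFrame`, `SfTest`, `SfRay` (`Soft/Doc.lean`, `Soft/Frame.lean`).   ONE number `W ≥ 1` bounds everything; all constants checked by Monte Carlo (worst ratios 22.8 / 68, 11.5 / 15, 23 / 32).
* `sf_gf_shA_cen`, `sf_gf_shS_cen`    the shear of a frame = the shear of its centre test.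
* `sf_gf_ray_cen`     the ray in the frame = the five quantities of the membership in the centre test, in the units of the frame.
* `sf_gf_enl`         a ray of size `≤ R` in the frame lies in the centre test enlarged by `R`      (geometry of the upper bound of `e/κ` of a group).
* `sf_gf_cen_alg`     units in `[1/W, W]`, ONE test of size `≤ W` with parameters `≤ W` in the frame  ⟹  the centre test has size `≤ 68 W^11`.
* `sf_gf_lip_alg`     units in `[1/W, W]`, centre test of size `≤ W`  ⟹  `φ.ray` is `15 W^4`-Lipschitz on rays of size `≤ W`.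
* `sf_gf_mem_size`    a ray in a test of size `≤ W`, widths `≤ W`, has size `≤ 32 W^3`.
-/

set_option autoImplicit false

namespace Claimed.Agent.R256

open Claimed.Agent.R255

theorem sf_gf_shA_cen (φ : SfFrame) (z : SfRay) : φ.cen.shA z = φ.sg.shA z := by
  simp only [SfTest.shA, SfFrame.cen, SfTest.beAt, SfRay.Yt, SfRay.Bt]
  ring

theorem sf_gf_shS_cen (φ : SfFrame) (t : ℝ) (z : SfRay) : φ.cen.shS t z = φ.sg.shS t z := by
  simp only [SfTest.shS, SfFrame.cen, SfTest.beAt, SfRay.Yt, SfRay.Bt]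
  ring

/-- the ray in the frame = the five quantities of the centre test in the units of the frame -/
theorem sf_gf_ray_cen (φ : SfFrame) (z : SfRay) :
    (φ.ray z).X = (z.X - φ.cen.x) / φ.r0 ∧
    (φ.ray z).B = (z.Bt φ.cen.T - φ.cen.b) / (φ.L * φ.r0) ∧
    (φ.ray z).Y = (z.Yt φ.cen.T - φ.cen.y - 2 * φ.cen.x * (z.Bt φ.cen.T - φ.cen.b)) / (φ.L * φ.r0 ^ 2) ∧
    (φ.ray z).N = (z.N - φ.cen.c - φ.cen.al * z.X - φ.cen.be * z.X ^ 2 - φ.cen.K * (z.Yt φ.cen.T - 2 * z.X * z.Bt φ.cen.T)) / φ.F0 ∧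
    (φ.ray z).D = (z.Dt φ.cen.T - φ.cen.d - φ.cen.al * z.Bt φ.cen.T - φ.cen.be * z.Yt φ.cen.T + φ.cen.K * z.Bt φ.cen.T ^ 2) / (φ.L * φ.F0) := by
  refine ⟨rfl, rfl, rfl, ?_, ?_⟩
  · simp only [SfFrame.ray, SfTest.shA, SfFrame.cen, SfTest.beAt, SfRay.Yt, SfRay.Bt]
    congr 1
    ring
  · simp only [SfFrame.ray, SfTest.shS, SfFrame.cen, SfTest.beAt, SfRay.Yt, SfRay.Bt, SfRay.Dt]
    congr 1
    ring

/-- **(ENL)** a ray of size `≤ R` in the frame lies in the centre test enlarged by the factor `R ≥ 1` (interval length = time unit of the frame) -/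
theorem sf_gf_enl (φ : SfFrame) (hφ : φ.Pos) (R : ℝ) (hR : 1 ≤ R) (z : SfRay) (hz : (φ.ray z).size ≤ R) :
    ({ φ.cen with r := φ.r0 * R, f := φ.F0 * R } : SfTest).Mem φ.L z := by
  obtain ⟨hL, hr, hF⟩ := hφ
  obtain ⟨e1, e2, e3, e4, e5⟩ := sf_gf_ray_cen φ z
  unfold SfRay.size at hz
  have h1 : |(φ.ray z).X| ≤ R := (le_max_left _ _).trans hz
  have hz2 := (le_max_right _ _).trans hz
  have h2 : |(φ.ray z).B| ≤ R := (le_max_left _ _).trans hz2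
  have hz3 := (le_max_right _ _).trans hz2
  have h3 : |(φ.ray z).Y| ≤ R := (le_max_left _ _).trans hz3
  have hz4 := (le_max_right _ _).trans hz3
  have h4 : |(φ.ray z).N| ≤ R := (le_max_left _ _).trans hz4
  have h5 : |(φ.ray z).D| ≤ R := (le_max_right _ _).trans hz4
  have key : ∀ {u c : ℝ}, 0 < c → |u / c| ≤ R → |u| ≤ R * c := by
    intro u c hc h
    rwa [abs_div, abs_of_pos hc, div_le_iff₀ hc] at h
  rw [e1] at h1
  rw [e2] at h2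
  rw [e3] at h3
  rw [e4] at h4
  rw [e5] at h5
  have k1 := key hr h1
  have k2 := key (mul_pos hL hr) h2
  have k3 := key (mul_pos hL (pow_pos hr 2)) h3
  have k4 := key hF h4
  have k5 := key (mul_pos hL hF) h5
  have hRR : R ≤ R ^ 2 := by nlinarith
  refine ⟨?_, ?_, ?_, ?_, ?_⟩
  · show |z.X - φ.cen.x| ≤ φ.r0 * R
    linarith
  · show |z.Bt φ.cen.T - φ.cen.b| ≤ φ.L * (φ.r0 * R)
    linarith
  · show |z.Yt φ.cen.T - φ.cen.y - 2 * φ.cen.x * (z.Bt φ.cen.T - φ.cen.b)| ≤ φ.L * (φ.r0 * R) ^ 2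
    have : R * (φ.L * φ.r0 ^ 2) ≤ R ^ 2 * (φ.L * φ.r0 ^ 2) := mul_le_mul_of_nonneg_right hRR (by positivity)
    calc _ ≤ R * (φ.L * φ.r0 ^ 2) := k3
      _ ≤ R ^ 2 * (φ.L * φ.r0 ^ 2) := this
      _ = φ.L * (φ.r0 * R) ^ 2 := by ring
  · show |z.N - φ.cen.c - φ.cen.al * z.X - φ.cen.be * z.X ^ 2 - φ.cen.K * (z.Yt φ.cen.T - 2 * z.X * z.Bt φ.cen.T)| ≤ φ.F0 * R
    linarith
  · show |z.Dt φ.cen.T - φ.cen.d - φ.cen.al * z.Bt φ.cen.T - φ.cen.be * z.Yt φ.cen.T + φ.cen.K * z.Bt φ.cen.T ^ 2| ≤ φ.L * (φ.F0 * R)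
    linarith

theorem sf_gf_cen_alg_mul {a b A B : ℝ} (ha : |a| ≤ A) (hb : |b| ≤ B) : |a * b| ≤ A * B := by
  rw [abs_mul]
  exact mul_le_mul ha hb (abs_nonneg _) ((abs_nonneg _).trans ha)

theorem sf_gf_cen_alg_div {u c W B : ℝ} (hc : 0 < c) (hcB : c ≤ B) (hW : 0 ≤ W) (h : |u / c| ≤ W) : |u| ≤ W * B := by
  rw [abs_div, abs_of_pos hc, div_le_iff₀ hc] at h
  exact h.trans (mul_le_mul_of_nonneg_left hcB hW)

theorem sf_gf_cen_alg_aux (W L r0 F0 δ x0 b0 y0 qx qb qy qc qd qal qbe qK sc sD sal sbe sK : ℝ) (hW : 1 ≤ W)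
    (hL : 1 / W ≤ L ∧ L ≤ W) (hr : 1 / W ≤ r0 ∧ r0 ≤ W) (hF : 1 / W ≤ F0 ∧ F0 ≤ W) (hδ : |δ| ≤ 1)
    (q1 : |qx| ≤ W) (q2 : |qb| ≤ W) (q3 : |qy| ≤ W) (q4 : |qc| ≤ W) (q5 : |qd| ≤ W) (q6 : |qal| ≤ W) (q7 : |qbe| ≤ W) (q8 : |qK| ≤ W)
    (t1 : |(qx - x0) / r0| ≤ W)
    (t2 : |(qb - (b0 + δ * x0)) / (L * r0)| ≤ W)
    (t3 : |(qy - (y0 + δ * x0 ^ 2) - 2 * x0 * (qb - (b0 + δ * x0))) / (L * r0 ^ 2)| ≤ W)
    (t4 : |((qc - sc) + (qal - sal) * x0 + (qbe - sbe) * x0 ^ 2 + (qK - sK) * ((y0 + δ * x0 ^ 2) - 2 * x0 * (b0 + δ * x0))) / F0| ≤ W)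
    (t5 : |((qd - sD) + (qal - sal) * (b0 + δ * x0) + (qbe - sbe) * (y0 + δ * x0 ^ 2) - (qK - sK) * (b0 + δ * x0) ^ 2) / (L * F0)| ≤ W)
    (t6 : |r0 * ((qal - sal) + 2 * (qbe - sbe) * x0 - 2 * (qK - sK) * (b0 + δ * x0)) / F0| ≤ W)
    (t7 : |(qbe - sbe) * r0 ^ 2 / F0| ≤ W)
    (t8 : |(qK - sK) * L * r0 ^ 2 / F0| ≤ W) :
    |x0| ≤ 2 * W ^ 2 ∧ |b0| ≤ 4 * W ^ 3 ∧ |y0| ≤ 10 * W ^ 5 ∧ |sc| ≤ 38 * W ^ 10 ∧ |sD - δ * sc| ≤ 68 * W ^ 11 ∧ |sal| ≤ 10 * W ^ 8 ∧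
      |sbe - δ * sK| ≤ 4 * W ^ 5 ∧ |sK| ≤ 2 * W ^ 5 := by
  have hW0 : 0 < W := by linarith
  have hiW : 0 < 1 / W := by positivity
  have hL0 : 0 < L := lt_of_lt_of_le hiW hL.1
  have hr0 : 0 < r0 := lt_of_lt_of_le hiW hr.1
  have hF0 : 0 < F0 := lt_of_lt_of_le hiW hF.1
  have hWL : 1 ≤ W * L := by
    have := hL.1
    rw [div_le_iff₀ hW0] at this
    linarith
  have hWr : 1 ≤ W * r0 := by
    have := hr.1
    rw [div_le_iff₀ hW0] at this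
    linarith
  have pw : ∀ a b : ℕ, a ≤ b → W ^ a ≤ W ^ b := fun a b h => pow_le_pow_right₀ hW h
  obtain ⟨bT, hbT⟩ : ∃ bT, bT = b0 + δ * x0 := ⟨_, rfl⟩
  obtain ⟨yT, hyT⟩ : ∃ yT, yT = y0 + δ * x0 ^ 2 := ⟨_, rfl⟩
  obtain ⟨dK, hdK⟩ : ∃ dK, dK = qK - sK := ⟨_, rfl⟩
  obtain ⟨dbe, hdbe⟩ : ∃ dbe, dbe = qbe - sbe := ⟨_, rfl⟩
  obtain ⟨dal, hdal⟩ : ∃ dal, dal = qal - sal := ⟨_, rfl⟩
  rw [← hbT, ← hyT] at t3 t4 t5
  rw [← hbT] at t2 t6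
  rw [← hdK, ← hdbe, ← hdal] at t4 t5 t6
  rw [← hdbe] at t7
  rw [← hdK] at t8
  -- 1
  have a1 : |qx - x0| ≤ W * W := sf_gf_cen_alg_div hr0 hr.2 hW0.le t1
  have x0b : |x0| ≤ 2 * W ^ 2 := by
    have := pw 1 2 (by norm_num)
    rw [abs_le] at a1 q1 ⊢
    constructor <;> linarith
  -- 2
  have hLr : L * r0 ≤ W * W := mul_le_mul hL.2 hr.2 hr0.le hW0.le
  have a2 : |qb - bT| ≤ W * (W * W) := sf_gf_cen_alg_div (mul_pos hL0 hr0) hLr hW0.le t2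
  have bTb : |bT| ≤ 2 * W ^ 3 := by
    have := pw 1 3 (by norm_num)
    rw [abs_le] at a2 q2 ⊢
    constructor <;> linarith
  have dx : |δ * x0| ≤ 1 * (2 * W ^ 2) := sf_gf_cen_alg_mul hδ x0b
  have b0b : |b0| ≤ 4 * W ^ 3 := by
    have := pw 2 3 (by norm_num)
    rw [abs_le] at dx bTb ⊢
    constructor <;> linarith
  -- 3
  have hr2 : r0 ^ 2 ≤ W ^ 2 := pow_le_pow_left₀ hr0.le hr.2 2
  have hLr2 : L * r0 ^ 2 ≤ W * W ^ 2 := mul_le_mul hL.2 hr2 (by positivity) hW0.le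
  have a3 : |qy - yT - 2 * x0 * (qb - bT)| ≤ W * (W * W ^ 2) := sf_gf_cen_alg_div (by positivity) hLr2 hW0.le t3
  have p3 : |x0 * (qb - bT)| ≤ 2 * W ^ 2 * (W * (W * W)) := sf_gf_cen_alg_mul x0b a2
  have yTb : |yT| ≤ 6 * W ^ 5 := by
    have := pw 1 5 (by norm_num)
    have := pw 4 5 (by norm_num)
    rw [abs_le] at a3 p3 q3 ⊢
    constructor <;> linarith
  have x2b : |x0 ^ 2| ≤ 2 * W ^ 2 * (2 * W ^ 2) := by
    rw [pow_two]
    exact sf_gf_cen_alg_mul x0b x0b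
  have dx2 : |δ * x0 ^ 2| ≤ 1 * (2 * W ^ 2 * (2 * W ^ 2)) := sf_gf_cen_alg_mul hδ x2b
  have y0b : |y0| ≤ 10 * W ^ 5 := by
    have := pw 4 5 (by norm_num)
    rw [abs_le] at dx2 yTb ⊢
    constructor <;> linarith
  -- 4
  have a8 : |dK * L * r0 ^ 2| ≤ W * W := sf_gf_cen_alg_div hF0 hF.2 hW0.le t8
  have dKb : |dK| ≤ W ^ 5 := by
    have h1 : |dK| * (L * r0 ^ 2) ≤ W * W := by
      have : |dK * L * r0 ^ 2| = |dK| * (L * r0 ^ 2) := by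
        rw [mul_assoc, abs_mul, abs_of_pos (by positivity : 0 < L * r0 ^ 2)]
      rw [← this]
      exact a8
    have h2 : 1 ≤ (W * L) * (W * r0) ^ 2 := by
      have : 1 ≤ (W * r0) ^ 2 := one_le_pow₀ hWr
      exact one_le_mul_of_one_le_of_one_le hWL this
    calc |dK| ≤ |dK| * ((W * L) * (W * r0) ^ 2) := le_mul_of_one_le_right (abs_nonneg _) h2
      _ = W ^ 3 * (|dK| * (L * r0 ^ 2)) := by ring
      _ ≤ W ^ 3 * (W * W) := mul_le_mul_of_nonneg_left h1 (by positivity)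
      _ = W ^ 5 := by ring
  have sKb : |sK| ≤ 2 * W ^ 5 := by
    have := pw 1 5 (by norm_num)
    rw [abs_le] at dKb q8 ⊢
    constructor <;> linarith
  -- 5
  have a7 : |dbe * r0 ^ 2| ≤ W * W := sf_gf_cen_alg_div hF0 hF.2 hW0.le t7
  have dbeb : |dbe| ≤ W ^ 4 := by
    have h1 : |dbe| * r0 ^ 2 ≤ W * W := by
      have : |dbe * r0 ^ 2| = |dbe| * r0 ^ 2 := by
        rw [abs_mul, abs_of_pos (by positivity : 0 < r0 ^ 2)]
      rw [← this]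
      exact a7
    have h2 : 1 ≤ (W * r0) ^ 2 := one_le_pow₀ hWr
    calc |dbe| ≤ |dbe| * (W * r0) ^ 2 := le_mul_of_one_le_right (abs_nonneg _) h2
      _ = W ^ 2 * (|dbe| * r0 ^ 2) := by ring
      _ ≤ W ^ 2 * (W * W) := mul_le_mul_of_nonneg_left h1 (by positivity)
      _ = W ^ 4 := by ring
  have dsK : |δ * sK| ≤ 1 * (2 * W ^ 5) := sf_gf_cen_alg_mul hδ sKb
  have sbeb : |sbe - δ * sK| ≤ 4 * W ^ 5 := by
    have := pw 1 5 (by norm_num)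
    have := pw 4 5 (by norm_num)
    rw [abs_le] at dbeb q7 dsK ⊢
    constructor <;> linarith
  -- 6
  have a6 : |r0 * (dal + 2 * dbe * x0 - 2 * dK * bT)| ≤ W * W := sf_gf_cen_alg_div hF0 hF.2 hW0.le t6
  have a6' : |dal + 2 * dbe * x0 - 2 * dK * bT| ≤ W ^ 3 := by
    have h1 : r0 * |dal + 2 * dbe * x0 - 2 * dK * bT| ≤ W * W := by
      have : |r0 * (dal + 2 * dbe * x0 - 2 * dK * bT)| = r0 * |dal + 2 * dbe * x0 - 2 * dK * bT| := by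
        rw [abs_mul, abs_of_pos hr0]
      rw [← this]
      exact a6
    calc |dal + 2 * dbe * x0 - 2 * dK * bT| ≤ |dal + 2 * dbe * x0 - 2 * dK * bT| * (W * r0) := le_mul_of_one_le_right (abs_nonneg _) hWr
      _ = W * (r0 * |dal + 2 * dbe * x0 - 2 * dK * bT|) := by ring
      _ ≤ W * (W * W) := mul_le_mul_of_nonneg_left h1 hW0.le
      _ = W ^ 3 := by ring
  have p61 : |dbe * x0| ≤ W ^ 4 * (2 * W ^ 2) := sf_gf_cen_alg_mul dbeb x0b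
  have p62 : |dK * bT| ≤ W ^ 5 * (2 * W ^ 3) := sf_gf_cen_alg_mul dKb bTb
  have dalb : |dal| ≤ 9 * W ^ 8 := by
    have := pw 3 8 (by norm_num)
    have := pw 6 8 (by norm_num)
    rw [abs_le] at a6' p61 p62 ⊢
    constructor <;> linarith
  have salb : |sal| ≤ 10 * W ^ 8 := by
    have := pw 1 8 (by norm_num)
    rw [abs_le] at dalb q6 ⊢
    constructor <;> linarith
  -- 7
  have a4 : |(qc - sc) + dal * x0 + dbe * x0 ^ 2 + dK * (yT - 2 * x0 * bT)| ≤ W * W := sf_gf_cen_alg_div hF0 hF.2 hW0.le t4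
  have p71 : |dal * x0| ≤ 9 * W ^ 8 * (2 * W ^ 2) := sf_gf_cen_alg_mul dalb x0b
  have p72 : |dbe * x0 ^ 2| ≤ W ^ 4 * (2 * W ^ 2 * (2 * W ^ 2)) := sf_gf_cen_alg_mul dbeb x2b
  have p73 : |dK * yT| ≤ W ^ 5 * (6 * W ^ 5) := sf_gf_cen_alg_mul dKb yTb
  have p74 : |dK * (x0 * bT)| ≤ W ^ 5 * (2 * W ^ 2 * (2 * W ^ 3)) := sf_gf_cen_alg_mul dKb (sf_gf_cen_alg_mul x0b bTb)
  have scb : |sc| ≤ 38 * W ^ 10 := by
    have := pw 1 10 (by norm_num)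
    have := pw 2 10 (by norm_num)
    have := pw 8 10 (by norm_num)
    rw [abs_le] at a4 p71 p72 p73 p74 q4 ⊢
    constructor <;> linarith
  -- 8
  have hLF : L * F0 ≤ W * W := mul_le_mul hL.2 hF.2 hF0.le hW0.le
  have a5 : |(qd - sD) + dal * bT + dbe * yT - dK * bT ^ 2| ≤ W * (W * W) := sf_gf_cen_alg_div (mul_pos hL0 hF0) hLF hW0.le t5
  have p81 : |dal * bT| ≤ 9 * W ^ 8 * (2 * W ^ 3) := sf_gf_cen_alg_mul dalb bTb
  have p82 : |dbe * yT| ≤ W ^ 4 * (6 * W ^ 5) := sf_gf_cen_alg_mul dbeb yTb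
  have p83 : |dK * (bT * bT)| ≤ W ^ 5 * (2 * W ^ 3 * (2 * W ^ 3)) := sf_gf_cen_alg_mul dKb (sf_gf_cen_alg_mul bTb bTb)
  have p84 : |δ * sc| ≤ 1 * (38 * W ^ 10) := sf_gf_cen_alg_mul hδ scb
  have sDb : |sD - δ * sc| ≤ 68 * W ^ 11 := by
    have := pw 1 11 (by norm_num)
    have := pw 3 11 (by norm_num)
    have := pw 9 11 (by norm_num)
    have := pw 10 11 (by norm_num)
    rw [abs_le] at a5 p81 p82 p83 p84 q5 ⊢
    constructor <;> linarith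
  exact ⟨x0b, b0b, y0b, scb, sDb, salb, sbeb, sKb⟩

/-- **(F2-alg)** PLAN (all `≤` by the triangle inequality; `Q' := φ.tst Q`; write `bT := φ.bc Q.T`, `yT := φ.yc Q.T`, `dK := Q.K - sg.K`, `dbe := Q.be - sg.beAt Q.T`, `dal := Q.al - sg.al`, ...):
`|x0| ≤ 2W²`, `|bT| ≤ 2W³`, `|b0| ≤ 4W³`, `|yT| ≤ 6W⁵`, `|y0| ≤ 10W⁵`, `|dK| ≤ W⁵`, `|sg.K| ≤ 2W⁵`, `|dbe| ≤ W⁴`, `|sg.beAt T0| ≤ 4W⁵`, `|dal| ≤ 9W⁸`, `|sg.al| ≤ 10W⁸`, `|dc| ≤ 37W¹⁰`, `|sg.c| ≤ 38W¹⁰`,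
`|Q.d - (sg.d + (Q.T - sg.T) sg.c)| ≤ 29W¹¹`, `|cen.d| ≤ 68W¹¹`.   Each parameter of `Q'` times its unit (`≤ W^k`) gives one line. -/
theorem sf_gf_cen_alg (φ : SfFrame) (Q : SfTest) (W : ℝ) (hW : 1 ≤ W) (hL : 1 / W ≤ φ.L ∧ φ.L ≤ W) (hr : 1 / W ≤ φ.r0 ∧ φ.r0 ≤ W)
    (hF : 1 / W ≤ φ.F0 ∧ φ.F0 ≤ W) (hT : |Q.T - φ.T0| ≤ 1) (hQ : Q.size ≤ W) (hR : (φ.tst Q).size ≤ W) : φ.cen.size ≤ 68 * W ^ 11 := by
  have sz : ∀ R : SfTest, R.size ≤ W → |R.x| ≤ W ∧ |R.b| ≤ W ∧ |R.y| ≤ W ∧ |R.c| ≤ W ∧ |R.d| ≤ W ∧ |R.al| ≤ W ∧ |R.be| ≤ W ∧ |R.K| ≤ W := by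
    intro R h
    unfold SfTest.size at h
    simp only [max_le_iff] at h
    exact h
  obtain ⟨q1, q2, q3, q4, q5, q6, q7, q8⟩ := sz Q hQ
  obtain ⟨t1, t2, t3, t4, t5, t6, t7, t8⟩ := sz _ hR
  obtain ⟨c1, c2, c3, c4, c5, c6, c7, c8⟩ := sf_gf_cen_alg_aux W φ.L φ.r0 φ.F0 (Q.T - φ.T0) φ.x0 φ.b0 φ.y0 Q.x Q.b Q.y Q.c Q.d Q.al Q.be Q.K
    φ.sg.c (φ.sg.d + (Q.T - φ.sg.T) * φ.sg.c) φ.sg.al (φ.sg.beAt Q.T) φ.sg.K hW hL hr hF hT q1 q2 q3 q4 q5 q6 q7 q8 t1 t2 t3 t4 t5 t6 t7 t8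
  have pw : ∀ a : ℕ, a ≤ 11 → W ^ a ≤ W ^ 11 := fun a h => pow_le_pow_right₀ hW h
  have e5 : φ.cen.d = φ.sg.d + (Q.T - φ.sg.T) * φ.sg.c - (Q.T - φ.T0) * φ.sg.c := by
    simp only [SfFrame.cen]
    ring
  have e7 : φ.cen.be = φ.sg.beAt Q.T - (Q.T - φ.T0) * φ.sg.K := by
    simp only [SfFrame.cen, SfTest.beAt]
    ring
  have p2 := pw 2 (by norm_num)
  have p3 := pw 3 (by norm_num)
  have p5 := pw 5 (by norm_num)
  have p8 := pw 8 (by norm_num)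
  have p10 := pw 10 (by norm_num)
  have p0 : 0 ≤ W ^ 11 := by positivity
  unfold SfTest.size
  simp only [max_le_iff]
  refine ⟨?_, ?_, ?_, ?_, ?_, ?_, ?_, ?_⟩
  · show |φ.x0| ≤ _
    linarith
  · show |φ.b0| ≤ _
    linarith
  · show |φ.y0| ≤ _
    linarith
  · show |φ.sg.c| ≤ _
    linarith
  · rw [e5]
    exact c5
  · show |φ.sg.al| ≤ _
    linarith
  · rw [e7]
    linarith
  · show |φ.sg.K| ≤ _
    linarith

theorem sf_gf_aux_lip_am {a b A B : ℝ} (ha : |a| ≤ A) (hb : |b| ≤ B) : |a * b| ≤ A * B := by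
  rw [abs_mul]
  exact mul_le_mul ha hb (abs_nonneg _) ((abs_nonneg _).trans ha)

theorem sf_gf_aux_lip_aa {a b A B : ℝ} (ha : |a| ≤ A) (hb : |b| ≤ B) : |a + b| ≤ A + B :=
  (abs_add_le _ _).trans (add_le_add ha hb)

theorem sf_gf_aux_lip_as {a b A B : ℝ} (ha : |a| ≤ A) (hb : |b| ≤ B) : |a - b| ≤ A + B :=
  (abs_sub _ _).trans (add_le_add ha hb)

theorem sf_gf_aux_lip_div {n u V B : ℝ} (hu : 0 < u) (huV : 1 / V ≤ u) (hV : 0 < V) (hn : |n| ≤ B) : |n / u| ≤ B * V := by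
  have hB : 0 ≤ B := (abs_nonneg _).trans hn
  rw [abs_div, abs_of_pos hu, div_le_iff₀ hu]
  have h1 : 1 ≤ V * u := by
    rw [div_le_iff₀ hV] at huV
    linarith
  calc |n| ≤ B := hn
    _ = B * 1 := (mul_one _).symm
    _ ≤ B * (V * u) := mul_le_mul_of_nonneg_left h1 hB
    _ = _ := by ring

theorem sf_gf_aux_lip_core (W δ T x b y c d al be K X B Y N D X' B' Y' N' D' : ℝ) (hW : 1 ≤ W) (hδ : 0 ≤ δ) (hT : |T| ≤ 1) (hx : |x| ≤ W)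
    (hal : |al| ≤ W) (hbe : |be| ≤ W) (hK : |K| ≤ W) (hX : |X| ≤ W) (hB : |B| ≤ W) (hX' : |X'| ≤ W) (hB' : |B'| ≤ W)
    (dX : |X - X'| ≤ δ) (dB : |B - B'| ≤ δ) (dY : |Y - Y'| ≤ δ) (dN : |N - N'| ≤ δ) (dD : |D - D'| ≤ δ) :
    |((B + T * X) - b) - ((B' + T * X') - b)| ≤ 2 * δ ∧
    |((Y + T * X ^ 2) - y - 2 * x * ((B + T * X) - b)) - ((Y' + T * X' ^ 2) - y - 2 * x * ((B' + T * X') - b))| ≤ 7 * W * δ ∧
    |(N - c - al * X - be * X ^ 2 - K * ((Y + T * X ^ 2) - 2 * X * (B + T * X)))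
      - (N' - c - al * X' - be * X' ^ 2 - K * ((Y' + T * X' ^ 2) - 2 * X' * (B' + T * X')))| ≤ 15 * W ^ 2 * δ ∧
    |((D + T * N) - d - al * (B + T * X) - be * (Y + T * X ^ 2) + K * (B + T * X) ^ 2)
      - ((D' + T * N') - d - al * (B' + T * X') - be * (Y' + T * X' ^ 2) + K * (B' + T * X') ^ 2)| ≤ 15 * W ^ 2 * δ := by
  have hW0 : 0 ≤ W := by linarith
  have hWW : W ≤ W ^ 2 := by nlinarith
  have h1W : 1 ≤ W ^ 2 := by nlinarith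
  have hWδ : δ ≤ W * δ := by nlinarith
  have hW2δ : W * δ ≤ W ^ 2 * δ := mul_le_mul_of_nonneg_right hWW hδ
  -- differences
  have dBt : |(B - B') + T * (X - X')| ≤ δ + 1 * δ := sf_gf_aux_lip_aa dB (sf_gf_aux_lip_am hT dX)
  have sX : |X + X'| ≤ W + W := sf_gf_aux_lip_aa hX hX'
  have dX2 : |(X - X') * (X + X')| ≤ δ * (W + W) := sf_gf_aux_lip_am dX sX
  have dYt : |(Y - Y') + T * ((X - X') * (X + X'))| ≤ δ + 1 * (δ * (W + W)) := sf_gf_aux_lip_aa dY (sf_gf_aux_lip_am hT dX2)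
  have dDt : |(D - D') + T * (N - N')| ≤ δ + 1 * δ := sf_gf_aux_lip_aa dD (sf_gf_aux_lip_am hT dN)
  have bBt : |B + T * X| ≤ W + 1 * W := sf_gf_aux_lip_aa hB (sf_gf_aux_lip_am hT hX)
  have bBt' : |B' + T * X'| ≤ W + 1 * W := sf_gf_aux_lip_aa hB' (sf_gf_aux_lip_am hT hX')
  have dXB : |(X - X') * (B + T * X) + X' * ((B - B') + T * (X - X'))| ≤ δ * (W + 1 * W) + W * (δ + 1 * δ) :=
    sf_gf_aux_lip_aa (sf_gf_aux_lip_am dX bBt) (sf_gf_aux_lip_am hX' dBt)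
  have dB2 : |((B - B') + T * (X - X')) * ((B + T * X) + (B' + T * X'))| ≤ (δ + 1 * δ) * ((W + 1 * W) + (W + 1 * W)) :=
    sf_gf_aux_lip_am dBt (sf_gf_aux_lip_aa bBt bBt')
  have h2 : |(2 : ℝ)| ≤ 2 := by norm_num
  refine ⟨?_, ?_, ?_, ?_⟩
  · have e : ((B + T * X) - b) - ((B' + T * X') - b) = (B - B') + T * (X - X') := by ring
    rw [e]
    linarith
  · have e : ((Y + T * X ^ 2) - y - 2 * x * ((B + T * X) - b)) - ((Y' + T * X' ^ 2) - y - 2 * x * ((B' + T * X') - b))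
        = ((Y - Y') + T * ((X - X') * (X + X'))) - 2 * x * ((B - B') + T * (X - X')) := by ring
    rw [e]
    refine (sf_gf_aux_lip_as dYt (sf_gf_aux_lip_am (sf_gf_aux_lip_am h2 hx) dBt)).trans ?_
    have : δ + 1 * (δ * (W + W)) + 2 * W * (δ + 1 * δ) = δ + 6 * (W * δ) := by ring
    rw [this]
    linarith
  · have e : (N - c - al * X - be * X ^ 2 - K * ((Y + T * X ^ 2) - 2 * X * (B + T * X)))
      - (N' - c - al * X' - be * X' ^ 2 - K * ((Y' + T * X' ^ 2) - 2 * X' * (B' + T * X')))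
        = (N - N') - al * (X - X') - be * ((X - X') * (X + X'))
          - K * (((Y - Y') + T * ((X - X') * (X + X'))) - 2 * ((X - X') * (B + T * X) + X' * ((B - B') + T * (X - X')))) := by ring
    rw [e]
    refine (sf_gf_aux_lip_as (sf_gf_aux_lip_as (sf_gf_aux_lip_as dN (sf_gf_aux_lip_am hal dX)) (sf_gf_aux_lip_am hbe dX2))
      (sf_gf_aux_lip_am hK (sf_gf_aux_lip_as dYt (sf_gf_aux_lip_am h2 dXB)))).trans ?_
    have : δ + W * δ + W * (δ * (W + W)) + W * (δ + 1 * (δ * (W + W)) + 2 * (δ * (W + 1 * W) + W * (δ + 1 * δ)))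
        = δ + 2 * (W * δ) + 12 * (W ^ 2 * δ) := by ring
    rw [this]
    linarith
  · have e : ((D + T * N) - d - al * (B + T * X) - be * (Y + T * X ^ 2) + K * (B + T * X) ^ 2)
      - ((D' + T * N') - d - al * (B' + T * X') - be * (Y' + T * X' ^ 2) + K * (B' + T * X') ^ 2)
        = ((D - D') + T * (N - N')) - al * ((B - B') + T * (X - X')) - be * ((Y - Y') + T * ((X - X') * (X + X')))
          + K * (((B - B') + T * (X - X')) * ((B + T * X) + (B' + T * X'))) := by ring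
    rw [e]
    refine (sf_gf_aux_lip_aa (sf_gf_aux_lip_as (sf_gf_aux_lip_as dDt (sf_gf_aux_lip_am hal dBt)) (sf_gf_aux_lip_am hbe dYt))
      (sf_gf_aux_lip_am hK dB2)).trans ?_
    have : δ + 1 * δ + W * (δ + 1 * δ) + W * (δ + 1 * (δ * (W + W))) + W * ((δ + 1 * δ) * ((W + 1 * W) + (W + 1 * W)))
        = 2 * δ + 3 * (W * δ) + 10 * (W ^ 2 * δ) := by ring
    rw [this]
    linarith

/-- **(F2-lip)** PLAN: `sf_gf_ray_cen`; `δ := z.dist z'`; `|ΔBt| ≤ 2δ`, `|ΔYt| ≤ 3Wδ`, `|Bt| ≤ 2W`;   X: `Wδ`;  B: `2W²δ`;  Y: `7W⁴δ`;  N: `15W³δ`;  D: `15W⁴δ`. -/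
theorem sf_gf_lip_alg (φ : SfFrame) (W : ℝ) (hW : 1 ≤ W) (hL : 1 / W ≤ φ.L) (hr : 1 / W ≤ φ.r0) (hF : 1 / W ≤ φ.F0) (hT : |φ.T0| ≤ 1)
    (hc : φ.cen.size ≤ W) (z z' : SfRay) (hz : z.size ≤ W) (hz' : z'.size ≤ W) : (φ.ray z).dist (φ.ray z') ≤ 15 * W ^ 4 * z.dist z' := by
  have hW0 : 0 < W := by linarith
  have hiW : 0 < 1 / W := by positivity
  have hL0 : 0 < φ.L := lt_of_lt_of_le hiW hL
  have hr0 : 0 < φ.r0 := lt_of_lt_of_le hiW hr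
  have hF0 : 0 < φ.F0 := lt_of_lt_of_le hiW hF
  obtain ⟨δ, hδ⟩ : ∃ δ, δ = z.dist z' := ⟨_, rfl⟩
  rw [← hδ]
  have dX : |z.X - z'.X| ≤ δ := by rw [hδ]; exact le_max_left _ _
  have dB : |z.B - z'.B| ≤ δ := by rw [hδ]; exact (le_max_left _ _).trans (le_max_right _ _)
  have dY : |z.Y - z'.Y| ≤ δ := by rw [hδ]; exact ((le_max_left _ _).trans (le_max_right _ _)).trans (le_max_right _ _)
  have dN : |z.N - z'.N| ≤ δ := by
    rw [hδ]; exact (((le_max_left _ _).trans (le_max_right _ _)).trans (le_max_right _ _)).trans (le_max_right _ _)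
  have dD : |z.D - z'.D| ≤ δ := by
    rw [hδ]; exact (((le_max_right _ _).trans (le_max_right _ _)).trans (le_max_right _ _)).trans (le_max_right _ _)
  have hδ0 : 0 ≤ δ := (abs_nonneg _).trans dX
  have hX : |z.X| ≤ W := (le_max_left _ _).trans hz
  have hB : |z.B| ≤ W := ((le_max_left _ _).trans (le_max_right _ _)).trans hz
  have hX' : |z'.X| ≤ W := (le_max_left _ _).trans hz'
  have hB' : |z'.B| ≤ W := ((le_max_left _ _).trans (le_max_right _ _)).trans hz'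
  have cx : |φ.cen.x| ≤ W := (le_max_left _ _).trans hc
  have cal : |φ.cen.al| ≤ W :=
    ((((((le_max_left _ _).trans (le_max_right _ _)).trans (le_max_right _ _)).trans (le_max_right _ _)).trans (le_max_right _ _)).trans (le_max_right _ _)).trans hc
  have cbe : |φ.cen.be| ≤ W :=
    (((((((le_max_left _ _).trans (le_max_right _ _)).trans (le_max_right _ _)).trans (le_max_right _ _)).trans (le_max_right _ _)).trans (le_max_right _ _)).trans (le_max_right _ _)).trans hc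
  have cK : |φ.cen.K| ≤ W :=
    (((((((le_max_right _ _).trans (le_max_right _ _)).trans (le_max_right _ _)).trans (le_max_right _ _)).trans (le_max_right _ _)).trans (le_max_right _ _)).trans (le_max_right _ _)).trans hc
  obtain ⟨q1, q2, q3, q4⟩ := sf_gf_aux_lip_core W δ φ.cen.T φ.cen.x φ.cen.b φ.cen.y φ.cen.c φ.cen.d φ.cen.al φ.cen.be φ.cen.K
    z.X z.B z.Y z.N z.D z'.X z'.B z'.Y z'.N z'.D hW hδ0 hT cx cal cbe cK hX hB hX' hB' dX dB dY dN dD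
  obtain ⟨eX, eB, eY, eN, eD⟩ := sf_gf_ray_cen φ z
  obtain ⟨eX', eB', eY', eN', eD'⟩ := sf_gf_ray_cen φ z'
  have u1 : 1 / W ^ 2 ≤ φ.L * φ.r0 := by
    have := mul_le_mul hL hr hiW.le hL0.le
    calc 1 / W ^ 2 = 1 / W * (1 / W) := by field_simp
      _ ≤ _ := this
  have u2 : 1 / W ^ 3 ≤ φ.L * φ.r0 ^ 2 := by
    have := mul_le_mul u1 hr hiW.le (mul_pos hL0 hr0).le
    calc 1 / W ^ 3 = 1 / W ^ 2 * (1 / W) := by field_simp
      _ ≤ φ.L * φ.r0 * φ.r0 := this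
      _ = _ := by ring
  have u3 : 1 / W ^ 2 ≤ φ.L * φ.F0 := by
    have := mul_le_mul hL hF hiW.le hL0.le
    calc 1 / W ^ 2 = 1 / W * (1 / W) := by field_simp
      _ ≤ _ := this
  have p1 : W ≤ W ^ 4 := by
    calc W = W ^ 1 := (pow_one _).symm
      _ ≤ W ^ 4 := pow_le_pow_right₀ hW (by norm_num)
  have p2 : W ^ 2 ≤ W ^ 4 := pow_le_pow_right₀ hW (by norm_num)
  have p3 : W ^ 3 ≤ W ^ 4 := pow_le_pow_right₀ hW (by norm_num)
  have m1 := mul_le_mul_of_nonneg_right p1 hδ0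
  have m2 := mul_le_mul_of_nonneg_right p2 hδ0
  have m3 := mul_le_mul_of_nonneg_right p3 hδ0
  have m4 : 0 ≤ W ^ 4 * δ := by positivity
  unfold SfRay.dist
  refine max_le ?_ (max_le ?_ (max_le ?_ (max_le ?_ ?_)))
  · rw [eX, eX', ← sub_div]
    have e : z.X - φ.cen.x - (z'.X - φ.cen.x) = z.X - z'.X := by ring
    rw [e]
    refine (sf_gf_aux_lip_div hr0 hr hW0 dX).trans ?_
    linarith
  · rw [eB, eB', ← sub_div]
    refine (sf_gf_aux_lip_div (mul_pos hL0 hr0) u1 (by positivity) q1).trans ?_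
    linarith
  · rw [eY, eY', ← sub_div]
    refine (sf_gf_aux_lip_div (by positivity) u2 (by positivity) q2).trans ?_
    linarith
  · rw [eN, eN', ← sub_div]
    refine (sf_gf_aux_lip_div hF0 hF hW0 q3).trans ?_
    linarith
  · rw [eD, eD', ← sub_div]
    refine (sf_gf_aux_lip_div (mul_pos hL0 hF0) u3 (by positivity) q4).trans ?_
    linarith

/-- **(MEM ⟹ SIZE)** PLAN: `|X| ≤ 2W`, `|Bt| ≤ 2W`, `|B| ≤ 4W`, `|Yt| ≤ 4W²`, `|Y| ≤ 8W²`, `|N| ≤ 20W³`, `|Dt| ≤ 12W³`, `|D| ≤ 32W³`. -/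
theorem sf_gf_mem_size (Q : SfTest) (l : ℝ) (z : SfRay) (W : ℝ) (hW : 1 ≤ W) (hQ : Q.size ≤ W) (hT : |Q.T| ≤ 1) (hl : 0 ≤ l ∧ l ≤ 1)
    (hr : 0 ≤ Q.r ∧ Q.r ≤ W) (hf : 0 ≤ Q.f ∧ Q.f ≤ W) (h : Q.Mem l z) : z.size ≤ 32 * W ^ 3 := by
  have tri : ∀ a b c : ℝ, |a - b| ≤ c → |a| ≤ c + |b| := fun a b c h => by
    have := abs_sub_abs_le_abs_sub a b
    linarith
  have hW0 : 0 ≤ W := le_trans zero_le_one hW
  have hW2 : W ≤ W ^ 2 := by nlinarith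
  have hW3 : W ^ 2 ≤ W ^ 3 := by nlinarith [sq_nonneg W]
  simp only [SfTest.size, max_le_iff] at hQ
  obtain ⟨qx, qb, qy, qc, qd, qal, qbe, qK⟩ := hQ
  obtain ⟨h1, h2, h3, h4, h5⟩ := h
  obtain ⟨hl0, hl1⟩ := hl
  obtain ⟨hr0, hr1⟩ := hr
  obtain ⟨hf0, hf1⟩ := hf
  set Bt := z.Bt Q.T with hBt
  set Yt := z.Yt Q.T with hYt
  set Dt := z.Dt Q.T with hDt
  have lr : l * Q.r ≤ W := by nlinarith
  have lr2 : l * Q.r ^ 2 ≤ W ^ 2 := by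
    have : Q.r ^ 2 ≤ W ^ 2 := pow_le_pow_left₀ hr0 hr1 2
    nlinarith [sq_nonneg Q.r]
  have lf : l * Q.f ≤ W := by nlinarith
  -- X
  have bX : |z.X| ≤ 2 * W := by have := tri _ _ _ h1; linarith
  have bX2 : z.X ^ 2 ≤ 4 * W ^ 2 := by
    have : |z.X| ^ 2 ≤ (2 * W) ^ 2 := pow_le_pow_left₀ (abs_nonneg _) bX 2
    rw [sq_abs] at this
    linarith
  -- B
  have bBt : |Bt| ≤ 2 * W := by have := tri _ _ _ h2; linarith
  have bBt2 : Bt ^ 2 ≤ 4 * W ^ 2 := by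
    have : |Bt| ^ 2 ≤ (2 * W) ^ 2 := pow_le_pow_left₀ (abs_nonneg _) bBt 2
    rw [sq_abs] at this
    linarith
  have bTX : |Q.T * z.X| ≤ 2 * W := by
    rw [abs_mul]
    calc |Q.T| * |z.X| ≤ 1 * (2 * W) := by gcongr
      _ = 2 * W := by ring
  have bB : |z.B| ≤ 4 * W := by
    have e : z.B = Bt - Q.T * z.X := by simp only [hBt, SfRay.Bt]; ring
    rw [e]
    have := abs_sub (Bt) (Q.T * z.X)
    linarith
  -- Y
  have bYt : |Yt| ≤ 4 * W ^ 2 := by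
    have e : Yt - Q.y - 2 * Q.x * (Bt - Q.b) = Yt - (Q.y + 2 * Q.x * (Bt - Q.b)) := by ring
    rw [e] at h3
    have t := tri _ _ _ h3
    have p : |Q.y + 2 * Q.x * (Bt - Q.b)| ≤ W + 2 * (W * W) := by
      refine (abs_add_le _ _).trans ?_
      have : |2 * Q.x * (Bt - Q.b)| = 2 * (|Q.x| * |Bt - Q.b|) := by
        rw [abs_mul, abs_mul, abs_two]; ring
      rw [this]
      have : |Q.x| * |Bt - Q.b| ≤ W * W := by
        have hb : |Bt - Q.b| ≤ W := h2.trans lr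
        gcongr
      linarith
    have e2 : W + 2 * (W * W) = W + 2 * W ^ 2 := by ring
    linarith
  have bTX2 : |Q.T * z.X ^ 2| ≤ 4 * W ^ 2 := by
    rw [abs_mul, abs_of_nonneg (sq_nonneg z.X)]
    calc |Q.T| * z.X ^ 2 ≤ 1 * (4 * W ^ 2) := by gcongr
      _ = 4 * W ^ 2 := by ring
  have bY : |z.Y| ≤ 8 * W ^ 2 := by
    have e : z.Y = Yt - Q.T * z.X ^ 2 := by simp only [hYt, SfRay.Yt]; ring
    rw [e]
    have := abs_sub (Yt) (Q.T * z.X ^ 2)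
    linarith
  -- N
  have bN : |z.N| ≤ 20 * W ^ 3 := by
    have e : z.N - Q.c - Q.al * z.X - Q.be * z.X ^ 2 - Q.K * (Yt - 2 * z.X * Bt)
        = z.N - (Q.c + Q.al * z.X + Q.be * z.X ^ 2 + Q.K * (Yt - 2 * z.X * Bt)) := by ring
    rw [e] at h4
    have t := tri _ _ _ h4
    have p1 : |Q.al * z.X| ≤ W * (2 * W) := by rw [abs_mul]; gcongr
    have p2 : |Q.be * z.X ^ 2| ≤ W * (4 * W ^ 2) := by
      rw [abs_mul, abs_of_nonneg (sq_nonneg z.X)]; gcongr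
    have p3 : |Yt - 2 * z.X * Bt| ≤ 4 * W ^ 2 + 2 * ((2 * W) * (2 * W)) := by
      refine (abs_sub _ _).trans ?_
      have : |2 * z.X * Bt| = 2 * (|z.X| * |Bt|) := by rw [abs_mul, abs_mul, abs_two]; ring
      rw [this]
      have : |z.X| * |Bt| ≤ (2 * W) * (2 * W) := by gcongr
      linarith
    have p4 : |Q.K * (Yt - 2 * z.X * Bt)| ≤ W * (4 * W ^ 2 + 2 * ((2 * W) * (2 * W))) := by
      rw [abs_mul]; gcongr
    have p : |Q.c + Q.al * z.X + Q.be * z.X ^ 2 + Q.K * (Yt - 2 * z.X * Bt)| ≤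
        W + W * (2 * W) + W * (4 * W ^ 2) + W * (4 * W ^ 2 + 2 * ((2 * W) * (2 * W))) := by
      refine (abs_add_le _ _).trans (add_le_add ((abs_add_le _ _).trans (add_le_add ((abs_add_le _ _).trans (add_le_add qc p1)) p2)) p4)
    have e2 : W + W * (2 * W) + W * (4 * W ^ 2) + W * (4 * W ^ 2 + 2 * ((2 * W) * (2 * W))) = W + 2 * W ^ 2 + 16 * W ^ 3 := by ring
    linarith
  -- D
  have bDt : |Dt| ≤ 12 * W ^ 3 := by
    have e : Dt - Q.d - Q.al * Bt - Q.be * Yt + Q.K * Bt ^ 2 = Dt - (Q.d + Q.al * Bt + Q.be * Yt + -(Q.K * Bt ^ 2)) := by ring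
    rw [e] at h5
    have t := tri _ _ _ h5
    have p1 : |Q.al * Bt| ≤ W * (2 * W) := by rw [abs_mul]; gcongr
    have p2 : |Q.be * Yt| ≤ W * (4 * W ^ 2) := by rw [abs_mul]; gcongr
    have p3 : |-(Q.K * Bt ^ 2)| ≤ W * (4 * W ^ 2) := by
      rw [abs_neg, abs_mul, abs_of_nonneg (sq_nonneg Bt)]; gcongr
    have p : |Q.d + Q.al * Bt + Q.be * Yt + -(Q.K * Bt ^ 2)| ≤ W + W * (2 * W) + W * (4 * W ^ 2) + W * (4 * W ^ 2) := by
      refine (abs_add_le _ _).trans (add_le_add ((abs_add_le _ _).trans (add_le_add ((abs_add_le _ _).trans (add_le_add qd p1)) p2)) p3)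
    have e2 : W + W * (2 * W) + W * (4 * W ^ 2) + W * (4 * W ^ 2) = W + 2 * W ^ 2 + 8 * W ^ 3 := by ring
    linarith
  have bTN : |Q.T * z.N| ≤ 20 * W ^ 3 := by
    rw [abs_mul]
    calc |Q.T| * |z.N| ≤ 1 * (20 * W ^ 3) := by gcongr
      _ = 20 * W ^ 3 := by ring
  have bD : |z.D| ≤ 32 * W ^ 3 := by
    have e : z.D = Dt - Q.T * z.N := by simp only [hDt, SfRay.Dt]; ring
    rw [e]
    have := abs_sub (Dt) (Q.T * z.N)
    linarith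
  simp only [SfRay.size, max_le_iff]
  refine ⟨by linarith, by linarith, by linarith, by linarith, bD⟩

end Claimed.Agent.R256
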