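import Mathlib

/-!
# Row 256 (S0496), unit SOFT, block M6 GE (Lemma cyl:group-extraction), file 1: PAPER-FREE NUMERICS      (architect helper105; prefix `sf_ge_`)

Mathlib only.
* `sf_ge_pick`     the pigeonhole of the proof of Lemma cyl:group-extraction (02 l.783-806): groups `b` with readouts `R b`, energies `g b`, reachable weights `c k b` at finitely many depths `k`.
                   Upper estimate `R b ≤ U max (g b) θ`, lower bound `Lo ≤ Σ R`, `Σ g ≤ Gt`, `Σ_b c k b ≤ Ck k`; if `U (Σ_k Ck k / χ k + |B| θ) ≤ Lo / 2` some group is not tiny, obeys all relative counts and is near extremal.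
* `sf_ge_holder`   `(Σ μ)^(3/2) ≤ √N Σ μ^(3/2)`.
* `sf_ge_low`      with a perturbation `√μ ≤ √m + δ` on `≤ N` terms: `Σ m^(3/2) ≥ Mt^(3/2) / (8 √N)` if `Mt ≤ Σ μ`, `4 δ² N ≤ Mt`.
-/

set_option autoImplicit false

namespace Claimed.Agent.R256

open Finset

/-- **the pigeonhole of group extraction** -/
theorem sf_ge_pick {ι κ : Type} (B : Finset ι) (K : Finset κ) (R g : ι → ℝ) (c : κ → ι → ℝ) (χ Ck : κ → ℝ) (U θ Lo Gt : ℝ)
    (hg : ∀ b ∈ B, 0 ≤ g b) (hc : ∀ k ∈ K, ∀ b ∈ B, 0 ≤ c k b) (hχ : ∀ k ∈ K, 0 < χ k) (hU : 0 ≤ U) (hθ : 0 ≤ θ) (hLo : 0 < Lo) (hGt : 0 < Gt)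
    (h1 : ∀ b ∈ B, R b ≤ U * max (g b) θ) (h2 : Lo ≤ ∑ b ∈ B, R b) (h3 : ∑ b ∈ B, g b ≤ Gt) (h4 : ∀ k ∈ K, ∑ b ∈ B, c k b ≤ Ck k)
    (h5 : U * (∑ k ∈ K, Ck k / χ k + (B.card : ℝ) * θ) ≤ Lo / 2) :
    ∃ b ∈ B, θ ≤ g b ∧ (∀ k ∈ K, c k b ≤ χ k * g b) ∧ Lo / (2 * Gt) * g b ≤ R b := by
  classical
  by_contra hcon
  push Not at hcon
  -- every group is bad in one of three ways; bound `R b` accordingly
  have key : ∀ b ∈ B, R b ≤ U * θ + ∑ k ∈ K, U * (c k b / χ k) + Lo / (2 * Gt) * g b := by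
    intro b hb
    have hgb := hg b hb
    have hs0 : 0 ≤ ∑ k ∈ K, U * (c k b / χ k) :=
      Finset.sum_nonneg fun k hk => mul_nonneg hU (div_nonneg (hc k hk b hb) (hχ k hk).le)
    have hl0 : 0 ≤ Lo / (2 * Gt) * g b := mul_nonneg (by positivity) hgb
    by_cases ht : θ ≤ g b
    · by_cases hk : ∀ k ∈ K, c k b ≤ χ k * g b
      · have := hcon b hb ht hk
        have h0 : 0 ≤ U * θ := mul_nonneg hU hθ
        linarith
      · push Not at hk
        obtain ⟨k, hkK, hkb⟩ := hk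
        have h6 : g b ≤ c k b / χ k := by
          rw [le_div_iff₀ (hχ k hkK)]
          linarith
        have h7 : U * (c k b / χ k) ≤ ∑ k ∈ K, U * (c k b / χ k) :=
          Finset.single_le_sum (f := fun k => U * (c k b / χ k))
            (fun k hk => mul_nonneg hU (div_nonneg (hc k hk b hb) (hχ k hk).le)) hkK
        have h8 : R b ≤ U * g b := by
          have := h1 b hb
          rwa [max_eq_left ht] at this
        have h9 : U * g b ≤ U * (c k b / χ k) := mul_le_mul_of_nonneg_left h6 hU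
        have h0 : 0 ≤ U * θ := mul_nonneg hU hθ
        linarith
    · push Not at ht
      have h8 : R b ≤ U * θ := by
        have := h1 b hb
        rwa [max_eq_right ht.le] at this
      linarith
  -- strictness: some group has a strict inequality, unless the sum is too small
  have hsum : ∑ b ∈ B, R b ≤ (B.card : ℝ) * (U * θ) + ∑ k ∈ K, U * (Ck k / χ k) + Lo / (2 * Gt) * Gt := by
    calc ∑ b ∈ B, R b ≤ ∑ b ∈ B, (U * θ + ∑ k ∈ K, U * (c k b / χ k) + Lo / (2 * Gt) * g b) := Finset.sum_le_sum key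
      _ = (B.card : ℝ) * (U * θ) + ∑ k ∈ K, U * ((∑ b ∈ B, c k b) / χ k) + Lo / (2 * Gt) * ∑ b ∈ B, g b := by
          rw [Finset.sum_add_distrib, Finset.sum_add_distrib, Finset.sum_const, nsmul_eq_mul, Finset.sum_comm, ← Finset.mul_sum]
          congr 2
          refine Finset.sum_congr rfl fun k _ => ?_
          rw [← Finset.mul_sum, Finset.sum_div]
      _ ≤ _ := by
          have hA : ∑ k ∈ K, U * ((∑ b ∈ B, c k b) / χ k) ≤ ∑ k ∈ K, U * (Ck k / χ k) :=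
            Finset.sum_le_sum fun k hk => mul_le_mul_of_nonneg_left (div_le_div_of_nonneg_right (h4 k hk) (hχ k hk).le) hU
          have hB : Lo / (2 * Gt) * ∑ b ∈ B, g b ≤ Lo / (2 * Gt) * Gt := mul_le_mul_of_nonneg_left h3 (by positivity)
          linarith
  have hhalf : Lo / (2 * Gt) * Gt = Lo / 2 := by field_simp
  have h5' : (B.card : ℝ) * (U * θ) + ∑ k ∈ K, U * (Ck k / χ k) ≤ Lo / 2 := by
    have : U * (∑ k ∈ K, Ck k / χ k + (B.card : ℝ) * θ) = (B.card : ℝ) * (U * θ) + ∑ k ∈ K, U * (Ck k / χ k) := by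
      rw [mul_add, Finset.mul_sum]; ring
    linarith
  -- so all inequalities are equalities; get a contradiction from a strict version
  -- refine: the good groups carry at least `Lo/2`, hence one of them is near extremal
  have hstrict : ∑ b ∈ B, R b < (B.card : ℝ) * (U * θ) + ∑ k ∈ K, U * (Ck k / χ k) + Lo / (2 * Gt) * Gt ∨
      ∑ b ∈ B, R b ≤ (B.card : ℝ) * (U * θ) + ∑ k ∈ K, U * (Ck k / χ k) := by
    -- either no group is good (second alternative) or a good group gives strictness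
    by_cases hgood : ∃ b ∈ B, θ ≤ g b ∧ ∀ k ∈ K, c k b ≤ χ k * g b
    · left
      obtain ⟨b0, hb0, ht0, hk0⟩ := hgood
      have hlt := hcon b0 hb0 ht0 hk0
      have hs0 : 0 ≤ ∑ k ∈ K, U * (c k b0 / χ k) :=
        Finset.sum_nonneg fun k hk => mul_nonneg hU (div_nonneg (hc k hk b0 hb0) (hχ k hk).le)
      have h0 : 0 ≤ U * θ := mul_nonneg hU hθ
      have key0 : R b0 < U * θ + ∑ k ∈ K, U * (c k b0 / χ k) + Lo / (2 * Gt) * g b0 := by linarith
      calc ∑ b ∈ B, R b < ∑ b ∈ B, (U * θ + ∑ k ∈ K, U * (c k b / χ k) + Lo / (2 * Gt) * g b) :=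
            Finset.sum_lt_sum key ⟨b0, hb0, key0⟩
        _ = (B.card : ℝ) * (U * θ) + ∑ k ∈ K, U * ((∑ b ∈ B, c k b) / χ k) + Lo / (2 * Gt) * ∑ b ∈ B, g b := by
            rw [Finset.sum_add_distrib, Finset.sum_add_distrib, Finset.sum_const, nsmul_eq_mul, Finset.sum_comm, ← Finset.mul_sum]
            congr 2
            refine Finset.sum_congr rfl fun k _ => ?_
            rw [← Finset.mul_sum, Finset.sum_div]
        _ ≤ _ := by
            have hA : ∑ k ∈ K, U * ((∑ b ∈ B, c k b) / χ k) ≤ ∑ k ∈ K, U * (Ck k / χ k) :=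
              Finset.sum_le_sum fun k hk => mul_le_mul_of_nonneg_left (div_le_div_of_nonneg_right (h4 k hk) (hχ k hk).le) hU
            have hB : Lo / (2 * Gt) * ∑ b ∈ B, g b ≤ Lo / (2 * Gt) * Gt := mul_le_mul_of_nonneg_left h3 (by positivity)
            linarith
    · right
      push Not at hgood
      have key2 : ∀ b ∈ B, R b ≤ U * θ + ∑ k ∈ K, U * (c k b / χ k) := by
        intro b hb
        have hs0 : 0 ≤ ∑ k ∈ K, U * (c k b / χ k) :=
          Finset.sum_nonneg fun k hk => mul_nonneg hU (div_nonneg (hc k hk b hb) (hχ k hk).le)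
        have h0 : 0 ≤ U * θ := mul_nonneg hU hθ
        by_cases ht : θ ≤ g b
        · obtain ⟨k, hkK, hkb⟩ := hgood b hb ht
          have h6 : g b ≤ c k b / χ k := by
            rw [le_div_iff₀ (hχ k hkK)]
            linarith
          have h7 : U * (c k b / χ k) ≤ ∑ k ∈ K, U * (c k b / χ k) :=
            Finset.single_le_sum (f := fun k => U * (c k b / χ k))
              (fun k hk => mul_nonneg hU (div_nonneg (hc k hk b hb) (hχ k hk).le)) hkK
          have h8 : R b ≤ U * g b := by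
            have := h1 b hb
            rwa [max_eq_left ht] at this
          have h9 : U * g b ≤ U * (c k b / χ k) := mul_le_mul_of_nonneg_left h6 hU
          linarith
        · push Not at ht
          have h8 : R b ≤ U * θ := by
            have := h1 b hb
            rwa [max_eq_right ht.le] at this
          linarith
      calc ∑ b ∈ B, R b ≤ ∑ b ∈ B, (U * θ + ∑ k ∈ K, U * (c k b / χ k)) := Finset.sum_le_sum key2
        _ = (B.card : ℝ) * (U * θ) + ∑ k ∈ K, U * ((∑ b ∈ B, c k b) / χ k) := by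
            rw [Finset.sum_add_distrib, Finset.sum_const, nsmul_eq_mul, Finset.sum_comm]
            congr 1
            refine Finset.sum_congr rfl fun k _ => ?_
            rw [← Finset.mul_sum, Finset.sum_div]
        _ ≤ _ := by
            have hA : ∑ k ∈ K, U * ((∑ b ∈ B, c k b) / χ k) ≤ ∑ k ∈ K, U * (Ck k / χ k) :=
              Finset.sum_le_sum fun k hk => mul_le_mul_of_nonneg_left (div_le_div_of_nonneg_right (h4 k hk) (hχ k hk).le) hU
            linarith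
  rcases hstrict with h | h
  · rw [hhalf] at h
    linarith
  · linarith

/-- Hölder: `(Σ μ)^(3/2) ≤ √N Σ μ^(3/2)` -/
theorem sf_ge_holder {ι : Type} (J : Finset ι) (μ : ι → ℝ) (hμ : ∀ a ∈ J, 0 ≤ μ a) :
    (∑ a ∈ J, μ a) ^ (3 / 2 : ℝ) ≤ Real.sqrt (J.card : ℝ) * ∑ a ∈ J, μ a ^ (3 / 2 : ℝ) := by
  have h := Real.rpow_sum_le_const_mul_sum_rpow J μ (p := 3 / 2) (by norm_num)
  have e1 : ∑ a ∈ J, |μ a| = ∑ a ∈ J, μ a := Finset.sum_congr rfl fun a ha => abs_of_nonneg (hμ a ha)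
  have e2 : ∑ a ∈ J, |μ a| ^ (3 / 2 : ℝ) = ∑ a ∈ J, μ a ^ (3 / 2 : ℝ) :=
    Finset.sum_congr rfl fun a ha => by rw [abs_of_nonneg (hμ a ha)]
  rw [e1, e2] at h
  have e3 : ((J.card : ℝ)) ^ ((3 / 2 : ℝ) - 1) = Real.sqrt (J.card : ℝ) := by
    rw [Real.sqrt_eq_rpow]; norm_num
  rwa [e3] at h

/-- the lower bound for the sum of the cubic terms of the perturbed masses -/
theorem sf_ge_low {ι : Type} (J : Finset ι) (μ m : ι → ℝ) (δ Nn Mt : ℝ) (hμ : ∀ a ∈ J, 0 ≤ μ a) (hm : ∀ a ∈ J, 0 ≤ m a) (hδ : 0 ≤ δ)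
    (h : ∀ a ∈ J, Real.sqrt (μ a) ≤ Real.sqrt (m a) + δ) (hN : (J.card : ℝ) ≤ Nn) (hN0 : 0 < Nn) (hMt : Mt ≤ ∑ a ∈ J, μ a) (hMt0 : 0 ≤ Mt)
    (hs : 4 * δ ^ 2 * Nn ≤ Mt) :
    Mt ^ (3 / 2 : ℝ) / (8 * Real.sqrt Nn) ≤ ∑ a ∈ J, m a ^ (3 / 2 : ℝ) := by
  have h1 : ∀ a ∈ J, μ a ≤ 2 * m a + 2 * δ ^ 2 := by
    intro a ha
    have e1 := Real.sq_sqrt (hμ a ha)
    have e2 := Real.sq_sqrt (hm a ha)
    have h3 := h a ha
    have h4 : 0 ≤ Real.sqrt (μ a) := Real.sqrt_nonneg _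
    have h5 : 0 ≤ Real.sqrt (m a) := Real.sqrt_nonneg _
    have h6 : Real.sqrt (μ a) ^ 2 ≤ (Real.sqrt (m a) + δ) ^ 2 := pow_le_pow_left₀ h4 h3 2
    nlinarith [sq_nonneg (Real.sqrt (m a) - δ)]
  have h2 : ∑ a ∈ J, μ a ≤ 2 * ∑ a ∈ J, m a + (J.card : ℝ) * (2 * δ ^ 2) := by
    calc ∑ a ∈ J, μ a ≤ ∑ a ∈ J, (2 * m a + 2 * δ ^ 2) := Finset.sum_le_sum h1
      _ = _ := by rw [Finset.sum_add_distrib, ← Finset.mul_sum, Finset.sum_const, nsmul_eq_mul]
  have h3 : (J.card : ℝ) * (2 * δ ^ 2) ≤ Nn * (2 * δ ^ 2) := mul_le_mul_of_nonneg_right hN (by positivity)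
  have h4 : Mt / 4 ≤ ∑ a ∈ J, m a := by nlinarith
  have h5 := sf_ge_holder J m hm
  have h6 : (Mt / 4) ^ (3 / 2 : ℝ) ≤ (∑ a ∈ J, m a) ^ (3 / 2 : ℝ) :=
    Real.rpow_le_rpow (by positivity) h4 (by norm_num)
  have h7 : (Mt / 4) ^ (3 / 2 : ℝ) = Mt ^ (3 / 2 : ℝ) / 8 := by
    rw [Real.div_rpow hMt0 (by norm_num)]
    congr 1
    have : (4 : ℝ) = 2 ^ (2 : ℝ) := by norm_num
    rw [this, ← Real.rpow_mul (by norm_num)]
    norm_num
  have h8 : Real.sqrt (J.card : ℝ) ≤ Real.sqrt Nn := Real.sqrt_le_sqrt hN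
  have h9 : 0 ≤ ∑ a ∈ J, m a ^ (3 / 2 : ℝ) := Finset.sum_nonneg fun a ha => Real.rpow_nonneg (hm a ha) _
  have h10 : 0 < Real.sqrt Nn := Real.sqrt_pos.2 hN0
  rw [div_le_iff₀ (by positivity)]
  have h11 : Mt ^ (3 / 2 : ℝ) / 8 ≤ Real.sqrt Nn * ∑ a ∈ J, m a ^ (3 / 2 : ℝ) := by
    calc Mt ^ (3 / 2 : ℝ) / 8 = (Mt / 4) ^ (3 / 2 : ℝ) := h7.symm
      _ ≤ _ := h6
      _ ≤ _ := h5
      _ ≤ _ := mul_le_mul_of_nonneg_right h8 h9
  linarith

end Claimed.Agent.R256
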