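import Claimed.Agent.R256.Soft.MGeRoot

/-!
# Row 256 (S0496), unit SOFT, block M6 GE, file 6: THE PRE-ATOMS OF THE EXTRACTED PIECE      (architect helper105; prefix `sf_ge_pa_`)

PAPER-FREE.   RULES FOR LEAVES: prove IN PLACE, statement verbatim, helper lemmas directly above the theorem (names = name of the theorem + suffix).   Statements of this block and of the imports may be cited even if still `sorry`.
`d.Wf st' pos'` = the documented group experiment after forward preparation (`CyForward` changes only the stack and the positions).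
`d.pa … : SfPa Y c.p (d.Wf st' pos') μ'` = its PRE-ATOMS (format of helper39, `Soft/MDocPa.lean`); consumer: helper200 (`Soft/MGeDoc*.lean`): `sfPaAt`, `.doc`, `.sh`, `Sub`.
* a pre-atom of the new gate `g'` = (old row `ρ` of the gate `d.γ g'` ON A CHAIN, cube `q`);   OUTSIDE the hybrid root gate: `q = 0`, set = old atom, representative = old representative;
* HYBRID ROOT GATE (`d.isR g'`: `g' = 0`, `i ∈ Gk`, hybrid): set = `Nr ρ ∩ {x | sfCube hq (d.ray0 x) = q}` (nonempty), representative = the row with the EXACT INDEX OF THE OLD REPRESENTATIVE and the normal coordinates (in the frame of the piece) of a point of the set.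
* exact index: the old one (`c.D.idx`, `c.sh.ia`).
-/

set_option autoImplicit false

namespace Claimed.Agent.R256

open MeasureTheory Claimed.Agent.R255

/-- hybrid model: the normal coordinates of a row are free in its fibre -/
def SfFib (Y : SfCy) : Prop :=
  Y.hyb = true → ∀ (p : Y.M.Par) (T : ℝ) (x : (Y.M.sys p).X) (N D : ℝ), ∃ x', Y.ix p x' = Y.ix p x ∧ (Y.co p T x').N = N ∧ (Y.co p T x').D = D

variable {Y : SfCy}

namespace SfGeD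

variable {de : ℝ} {c : SfCfg Y de} (d : SfGeD c)

/-- the documented group experiment after forward preparation -/
noncomputable def Wf (st' : List (Stg (Y.M.sys c.p))) (pos' : ℝ → ℕ) : SfMD (Y.M.sys c.p) := { d.W with E := d.X.withSt st', pos := pos' }

/-- the hybrid root gate -/
def isR (g' : ℝ) : Prop := g' = 0 ∧ d.i ∈ d.Gk ∧ Y.hyb = true

/-- the root time -/
noncomputable def T0 : ℝ := tmL (c.W.k (d.γ 0)) d.m0

/-- the ray of a row, read at the root time, in the frame of the piece -/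
noncomputable def ray0 (x : (Y.M.sys c.p).X) : SfRay := d.W.fr.ray (sfRayAt d.T0 (Y.co c.p d.T0 x))

open Classical in
/-- the set of a pre-atom -/
noncomputable def paS (hq g' : ℝ) (a : c.D.Row (d.γ g') × SfCb) : Set (Y.M.sys c.p).X :=
  if d.isR g' then d.Nr (d.γ g') a.1 ∩ {x | sfCube hq (d.ray0 x) = a.2} else c.sh.atm (d.γ g') a.1

open Classical in
/-- the pre-atoms (if no row of this depth lies on a chain: all rows; this happens only off the mesh) -/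
def PA (hq g' : ℝ) : Type :=
  {a : c.D.Row (d.γ g') × SfCb // (d.chn ⟨d.γ g', a.1⟩ ∨ ¬ ∃ ρ, d.chn ⟨d.γ g', ρ⟩) ∧ if d.isR g' then (d.paS hq g' a).Nonempty else a.2 = 0}

open Classical in
/-- the representative -/
noncomputable def prp (hq g' : ℝ) (a : d.PA hq g') : (Y.M.sys c.p).X :=
  if h : d.isR g' ∧ ∃ x, Y.ix c.p x = Y.ix c.p (c.sh.rp (d.γ g') a.1.1) ∧ ∃ y ∈ d.paS hq g' a.1, (d.ray0 x).N = (d.ray0 y).N ∧ (d.ray0 x).D = (d.ray0 y).D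
  then h.2.choose else c.sh.rp (d.γ g') a.1.1

end SfGeD

theorem sf_ge_pa_eqns_cite : True := by
  have := @SfFib.eq_1
  have := @SfGeD.Wf.eq_1
  have := @SfGeD.isR.eq_1
  have := @SfGeD.T0.eq_1
  have := @SfGeD.ray0.eq_1
  have := @SfGeD.paS.eq_1
  have := @SfGeD.PA.eq_1
  have := @SfGeD.prp.eq_1
  trivial

/-- **the hypotheses of the pre-atom step**.   `S` old package, `Λ` root truncation, `hq` mesh of the cubes, `μ'` new fineness, `ε'` new truncation exponent;   `δ = s^(-K) s^μ` = the diameter of an old atom in the new frame. -/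
structure SfGePaH {π : SfPar} {c : SfCfg Y π.d} (d : SfGeD c) (φ : SfFrame) (S : ℕ) (K1 K Λ ϰ hq μ' ε' : ℝ)
    (st' : List (Stg (Y.M.sys c.p))) (pos' : ℝ → ℕ) : Prop where
  ob : c.ob S
  gd : Y.M.gd c.p
  base : ∀ i ∈ c.D.G, ∀ j ∈ c.D.G, i < j → ∀ ρ ρ', c.D.Conn i j ρ ρ' → c.D.T i ρ ≤ c.D.T j ρ' ∧ c.D.T j ρ' + c.D.len j ≤ c.D.T i ρ + c.D.len i
  ok : d.Ok
  root : d.Root Λ ϰ
  fr : SfGeFr Y π d φ
  bd : SfGeBd Y π d φ K1 ((S : ℝ) + 1) K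
  hK : (S : ℝ) + 1 ≤ K ∧ 0 ≤ K1
  str : (d.Wf st' pos').Str (Y.tq c.p)
  hq : 0 < hq ∧ hq ≤ d.X.s ^ μ'
  hn : 1 ≤ c.W.E.n ∧ 1 ≤ d.X.n ∧ 0 ≤ c.μ
  hΛ : 1 ≤ Λ
  /-- old atoms are small in the new frame -/
  sm : c.D.s ^ (-K) * c.W.E.s ^ c.μ ≤ d.X.s ^ μ' ∧ c.D.s ^ (-K) * c.W.E.s ^ c.μ ≤ 1
  /-- the shear of a root label moves by less than the old width between two points of an old atom -/
  sl : 11 * (d.X.s ^ (-K1)) ^ 2 * (c.D.s ^ (-K) * c.W.E.s ^ c.μ) ≤ c.W.f (d.γ 0) / d.Q0.f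
  /-- truncations -/
  tr : 2 * Λ + d.X.s ^ (-ε') ≤ c.W.E.s ^ (-c.ε)

/-! ## 0. The fibres      (LEAF L-256-SOFT-GE-FIB) -/

/-- PLAN: `rcases hY with ⟨η, rfl⟩ | ⟨η, rfl⟩`; classical: `hyb = false`, contradiction (`simp [sfCl]`); hybrid: rows are `(ω, D, N)`, `ix x = x.1`, `co T x = ⟨.., x.2.2, x.2.1⟩` (`ChyPar.co`): `x' = (x.1, D, N)`, `rfl`. -/
theorem sf_ge_fib (hY : (∃ η, Y = sfCl η) ∨ ∃ η, Y = sfHy η) : SfFib Y := by
  rcases hY with ⟨η, rfl⟩ | ⟨η, rfl⟩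
  · intro h
    exact absurd h (by simp [sfCl])
  · intro _ p T x N D
    exact ⟨((x : ChyPar.Om p × ℝ × ℝ).1, D, N), rfl, rfl, rfl⟩

section

variable {π : SfPar} {c : SfCfg Y π.d} {d : SfGeD c} {φ : SfFrame} {S : ℕ} {K1 K Λ ϰ hq μ' ε' : ℝ} {st' : List (Stg (Y.M.sys c.p))} {pos' : ℝ → ℕ}

/-! ## 1. Elementary facts      (LEAF L-256-SOFT-GE-PA1) -/

/-- a new gate is `0` or positive; the old gate is a kept gate.   (`sf_ge_mem_G`, `Ok.kept`, `SfGeD.γ`: `i ≤ i + g' (j - i)`, `j - i > 0`.) -/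
theorem sf_ge_pa_gate (hd : d.Ok) {g' : ℝ} (hg : g' ∈ d.G) : d.γ g' ∈ d.Gk ∧ d.γ g' ∈ c.W.G ∧ 0 ≤ g' ∧ g' ≤ 1 ∧ (g' ≤ 0 → g' = 0 ∧ d.i ∈ d.Gk) := by
  have hk : d.γ g' ∈ d.Gk := (sf_ge_mem_G d hd.hij g').1 hg
  obtain ⟨h1, h2, h3⟩ := hd.kept.2 _ hk
  have hij : 0 < d.j - d.i := by linarith [hd.hij]
  have e : d.γ g' = d.i + g' * (d.j - d.i) := rfl
  have h0 : 0 ≤ g' := by
    by_contra hc
    rw [not_le] at hc
    have := mul_neg_of_neg_of_pos hc hij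
    linarith
  have h1' : g' ≤ 1 := by
    by_contra hc
    rw [not_le] at hc
    have := mul_lt_mul_of_pos_right hc hij
    linarith
  refine ⟨hk, h1, h0, h1', fun hle => ?_⟩
  have e0 : g' = 0 := le_antisymm hle h0
  refine ⟨e0, ?_⟩
  rw [e, e0, zero_mul, add_zero] at hk
  exact hk

/-- the time of a new label is the time of the old label; at the root gate it is the root time.   (`SfMD.T`, `rfl`;  root: `Kept.1 : bel (γ 0) (iv ..)`, `SfGeD.bel`, `gn_anc_self`.) -/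
theorem sf_ge_pa_T (g' : ℝ) (l : (d.Wf st' pos').Lb g') : (d.Wf st' pos').T g' l = c.W.T (d.γ g') (l : d.Lb g').1 := rfl

theorem sf_ge_pa_T0 (h0 : (0 : ℝ) ∈ d.G) (l : (d.Wf st' pos').Lb 0) : (d.Wf st' pos').T 0 l = d.T0 := by
  have h1 : ancI (c.W.k (d.γ 0)) (c.W.k (d.γ 0)) (c.W.iv (d.γ 0) (l : d.Lb 0).1) = d.m0 := ((l : d.Lb 0).2 h0).1
  rw [gn_anc_self] at h1
  show tmL (c.W.k (d.γ 0)) (c.W.iv (d.γ 0) (l : d.Lb 0).1) = tmL (c.W.k (d.γ 0)) d.m0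
  rw [h1]

/-- the ray of a row in the frame of the piece = `φ` of its ray in the old frame.   (`sfDocRay`, `SfMD.fr` of `d.Wf` is `d.W.fr` by `rfl`, `SfGeFr.ray`, `SfCfg.fr`.) -/
theorem sf_ge_pa_dray (hf : SfGeFr Y π d φ) (g' : ℝ) (l : (d.Wf st' pos').Lb g') (x : (Y.M.sys c.p).X) :
    sfDocRay Y c.p (d.Wf st' pos') g' l x = φ.ray (c.fr.ray (sfRayAt (c.W.T (d.γ g') (l : d.Lb g').1) (Y.co c.p (c.W.T (d.γ g') (l : d.Lb g').1) x))) := by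
  exact hf.ray _

/-- a row with a nonzero new weight lies in the restored set (root) or in the atom of a row on a chain with the same label -/
theorem sf_ge_pa_cov_row (d : SfGeD c) (g' : ℝ) (l : c.W.Lb (d.γ g')) (x : (Y.M.sys c.p).X) (hx : d.th g' l x ≠ 0) :
    ∃ ρ, d.chn ⟨d.γ g', ρ⟩ ∧ c.sh.lb (d.γ g') ρ = l ∧ ((g' ≤ 0 ∧ x ∈ d.Nr (d.γ g') ρ) ∨ (0 < g' ∧ x ∈ c.sh.atm (d.γ g') ρ)) := by
  unfold SfGeD.th at hx
  by_cases hg0 : g' ≤ 0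
  · rw [if_pos hg0] at hx
    have h1 := Set.mem_of_indicator_ne_zero hx
    unfold SfGeD.lN at h1
    simp only [Set.mem_iUnion] at h1
    obtain ⟨ρ, ⟨h2, h3⟩, h4⟩ := h1
    exact ⟨ρ, h2, h3, Or.inl ⟨hg0, h4⟩⟩
  · rw [if_neg hg0] at hx
    have h1 := Set.mem_of_indicator_ne_zero hx
    unfold SfGeD.lS at h1
    simp only [Set.mem_iUnion] at h1
    obtain ⟨ρ, ⟨h2, h3⟩, h4⟩ := h1
    exact ⟨ρ, h2, h3, Or.inr ⟨not_le.1 hg0, h4⟩⟩

/-- the rows to cover lie in the sets of the pre-atoms.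
PLAN: `x ∈ sfDocSup` gives `d.th g' l.1 x ≠ 0` (the weight of `d.Wf` is `d.th`, `rfl`).   `g' ≤ 0` (so `g' = 0`, `i ∈ Gk` by `sf_ge_pa_gate`): `SfGeD.th`, `if_pos`: `x ∈ d.lN (γ g') l.1`: a chain row `ρ` with `lb ρ = l.1`, `x ∈ Nr ρ`;   hybrid: `a = (ρ, sfCube hq (d.ray0 x))`, `isR`;
classical: `¬ isR`, `Nr ρ = atm ρ` (`Root.cl`; rewrite `g' = 0` by `subst`), `a = (ρ, 0)`.   `0 < g'`: `if_neg`, `x ∈ d.lS (γ g') l.1`: a chain row with `x ∈ atm ρ`, `¬ isR`, `a = (ρ, 0)`. -/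
theorem sf_ge_pa_cov (h : SfGePaH d φ S K1 K Λ ϰ hq μ' ε' st' pos') {g' : ℝ} (hg : g' ∈ d.G) (l : (d.Wf st' pos').Lb g') (x : (Y.M.sys c.p).X)
    (hx : x ∈ sfDocSup Y c.p (d.Wf st' pos') g' l) : ∃ a : d.PA hq g', c.sh.lb (d.γ g') a.1.1 = (l : d.Lb g').1 ∧ x ∈ d.paS hq g' a.1 := by
  have hx1 : d.th g' (l : d.Lb g').1 x ≠ 0 := hx.1
  obtain ⟨ρ, hc, hl, hcase⟩ := sf_ge_pa_cov_row d g' (l : d.Lb g').1 x hx1
  have hnot : ∀ hR : ¬ d.isR g', x ∈ c.sh.atm (d.γ g') ρ →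
      ∃ a : d.PA hq g', c.sh.lb (d.γ g') a.1.1 = (l : d.Lb g').1 ∧ x ∈ d.paS hq g' a.1 := by
    intro hR hxa
    refine ⟨Subtype.mk (ρ, 0) ⟨Or.inl hc, ?_⟩, hl, ?_⟩
    · rw [if_neg hR]
    · unfold SfGeD.paS
      rw [if_neg hR]
      exact hxa
  rcases hcase with ⟨hg0, hxN⟩ | ⟨hg0, hxa⟩
  · obtain ⟨h0, hi⟩ := (sf_ge_pa_gate h.ok hg).2.2.2.2 hg0
    subst h0
    by_cases hy : Y.hyb = true
    · have hR : d.isR 0 := ⟨rfl, hi, hy⟩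
      have hmem : x ∈ d.paS hq 0 (ρ, sfCube hq (d.ray0 x)) := by
        unfold SfGeD.paS
        rw [if_pos hR]
        exact ⟨hxN, rfl⟩
      refine ⟨Subtype.mk (ρ, sfCube hq (d.ray0 x)) ⟨Or.inl hc, ?_⟩, hl, hmem⟩
      rw [if_pos hR]
      exact ⟨x, hmem⟩
    · have hy' : Y.hyb = false := by
        cases hb : Y.hyb
        · rfl
        · exact absurd hb hy
      refine hnot (fun hR => hy hR.2.2) ?_
      rw [← h.root.cl hy' ρ hc]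
      exact hxN
  · exact hnot (fun hR => hg0.ne' hR.1) hxa

/-- on the mesh and at the depth `0` a pre-atom is a row on a chain.   (`Ok.u_ne`, `Ok.u_pred`: chain rows exist at `γ 0 = i`;  at a kept gate `k`: `Core.split`-free argument: `hx` below.)
PLAN: `a.2.1` is `chn ∨ ¬ ∃ chn`; exclude the second: `g' = 0`: `Ok.u_ne`, `Ok.u_pred` give `u` with `u.1 = d.i`, `Conn u v`, `d.i < d.j = v.1`; transport to `γ 0` (`sf_ge_gam0`; destructure `u`, `subst`).   `g' ∈ d.G`: `(d.Wf ..).Str.lb_ne`/`Str.ne` give a label `l` and `x` with `d.th g' l.1 x ≠ 0`,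
hence (as in `sf_ge_pa_cov`) a chain row. -/
theorem sf_ge_pa_chn (h : SfGePaH d φ S K1 K Λ ϰ hq μ' ε' st' pos') {g' : ℝ} (hg : g' ∈ d.G ∨ g' = 0) (a : d.PA hq g') : d.chn ⟨d.γ g', a.1.1⟩ := by
  rcases a.2.1 with h1 | h1
  · exact h1
  · exfalso
    apply h1
    rcases hg with hg | hg
    · obtain ⟨l⟩ := h.str.lb_ne g'
      obtain ⟨x, hx⟩ := h.str.ne g' hg l
      have hx1 : d.th g' (l : d.Lb g').1 x ≠ 0 := hx
      obtain ⟨ρ, hc, -, -⟩ := sf_ge_pa_cov_row d g' (l : d.Lb g').1 x hx1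
      exact ⟨ρ, hc⟩
    · subst hg
      obtain ⟨v, hv⟩ := h.ok.u_ne
      obtain ⟨u, hu1, hu2, -, hu3⟩ := h.ok.u_s0 v hv
      have hvj := h.ok.u_dep v hv
      obtain ⟨g, ρ⟩ := u
      have hgg : g = d.γ 0 := by
        have e : g = d.i := hu1
        rw [e, sf_ge_gam0]
      subst hgg
      refine ⟨ρ, Or.inr ⟨v, hv, ?_, hu2⟩, fun _ => hu3⟩
      show d.γ 0 < v.1
      rw [hvj, sf_ge_gam0]
      exact h.ok.hij

/-! ## 2. Finiteness, nonemptiness, measurability      (LEAF L-256-SOFT-GE-PA2) -/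

/-- the five inequalities survive a move of the normal coordinates if the normal width grows -/
theorem sf_ge_pa_cell_abs (Q : CyT) (l Λ dl f1 : ℝ) (z z' : Cy5) (hl : 0 ≤ l) (hΛ : 0 ≤ Λ) (hdl : dl ≤ Q.f) (hz : cyIn Q l z) (hX : z'.X = z.X) (hB : z'.B = z.B)
    (hY : z'.Y = z.Y) (hN : |z'.N - z.N| ≤ Λ * dl) (hD : |z'.D - z.D| ≤ Λ * (l * dl)) (hf : (1 + Λ) * Q.f ≤ f1) : cyIn { Q with f := f1 } l z' := by
  obtain ⟨h1, h2, h3, h4, h5⟩ := hz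
  have hΛd : Λ * dl ≤ Λ * Q.f := mul_le_mul_of_nonneg_left hdl hΛ
  refine ⟨?_, ?_, ?_, ?_, ?_⟩
  · show |z'.X - Q.x| ≤ Q.r
    rw [hX]
    exact h1
  · show |z'.B - Q.b| ≤ l * Q.r
    rw [hB]
    exact h2
  · show |z'.Y - Q.y - 2 * Q.x * (z'.B - Q.b)| ≤ l * Q.r ^ 2
    rw [hY, hB]
    exact h3
  · show |z'.N - Q.c - Q.al * z'.X - Q.be * z'.X ^ 2 - Q.K * (z'.Y - 2 * z'.X * z'.B)| ≤ f1
    rw [hX, hB, hY]
    have e : z'.N - Q.c - Q.al * z.X - Q.be * z.X ^ 2 - Q.K * (z.Y - 2 * z.X * z.B) = cyVel Q z + (z'.N - z.N) := by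
      unfold cyVel
      ring
    rw [e]
    refine (abs_add_le _ _).trans ?_
    linarith
  · show |z'.D - Q.d - Q.al * z'.B - Q.be * z'.Y + Q.K * z'.B ^ 2| ≤ l * f1
    rw [hB, hY]
    have e : z'.D - Q.d - Q.al * z.B - Q.be * z.Y + Q.K * z.B ^ 2 = cyPos Q z + (z'.D - z.D) := by
      unfold cyPos
      ring
    rw [e]
    refine (abs_add_le _ _).trans ?_
    have e1 : Λ * (l * dl) = l * (Λ * dl) := by ring
    have e2 : l * (Λ * dl) ≤ l * (Λ * Q.f) := mul_le_mul_of_nonneg_left hΛd hl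
    have e3 : l * ((1 + Λ) * Q.f) ≤ l * f1 := mul_le_mul_of_nonneg_left hf hl
    have e4 : l * ((1 + Λ) * Q.f) = l * Q.f + l * (Λ * Q.f) := by ring
    linarith

/-- the test of a root label: the normal width is `f0` -/
theorem sf_ge_pa_cell_ts (hO : SfCyOk Y) (d : SfGeD c) (g' : ℝ) (hg : g' ≤ 0) (l : c.W.Lb (d.γ g')) :
    Y.tq c.p (d.ts g' l) = { Y.tq c.p (c.W.ts (d.γ g') l) with f := d.f0 } := by
  have hex : g' ≤ 0 ∧ ∃ Q, Y.tq c.p Q = { Y.tq c.p (c.W.ts (d.γ g') l) with f := d.f0 } := ⟨hg, hO.tq_surj _ _⟩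
  unfold SfGeD.ts
  rw [dif_pos hex]
  exact hex.2.choose_spec

/-- the common core of `sf_ge_pa_cell` and `sf_ge_pa_in`: any width `f1 ≥ (1 + Λ) f_i` -/
theorem sf_ge_pa_cell_core (hO : SfCyOk Y) (h : SfGePaH d φ S K1 K Λ ϰ hq μ' ε' st' pos') (ρ : c.D.Row (d.γ 0)) (hρ : d.chn ⟨d.γ 0, ρ⟩) (x' : (Y.M.sys c.p).X)
    (hx : x' ∈ d.Nr (d.γ 0) ρ) (f1 : ℝ) (hf : (1 + Λ) * c.W.f (d.γ 0) ≤ f1) :
    cyIn { Y.tq c.p (c.W.ts (d.γ 0) (c.sh.lb (d.γ 0) ρ)) with f := f1 } ((2 : ℝ)⁻¹ ^ c.W.k (d.γ 0)) (Y.co c.p (c.tm (d.γ 0) ρ) x') := by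
  have hs : c.W.Str (Y.tq c.p) := h.ob.2.2.1
  have hG : d.γ 0 ∈ c.W.G := by
    rw [sf_ge_gam0]
    exact h.ok.gi
  obtain ⟨x, hxa, -, -, hix, hN, hD⟩ := h.root.near ρ hρ x' hx
  have hth : c.W.th (d.γ 0) (c.sh.lb (d.γ 0) ρ) x ≠ 0 := ((c.sh.at_cov (d.γ 0) hG (c.sh.lb (d.γ 0) ρ) x).2 ⟨ρ, rfl, hxa⟩).1
  have hcell := hs.supp (d.γ 0) hG _ x hth
  have hin : cyIn (Y.tq c.p (c.W.ts (d.γ 0) (c.sh.lb (d.γ 0) ρ))) ((2 : ℝ)⁻¹ ^ c.W.k (d.γ 0)) (Y.co c.p (c.tm (d.γ 0) ρ) x) := (hO.cell _ _ _ _ _).1 hcell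
  have hok := (hO.ok _ _ _).1 (hs.ok (d.γ 0) hG (c.sh.lb (d.γ 0) ρ))
  have hw := (hs.width (d.γ 0) hG (c.sh.lb (d.γ 0) ρ)).2
  obtain ⟨b1, b2, b3⟩ := hO.ixB c.p x x' hix
  refine sf_ge_pa_cell_abs _ _ Λ (Y.dl c.p (c.W.k (d.γ 0))) f1 _ _ (by positivity) (by linarith [h.hΛ]) hok.2.2 hin ?_ ?_ ?_ hN ?_ (by rw [hw]; exact hf)
  · rw [hO.coX, hO.coX c.p _ x, b1]
  · rw [hO.coB, hO.coB c.p _ x, b1, b2]
  · rw [hO.coY, hO.coY c.p _ x, b1, b3]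
  · rw [sub_self, zero_mul, sub_zero] at hD
    exact hD

/-- every restored root row lies in the enlarged test of its label.
PLAN: `Root.near`: `x ∈ atm ρ` with `sfCn Λ` at the same cut: same index, `|N' - N| ≤ Λ dl`, `|D' - D| ≤ Λ 2⁻¹^k dl`.   `x ∈ cell (ts (lb ρ))` (`at_cov`, `Str.supp` of `c.W`).   `SfCyOk.cell`, `cyIn` (five inequalities, `Base/Cyl.lean`): the base coordinates of `x`, `x'` at the time `T` agree (`SfCyOk.ixB`, `coX`, `coB`, `coY`),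
so the first three inequalities are the same and `cyVel`, `cyPos` change by `N' - N`, `D' - D`;   `dl ≤ f` (`SfCyOk.ok`, `Str.ok`);   `f + Λ f ≤ f0` (`Root.wid`).   `tq (d.ts 0 l) = {tq (ts l) with f := f0}`: `SfGeD.ts`, `dif_pos` with `SfCyOk.tq_surj`, `Classical.choose_spec`. -/
theorem sf_ge_pa_cell (hO : SfCyOk Y) (h : SfGePaH d φ S K1 K Λ ϰ hq μ' ε' st' pos') (ρ : c.D.Row (d.γ 0)) (hρ : d.chn ⟨d.γ 0, ρ⟩) (x' : (Y.M.sys c.p).X)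
    (hx : x' ∈ d.Nr (d.γ 0) ρ) : x' ∈ (Y.M.sys c.p).cell (d.ts 0 (c.sh.lb (d.γ 0) ρ)) (c.tm (d.γ 0) ρ) (c.W.k (d.γ 0)) := by
  rw [hO.cell, sf_ge_pa_cell_ts hO d 0 le_rfl]
  refine sf_ge_pa_cell_core hO h ρ hρ x' hx d.f0 (le_trans ?_ h.root.wid.1)
  have hG : d.γ 0 ∈ c.W.G := by
    rw [sf_ge_gam0]
    exact h.ok.gi
  have hf : 0 < c.W.f (d.γ 0) := (h.ob.2.2.1.frame.2.2 (d.γ 0) hG).2
  exact mul_le_mul_of_nonneg_right (by linarith) hf.le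

/-- the rays of the restored rows of one chain row of the hybrid root gate are bounded -/
theorem sf_ge_pa_fin_bdd (hO : SfCyOk Y) (hg : SfGeo Y) (h : SfGePaH d φ S K1 K Λ ϰ hq μ' ε' st' pos') (hR : d.isR 0) (ρ : c.D.Row (d.γ 0))
    (hρ : d.chn ⟨d.γ 0, ρ⟩) : ∃ B : ℝ, ∀ x ∈ d.Nr (d.γ 0) ρ, (d.ray0 x).size ≤ B := by
  by_cases hne : (d.Nr (d.γ 0) ρ).Nonempty
  · obtain ⟨x0, hx0⟩ := hne
    have h0 : (0 : ℝ) ∈ d.G := by
      rw [sf_ge_mem_G d h.ok.hij, sf_ge_gam0]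
      exact hR.2.1
    have hgW : d.γ 0 ∈ c.W.G := (sf_ge_pa_gate h.ok h0).2.1
    have hbel : d.bel (d.γ 0) (c.im (d.γ 0) ρ) :=
      sf_ge_chn_bel d h.ob.2.2.1 h.ok h.base ⟨d.γ 0, ρ⟩ hρ hgW (le_of_eq (sf_ge_gam0 d).symm)
    have hth : d.th 0 (c.sh.lb (d.γ 0) ρ) x0 ≠ 0 := by
      unfold SfGeD.th
      rw [if_pos le_rfl]
      have hm : x0 ∈ d.lN (d.γ 0) (c.sh.lb (d.γ 0) ρ) := by
        unfold SfGeD.lN
        exact Set.mem_iUnion.2 ⟨ρ, Set.mem_iUnion.2 ⟨⟨hρ, rfl⟩, hx0⟩⟩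
      rw [Set.indicator_of_mem hm]
      exact one_ne_zero
    obtain ⟨l, hl⟩ : ∃ l : (d.Wf st' pos').Lb 0, (l : d.Lb 0).1 = c.sh.lb (d.γ 0) ρ := ⟨⟨c.sh.lb (d.γ 0) ρ, fun _ => ⟨hbel, x0, hth⟩⟩, rfl⟩
    obtain ⟨B, hB⟩ := sf_doc_ray_bdd Y hg c.p (d.Wf st' pos') h.str (i := 0) h0 l
    refine ⟨B, fun x hx => ?_⟩
    have hc := sf_ge_pa_cell hO h ρ hρ x hx
    have hT := sf_ge_pa_T0 (st' := st') (pos' := pos') h0 l
    have hc' : x ∈ (Y.M.sys c.p).cell ((d.Wf st' pos').ts 0 l) ((d.Wf st' pos').T 0 l) ((d.Wf st' pos').k 0) := by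
      show x ∈ (Y.M.sys c.p).cell (d.ts 0 (l : d.Lb 0).1) (c.W.T (d.γ 0) (l : d.Lb 0).1) (c.W.k (d.γ 0))
      rw [hl]
      exact hc
    have h1 := hB x hc'
    have e : sfDocRay Y c.p (d.Wf st' pos') 0 l x = d.ray0 x := by
      unfold sfDocRay SfGeD.ray0
      rw [hT]
      rfl
    rw [e] at h1
    exact h1
  · exact ⟨0, fun x hx => absurd ⟨x, hx⟩ hne⟩

/-- PLAN: `¬ isR g'`: injection `a ↦ a.1.1` into the finite type `c.D.Row (γ g')` (`a.1.2 = 0`).   `isR g'` (`g' = 0`, `subst`): the pairs `(ρ, q)` with `ρ` on a chain (chain rows exist: `sf_ge_pa_chn`) and `Nr ρ ∩ cube q ≠ ∅`: for fixed `ρ` the rays `d.ray0 x`, `x ∈ Nr ρ`, are bounded: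
`sf_ge_pa_cell` + `sf_doc_ray_bdd` (Soft/MDocAt.lean) for `W = d.Wf st' pos'`, gate `0`, the label `⟨lb ρ, _⟩` (kept: `bel` by `sf_ge_chn_bel`, weight `≠ 0` at `x`), `sfDocRay = d.ray0` by `sf_ge_pa_T0`;   `sf_doc_cube_fin`;   `Set.Finite.biUnion`/`Finite.of_injective` into `Σ`/product of finite sets. -/
theorem sf_ge_pa_fin (hO : SfCyOk Y) (hg : SfGeo Y) (h : SfGePaH d φ S K1 K Λ ϰ hq μ' ε' st' pos') (g' : ℝ) : Finite (d.PA hq g') := by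
  classical
  by_cases hR : d.isR g'
  · obtain ⟨rfl, hR2, hR3⟩ := hR
    have hR : d.isR 0 := ⟨rfl, hR2, hR3⟩
    have hex : ∀ ρ : c.D.Row (d.γ 0), ∃ B : ℝ, d.chn ⟨d.γ 0, ρ⟩ → ∀ x ∈ d.Nr (d.γ 0) ρ, (d.ray0 x).size ≤ B := by
      intro ρ
      by_cases hρ : d.chn ⟨d.γ 0, ρ⟩
      · obtain ⟨B, hB⟩ := sf_ge_pa_fin_bdd hO hg h hR ρ hρ
        exact ⟨B, fun _ => hB⟩
      · exact ⟨0, fun h' => absurd h' hρ⟩
    choose B hB using hex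
    have hF : (⋃ ρ : c.D.Row (d.γ 0), {q : SfCb | ∃ z : SfRay, z.size ≤ B ρ ∧ sfCube hq z = q}).Finite :=
      Set.finite_iUnion fun ρ => sf_doc_cube_fin h.hq.1 (B ρ)
    have hT : ((Set.univ : Set (c.D.Row (d.γ 0))) ×ˢ (⋃ ρ : c.D.Row (d.γ 0), {q : SfCb | ∃ z : SfRay, z.size ≤ B ρ ∧ sfCube hq z = q})).Finite :=
      Set.finite_univ.prod hF
    have := hT.to_subtype
    refine Finite.of_injective (fun a : d.PA hq 0 => (⟨a.1, ?_⟩ :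
      ↥((Set.univ : Set (c.D.Row (d.γ 0))) ×ˢ (⋃ ρ : c.D.Row (d.γ 0), {q : SfCb | ∃ z : SfRay, z.size ≤ B ρ ∧ sfCube hq z = q})))) ?_
    · refine ⟨Set.mem_univ _, Set.mem_iUnion.2 ⟨a.1.1, ?_⟩⟩
      have h2 := a.2.2
      rw [if_pos hR] at h2
      obtain ⟨x, hx⟩ := h2
      unfold SfGeD.paS at hx
      rw [if_pos hR] at hx
      exact ⟨d.ray0 x, hB a.1.1 (sf_ge_pa_chn h (Or.inr rfl) a) x hx.1, hx.2⟩
    · intro a a' haa
      have h3 : a.1 = a'.1 := congrArg (fun z : ↥((Set.univ : Set (c.D.Row (d.γ 0))) ×ˢ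
        (⋃ ρ : c.D.Row (d.γ 0), {q : SfCb | ∃ z : SfRay, z.size ≤ B ρ ∧ sfCube hq z = q})) => z.1) haa
      exact Subtype.ext h3
  · refine Finite.of_injective (fun a : d.PA hq g' => a.1.1) ?_
    intro a a' haa
    have h2 := a.2.2
    have h2' := a'.2.2
    rw [if_neg hR] at h2 h2'
    exact Subtype.ext (Prod.ext haa (h2.trans h2'.symm))

/-- PLAN: `isR g'`: `Root.ne` gives a chain row `ρ` and `x ∈ Nr ρ`; `a = (ρ, sfCube hq (d.ray0 x))`.   `¬ isR g'`: if a chain row exists take it, otherwise any row (`sf_doc_rf_row_ne c.D _`); `q = 0`. -/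
theorem sf_ge_pa_ne (h : SfGePaH d φ S K1 K Λ ϰ hq μ' ε' st' pos') (g' : ℝ) : Nonempty (d.PA hq g') := by
  classical
  by_cases hR : d.isR g'
  · obtain ⟨rfl, hR2, hR3⟩ := hR
    have hR : d.isR 0 := ⟨rfl, hR2, hR3⟩
    obtain ⟨ρ, hρ, x, hx⟩ := h.root.ne
    refine ⟨⟨(ρ, sfCube hq (d.ray0 x)), Or.inl hρ, ?_⟩⟩
    rw [if_pos hR]
    refine ⟨x, ?_⟩
    unfold SfGeD.paS
    rw [if_pos hR]
    exact ⟨hx, rfl⟩
  · by_cases hex : ∃ ρ, d.chn ⟨d.γ g', ρ⟩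
    · obtain ⟨ρ, hρ⟩ := hex
      exact ⟨⟨(ρ, 0), Or.inl hρ, by rw [if_neg hR]⟩⟩
    · obtain ⟨ρ⟩ := sf_doc_rf_row_ne c.D (d.γ g')
      exact ⟨⟨(ρ, 0), Or.inr hex, by rw [if_neg hR]⟩⟩

/-- PLAN: `isR`: `Root.meas` ∩ `sf_doc_cube_meas` (coordinates of `d.ray0` measurable: `sf_doc_ray_meas` with `SfGeo.meas`/`SfCyOk.meas`, `h.gd`).   Otherwise `c.sh.at_meas` (`sf_ge_pa_gate`). -/
theorem sf_ge_pa_meas (hO : SfCyOk Y) (h : SfGePaH d φ S K1 K Λ ϰ hq μ' ε' st' pos') {g' : ℝ} (hg : g' ∈ d.G) (a : d.PA hq g') : MeasurableSet (d.paS hq g' a.1) := by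
  classical
  unfold SfGeD.paS
  by_cases hR : d.isR g'
  · rw [if_pos hR]
    obtain ⟨rfl, -, -⟩ := hR
    obtain ⟨m1, m2, m3, m4, m5⟩ := hO.meas c.p h.gd d.T0
    obtain ⟨r1, r2, r3, r4, r5⟩ := sf_doc_ray_meas d.W.fr d.T0 (Y.co c.p d.T0) m1 m2 m3 m4 m5
    exact (h.root.meas a.1.1).inter (sf_doc_cube_meas hq d.ray0 r1 r2 r3 r4 r5 a.1.2)
  · rw [if_neg hR]
    exact c.sh.at_meas (d.γ g') (sf_ge_pa_gate h.ok hg).2.1 a.1.1

/-- PLAN: `a ≠ a'` means `a.1 ≠ a'.1` (`Subtype.ext`).   `¬ isR`: the cubes are `0`, so `a.1.1 ≠ a'.1.1`, same label: `c.sh.at_disj`.   `isR`: `a.1.1 ≠ a'.1.1`: `Root.disj` (`sf_ge_pa_chn`), `Disjoint.mono` (`Set.inter_subset_left`);  `a.1.1 = a'.1.1`: the cubes differ. -/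
theorem sf_ge_pa_disj (h : SfGePaH d φ S K1 K Λ ϰ hq μ' ε' st' pos') {g' : ℝ} (hg : g' ∈ d.G) (a a' : d.PA hq g')
    (hl : c.sh.lb (d.γ g') a.1.1 = c.sh.lb (d.γ g') a'.1.1) (hne : a ≠ a') : Disjoint (d.paS hq g' a.1) (d.paS hq g' a'.1) := by
  classical
  have hne' : a.1 ≠ a'.1 := fun e => hne (Subtype.ext e)
  unfold SfGeD.paS
  by_cases hR : d.isR g'
  · rw [if_pos hR, if_pos hR]
    obtain ⟨rfl, -, -⟩ := hR
    by_cases h1 : a.1.1 = a'.1.1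
    · have h2 : a.1.2 ≠ a'.1.2 := fun e => hne' (Prod.ext h1 e)
      rw [Set.disjoint_left]
      intro x hx hx'
      exact h2 (hx.2.symm.trans hx'.2)
    · exact (h.root.disj a.1.1 a'.1.1 (sf_ge_pa_chn h (Or.inl hg) a) (sf_ge_pa_chn h (Or.inl hg) a') h1).mono Set.inter_subset_left Set.inter_subset_left
  · rw [if_neg hR, if_neg hR]
    have h2 := a.2.2
    have h2' := a'.2.2
    rw [if_neg hR] at h2 h2'
    have h1 : a.1.1 ≠ a'.1.1 := fun e => hne' (Prod.ext e (h2.trans h2'.symm))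
    exact c.sh.at_disj (d.γ g') (sf_ge_pa_gate h.ok hg).2.1 a.1.1 a'.1.1 hl h1

/-! ## 3. The exact index      (LEAF L-256-SOFT-GE-PA3) -/

/-- PLAN: `¬ isR`: `c.sh.ia_mem`.   `isR`: `x ∈ Nr ρ`, `Root.near` gives `y ∈ atm ρ` with the same index (third component of `sfCn`), `ia_mem`. -/
theorem sf_ge_pa_ia (h : SfGePaH d φ S K1 K Λ ϰ hq μ' ε' st' pos') {g' : ℝ} (hg : g' ∈ d.G) (a : d.PA hq g') (x : (Y.M.sys c.p).X) (hx : x ∈ d.paS hq g' a.1) :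
    Y.ix c.p x ∈ c.sh.ia (c.D.idx (d.γ g') a.1.1) := by
  have hG : d.γ g' ∈ c.W.G := (sf_ge_pa_gate h.ok hg).2.1
  have hch := sf_ge_pa_chn h (Or.inl hg) a
  by_cases hR : d.isR g'
  · unfold SfGeD.paS at hx
    rw [if_pos hR] at hx
    obtain ⟨rfl, -, -⟩ := hR
    obtain ⟨y, hy, hcn⟩ := h.root.near _ hch x hx.1
    rw [← hcn.2.2.1]
    exact c.sh.ia_mem _ hG _ y hy
  · unfold SfGeD.paS at hx
    rw [if_neg hR] at hx
    exact c.sh.ia_mem _ hG _ x hx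

/-- classical model: nothing changes (`isR` is false) -/
theorem sf_ge_pa_cl (hc : Y.hyb = false) (g' : ℝ) (a : d.PA hq g') : d.paS hq g' a.1 = c.sh.atm (d.γ g') a.1.1 ∧ d.prp hq g' a = c.sh.rp (d.γ g') a.1.1 := by
  have hR : ¬ d.isR g' := fun h => by
    have := h.2.2
    rw [hc] at this
    exact Bool.false_ne_true this
  constructor
  · unfold SfGeD.paS
    rw [if_neg hR]
  · unfold SfGeD.prp
    rw [dif_neg (fun h => hR h.1)]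

/-! ## 4. The representative of a hybrid root pre-atom      (LEAVES L-256-SOFT-GE-PA4, PA5) -/

/-- the shears depend only on the base part of the ray -/
theorem sf_ge_pa_rep_sh (Q : SfTest) (t : ℝ) {z z' : SfRay} (hX : z.X = z'.X) (hB : z.B = z'.B) (hY : z.Y = z'.Y) :
    Q.shA z = Q.shA z' ∧ Q.shS t z = Q.shS t z' := by
  simp only [SfTest.shA, SfTest.shS, SfRay.Bt, SfRay.Yt, hX, hB, hY, and_self]

/-- the base part of the absolute ray of a row depends only on the exact index -/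
theorem sf_ge_pa_rep_base (hO : SfCyOk Y) (p : Y.M.Par) (T : ℝ) (x x' : (Y.M.sys p).X) (h : Y.ix p x = Y.ix p x') :
    (sfRayAt T (Y.co p T x)).X = (sfRayAt T (Y.co p T x')).X ∧ (sfRayAt T (Y.co p T x)).B = (sfRayAt T (Y.co p T x')).B ∧
      (sfRayAt T (Y.co p T x)).Y = (sfRayAt T (Y.co p T x')).Y := by
  obtain ⟨h1, h2, h3⟩ := hO.ixB p x x' h
  simp only [sfRayAt]
  rw [hO.coX p T x, hO.coX p T x', hO.coB p T x, hO.coB p T x', hO.coY p T x, hO.coY p T x', h1, h2, h3]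
  exact ⟨rfl, rfl, rfl⟩

/-- **(PA4)** the representative exists: exact index of the old representative, normal coordinates of a point `y` of the pre-atom.
PLAN: `a.2.2` (`if_pos hR`) gives `y ∈ paS`.   `fr' = d.W.fr`, positive units (`sf_doc_fr_pos h.str`; `(d.Wf ..).fr = d.W.fr` by `rfl`).   For a row `x` with the index of `rp`: the base part `zb` of `sfRayAt T0 (co T0 x)` is that of `rp` (`SfCyOk.ixB/coX/coB/coY`), and
`(fr'.ray z).N = (z.N - sg.shA z) / F0`, `(fr'.ray z).D = (z.Dt T0' - sg.shS T0' z) / (L F0)`, `T0' = fr'.T0 = d.T0` (`sfFrameOf`, `rfl`), `z.N = co.N`, `z.Dt T0 = co.D` (`sfRayAt`, `SfRay.Dt`, `ring`); `shA`, `shS` depend only on the base part.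
`hF` with `N = F0 (ray0 y).N + shA`, `D = L F0 (ray0 y).D + shS`; `field_simp`.   Then `SfGeD.prp`, `dif_pos`, `Classical.choose_spec`. -/
theorem sf_ge_pa_rep (hO : SfCyOk Y) (hF : SfFib Y) (h : SfGePaH d φ S K1 K Λ ϰ hq μ' ε' st' pos') {g' : ℝ} (hR : d.isR g') (a : d.PA hq g') :
    Y.ix c.p (d.prp hq g' a) = Y.ix c.p (c.sh.rp (d.γ g') a.1.1) ∧
      ∃ y ∈ d.paS hq g' a.1, (d.ray0 (d.prp hq g' a)).N = (d.ray0 y).N ∧ (d.ray0 (d.prp hq g' a)).D = (d.ray0 y).D := by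
  classical
  obtain ⟨y, hy⟩ : (d.paS hq g' a.1).Nonempty := by
    have := a.2.2
    rwa [if_pos hR] at this
  have hpos : d.W.fr.Pos := (sf_doc_fr_pos h.str : (d.Wf st' pos').fr.Pos)
  obtain ⟨hL, -, hF0⟩ := hpos
  obtain ⟨x, hix, hN, hD⟩ := hF hR.2.2 c.p d.T0 (c.sh.rp (d.γ g') a.1.1)
    (d.W.fr.F0 * (d.ray0 y).N + d.W.fr.sg.shA (sfRayAt d.T0 (Y.co c.p d.T0 (c.sh.rp (d.γ g') a.1.1))))
    (d.W.fr.L * d.W.fr.F0 * (d.ray0 y).D + d.W.fr.sg.shS d.W.fr.T0 (sfRayAt d.T0 (Y.co c.p d.T0 (c.sh.rp (d.γ g') a.1.1)))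
      + (d.T0 - d.W.fr.T0) * (d.W.fr.F0 * (d.ray0 y).N + d.W.fr.sg.shA (sfRayAt d.T0 (Y.co c.p d.T0 (c.sh.rp (d.γ g') a.1.1)))))
  obtain ⟨b1, b2, b3⟩ := sf_ge_pa_rep_base hO c.p d.T0 x _ hix
  obtain ⟨s1, s2⟩ := sf_ge_pa_rep_sh d.W.fr.sg d.W.fr.T0 b1 b2 b3
  have hex : ∃ x, Y.ix c.p x = Y.ix c.p (c.sh.rp (d.γ g') a.1.1) ∧
      ∃ y ∈ d.paS hq g' a.1, (d.ray0 x).N = (d.ray0 y).N ∧ (d.ray0 x).D = (d.ray0 y).D := by
    refine ⟨x, hix, y, hy, ?_, ?_⟩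
    · show ((Y.co c.p d.T0 x).N - d.W.fr.sg.shA (sfRayAt d.T0 (Y.co c.p d.T0 x))) / d.W.fr.F0 = _
      rw [s1, hN]
      field_simp
      ring
    · show (((Y.co c.p d.T0 x).D - d.T0 * (Y.co c.p d.T0 x).N) + d.W.fr.T0 * (Y.co c.p d.T0 x).N
        - d.W.fr.sg.shS d.W.fr.T0 (sfRayAt d.T0 (Y.co c.p d.T0 x))) / (d.W.fr.L * d.W.fr.F0) = _
      rw [s2, hN, hD]
      field_simp
      ring
  have hsp := (⟨hR, hex⟩ : d.isR g' ∧ _).2.choose_spec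
  unfold SfGeD.prp
  rw [dif_pos ⟨hR, hex⟩]
  exact hsp

theorem sf_ge_pa_pert_mul {a b A B : ℝ} (ha : |a| ≤ A) (hb : |b| ≤ B) : |a * b| ≤ A * B := by
  rw [abs_mul]
  exact mul_le_mul ha hb (abs_nonneg _) (le_trans (abs_nonneg _) ha)

/-- **(PA5, operator free)** a test membership survives a small move of the base point if the normal width grows.
`zr` = old representative (in the test), `y` = a ray whose normal inequalities hold with the width `f1`, `δ`-close to `zr` in the base; `z` = base of `zr`, normal part of `y`.   The time of the test is `0`.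
PLAN: the three base inequalities are those of `zr`.   Velocity: `|z.N - A(zr)| ≤ |y.N - A(y)| + |A(y) - A(zr)|`, `A(w) = c + al X + be X² + K (Y - 2 X B)`;  `|X_y|, |B_y|, |Y_y| ≤ 2B`;  `|A(y) - A(zr)| ≤ B δ + 3 B² δ + B (δ + 6 B δ) ≤ 11 B² δ`.   Position: `S(w) = d + al B + be Y - K B²`, `|S(y) - S(zr)| ≤ 5 B² δ ≤ 11 B² δ`, `l = 1`.
(unfold `SfTest.Mem SfRay.Bt SfRay.Yt SfRay.Dt`, `hT`, `zero_mul`, `add_zero`; `SfTest.size`, `SfRay.size`, `SfRay.bdist` = nested `max`: `le_max_left/right`; `abs_le`, `nlinarith`.) -/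
theorem sf_ge_pa_pert (Q : SfTest) (zr y : SfRay) (B δ f1 : ℝ) (hT : Q.T = 0) (hB : 1 ≤ B) (hδ : 0 ≤ δ ∧ δ ≤ 1) (hQ : Q.size ≤ B) (hzr : zr.size ≤ B)
    (hm : Q.Mem 1 zr) (hd : y.bdist zr ≤ δ)
    (h4 : |y.N - Q.c - Q.al * y.X - Q.be * y.X ^ 2 - Q.K * (y.Y - 2 * y.X * y.B)| ≤ f1)
    (h5 : |y.D - Q.d - Q.al * y.B - Q.be * y.Y + Q.K * y.B ^ 2| ≤ f1) :
    SfTest.Mem { Q with f := f1 + 11 * B ^ 2 * δ } 1 ⟨zr.X, zr.B, zr.Y, y.N, y.D⟩ := by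
  obtain ⟨hδ0, hδ1⟩ := hδ
  obtain ⟨m1, m2, m3, -, -⟩ := hm
  unfold SfRay.Bt at m2 m3
  unfold SfRay.Yt at m3
  rw [hT] at m2 m3
  simp only [zero_mul, add_zero] at m2 m3
  unfold SfTest.size at hQ
  unfold SfRay.size at hzr
  unfold SfRay.bdist at hd
  have dX : |y.X - zr.X| ≤ δ := le_trans (le_max_left _ _) hd
  have dB : |y.B - zr.B| ≤ δ := le_trans (le_trans (le_max_left _ _) (le_max_right _ _)) hd
  have dY : |y.Y - zr.Y| ≤ δ := le_trans (le_trans (le_max_right _ _) (le_max_right _ _)) hd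
  have rX : |zr.X| ≤ B := le_trans (le_max_left _ _) hzr
  have rB : |zr.B| ≤ B := le_trans (le_trans (le_max_left _ _) (le_max_right _ _)) hzr
  have q5 := le_trans (le_max_right _ _) (le_trans (le_max_right _ _) (le_trans (le_max_right _ _) (le_trans (le_max_right _ _)
    (le_trans (le_max_right _ _) hQ))))
  have qal : |Q.al| ≤ B := le_trans (le_max_left _ _) q5
  have qbe : |Q.be| ≤ B := le_trans (le_trans (le_max_left _ _) (le_max_right _ _)) q5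
  have qK : |Q.K| ≤ B := le_trans (le_trans (le_max_right _ _) (le_max_right _ _)) q5
  have sX : |y.X + zr.X| ≤ 2 * B + 1 := by
    have : y.X + zr.X = (y.X - zr.X) + 2 * zr.X := by ring
    rw [this]
    refine le_trans (abs_add_le _ _) ?_
    rw [abs_mul, abs_two]
    linarith
  have sB : |y.B + zr.B| ≤ 2 * B + 1 := by
    have : y.B + zr.B = (y.B - zr.B) + 2 * zr.B := by ring
    rw [this]
    refine le_trans (abs_add_le _ _) ?_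
    rw [abs_mul, abs_two]
    linarith
  have yB : |y.B| ≤ B + 1 := by
    have : y.B = (y.B - zr.B) + zr.B := by ring
    rw [this]
    refine le_trans (abs_add_le _ _) ?_
    linarith
  have hBB : B ≤ B ^ 2 := by nlinarith
  have hBd : B * δ ≤ B ^ 2 * δ := mul_le_mul_of_nonneg_right hBB hδ0
  have hBd0 : 0 ≤ B * δ := mul_nonneg (by linarith) hδ0
  refine ⟨m1, ?_, ?_, ?_, ?_⟩
  · show |zr.B + Q.T * zr.X - Q.b| ≤ 1 * Q.r
    rw [hT, zero_mul, add_zero]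
    exact m2
  · show |zr.Y + Q.T * zr.X ^ 2 - Q.y - 2 * Q.x * (zr.B + Q.T * zr.X - Q.b)| ≤ 1 * Q.r ^ 2
    rw [hT, zero_mul, zero_mul, add_zero, add_zero]
    exact m3
  · show |y.N - Q.c - Q.al * zr.X - Q.be * zr.X ^ 2 - Q.K * (zr.Y + Q.T * zr.X ^ 2 - 2 * zr.X * (zr.B + Q.T * zr.X))| ≤ f1 + 11 * B ^ 2 * δ
    rw [hT, zero_mul, zero_mul, add_zero, add_zero]
    have e : y.N - Q.c - Q.al * zr.X - Q.be * zr.X ^ 2 - Q.K * (zr.Y - 2 * zr.X * zr.B)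
        = (y.N - Q.c - Q.al * y.X - Q.be * y.X ^ 2 - Q.K * (y.Y - 2 * y.X * y.B))
          + (Q.al * (y.X - zr.X) + Q.be * ((y.X - zr.X) * (y.X + zr.X))
            + Q.K * ((y.Y - zr.Y) + (-2) * ((y.X - zr.X) * y.B + zr.X * (y.B - zr.B)))) := by ring
    rw [e]
    have t1 := sf_ge_pa_pert_mul qal dX
    have t2 := sf_ge_pa_pert_mul qbe (sf_ge_pa_pert_mul dX sX)
    have t3a : |(y.X - zr.X) * y.B + zr.X * (y.B - zr.B)| ≤ δ * (B + 1) + B * δ :=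
      le_trans (abs_add_le _ _) (add_le_add (sf_ge_pa_pert_mul dX yB) (sf_ge_pa_pert_mul rX dB))
    have t3b : |(y.Y - zr.Y) + (-2) * ((y.X - zr.X) * y.B + zr.X * (y.B - zr.B))| ≤ δ + 2 * (δ * (B + 1) + B * δ) :=
      le_trans (abs_add_le _ _) (add_le_add dY (sf_ge_pa_pert_mul (by rw [abs_neg, abs_two]) t3a))
    have t3 := sf_ge_pa_pert_mul qK t3b
    refine le_trans (abs_add_le _ _) (add_le_add h4 ?_)
    refine le_trans (abs_add_le _ _) ?_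
    refine le_trans (add_le_add (le_trans (abs_add_le _ _) (add_le_add t1 t2)) t3) ?_
    have : B * δ + B * (δ * (2 * B + 1)) + B * (δ + 2 * (δ * (B + 1) + B * δ)) = 6 * (B ^ 2 * δ) + 5 * (B * δ) := by ring
    rw [this]
    linarith
  · show |y.D + Q.T * y.N - Q.d - Q.al * (zr.B + Q.T * zr.X) - Q.be * (zr.Y + Q.T * zr.X ^ 2) + Q.K * (zr.B + Q.T * zr.X) ^ 2| ≤ 1 * (f1 + 11 * B ^ 2 * δ)
    rw [hT, zero_mul, zero_mul, zero_mul, add_zero, add_zero, add_zero, one_mul]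
    have e : y.D - Q.d - Q.al * zr.B - Q.be * zr.Y + Q.K * zr.B ^ 2
        = (y.D - Q.d - Q.al * y.B - Q.be * y.Y + Q.K * y.B ^ 2)
          + (Q.al * (y.B - zr.B) + Q.be * (y.Y - zr.Y) + (-Q.K) * ((y.B - zr.B) * (y.B + zr.B))) := by ring
    rw [e]
    have t1 := sf_ge_pa_pert_mul qal dB
    have t2 := sf_ge_pa_pert_mul qbe dY
    have t3 := sf_ge_pa_pert_mul (show |-Q.K| ≤ B by rw [abs_neg]; exact qK) (sf_ge_pa_pert_mul dB sB)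
    refine le_trans (abs_add_le _ _) (add_le_add h5 ?_)
    refine le_trans (abs_add_le _ _) ?_
    refine le_trans (add_le_add (le_trans (abs_add_le _ _) (add_le_add t1 t2)) t3) ?_
    have : B * δ + B * δ + B * (δ * (2 * B + 1)) = 2 * (B ^ 2 * δ) + 3 * (B * δ) := by ring
    rw [this]
    have : 0 ≤ B ^ 2 * δ := le_trans hBd0 hBd
    linarith

/-- the sharp form of `sf_ge_pa_cell`: the width `(1 + Λ) f_i` suffices (same proof; `sf_ge_pa_cell` follows by `Root.wid` and the monotonicity of `cyIn` in `f`, cf. `cy_ex_in` in `Cyl/Contract.lean`) -/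
theorem sf_ge_pa_in (hO : SfCyOk Y) (h : SfGePaH d φ S K1 K Λ ϰ hq μ' ε' st' pos') (ρ : c.D.Row (d.γ 0)) (hρ : d.chn ⟨d.γ 0, ρ⟩) (x' : (Y.M.sys c.p).X)
    (hx : x' ∈ d.Nr (d.γ 0) ρ) :
    cyIn { Y.tq c.p (c.W.ts (d.γ 0) (c.sh.lb (d.γ 0) ρ)) with f := (1 + Λ) * c.W.f (d.γ 0) } ((2 : ℝ)⁻¹ ^ c.W.k (d.γ 0)) (Y.co c.p (c.tm (d.γ 0) ρ) x') := by
  exact sf_ge_pa_cell_core hO h ρ hρ x' hx _ le_rfl

theorem sf_ge_pa_close_size (z z' : SfRay) : z.size ≤ z'.size + z.dist z' := by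
  have key : ∀ a b : ℝ, |a| ≤ |b| + |a - b| := fun a b => by
    have : a = b + (a - b) := by ring
    calc |a| = |b + (a - b)| := by rw [← this]
      _ ≤ _ := abs_add_le _ _
  unfold SfRay.size SfRay.dist
  refine max_le ?_ (max_le ?_ (max_le ?_ (max_le ?_ ?_)))
  · exact le_trans (key _ _) (add_le_add (le_max_left _ _) (le_max_left _ _))
  · exact le_trans (key _ _) (add_le_add (le_trans (le_max_left _ _) (le_max_right _ _)) (le_trans (le_max_left _ _) (le_max_right _ _)))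
  · exact le_trans (key _ _) (add_le_add (le_trans (le_trans (le_max_left _ _) (le_max_right _ _)) (le_max_right _ _))
      (le_trans (le_trans (le_max_left _ _) (le_max_right _ _)) (le_max_right _ _)))
  · exact le_trans (key _ _) (add_le_add (le_trans (le_trans (le_trans (le_max_left _ _) (le_max_right _ _)) (le_max_right _ _)) (le_max_right _ _))
      (le_trans (le_trans (le_trans (le_max_left _ _) (le_max_right _ _)) (le_max_right _ _)) (le_max_right _ _)))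
  · exact le_trans (key _ _) (add_le_add (le_trans (le_trans (le_trans (le_max_right _ _) (le_max_right _ _)) (le_max_right _ _)) (le_max_right _ _))
      (le_trans (le_trans (le_trans (le_max_right _ _) (le_max_right _ _)) (le_max_right _ _)) (le_max_right _ _)))

/-- the points of an old atom are `δ`-close to the old representative in the frame of the piece.
PLAN: `c.sh.small` + `c.sh.hray`: `(c.fr.ray zx).dist (c.D.ray ρ) ≤ s^μ`, `zx = sfRayAt T (co T x)`, `T = c.W.T g (lb ρ)` (`c.fr` is the frame of `SfSh`, `rfl`).   Sizes: `(c.D.ray ρ).size ≤ s^(-S)` (`h.ob.2.2.2.2`, `hG`, `hs`), `(c.fr.ray zx).size ≤ s^(-S) + s^μ ≤ s^(-S) + 1 ≤ s^(-(S+1))`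
(`size z ≤ size z' + dist z z'` componentwise; `s = 2⁻¹^n ≤ 1/2`; `gn_s_anti`).   `SfGeBd.lip`. -/
theorem sf_ge_pa_close (h : SfGePaH d φ S K1 K Λ ϰ hq μ' ε' st' pos') {g : ℝ} (hg : g ∈ c.W.G) (ρ : c.D.Row g) (x : (Y.M.sys c.p).X) (hx : x ∈ c.sh.atm g ρ) :
    (φ.ray (c.fr.ray (sfRayAt (c.W.T g (c.sh.lb g ρ)) (Y.co c.p (c.W.T g (c.sh.lb g ρ)) x)))).dist (φ.ray (c.D.ray g ρ)) ≤ c.D.s ^ (-K) * c.W.E.s ^ c.μ := by
  have hsm : (c.fr.ray (sfRayAt (c.W.T g (c.sh.lb g ρ)) (Y.co c.p (c.W.T g (c.sh.lb g ρ)) x))).dist (c.D.ray g ρ) ≤ c.W.E.s ^ c.μ :=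
    c.sh.small g hg ρ x hx
  have hs0 : 0 < c.D.s := by rw [c.sh.hs]; exact gn_s_pos _
  have hs1 : c.D.s ≤ 1 := by rw [c.sh.hs]; exact gn_s_le_one _
  have hsh : c.D.s ≤ 1 / 2 := by
    rw [c.sh.hs]
    unfold Xp.s
    calc (2 : ℝ)⁻¹ ^ c.W.E.n ≤ (2 : ℝ)⁻¹ ^ 1 := pow_le_pow_of_le_one (by norm_num) (by norm_num) h.hn.1
      _ = 1 / 2 := by norm_num
  have hz' : (c.D.ray g ρ).size ≤ c.D.s ^ (-(S : ℝ)) := (h.ob.2.2.2.2 g (c.sh.hG ▸ hg) ρ).1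
  have hμ1 : c.W.E.s ^ c.μ ≤ 1 := Real.rpow_le_one (gn_s_pos _).le (gn_s_le_one _) h.hn.2.2
  have hS1 : 1 ≤ c.D.s ^ (-(S : ℝ)) := Real.one_le_rpow_of_pos_of_le_one_of_nonpos hs0 hs1 (by simp)
  have hSS : c.D.s ^ (-(S : ℝ)) + 1 ≤ c.D.s ^ (-((S : ℝ) + 1)) := by
    have e : c.D.s ^ (-((S : ℝ) + 1)) = c.D.s ^ (-(S : ℝ)) * c.D.s⁻¹ := by
      rw [← Real.rpow_neg_one, ← Real.rpow_add hs0]
      congr 1
      ring
    have h2 : 2 ≤ c.D.s⁻¹ := by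
      rw [le_inv_comm₀ (by norm_num) hs0]
      linarith
    rw [e]
    nlinarith
  have hSK : c.D.s ^ (-((S : ℝ) + 1)) ≤ c.D.s ^ (-K) := Real.rpow_le_rpow_of_exponent_ge hs0 hs1 (by linarith [h.hK.1])
  have hz : (c.fr.ray (sfRayAt (c.W.T g (c.sh.lb g ρ)) (Y.co c.p (c.W.T g (c.sh.lb g ρ)) x))).size ≤ c.D.s ^ (-((S : ℝ) + 1)) := by
    refine le_trans (sf_ge_pa_close_size _ (c.D.ray g ρ)) ?_
    linarith
  refine le_trans (h.bd.lip _ _ hz (by linarith)) ?_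
  exact mul_le_mul_of_nonneg_left hsm (Real.rpow_pos_of_pos hs0 _).le

/-! ## 5. The representative lies in the test of its labels      (LEAF L-256-SOFT-GE-PA6) -/

theorem sf_ge_pa_prp_cell_base (hO : SfCyOk Y) (p : Y.M.Par) (T : ℝ) (x x' : (Y.M.sys p).X) (h : Y.ix p x = Y.ix p x') :
    (sfRayAt T (Y.co p T x)).X = (sfRayAt T (Y.co p T x')).X ∧ (sfRayAt T (Y.co p T x)).B = (sfRayAt T (Y.co p T x')).B ∧
      (sfRayAt T (Y.co p T x)).Y = (sfRayAt T (Y.co p T x')).Y := by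
  obtain ⟨h1, h2, h3⟩ := hO.ixB p x x' h
  simp only [sfRayAt]
  rw [hO.coX p T x, hO.coX p T x', hO.coB p T x, hO.coB p T x', hO.coY p T x, hO.coY p T x', h1, h2, h3]
  exact ⟨rfl, rfl, rfl⟩

theorem sf_ge_pa_prp_cell_mono {Q : SfTest} {l fa fb : ℝ} {z : SfRay} (hl : 0 ≤ l) (hf : fa ≤ fb) (h : SfTest.Mem { Q with f := fa } l z) :
    SfTest.Mem { Q with f := fb } l z := by
  obtain ⟨h1, h2, h3, h4, h5⟩ := h
  exact ⟨h1, h2, h3, le_trans h4 hf, le_trans h5 (mul_le_mul_of_nonneg_left hf hl)⟩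

theorem sf_ge_pa_prp_cell_in {Q : CyT} {l fa fb : ℝ} {z : Cy5} (hl : 0 ≤ l) (hf : fa ≤ fb) (h : cyIn { Q with f := fa } l z) :
    cyIn { Q with f := fb } l z := by
  obtain ⟨h1, h2, h3, h4, h5⟩ := h
  exact ⟨h1, h2, h3, le_trans h4 hf, le_trans h5 (mul_le_mul_of_nonneg_left hf hl)⟩

theorem sf_ge_pa_prp_cell_bd (z z' : SfRay) : z.bdist z' ≤ z.dist z' := by
  unfold SfRay.bdist SfRay.dist
  refine max_le (le_max_left _ _) (max_le ?_ ?_)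
  · exact le_trans (le_max_left _ _) (le_max_right _ _)
  · exact le_trans (le_trans (le_max_left _ _) (le_max_right _ _)) (le_max_right _ _)

theorem sf_ge_pa_prp_cell_ts (hO : SfCyOk Y) (l0 : c.W.Lb (d.γ 0)) : Y.tq c.p (d.ts 0 l0) = { Y.tq c.p (c.W.ts (d.γ 0) l0) with f := d.f0 } := by
  have hex : (0 : ℝ) ≤ 0 ∧ ∃ Q, Y.tq c.p Q = { Y.tq c.p (c.W.ts (d.γ 0) l0) with f := d.f0 } := ⟨le_rfl, hO.tq_surj _ _⟩
  unfold SfGeD.ts
  rw [dif_pos hex]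
  exact hex.2.choose_spec

/-- PLAN.  `ρ = a.1.1`, `l0 = lb ρ = l.1`.   The test, time, depth of `d.Wf` are `d.ts g' l.1`, `c.W.T (γ g') l.1`, `c.W.k (γ g')` (`rfl`).
(a) `0 < g'`: `d.ts g' l.1 = c.W.ts (γ g') l.1` (`SfGeD.ts`, `dif_neg`), `¬ isR`, `prp = rp` (`SfGeD.prp`, `dif_neg`): `c.sh.rp_cell`, rewrite `hl`.
(b) `g' = 0`, classical: `prp = rp` (`sf_ge_pa_cl`); `rp ∈ cell (ts l0)`; `SfCyOk.cell`; `tq (d.ts 0 l0) = {tq (ts l0) with f := f0}`; `cyIn` is monotone in `f` (`f_i ≤ f0` by `Root.wid`, `Str.width`).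
(c) `g' = 0`, hybrid (`isR`).   Work in `fr' = d.W.fr` (`Pos`: `sf_doc_fr_pos h.str`); `cell ↔ cyIn ↔ Mem` at the time `T0` (`SfCyOk.cell`, `sf_doc_cyin_mem`), `↔ Mem` in the frame (`sf_frame_mem fr'` with `l = 2⁻¹^(k (γ 0)) = fr'.L`, `l / L = 1`).
`Q = fr'.tst (sfTestAt T0 (tq (ts l0)))`, `Q.T = 0`, `Q = φ.tst (c.D.lab (γ 0) ρ)` (`SfGeFr.tst`, `c.sh.hlab`): `Q.size ≤ B := s'^(-K1)` (`SfGeBd.lab`, `sf_ge_pa_chn`, `γ 0 = i ∈ Gk`);   `zr = d.ray0 (rp ρ) = φ.ray (c.D.ray (γ 0) ρ)` (`SfGeFr.ray`, `hray`): `size ≤ B` (`SfGeBd.ray`), `Q.Mem 1 zr` (`rp_cell`).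
`sf_ge_pa_rep` gives `y0 ∈ Nr ρ`; `y = d.ray0 y0`; `sf_ge_pa_in`: the normal inequalities of `y` with `f1 = (1 + Λ) f_i / Q0'.f`;   `Root.near`: `x ∈ atm ρ` with the index of `y0`: the base parts of `d.ray0 y0`, `d.ray0 x` agree (`sf_doc_fr_base`, `SfCyOk.ixB ..`), `sf_ge_pa_close`: `y.bdist zr ≤ δ` (`bdist ≤ dist`).
`sf_ge_pa_pert`: `Mem {Q with f := f1 + 11 B² δ} 1 ⟨zr.X, zr.B, zr.Y, y.N, y.D⟩`, and that ray is `d.ray0 (prp a)` (base: index of `rp`; `N`, `D`: `sf_ge_pa_rep`).   `f1 + 11 B² δ ≤ (2 + Λ) f_i / Q0'.f ≤ f0 / Q0'.f` (`h.sl`, `Root.wid`); `Mem` is monotone in `f`. -/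
theorem sf_ge_pa_prp_cell (hO : SfCyOk Y) (hg0 : SfGeo Y) (hF : SfFib Y) (h : SfGePaH d φ S K1 K Λ ϰ hq μ' ε' st' pos') {g' : ℝ} (hg : g' ∈ d.G)
    (l : (d.Wf st' pos').Lb g') (a : d.PA hq g') (hl : c.sh.lb (d.γ g') a.1.1 = (l : d.Lb g').1) :
    d.prp hq g' a ∈ (Y.M.sys c.p).cell ((d.Wf st' pos').ts g' l) ((d.Wf st' pos').T g' l) ((d.Wf st' pos').k g') := by
  show d.prp hq g' a ∈ (Y.M.sys c.p).cell (d.ts g' (l : d.Lb g').1) (c.W.T (d.γ g') (l : d.Lb g').1) (c.W.k (d.γ g'))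
  obtain ⟨hgk, hgW, hg0', hg1, hgz⟩ := sf_ge_pa_gate h.ok hg
  have hT0l := fun h0 : (0 : ℝ) ∈ d.G => sf_ge_pa_T0 (st' := st') (pos' := pos') h0
  rw [← hl]
  have hrp := c.sh.rp_cell (d.γ g') hgW a.1.1
  rcases hg0'.lt_or_eq with hpos | hz
  · -- (a)
    have hnR : ¬ d.isR g' := fun hR => hpos.ne' hR.1
    have e1 : d.ts g' (c.sh.lb (d.γ g') a.1.1) = c.W.ts (d.γ g') (c.sh.lb (d.γ g') a.1.1) := by
      unfold SfGeD.ts
      rw [dif_neg (fun hh => absurd hh.1 (not_le.2 hpos))]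
    have e2 : d.prp hq g' a = c.sh.rp (d.γ g') a.1.1 := by
      unfold SfGeD.prp
      rw [dif_neg (fun hh => hnR hh.1)]
    rw [e1, e2]
    exact hrp
  · subst hz
    obtain ⟨-, hiGk⟩ := hgz le_rfl
    obtain ⟨ρ, hρ⟩ : ∃ ρ, ρ = a.1.1 := ⟨_, rfl⟩
    rw [← hρ] at hrp hl ⊢
    have hstr := h.ob.2.2.1
    have hfw : (Y.tq c.p (c.W.ts (d.γ 0) (c.sh.lb (d.γ 0) ρ))).f = c.W.f (d.γ 0) := (hstr.width _ hgW _).2
    have hfpos : 0 < c.W.f (d.γ 0) := (hstr.frame.2.2 _ hgW).2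
    have hl0 : (0 : ℝ) ≤ (2 : ℝ)⁻¹ ^ c.W.k (d.γ 0) := by positivity
    have hΛ := h.hΛ
    have hwid := h.root.wid.1
    rw [hO.cell, sf_ge_pa_prp_cell_ts hO]
    rw [hO.cell] at hrp
    have hrp' : cyIn { Y.tq c.p (c.W.ts (d.γ 0) (c.sh.lb (d.γ 0) ρ)) with f := c.W.f (d.γ 0) } ((2 : ℝ)⁻¹ ^ c.W.k (d.γ 0))
        (Y.co c.p (c.W.T (d.γ 0) (c.sh.lb (d.γ 0) ρ)) (c.sh.rp (d.γ 0) ρ)) := by
      rw [← hfw]
      exact hrp
    cases hyb : Y.hyb with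
    | false =>
      rw [(sf_ge_pa_cl hyb 0 a).2, ← hρ]
      refine sf_ge_pa_prp_cell_in hl0 ?_ hrp'
      nlinarith
    | true =>
      have hR : d.isR 0 := ⟨rfl, hiGk, hyb⟩
      have hT : c.W.T (d.γ 0) (c.sh.lb (d.γ 0) ρ) = d.T0 := by
        have := hT0l hg l
        rw [hl]
        exact this
      have hfr0 : (d.Wf st' pos').fr.Pos := sf_doc_fr_pos h.str
      have hfr : d.W.fr.Pos := hfr0
      have hF0 : 0 < d.Q0.f := hfr.2.2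
      have hLk : (2 : ℝ)⁻¹ ^ c.W.k (d.γ 0) / d.W.fr.L = 1 := div_self hfr.1.ne'
      have conv : ∀ (Qc : CyT) (x : (Y.M.sys c.p).X), cyIn Qc ((2 : ℝ)⁻¹ ^ c.W.k (d.γ 0)) (Y.co c.p d.T0 x) ↔
          (d.W.fr.tst (sfTestAt d.T0 Qc)).Mem 1 (d.ray0 x) := by
        intro Qc x
        rw [sf_doc_cyin_mem Qc _ d.T0, ← sf_frame_mem d.W.fr hfr, hLk]
        rfl
      have hchn : d.chn ⟨d.γ 0, ρ⟩ := hρ ▸ sf_ge_pa_chn h (Or.inl hg) a
      rw [hT] at hrp ⊢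
      obtain ⟨Qt, hQt⟩ : ∃ Qt, Qt = Y.tq c.p (c.W.ts (d.γ 0) (c.sh.lb (d.γ 0) ρ)) := ⟨_, rfl⟩
      rw [← hQt] at hrp ⊢
      obtain ⟨Q, hQ⟩ : ∃ Q, Q = d.W.fr.tst (sfTestAt d.T0 Qt) := ⟨_, rfl⟩
      have hQf : ∀ fa : ℝ, d.W.fr.tst (sfTestAt d.T0 { Qt with f := fa }) = { Q with f := fa / d.Q0.f } := by
        intro fa
        rw [hQ]
        rfl
      have hQT : Q.T = 0 := by
        rw [hQ]
        show (d.T0 - d.T0) / _ = 0
        rw [sub_self, zero_div]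
      have hQφ : Q = φ.tst (c.D.lab (d.γ 0) ρ) := by
        rw [hQ, h.fr.tst, c.sh.hlab _ hgW ρ, hT, hQt]
        rfl
      have hzφ : d.ray0 (c.sh.rp (d.γ 0) ρ) = φ.ray (c.D.ray (d.γ 0) ρ) := by
        rw [c.sh.hray _ hgW ρ, hT]
        exact h.fr.ray _
      obtain ⟨B, hB⟩ : ∃ B : ℝ, B = d.X.s ^ (-K1) := ⟨_, rfl⟩
      obtain ⟨δ, hδ⟩ : ∃ δ : ℝ, δ = c.D.s ^ (-K) * c.W.E.s ^ c.μ := ⟨_, rfl⟩
      have hB1 : 1 ≤ B := by
        rw [hB]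
        exact Real.one_le_rpow_of_pos_of_le_one_of_nonpos (gn_s_pos _) (gn_s_le_one _) (by linarith [h.hK.2])
      have hδ0 : 0 ≤ δ := by
        rw [hδ, c.sh.hs]
        exact mul_nonneg (Real.rpow_pos_of_pos (gn_s_pos _) _).le (Real.rpow_pos_of_pos (gn_s_pos _) _).le
      have hδ1 : δ ≤ 1 := hδ ▸ h.sm.2
      have hQs : Q.size ≤ B := by
        rw [hQφ, hB]
        exact h.bd.lab ⟨d.γ 0, ρ⟩ hchn hgk
      obtain ⟨zr, hzr⟩ : ∃ zr, zr = d.ray0 (c.sh.rp (d.γ 0) ρ) := ⟨_, rfl⟩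
      have hzs : zr.size ≤ B := by
        rw [hzr, hzφ, hB]
        exact h.bd.ray ⟨d.γ 0, ρ⟩ hchn (sf_ge_gam0 d)
      have hm : Q.Mem 1 zr := by
        rw [hQ, hzr]
        exact (conv Qt _).1 hrp
      obtain ⟨hix, y0, hy0, hN, hD⟩ := sf_ge_pa_rep hO hF h hR a
      rw [← hρ] at hix
      have hy0' : y0 ∈ d.Nr (d.γ 0) ρ := by
        unfold SfGeD.paS at hy0
        rw [if_pos hR, ← hρ] at hy0
        exact hy0.1
      have hin := sf_ge_pa_in hO h ρ hchn y0 hy0'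
      have htm : c.tm (d.γ 0) ρ = d.T0 := hT
      rw [htm, ← hQt, conv, hQf] at hin
      obtain ⟨x, hx, hcn⟩ := h.root.near ρ hchn y0 hy0'
      have hcl := sf_ge_pa_close h hgW ρ x hx
      rw [hT, ← h.fr.ray, ← hzφ, ← hzr, ← hδ] at hcl
      have hcl' : (d.ray0 x).dist zr ≤ δ := hcl
      obtain ⟨b1, b2, b3⟩ := sf_ge_pa_prp_cell_base hO c.p d.T0 y0 x hcn.2.2.1.symm
      obtain ⟨c1, c2, c3⟩ := sf_doc_fr_base d.W.fr b1 b2 b3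
      have hbd : (d.ray0 y0).bdist zr ≤ δ := by
        refine le_trans ?_ (le_trans (sf_ge_pa_prp_cell_bd _ _) hcl')
        unfold SfRay.bdist
        have c1' : (d.ray0 y0).X = (d.ray0 x).X := c1
        have c2' : (d.ray0 y0).B = (d.ray0 x).B := c2
        have c3' : (d.ray0 y0).Y = (d.ray0 x).Y := c3
        rw [c1', c2', c3']
      obtain ⟨-, -, -, i4, i5⟩ := hin
      obtain ⟨y, hy⟩ : ∃ y, y = d.ray0 y0 := ⟨_, rfl⟩
      rw [← hy] at i4 i5 hbd hN hD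
      obtain ⟨f1, hf1⟩ : ∃ f1 : ℝ, f1 = (1 + Λ) * c.W.f (d.γ 0) / d.Q0.f := ⟨_, rfl⟩
      have h4 : |y.N - Q.c - Q.al * y.X - Q.be * y.X ^ 2 - Q.K * (y.Y - 2 * y.X * y.B)| ≤ f1 := by
        have : |y.N - Q.c - Q.al * y.X - Q.be * y.X ^ 2 - Q.K * (y.Yt Q.T - 2 * y.X * y.Bt Q.T)| ≤ f1 := hf1 ▸ i4
        unfold SfRay.Yt SfRay.Bt at this
        rw [hQT, zero_mul, zero_mul, add_zero, add_zero] at this
        exact this
      have h5 : |y.D - Q.d - Q.al * y.B - Q.be * y.Y + Q.K * y.B ^ 2| ≤ f1 := by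
        have : |y.Dt Q.T - Q.d - Q.al * y.Bt Q.T - Q.be * y.Yt Q.T + Q.K * y.Bt Q.T ^ 2| ≤ 1 * f1 := hf1 ▸ i5
        unfold SfRay.Yt SfRay.Bt SfRay.Dt at this
        rw [hQT, zero_mul, zero_mul, zero_mul, add_zero, add_zero, add_zero, one_mul] at this
        exact this
      have hpert := sf_ge_pa_pert Q zr y B δ f1 hQT hB1 ⟨hδ0, hδ1⟩ hQs hzs hm hbd h4 h5
      obtain ⟨p1, p2, p3⟩ := sf_ge_pa_prp_cell_base hO c.p d.T0 _ _ hix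
      obtain ⟨q1, q2, q3⟩ := sf_doc_fr_base d.W.fr p1 p2 p3
      have hray : d.ray0 (d.prp hq 0 a) = ⟨zr.X, zr.B, zr.Y, y.N, y.D⟩ := by
        have q1' : (d.ray0 (d.prp hq 0 a)).X = zr.X := hzr ▸ q1
        have q2' : (d.ray0 (d.prp hq 0 a)).B = zr.B := hzr ▸ q2
        have q3' : (d.ray0 (d.prp hq 0 a)).Y = zr.Y := hzr ▸ q3
        rw [← q1', ← q2', ← q3', ← hN, ← hD]
      rw [conv, hQf, hray]
      refine sf_ge_pa_prp_cell_mono zero_le_one ?_ hpert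
      have hsl := h.sl
      rw [← hB, ← hδ] at hsl
      calc f1 + 11 * B ^ 2 * δ ≤ (1 + Λ) * c.W.f (d.γ 0) / d.Q0.f + c.W.f (d.γ 0) / d.Q0.f := by rw [hf1]; linarith
        _ = (2 + Λ) * c.W.f (d.γ 0) / d.Q0.f := by ring
        _ ≤ d.f0 / d.Q0.f := div_le_div_of_nonneg_right hwid hF0.le

/-! ## 6. The pre-atoms are small in the frame of the piece      (LEAF L-256-SOFT-GE-PA7) -/

/-- the base part of the frame ray of a row depends only on its exact index -/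
theorem sf_ge_pa_small_base (hO : SfCyOk Y) (p : Y.M.Par) (fr : SfFrame) (T : ℝ) (x x' : (Y.M.sys p).X) (hix : Y.ix p x = Y.ix p x') :
    (fr.ray (sfRayAt T (Y.co p T x))).X = (fr.ray (sfRayAt T (Y.co p T x'))).X ∧
    (fr.ray (sfRayAt T (Y.co p T x))).B = (fr.ray (sfRayAt T (Y.co p T x'))).B ∧
    (fr.ray (sfRayAt T (Y.co p T x))).Y = (fr.ray (sfRayAt T (Y.co p T x'))).Y := by
  obtain ⟨h1, h2, h3⟩ := hO.ixB p x x' hix
  refine sf_doc_fr_base fr ?_ ?_ ?_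
  · show (Y.co p T x).X = (Y.co p T x').X
    rw [hO.coX, hO.coX p T x', h1]
  · show (Y.co p T x).B - T * (Y.co p T x).X = (Y.co p T x').B - T * (Y.co p T x').X
    rw [hO.coX, hO.coX p T x', hO.coB, hO.coB p T x', h1, h2]
  · show (Y.co p T x).Y - T * (Y.co p T x).X ^ 2 = (Y.co p T x').Y - T * (Y.co p T x').X ^ 2
    rw [hO.coX, hO.coX p T x', hO.coY, hO.coY p T x', h1, h3]

/-- base part from one comparison, normal part from another -/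
theorem sf_ge_pa_small_mix (zx zp zy z1 zr : SfRay) (δ : ℝ)
    (hN : zp.N = zy.N) (hD : zp.D = zy.D) (h1 : zx.dist zy ≤ δ)
    (hX : zx.X = z1.X) (hB : zx.B = z1.B) (hY : zx.Y = z1.Y)
    (hX' : zp.X = zr.X) (hB' : zp.B = zr.B) (hY' : zp.Y = zr.Y) (h2 : z1.dist zr ≤ δ) :
    zx.dist zp ≤ δ := by
  unfold SfRay.dist at *
  simp only [max_le_iff] at *
  rw [hN, hD, hX, hB, hY, hX', hB', hY']
  exact ⟨h2.1, h2.2.1, h2.2.2.1, h1.2.2.2.1, h1.2.2.2.2⟩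

/-- PLAN.  `sf_ge_pa_dray` on both rays; `(d.Wf ..).E.s = d.X.s` (`rfl`).
`¬ isR`: `x ∈ atm ρ`, `prp = rp ρ`; the second ray is `φ.ray (c.D.ray (γ g') ρ)` (`c.sh.hray`, `hl`); `sf_ge_pa_close`, `h.sm.1`.
`isR` (`g' = 0`): both rays are `d.ray0 ·` (`sf_ge_pa_T0`).   `x ∈ Nr ρ ∩ cube q`.   `SfRay.dist` = max of five.   `N`, `D`: `sf_ge_pa_rep` gives `y` in the same cube: `sf_doc_cube_dist h.hq.1`: `(ray0 x).dist (ray0 y) ≤ hq ≤ s'^μ'`, and `ray0 (prp a)` has the `N`, `D` of `ray0 y`.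
`X`, `B`, `Y`: `Root.near` gives `x1 ∈ atm ρ` with the index of `x`: base of `ray0 x` = base of `ray0 x1`; base of `ray0 (prp a)` = base of `ray0 (rp ρ) = φ.ray (c.D.ray ρ)`; `sf_ge_pa_close` for `x1`, `h.sm.1`. -/
theorem sf_ge_pa_small (hO : SfCyOk Y) (hg0 : SfGeo Y) (hF : SfFib Y) (h : SfGePaH d φ S K1 K Λ ϰ hq μ' ε' st' pos') {g' : ℝ} (hg : g' ∈ d.G)
    (l : (d.Wf st' pos').Lb g') (a : d.PA hq g') (hl : c.sh.lb (d.γ g') a.1.1 = (l : d.Lb g').1) (x : (Y.M.sys c.p).X) (hx : x ∈ d.paS hq g' a.1) :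
    (sfDocRay Y c.p (d.Wf st' pos') g' l x).dist (sfDocRay Y c.p (d.Wf st' pos') g' l (d.prp hq g' a)) ≤ (d.Wf st' pos').E.s ^ μ' := by
  have hG := (sf_ge_pa_gate h.ok hg).2.1
  show _ ≤ d.X.s ^ μ'
  have hrp : sfDocRay Y c.p (d.Wf st' pos') g' l (c.sh.rp (d.γ g') a.1.1) = φ.ray (c.D.ray (d.γ g') a.1.1) := by
    rw [sf_ge_pa_dray h.fr g' l, ← hl, c.sh.hray _ hG]
    rfl
  have hcl : ∀ x1 ∈ c.sh.atm (d.γ g') a.1.1,
      (sfDocRay Y c.p (d.Wf st' pos') g' l x1).dist (φ.ray (c.D.ray (d.γ g') a.1.1)) ≤ d.X.s ^ μ' := by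
    intro x1 hx1
    rw [sf_ge_pa_dray h.fr g' l, ← hl]
    exact (sf_ge_pa_close h hG a.1.1 x1 hx1).trans h.sm.1
  by_cases hR : d.isR g'
  · obtain ⟨h0, -, -⟩ := id hR
    subst h0
    have hray : ∀ z, sfDocRay Y c.p (d.Wf st' pos') 0 l z = d.ray0 z := by
      intro z
      unfold sfDocRay SfGeD.ray0
      rw [sf_ge_pa_T0 hg l]
      rfl
    obtain ⟨hix, y, hy, hN, hD⟩ := sf_ge_pa_rep hO hF h hR a
    have hx' : x ∈ d.Nr (d.γ 0) a.1.1 ∩ {x | sfCube hq (d.ray0 x) = a.1.2} := by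
      have := hx
      unfold SfGeD.paS at this
      rwa [if_pos hR] at this
    have hy' : y ∈ d.Nr (d.γ 0) a.1.1 ∩ {x | sfCube hq (d.ray0 x) = a.1.2} := by
      have := hy
      unfold SfGeD.paS at this
      rwa [if_pos hR] at this
    obtain ⟨x1, hx1, -, -, hix1, -, -⟩ := h.root.near a.1.1 (sf_ge_pa_chn h (Or.inl hg) a) x hx'.1
    have hb1 := sf_ge_pa_small_base hO c.p d.W.fr d.T0 x x1 hix1.symm
    have hb2 := sf_ge_pa_small_base hO c.p d.W.fr d.T0 (d.prp hq 0 a) (c.sh.rp (d.γ 0) a.1.1) hix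
    rw [hray, hray]
    refine sf_ge_pa_small_mix (d.ray0 x) (d.ray0 (d.prp hq 0 a)) (d.ray0 y) (d.ray0 x1) (d.ray0 (c.sh.rp (d.γ 0) a.1.1)) _
      hN hD ?_ hb1.1 hb1.2.1 hb1.2.2 hb2.1 hb2.2.1 hb2.2.2 ?_
    · exact (sf_doc_cube_dist h.hq.1 (hx'.2.trans hy'.2.symm)).trans h.hq.2
    · rw [← hray, ← hray, hrp]
      exact hcl x1 hx1
  · have e1 : d.paS hq g' a.1 = c.sh.atm (d.γ g') a.1.1 := by
      unfold SfGeD.paS
      rw [if_neg hR]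
    have e2 : d.prp hq g' a = c.sh.rp (d.γ g') a.1.1 := by
      unfold SfGeD.prp
      rw [dif_neg (fun h => hR h.1)]
    rw [e2, hrp]
    exact hcl x (e1 ▸ hx)

/-! ## 7. ASSEMBLY -/

/-- **the pre-atoms of the extracted piece** -/
noncomputable def sfGePa (hO : SfCyOk Y) (hg0 : SfGeo Y) (hF : SfFib Y) (h : SfGePaH d φ S K1 K Λ ϰ hq μ' ε' st' pos') : SfPa Y c.p (d.Wf st' pos') μ' where
  A := d.PA hq
  fA := fun g' => @Fintype.ofFinite _ (sf_ge_pa_fin hO hg0 h g')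
  neA := sf_ge_pa_ne h
  pa := fun g' a => d.paS hq g' a.1
  bel := fun g' l a => c.sh.lb (d.γ g') a.1.1 = (l : d.Lb g').1
  prp := d.prp hq
  Idx0 := c.D.Idx
  pidx := fun g' a => c.D.idx (d.γ g') a.1.1
  pia := c.sh.ia
  pa_meas := fun _ hg a => sf_ge_pa_meas hO h hg a
  pa_disj := fun _ hg _ a a' h1 h2 h3 => sf_ge_pa_disj h hg a a' (h1.trans h2.symm) h3
  pa_cov := fun _ hg l x hx => sf_ge_pa_cov h hg l x hx
  prp_cell := fun _ hg l a hl => sf_ge_pa_prp_cell hO hg0 hF h hg l a hl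
  prp_cl := fun hc g1 hg1 g2 hg2 a a' hi => by
    rw [(sf_ge_pa_cl hc g1 a).2, (sf_ge_pa_cl hc g2 a').2]
    exact c.sh.rp_cl hc _ (sf_ge_pa_gate h.ok hg1).2.1 _ (sf_ge_pa_gate h.ok hg2).2.1 _ _ hi
  small := fun _ hg l a hl x hx _ => sf_ge_pa_small hO hg0 hF h hg l a hl x hx
  pia_disj := c.sh.ia_disj
  pia_mem := fun _ hg a x hx => sf_ge_pa_ia h hg a x hx
  pia_full := fun hc g' hg a x hx => by
    rw [(sf_ge_pa_cl hc g' a).1]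
    exact c.sh.ia_full hc _ (sf_ge_pa_gate h.ok hg).2.1 _ x hx

theorem sf_ge_pa_eqns_cite2 : True := by
  have := @sfGePa.eq_1
  trivial

/-! ## 8. What the consumer needs      (LEAVES L-256-SOFT-GE-PA8, PA9, PA10) -/

/-- the base part of the absolute ray of a row depends only on the exact index -/
theorem sf_ge_pa_ray_base (hO : SfCyOk Y) (p : Y.M.Par) (T : ℝ) (x x' : (Y.M.sys p).X) (h : Y.ix p x = Y.ix p x') :
    (sfRayAt T (Y.co p T x)).X = (sfRayAt T (Y.co p T x')).X ∧ (sfRayAt T (Y.co p T x)).B = (sfRayAt T (Y.co p T x')).B ∧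
      (sfRayAt T (Y.co p T x)).Y = (sfRayAt T (Y.co p T x')).Y := by
  obtain ⟨h1, h2, h3⟩ := hO.ixB p x x' h
  simp only [sfRayAt]
  rw [hO.coX p T x, hO.coX p T x', hO.coB p T x, hO.coB p T x', hO.coY p T x, hO.coY p T x', h1, h2, h3]
  exact ⟨rfl, rfl, rfl⟩

/-- equal base parts: base distance `0` -/
theorem sf_ge_pa_ray_bd0 {z z' : SfRay} (hX : z.X = z'.X) (hB : z.B = z'.B) (hY : z.Y = z'.Y) : z.bdist z' = 0 := by
  unfold SfRay.bdist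
  rw [hX, hB, hY, sub_self, sub_self, sub_self, abs_zero, max_self, max_self]

/-- **(PA8) base ray** (`Sub.hray`).   PLAN: `sf_ge_pa_dray`.   `¬ isR`: `prp = rp`, the ray is `φ.ray (c.D.ray ..)` (`c.sh.hray`, `hl`), `bdist z z = 0` (`sub_self`, `abs_zero`, `max_self`).   `isR`: the index of `prp a` is the index of `rp ρ` (`sf_ge_pa_rep`): the base parts of the absolute rays agree
(`SfCyOk.ixB`, `coX`, `coB`, `coY`; `sfRayAt`), `sf_doc_fr_base` twice (`c.fr`, `φ`). -/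
theorem sf_ge_pa_ray (hO : SfCyOk Y) (hF : SfFib Y) (h : SfGePaH d φ S K1 K Λ ϰ hq μ' ε' st' pos') {g' : ℝ} (hg : g' ∈ d.G)
    (l : (d.Wf st' pos').Lb g') (a : d.PA hq g') (hl : c.sh.lb (d.γ g') a.1.1 = (l : d.Lb g').1) :
    (sfDocRay Y c.p (d.Wf st' pos') g' l (d.prp hq g' a)).bdist (φ.ray (c.D.ray (d.γ g') a.1.1)) = 0 := by
  classical
  have hgt := (sf_ge_pa_gate h.ok hg).2.1
  have hix : Y.ix c.p (d.prp hq g' a) = Y.ix c.p (c.sh.rp (d.γ g') a.1.1) := by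
    by_cases hR : d.isR g'
    · exact (sf_ge_pa_rep hO hF h hR a).1
    · unfold SfGeD.prp
      rw [dif_neg (fun h' => hR h'.1)]
  rw [sf_ge_pa_dray h.fr g' l, c.sh.hray (d.γ g') hgt a.1.1, hl]
  obtain ⟨b1, b2, b3⟩ := sf_ge_pa_ray_base hO c.p (c.W.T (d.γ g') (l : d.Lb g').1) _ _ hix
  obtain ⟨e1, e2, e3⟩ := sf_doc_fr_base c.fr b1 b2 b3
  obtain ⟨f1, f2, f3⟩ := sf_doc_fr_base φ e1 e2 e3
  exact sf_ge_pa_ray_bd0 f1 f2 f3

/-- **(PA9) links** (`Sub.conn`).   PLAN.  `sfNext c.W.G (γ g1) (γ g2)`: both are gates (`sf_ge_pa_gate`), `γ` is increasing (`Ok.hij`); a gate `g` of `c.W` with `γ g1 < g < γ g2 ≤ j` is kept (`Ok.seg` with `k = γ g1`), so `(g - i)/(j - i) ∈ d.G` lies strictly between `g1`, `g2` (`sf_ge_gam_inv`): excluded.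
`0 ≤ g1 < g2`: `¬ isR g2`, `x' ∈ atm`.   The times and depths of `d.Wf` are the old ones (`rfl`), rewrite `hl1`, `hl2`.   `¬ isR g1`: `x ∈ atm`; `sf_cn_mono` (`s'^(-ε') ≤ s^(-ε)` from `h.tr`, `h.hΛ`).
`isR g1`: `Root.near` gives `y ∈ atm ρ1` with `sfCn Λ` at the same cut; `sf_cn_comp` (`Λa = Λ`, `Λb = s'^(-ε')`), `sf_cn_mono` with `h.tr`. -/
theorem sf_ge_pa_link (hO : SfCyOk Y) (h : SfGePaH d φ S K1 K Λ ϰ hq μ' ε' st' pos') {g1 g2 : ℝ} (hn : sfNext d.G g1 g2)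
    (l1 : (d.Wf st' pos').Lb g1) (l2 : (d.Wf st' pos').Lb g2) (a1 : d.PA hq g1) (a2 : d.PA hq g2)
    (hl1 : c.sh.lb (d.γ g1) a1.1.1 = (l1 : d.Lb g1).1) (hl2 : c.sh.lb (d.γ g2) a2.1.1 = (l2 : d.Lb g2).1)
    (x x' : (Y.M.sys c.p).X) (hx : x ∈ d.paS hq g1 a1.1) (hx' : x' ∈ d.paS hq g2 a2.1)
    (hc : sfCn Y c.p (d.X.s ^ (-ε')) ((d.Wf st' pos').T g1 l1) ((d.Wf st' pos').k g1) ((d.Wf st' pos').T g2 l2) ((d.Wf st' pos').k g2) x x') :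
    c.Lk ⟨d.γ g1, a1.1.1⟩ ⟨d.γ g2, a2.1.1⟩ := by
  classical
  obtain ⟨hg1, hg2, h12, hbt⟩ := hn
  obtain ⟨hk1, hG1, h01, -, -⟩ := sf_ge_pa_gate h.ok hg1
  obtain ⟨hk2, hG2, -, h21, -⟩ := sf_ge_pa_gate h.ok hg2
  have hij : 0 < d.j - d.i := by linarith [h.ok.hij]
  have e1 : d.γ g1 = d.i + g1 * (d.j - d.i) := rfl
  have e2 : d.γ g2 = d.i + g2 * (d.j - d.i) := rfl
  have hγ : d.γ g1 < d.γ g2 := by
    rw [e1, e2]
    have := mul_lt_mul_of_pos_right h12 hij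
    linarith
  have hγj : d.γ g2 ≤ d.j := (h.ok.kept.2 _ hk2).2.2
  have hnx : sfNext c.W.G (d.γ g1) (d.γ g2) := by
    refine ⟨hG1, hG2, hγ, fun g hg hb => ?_⟩
    have hgk : g ∈ d.Gk := h.ok.seg g hg (d.γ g1) hk1 hb.1 (lt_of_lt_of_le hb.2 hγj)
    have hinv := sf_ge_gam_inv d h.ok.hij g
    have hmem : (g - d.i) / (d.j - d.i) ∈ d.G := by
      rw [sf_ge_mem_G d h.ok.hij, hinv]
      exact hgk
    refine hbt _ hmem ⟨?_, ?_⟩
    · rw [lt_div_iff₀ hij]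
      have := hb.1
      rw [e1] at this
      linarith
    · rw [div_lt_iff₀ hij]
      have := hb.2
      rw [e2] at this
      linarith
  have hR2 : ¬ d.isR g2 := fun hR => by
    have := hR.1
    linarith
  have hx2 : x' ∈ c.sh.atm (d.γ g2) a2.1.1 := by
    have := hx'
    unfold SfGeD.paS at this
    rwa [if_neg hR2] at this
  have hc' : sfCn Y c.p (d.X.s ^ (-ε')) (c.W.T (d.γ g1) (c.sh.lb (d.γ g1) a1.1.1)) (c.W.k (d.γ g1))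
      (c.W.T (d.γ g2) (c.sh.lb (d.γ g2) a2.1.1)) (c.W.k (d.γ g2)) x x' := by
    rw [hl1, hl2]
    exact hc
  have hs0 : 0 ≤ d.X.s ^ (-ε') := (Real.rpow_pos_of_pos (gn_s_pos _) _).le
  have hΛ0 : 0 ≤ Λ := by linarith [h.hΛ]
  refine ⟨hnx, ?_⟩
  by_cases hR1 : d.isR g1
  · obtain ⟨h0, -, -⟩ := id hR1
    subst h0
    have hx1 : x ∈ d.Nr (d.γ 0) a1.1.1 ∩ {x | sfCube hq (d.ray0 x) = a1.1.2} := by
      have := hx
      unfold SfGeD.paS at this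
      rwa [if_pos hR1] at this
    obtain ⟨y, hy, hyx⟩ := h.root.near a1.1.1 (sf_ge_pa_chn h (Or.inl hg1) a1) x hx1.1
    have hkk : c.W.k (d.γ 0) ≤ c.W.k (d.γ g2) := (h.str.k_mono 0 hg1 g2 hg2 h12).1
    refine ⟨y, hy, x', hx2, ?_⟩
    exact sf_cn_mono hO c.p h.tr _ _ _ _ _ _
      (sf_cn_comp hO c.p h.gd Λ (d.X.s ^ (-ε')) hΛ0 hs0 _ _ _ _ _ _ le_rfl hkk y x x' hyx hc')
  · have hx1 : x ∈ c.sh.atm (d.γ g1) a1.1.1 := by
      have := hx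
      unfold SfGeD.paS at this
      rwa [if_neg hR1] at this
    refine ⟨x, hx1, x', hx2, ?_⟩
    exact sf_cn_mono hO c.p (by linarith [h.tr]) _ _ _ _ _ _ hc'

/-- only the field `f` of `SfFrame.tst` depends on the field `f` of the test -/
theorem sf_ge_pa_lab_tst (ψ : SfFrame) (T : ℝ) (q : CyT) (f' : ℝ) :
    ψ.tst (sfTestAt T { q with f := f' }) = { ψ.tst (sfTestAt T q) with f := f' / ψ.F0 } := rfl

/-- the new test of an old label is the old test up to the field `f` -/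
theorem sf_ge_pa_lab_ts {de : ℝ} {c : SfCfg Y de} (d : SfGeD c) (g' : ℝ) (l : c.W.Lb (d.γ g')) :
    Y.tq c.p (d.ts g' l) = { Y.tq c.p (c.W.ts (d.γ g') l) with f := (Y.tq c.p (d.ts g' l)).f } := by
  unfold SfGeD.ts
  split_ifs with hh
  · rw [hh.2.choose_spec]
  · rfl

/-- **(PA10) labels** (`Sub.hlab`).   PLAN: `sfDocLab = fr'.tst (sfTestAt T (tq (d.ts g' l.1)))`.   `tq (d.ts g' l.1)` is `tq (c.W.ts (γ g') l.1)` up to the field `f` (`SfGeD.ts`: `dif_neg`, or `dif_pos` + `Classical.choose_spec`, `SfCyOk.tq_surj`); only the field `f` of `SfFrame.tst` depends on the field `f` of the test;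
`SfGeFr.tst`, `c.sh.hlab`, `hl`;   the field `f`: `(tq (d.ts ..)).f = (d.Wf ..).f g'` (`h.str.width`), `fr'.F0 = d.Q0.f` (`rfl`).   (`SfTest` ext: compare the 11 fields.) -/
theorem sf_ge_pa_lab (hO : SfCyOk Y) (h : SfGePaH d φ S K1 K Λ ϰ hq μ' ε' st' pos') {g' : ℝ} (hg : g' ∈ d.G)
    (l : (d.Wf st' pos').Lb g') (ρ : c.D.Row (d.γ g')) (hl : c.sh.lb (d.γ g') ρ = (l : d.Lb g').1) :
    sfDocLab Y c.p (d.Wf st' pos') g' l = { φ.tst (c.D.lab (d.γ g') ρ) with f := (d.Wf st' pos').f g' / d.Q0.f } := by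
  have hi : d.γ g' ∈ c.W.G := (sf_ge_pa_gate h.ok hg).2.1
  have e1 := sf_ge_pa_lab_ts d g' (l : d.Lb g').1
  have hw : (Y.tq c.p (d.ts g' (l : d.Lb g').1)).f = (d.Wf st' pos').f g' := (h.str.width g' hg l).2
  have hlab := c.sh.hlab (d.γ g') hi ρ
  rw [hl] at hlab
  show d.W.fr.tst (sfTestAt (c.W.T (d.γ g') (l : d.Lb g').1) (Y.tq c.p (d.ts g' (l : d.Lb g').1))) = _
  rw [e1, sf_ge_pa_lab_tst, h.fr.tst, hw, hlab]
  rfl

end

/-! ## 9. Numerics      (LEAF L-256-SOFT-GE-PA11, Mathlib only) -/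

theorem sf_ge_pa_num_pw (n : ℕ) (x : ℝ) : ((2 : ℝ)⁻¹ ^ n) ^ x = (2 : ℝ) ^ (-(x * n)) := by
  have h : ((2 : ℝ)⁻¹ ^ n) = (2 : ℝ) ^ (-(n : ℝ)) := by
    rw [Real.rpow_neg (by norm_num), Real.rpow_natCast, inv_pow]
  rw [h, ← Real.rpow_mul (by norm_num)]
  congr 1
  ring

/-- PLAN: `μ0 = |K| + |μ'| + 2 |K1| + |Lw| + 4`.   Everything is a power of `2`: `s^x = 2^(-(x n))`, `s'^x = 2^(-(x n'))`, `0 ≤ n' ≤ n`, `n ≥ 1`; `11 ≤ 2^4 ≤ 2^(4 n)`;  compare exponents (`Real.rpow_le_rpow_left_iff`, `Real.rpow_add`, `Real.rpow_natCast`, `Real.rpow_mul`; `|x| n' ≤ |x| n`). -/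
theorem sf_ge_pa_num (K1 K μ' Lw : ℝ) : ∃ μ0 : ℝ, 0 ≤ μ0 ∧ ∀ (n n' : ℕ) (μ w : ℝ), 1 ≤ n → n' ≤ n → μ0 ≤ μ → ((2 : ℝ)⁻¹ ^ n) ^ Lw ≤ w →
    ((2 : ℝ)⁻¹ ^ n) ^ (-K) * ((2 : ℝ)⁻¹ ^ n) ^ μ ≤ ((2 : ℝ)⁻¹ ^ n') ^ μ' ∧ ((2 : ℝ)⁻¹ ^ n) ^ (-K) * ((2 : ℝ)⁻¹ ^ n) ^ μ ≤ 1 ∧
      11 * (((2 : ℝ)⁻¹ ^ n') ^ (-K1)) ^ 2 * (((2 : ℝ)⁻¹ ^ n) ^ (-K) * ((2 : ℝ)⁻¹ ^ n) ^ μ) ≤ w := by
  refine ⟨|K| + |μ'| + 2 * |K1| + |Lw| + 4, by positivity, fun n n' μ w hn hn' hμ hw => ?_⟩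
  obtain ⟨N, hN⟩ : ∃ N : ℝ, N = (n : ℝ) := ⟨_, rfl⟩
  obtain ⟨N', hN'⟩ : ∃ N' : ℝ, N' = (n' : ℝ) := ⟨_, rfl⟩
  have b1 : 1 ≤ N := by rw [hN]; exact_mod_cast hn
  have b2 : N' ≤ N := by rw [hN, hN']; exact_mod_cast hn'
  have b3 : 0 ≤ N' := by rw [hN']; positivity
  have b0 : 0 ≤ N := by linarith
  have a1 : K * N ≤ |K| * N := mul_le_mul_of_nonneg_right (le_abs_self _) b0
  have a2 : μ' * N' ≤ |μ'| * N := (mul_le_mul_of_nonneg_right (le_abs_self _) b3).trans (mul_le_mul_of_nonneg_left b2 (abs_nonneg _))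
  have a3 : K1 * N' ≤ |K1| * N := (mul_le_mul_of_nonneg_right (le_abs_self _) b3).trans (mul_le_mul_of_nonneg_left b2 (abs_nonneg _))
  have a4 : Lw * N ≤ |Lw| * N := mul_le_mul_of_nonneg_right (le_abs_self _) b0
  have a5 : (|K| + |μ'| + 2 * |K1| + |Lw| + 4) * N ≤ μ * N := mul_le_mul_of_nonneg_right hμ b0
  have a6 : (|K| + |μ'| + 2 * |K1| + |Lw| + 4) * N = |K| * N + |μ'| * N + 2 * (|K1| * N) + |Lw| * N + 4 * N := by ring
  have c1 : 0 ≤ |K| * N := mul_nonneg (abs_nonneg _) b0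
  have c2 : 0 ≤ |μ'| * N := mul_nonneg (abs_nonneg _) b0
  have c3 : 0 ≤ |K1| * N := mul_nonneg (abs_nonneg _) b0
  have c4 : 0 ≤ |Lw| * N := mul_nonneg (abs_nonneg _) b0
  have e0 : ((2 : ℝ)⁻¹ ^ n) ^ (-K) * ((2 : ℝ)⁻¹ ^ n) ^ μ = (2 : ℝ) ^ (K * N - μ * N) := by
    rw [sf_ge_pa_num_pw, sf_ge_pa_num_pw, ← Real.rpow_add (by norm_num), hN]
    congr 1
    ring
  rw [e0]
  refine ⟨?_, ?_, ?_⟩
  · rw [sf_ge_pa_num_pw, ← hN']
    exact Real.rpow_le_rpow_of_exponent_le (by norm_num) (by linarith)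
  · exact Real.rpow_le_one_of_one_le_of_nonpos (by norm_num) (by linarith)
  · refine le_trans ?_ hw
    rw [sf_ge_pa_num_pw, sf_ge_pa_num_pw, ← hN, ← hN']
    have e1 : ((2 : ℝ) ^ (-(-K1 * N'))) ^ 2 = (2 : ℝ) ^ (2 * (K1 * N')) := by
      rw [← Real.rpow_natCast, ← Real.rpow_mul (by norm_num)]
      congr 1
      push_cast
      ring
    have e2 : (11 : ℝ) ≤ (2 : ℝ) ^ (4 : ℝ) := by
      have : (2 : ℝ) ^ (4 : ℝ) = 16 := by
        rw [show (4 : ℝ) = ((4 : ℕ) : ℝ) by norm_num, Real.rpow_natCast]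
        norm_num
      rw [this]
      norm_num
    rw [e1]
    have p1 : 0 < (2 : ℝ) ^ (2 * (K1 * N')) := Real.rpow_pos_of_pos (by norm_num) _
    have p2 : 0 < (2 : ℝ) ^ (K * N - μ * N) := Real.rpow_pos_of_pos (by norm_num) _
    calc 11 * (2 : ℝ) ^ (2 * (K1 * N')) * (2 : ℝ) ^ (K * N - μ * N)
        ≤ (2 : ℝ) ^ (4 : ℝ) * (2 : ℝ) ^ (2 * (K1 * N')) * (2 : ℝ) ^ (K * N - μ * N) :=
          mul_le_mul_of_nonneg_right (mul_le_mul_of_nonneg_right e2 p1.le) p2.le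
      _ = (2 : ℝ) ^ (4 + 2 * (K1 * N') + (K * N - μ * N)) := by
          rw [Real.rpow_add (by norm_num), Real.rpow_add (by norm_num)]
      _ ≤ (2 : ℝ) ^ (-(Lw * N)) := Real.rpow_le_rpow_of_exponent_le (by norm_num) (by linarith)

/-- PLAN: `n0 = 3 (S + 1)`.   `s^(-x) = 2^(x n)`; `2^(ε' n') ≤ 2^(ε n / 4)`; `3 · 2^(ε n / 4) ≤ 2^2 2^(ε n / 4) ≤ 2^(ε n)` because `(3/4) ε n ≥ (3/4) n / (S+1) ≥ 2`. -/
theorem sf_ge_pa_num2 (S : ℕ) : ∃ n0 : ℕ, ∀ (n n' : ℕ) (ε ε' : ℝ), n0 ≤ n → n' ≤ n → 1 / ((S : ℝ) + 1) ≤ ε → 0 < ε' → ε' ≤ ε / 4 →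
    2 * ((2 : ℝ)⁻¹ ^ n) ^ (-(ε / 4)) + ((2 : ℝ)⁻¹ ^ n') ^ (-ε') ≤ ((2 : ℝ)⁻¹ ^ n) ^ (-ε) ∧ 1 ≤ ((2 : ℝ)⁻¹ ^ n) ^ (-(ε / 4)) := by
  refine ⟨3 * (S + 1), fun n n' ε ε' hn hn' hε hε' hε4 => ?_⟩
  obtain ⟨N, hN⟩ : ∃ N : ℝ, N = (n : ℝ) := ⟨_, rfl⟩
  obtain ⟨N', hN'⟩ : ∃ N' : ℝ, N' = (n' : ℝ) := ⟨_, rfl⟩
  have b1 : 3 * ((S : ℝ) + 1) ≤ N := by rw [hN]; exact_mod_cast hn
  have b2 : N' ≤ N := by rw [hN, hN']; exact_mod_cast hn'
  have b3 : 0 ≤ N' := by rw [hN']; positivity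
  have hS : (0 : ℝ) < (S : ℝ) + 1 := by positivity
  have b0 : 0 ≤ N := by linarith
  have hε0 : 0 < ε := by linarith
  have k1 : 3 ≤ ε * N := by
    have t1 : 1 / ((S : ℝ) + 1) * (3 * ((S : ℝ) + 1)) = 3 := by field_simp
    calc (3 : ℝ) = 1 / ((S : ℝ) + 1) * (3 * ((S : ℝ) + 1)) := t1.symm
      _ ≤ ε * N := mul_le_mul hε b1 (by positivity) hε0.le
  have k2 : ε' * N' ≤ ε / 4 * N := mul_le_mul hε4 b2 b3 (by linarith)
  rw [sf_ge_pa_num_pw, sf_ge_pa_num_pw, sf_ge_pa_num_pw, ← hN, ← hN']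
  obtain ⟨u, hu⟩ : ∃ u : ℝ, u = (2 : ℝ) ^ (-(-(ε / 4) * N)) := ⟨_, rfl⟩
  have hu0 : 0 < u := by rw [hu]; exact Real.rpow_pos_of_pos (by norm_num) _
  have m1 : (2 : ℝ) ^ (-(-ε' * N')) ≤ u := by
    rw [hu]
    exact Real.rpow_le_rpow_of_exponent_le (by norm_num) (by linarith)
  have m2 : 4 * u ≤ (2 : ℝ) ^ (-(-ε * N)) := by
    have e2 : (4 : ℝ) = (2 : ℝ) ^ (2 : ℝ) := by
      rw [show (2 : ℝ) = ((2 : ℕ) : ℝ) by norm_num, Real.rpow_natCast]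
      norm_num
    rw [hu, e2, ← Real.rpow_add (by norm_num)]
    exact Real.rpow_le_rpow_of_exponent_le (by norm_num) (by linarith)
  rw [← hu]
  refine ⟨by linarith, ?_⟩
  rw [hu]
  exact Real.one_le_rpow (by norm_num) (by linarith)

end Claimed.Agent.R256
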