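import Claimed.Agent.R256.Soft.MGaLoc
import Claimed.Agent.R256.Soft.MGaCmpS
import Claimed.Agent.R256.Soft.MGaCard

/-!
# Row 256 (S0496), unit SOFT, block M6 GP (partition form of group extraction), sub-block SEL-1, file 1: THE ALGEBRA OF RESTRICTED SYNTHESES      (architect helper213; chief helper206; prefix `sf_gp_`)

PURPOSE OF THE SUB-BLOCK (files `MGpTri` | `MGpTriB` | `MGpTriC`): the exit `(Σ)` = `sf_gp_sigma` (`Soft/MGpTriC.lean`):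
    `s^(3α) tot_j ≤ Σ_b E(U_b ; Sb b)`,   `E(V ; R) = c.gpE i j V R = Σ_{m'} rdE j V m' (preR i j R m')`,   `U_b = c.gpU i j (Sb b) U` = the rows of `U` with a predecessor in the group `b`.
ONE PAIR of gates `i < j` of `c.W.G`; NO hypothesis on the mesh of `c`.   PAPER-FREE: every plan is in a docstring.   RULES FOR LEAVES: prove IN PLACE, statement verbatim, helper lemmas directly above the theorem, their names = name of the theorem + suffix.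
THIS FILE (operators only through `gn_en_tri`, `gn_en_sum`, `sf_tz_add_mask`, `gn_run_add`, `c.LocG`):
* `sf_gp_wS_or`, `sf_gp_preR_or`, `sf_gp_preR_false`, `sf_gp_preR_sum`      `R ↦ preR i j R m'` is additive on disjoint sets of rows
* `sf_gp_rdE_tri`, `sf_gp_rdE_or`, `sf_gp_rdE_lab`, `sf_gp_E_lab`            `ψ ↦ √rdE j V m' ψ` is a seminorm;  `V ↦ rdE j V m' ψ` is additive;  reading label by label
* `sf_gp_far`, `sf_gp_loc`        no `Conn`, no transport, in the `preR` form;  LOC for one pair (both models)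
* `sf_gp_three`   STEP I1:  `P_j(U) tot_j ≤ 3 E(U; Sx ∖ Gr) + 3 E(U; Gr) + 3 ϰ² Σ_{m'} ‖pre i (anc m')‖²`
* `sf_gp_lab1`, `sf_gp_groups`   STEP I2:  `E(U; Gr) ≤ (N+1) Σ_b E(U_b; Sb b) + (N+1)² ϰ² Σ_l ‖pre i (anc (iv l))‖²`
-/

set_option autoImplicit false

namespace Claimed.Agent.R256

open MeasureTheory Claimed.Agent.R255

variable {Y : SfCy}

namespace SfCfg

variable {de : ℝ} (c : SfCfg Y de)

/-- what the rows of `V` read at the gate `j` if the synthesis at the gate `i` is restricted to the rows of `R` -/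
noncomputable def gpE (i j : ℝ) (V : c.D.Row j → Prop) (R : c.D.Row i → Prop) : ℝ := ∑ m' ∈ c.W.ivs j, c.rdE j V m' (c.preR i j R m')

/-- the rows of `U` with a predecessor in `R` -/
def gpU (i j : ℝ) (R : c.D.Row i → Prop) (U : c.D.Row j → Prop) (ρ' : c.D.Row j) : Prop := U ρ' ∧ ∃ ρ, R ρ ∧ c.D.Conn i j ρ ρ'

end SfCfg

theorem sf_gp_tri_eqns_cite : True := by
  have := @SfCfg.gpE.eq_1
  have := @SfCfg.gpU.eq_1
  trivial

section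

variable {de : ℝ} (c : SfCfg Y de)

/-! ## 1. Additivity in the set of starting rows -/

theorem sf_gp_wS_or (i : ℝ) (R R' : c.D.Row i → Prop) (hd : ∀ ρ, R ρ → ¬ R' ρ) (m : ℕ) (x : (Y.M.sys c.p).X) :
    c.wS i (fun ρ => R ρ ∨ R' ρ) m x = c.wS i R m x + c.wS i R' m x := by
  classical
  unfold SfCfg.wS
  rw [← Finset.sum_add_distrib]
  refine Finset.sum_congr rfl fun ρ _ => ?_
  have := hd ρ
  by_cases h1 : R ρ <;> by_cases h2 : R' ρ <;> by_cases h3 : c.im i ρ = m <;> simp_all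

theorem sf_gp_wS_false (i : ℝ) (m : ℕ) : c.wS i (fun _ => False) m = fun _ => 0 := by
  classical
  funext x
  unfold SfCfg.wS
  simp

theorem sf_gp_preR_or (C : ℕ) (hob : c.ob C) (i : ℝ) (hi : i ∈ c.W.G) (j : ℝ) (hj : j ∈ c.W.G) (hij : i < j) (R R' : c.D.Row i → Prop) (hd : ∀ ρ, R ρ → ¬ R' ρ) (m' : ℕ) :
    c.preR i j (fun ρ => R ρ ∨ R' ρ) m' = c.preR i j R m' + c.preR i j R' m' := by
  have hs := hob.2.2.1
  have hmid := sf_core_mid_ok c C hob i hi j hj hij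
  unfold SfCfg.preR SfCfg.synR
  have e : c.wS i (fun ρ => R ρ ∨ R' ρ) (ancI (c.W.k j) (c.W.k i) m')
      = fun x => c.wS i R (ancI (c.W.k j) (c.W.k i) m') x + c.wS i R' (ancI (c.W.k j) (c.W.k i) m') x := by
    funext x
    exact sf_gp_wS_or c i R R' hd _ x
  have mS : IsMask (fun x => c.wS i R (ancI (c.W.k j) (c.W.k i) m') x + c.wS i R' (ancI (c.W.k j) (c.W.k i) m') x) := by
    rw [← e]
    exact sf_core_wS_mask c hs i hi _ _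
  rw [e, sf_tz_add_mask _ _ _ (sf_core_wS_mask c hs i hi R _) (sf_core_wS_mask c hs i hi R' _) mS, gn_run_add _ _ _ hmid.msk]

theorem sf_gp_preR_false (i j : ℝ) (m' : ℕ) : c.preR i j (fun _ => False) m' = 0 := by
  unfold SfCfg.preR SfCfg.synR
  rw [sf_gp_wS_false, sf_ga_bart_tz0, gn_run_zero]

theorem sf_gp_preR_sum (C : ℕ) (hob : c.ob C) (i : ℝ) (hi : i ∈ c.W.G) (j : ℝ) (hj : j ∈ c.W.G) (hij : i < j) {ι : Type} (T : Finset ι) (Sb : ι → c.D.Row i → Prop)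
    (hd : ∀ b b' ρ, Sb b ρ → Sb b' ρ → b = b') (m' : ℕ) : c.preR i j (fun ρ => ∃ b ∈ T, Sb b ρ) m' = ∑ b ∈ T, c.preR i j (Sb b) m' := by
  classical
  induction T using Finset.induction_on with
  | empty =>
    have : (fun ρ : c.D.Row i => ∃ b ∈ (∅ : Finset ι), Sb b ρ) = fun _ => False := by
      funext ρ
      simp
    rw [this, sf_gp_preR_false, Finset.sum_empty]
  | insert a T ha ih =>
    have : (fun ρ : c.D.Row i => ∃ b ∈ insert a T, Sb b ρ) = fun ρ => Sb a ρ ∨ ∃ b ∈ T, Sb b ρ := by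
      funext ρ
      simp
    rw [this, sf_gp_preR_or c C hob i hi j hj hij, ih, Finset.sum_insert ha]
    rintro ρ h1 ⟨b, hb, h2⟩
    exact ha (hd a b ρ h1 h2 ▸ hb)

/-! ## 2. The reading: seminorm, additivity in the set of end rows, label by label -/

theorem sf_gp_rdE_nonneg (hs : c.W.Str (Y.tq c.p)) (j : ℝ) (hj : j ∈ c.W.G) (V : c.D.Row j → Prop) (m' : ℕ) (ψ : (Y.M.sys c.p).Kc) : 0 ≤ c.rdE j V m' ψ :=
  gn_en_nonneg _ _ _ (fun x => ((sf_core_wS_mask c hs j hj V m').2 x).1) ψ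

theorem sf_gp_rdE_tri (hs : c.W.Str (Y.tq c.p)) (j : ℝ) (hj : j ∈ c.W.G) (V : c.D.Row j → Prop) (m' : ℕ) (ψ φ : (Y.M.sys c.p).Kc) :
    Real.sqrt (c.rdE j V m' (ψ + φ)) ≤ Real.sqrt (c.rdE j V m' ψ) + Real.sqrt (c.rdE j V m' φ) :=
  gn_en_tri _ _ _ (sf_core_wS_mask c hs j hj V m') ψ φ

theorem sf_gp_rdE_tri_sum (hs : c.W.Str (Y.tq c.p)) (j : ℝ) (hj : j ∈ c.W.G) (V : c.D.Row j → Prop) (m' : ℕ) {ι : Type} (T : Finset ι) (u : ι → (Y.M.sys c.p).Kc) :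
    Real.sqrt (c.rdE j V m' (∑ b ∈ T, u b)) ≤ ∑ b ∈ T, Real.sqrt (c.rdE j V m' (u b)) :=
  gn_en_tri_sum _ _ _ (sf_core_wS_mask c hs j hj V m') T u

theorem sf_gp_rdE_or (hs : c.W.Str (Y.tq c.p)) (j : ℝ) (hj : j ∈ c.W.G) (V V' : c.D.Row j → Prop) (hd : ∀ ρ, V ρ → ¬ V' ρ) (m' : ℕ) (ψ : (Y.M.sys c.p).Kc) :
    c.rdE j (fun ρ => V ρ ∨ V' ρ) m' ψ = c.rdE j V m' ψ + c.rdE j V' m' ψ := by
  unfold SfCfg.rdE
  have e : c.wS j (fun ρ => V ρ ∨ V' ρ) m' = fun x => ∑ t ∈ (Finset.univ : Finset Bool), (if t then c.wS j V m' else c.wS j V' m') x := by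
    funext x
    rw [sf_gp_wS_or c j V V' hd m' x]
    simp
  rw [e, gn_en_sum _ _ _ _ _ (fun t _ => by
    cases t
    · exact sf_core_wS_mask c hs j hj V' m'
    · exact sf_core_wS_mask c hs j hj V m')]
  simp

theorem sf_gp_rdE_mono (hs : c.W.Str (Y.tq c.p)) (j : ℝ) (hj : j ∈ c.W.G) (V V' : c.D.Row j → Prop) (h : ∀ ρ, V ρ → V' ρ) (m' : ℕ) (ψ : (Y.M.sys c.p).Kc) :
    c.rdE j V m' ψ ≤ c.rdE j V' m' ψ := by
  classical
  have e : V' = fun ρ => V ρ ∨ (V' ρ ∧ ¬ V ρ) := by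
    funext ρ
    by_cases h1 : V ρ
    · simp [h1, h ρ h1]
    · simp [h1]
  rw [e, sf_gp_rdE_or c hs j hj V _ (fun ρ h1 h2 => h2.2 h1)]
  have := sf_gp_rdE_nonneg c hs j hj (fun ρ => V' ρ ∧ ¬ V ρ) m' ψ
  linarith

/-- the weight of the rows of `V`, label by label -/
theorem sf_gp_wS_lab (j : ℝ) (V : c.D.Row j → Prop) (m' : ℕ) (x : (Y.M.sys c.p).X) :
    c.wS j V m' x = (open Classical in ∑ l ∈ Finset.univ.filter (fun l => c.W.iv j l = m'), c.wS j (fun ρ' => V ρ' ∧ c.sh.lb j ρ' = l) m' x) := by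
  classical
  unfold SfCfg.wS
  rw [Finset.sum_comm]
  refine Finset.sum_congr rfl fun ρ _ => ?_
  by_cases h : V ρ ∧ c.im j ρ = m'
  · rw [if_pos h, Finset.sum_eq_single_of_mem (c.sh.lb j ρ) (Finset.mem_filter.2 ⟨Finset.mem_univ _, h.2⟩)]
    · rw [if_pos ⟨⟨h.1, rfl⟩, h.2⟩]
    · intro l _ hne
      rw [if_neg]
      rintro ⟨⟨_, h2⟩, _⟩
      exact hne h2.symm
  · rw [if_neg h]
    symm
    refine Finset.sum_eq_zero fun l _ => ?_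
    rw [if_neg]
    rintro ⟨⟨h1, _⟩, h3⟩
    exact h ⟨h1, h3⟩

theorem sf_gp_rdE_lab (hs : c.W.Str (Y.tq c.p)) (j : ℝ) (hj : j ∈ c.W.G) (V : c.D.Row j → Prop) (m' : ℕ) (ψ : (Y.M.sys c.p).Kc) :
    c.rdE j V m' ψ = (open Classical in ∑ l ∈ Finset.univ.filter (fun l => c.W.iv j l = m'), c.rdE j (fun ρ' => V ρ' ∧ c.sh.lb j ρ' = l) m' ψ) := by
  classical
  unfold SfCfg.rdE
  have e : c.wS j V m' = fun x => ∑ l ∈ Finset.univ.filter (fun l => c.W.iv j l = m'), c.wS j (fun ρ' => V ρ' ∧ c.sh.lb j ρ' = l) m' x := by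
    funext x
    exact sf_gp_wS_lab c j V m' x
  rw [e, gn_en_sum _ _ _ _ _ (fun l _ => sf_core_wS_mask c hs j hj _ m')]

/-- reading label by label, for any family of states -/
theorem sf_gp_sum_lab (hs : c.W.Str (Y.tq c.p)) (j : ℝ) (hj : j ∈ c.W.G) (V : c.D.Row j → Prop) (ψ : ℕ → (Y.M.sys c.p).Kc) :
    ∑ m' ∈ c.W.ivs j, c.rdE j V m' (ψ m') = ∑ l : c.W.Lb j, c.rdE j (fun ρ' => V ρ' ∧ c.sh.lb j ρ' = l) (c.W.iv j l) (ψ (c.W.iv j l)) := by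
  classical
  rw [← Finset.sum_fiberwise_of_maps_to (s := Finset.univ) (t := c.W.ivs j) (g := fun l => c.W.iv j l) (fun l _ => hs.iv_in j hj l)]
  refine Finset.sum_congr rfl fun m' _ => ?_
  rw [sf_gp_rdE_lab c hs j hj V m']
  refine Finset.sum_congr rfl fun l hl => ?_
  rw [(Finset.mem_filter.1 hl).2]

theorem sf_gp_E_lab (hs : c.W.Str (Y.tq c.p)) (i j : ℝ) (hj : j ∈ c.W.G) (V : c.D.Row j → Prop) (R : c.D.Row i → Prop) :
    c.gpE i j V R = ∑ l : c.W.Lb j, c.rdE j (fun ρ' => V ρ' ∧ c.sh.lb j ρ' = l) (c.W.iv j l) (c.preR i j R (c.W.iv j l)) :=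
  sf_gp_sum_lab c hs j hj V (c.preR i j R)

theorem sf_gp_E_nonneg (hs : c.W.Str (Y.tq c.p)) (i j : ℝ) (hj : j ∈ c.W.G) (V : c.D.Row j → Prop) (R : c.D.Row i → Prop) : 0 ≤ c.gpE i j V R :=
  Finset.sum_nonneg fun m' _ => sf_gp_rdE_nonneg c hs j hj V m' _

/-! ## 3. No `Conn`, no transport;  LOC for one pair -/

theorem sf_gp_far (ϰ : ℝ) (hloc : c.LocG ϰ) (i : ℝ) (hi : i ∈ c.W.G) (j : ℝ) (hj : j ∈ c.W.G) (hij : i < j) (A : c.D.Row i → Prop) (V : c.D.Row j → Prop)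
    (hno : ∀ ρ, A ρ → ∀ ρ', V ρ' → ¬ c.D.Conn i j ρ ρ') (m' : ℕ) :
    Real.sqrt (c.rdE j V m' (c.preR i j A m')) ≤ ϰ * ‖c.W.pre i (ancI (c.W.k j) (c.W.k i) m')‖ :=
  hloc i hi j hj hij A V hno m' _

/-- **LOC for one pair of gates**, both models, no mesh -/
theorem sf_gp_loc (hO : SfCyOk Y) (C : ℕ) (hob : c.ob C) (ϰ : ℝ) (hϰ : 0 ≤ ϰ) (hloc : c.LocG ϰ) (i : ℝ) (hi : i ∈ c.W.G) (j : ℝ) (hj : j ∈ c.W.G) (hij : i < j)
    (V : c.D.Row j → Prop) (R : c.D.Row i → Prop) (hP : c.D.Pred i j V R) (m' : ℕ) :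
    Real.sqrt (c.rdE j V m' (c.W.pre j m')) ≤ Real.sqrt (c.rdE j V m' (c.preR i j R m')) + ϰ * ‖c.W.pre i (ancI (c.W.k j) (c.W.k i) m')‖ := by
  have hs := hob.2.2.1
  cases hy : Y.hyb
  · rw [sf_core_loc_cl hO hy c C hob (sf_core_xtra c hs) i hi j hj hij V R hP m']
    have : 0 ≤ ϰ * ‖c.W.pre i (ancI (c.W.k j) (c.W.k i) m')‖ := mul_nonneg hϰ (norm_nonneg _)
    linarith
  · have e0 : c.W.pre j m' = c.preR i j (fun _ => True) m' := by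
      rw [sf_core_pre_split c hs i hi j hj hij m']
      unfold SfCfg.preR SfCfg.synR
      have : c.wS i (fun _ => True) (ancI (c.W.k j) (c.W.k i) m') = c.W.gM i (ancI (c.W.k j) (c.W.k i) m') := by
        funext x
        rw [sf_core_wS_all c hy hs i hi]
        rfl
      rw [this]
    have e1 : (fun _ : c.D.Row i => True) = fun ρ => R ρ ∨ ¬ R ρ := by
      funext ρ
      exact (eq_true (em _)).symm
    rw [e0, e1, sf_gp_preR_or c C hob i hi j hj hij R _ (fun ρ h1 h2 => h2 h1)]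
    refine (sf_gp_rdE_tri c hs j hj V m' _ _).trans (add_le_add le_rfl ?_)
    exact sf_gp_far c ϰ hloc i hi j hj hij _ V (fun ρ hρ ρ' hV hc => hρ (hP ρ' hV ρ hc)) m'

/-! ## 4. STEP I1: three pieces -/

/-- `√x ≤ √y + √y' + z ⟹ x ≤ 3 y + 3 y' + 3 z²` -/
theorem sf_gp_three_sq (x y y' z : ℝ) (hx : 0 ≤ x) (hy : 0 ≤ y) (hy' : 0 ≤ y') (h : Real.sqrt x ≤ Real.sqrt y + Real.sqrt y' + z) : x ≤ 3 * y + 3 * y' + 3 * z ^ 2 := by
  have h1 : Real.sqrt x ^ 2 = x := Real.sq_sqrt hx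
  have h2 : Real.sqrt y ^ 2 = y := Real.sq_sqrt hy
  have h3 : Real.sqrt y' ^ 2 = y' := Real.sq_sqrt hy'
  have h4 : Real.sqrt x ^ 2 ≤ (Real.sqrt y + Real.sqrt y' + z) ^ 2 := pow_le_pow_left₀ (Real.sqrt_nonneg x) h 2
  nlinarith [sq_nonneg (Real.sqrt y - z), sq_nonneg (Real.sqrt y' - z), sq_nonneg (Real.sqrt y - Real.sqrt y')]

/-- **STEP I1.**   Every predecessor of `U` lies in `Sx` or in `Gr`. -/
theorem sf_gp_three (hO : SfCyOk Y) (C : ℕ) (hob : c.ob C) (ϰ : ℝ) (hϰ : 0 ≤ ϰ) (hloc : c.LocG ϰ) (i : ℝ) (hi : i ∈ c.W.G) (j : ℝ) (hj : j ∈ c.W.G) (hij : i < j)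
    (U : c.D.Row j → Prop) (Sx Gr : c.D.Row i → Prop) (hown : ∀ ρ ρ', U ρ' → c.D.Conn i j ρ ρ' → Sx ρ ∨ Gr ρ) :
    (c.D.P j).pr U * c.W.tot j ≤ 3 * c.gpE i j U (fun ρ => Sx ρ ∧ ¬ Gr ρ) + 3 * c.gpE i j U Gr
      + 3 * ϰ ^ 2 * ∑ m' ∈ c.W.ivs j, ‖c.W.pre i (ancI (c.W.k j) (c.W.k i) m')‖ ^ 2 := by
  have hs := hob.2.2.1
  rw [sf_core_pr c hs j hj U]
  unfold SfCfg.gpE
  rw [Finset.mul_sum, Finset.mul_sum, Finset.mul_sum, ← Finset.sum_add_distrib, ← Finset.sum_add_distrib]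
  refine Finset.sum_le_sum fun m' _ => ?_
  have hP : c.D.Pred i j U (fun ρ => (Sx ρ ∧ ¬ Gr ρ) ∨ Gr ρ) := by
    intro ρ' hU ρ hc
    by_cases hg : Gr ρ
    · exact Or.inr hg
    · rcases hown ρ ρ' hU hc with h | h
      · exact Or.inl ⟨h, hg⟩
      · exact Or.inr h
  have h1 := sf_gp_loc c hO C hob ϰ hϰ hloc i hi j hj hij U _ hP m'
  rw [sf_gp_preR_or c C hob i hi j hj hij _ _ (fun ρ h1 h2 => h1.2 h2)] at h1
  have h2 := sf_gp_rdE_tri c hs j hj U m' (c.preR i j (fun ρ => Sx ρ ∧ ¬ Gr ρ) m') (c.preR i j Gr m')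
  have h3 := sf_gp_three_sq _ _ _ _ (sf_gp_rdE_nonneg c hs j hj U m' _) (sf_gp_rdE_nonneg c hs j hj U m' _) (sf_gp_rdE_nonneg c hs j hj U m' _) (h1.trans (add_le_add h2 le_rfl))
  calc _ ≤ _ := h3
    _ = _ := by ring

/-! ## 5. STEP I2: the groups, label by label -/

/-- Cauchy-Schwarz with `#T + 1` terms -/
theorem sf_gp_cs {ι : Type} (T : Finset ι) (x : ι → ℝ) (z X : ℝ) (h : Real.sqrt X ≤ ∑ b ∈ T, x b + z) (hX : 0 ≤ X) :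
    X ≤ ((T.card : ℝ) + 1) * (∑ b ∈ T, x b ^ 2 + z ^ 2) := by
  have h1 : X = Real.sqrt X ^ 2 := (Real.sq_sqrt hX).symm
  have h2 : Real.sqrt X ^ 2 ≤ (∑ b ∈ T, x b + z) ^ 2 := pow_le_pow_left₀ (Real.sqrt_nonneg X) h 2
  have h3 := sq_sum_le_card_mul_sum_sq (s := Finset.insertNone T) (f := fun o : Option ι => o.elim z x)
  rw [Finset.sum_insertNone, Finset.sum_insertNone, Finset.card_insertNone] at h3
  simp only [Option.elim] at h3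
  push_cast at h3
  rw [h1]
  refine h2.trans ?_
  calc (∑ b ∈ T, x b + z) ^ 2 = (z + ∑ b ∈ T, x b) ^ 2 := by ring
    _ ≤ _ := h3
    _ = _ := by ring

/-- the overlap of the groups: from the documented labels to the labels of the model -/
theorem sf_gp_ovl (i j : ℝ) (hj : j ∈ c.W.G) {ι : Type} [Finite ι] (Sb : ι → c.D.Row i → Prop) (U : c.D.Row j → Prop) (N : ℝ)
    (h : ∀ lam : SfTest, (({b | ∃ ρ ρ', Sb b ρ ∧ c.D.Conn i j ρ ρ' ∧ U ρ' ∧ c.D.lab j ρ' = lam} : Set ι).ncard : ℝ) ≤ N) (l : c.W.Lb j) :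
    (({b | ∃ ρ ρ', Sb b ρ ∧ c.D.Conn i j ρ ρ' ∧ U ρ' ∧ c.sh.lb j ρ' = l} : Set ι).ncard : ℝ) ≤ N := by
  by_cases hne : ∃ ρ0, c.sh.lb j ρ0 = l
  · obtain ⟨ρ0, hρ0⟩ := hne
    refine le_trans ?_ (h (c.D.lab j ρ0))
    refine Nat.cast_le.2 (Set.ncard_le_ncard (fun b hb => ?_) (Set.toFinite _))
    obtain ⟨ρ, ρ', h1, h2, h3, h4⟩ := hb
    refine ⟨ρ, ρ', h1, h2, h3, ?_⟩
    rw [c.sh.hlab j hj ρ', c.sh.hlab j hj ρ0, h4, hρ0]
  · have : ({b | ∃ ρ ρ', Sb b ρ ∧ c.D.Conn i j ρ ρ' ∧ U ρ' ∧ c.sh.lb j ρ' = l} : Set ι) = ∅ := by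
      refine Set.eq_empty_iff_forall_notMem.2 fun b hb => ?_
      obtain ⟨ρ, ρ', -, -, -, h4⟩ := hb
      exact hne ⟨ρ', h4⟩
    rw [this, Set.ncard_empty, Nat.cast_zero]
    exact (Nat.cast_nonneg _).trans (h ⟨0, 0, 0, 0, 0, 0, 0, 0, 0, 0, 0⟩)

/-- **STEP I2, one label.**   `β` = the groups that reach the rows of `U` with the label `l`. -/
theorem sf_gp_lab1 (C : ℕ) (hob : c.ob C) (ϰ : ℝ) (hloc : c.LocG ϰ) (i : ℝ) (hi : i ∈ c.W.G) (j : ℝ) (hj : j ∈ c.W.G) (hij : i < j) {ι : Type} [Fintype ι]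
    (Sb : ι → c.D.Row i → Prop) (hd : ∀ b b' ρ, Sb b ρ → Sb b' ρ → b = b') (U : c.D.Row j → Prop) (N : ℝ) (l : c.W.Lb j)
    (hN : (({b | ∃ ρ ρ', Sb b ρ ∧ c.D.Conn i j ρ ρ' ∧ U ρ' ∧ c.sh.lb j ρ' = l} : Set ι).ncard : ℝ) ≤ N) (m' : ℕ) :
    c.rdE j (fun ρ' => U ρ' ∧ c.sh.lb j ρ' = l) m' (c.preR i j (fun ρ => ∃ b, Sb b ρ) m')
      ≤ (N + 1) * ∑ b, c.rdE j (fun ρ' => c.gpU i j (Sb b) U ρ' ∧ c.sh.lb j ρ' = l) m' (c.preR i j (Sb b) m')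
        + (N + 1) ^ 2 * (ϰ * ‖c.W.pre i (ancI (c.W.k j) (c.W.k i) m')‖) ^ 2 := by
  classical
  have hs := hob.2.2.1
  obtain ⟨z, hz⟩ : ∃ z, z = ϰ * ‖c.W.pre i (ancI (c.W.k j) (c.W.k i) m')‖ := ⟨_, rfl⟩
  rw [← hz]
  obtain ⟨V, hV⟩ : ∃ V : c.D.Row j → Prop, V = fun ρ' => U ρ' ∧ c.sh.lb j ρ' = l := ⟨_, rfl⟩
  obtain ⟨β, hβ⟩ : ∃ β : Finset ι, β = Finset.univ.filter (fun b => ∃ ρ ρ', Sb b ρ ∧ c.D.Conn i j ρ ρ' ∧ U ρ' ∧ c.sh.lb j ρ' = l) := ⟨_, rfl⟩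
  have hcard : (β.card : ℝ) ≤ N := by
    refine le_trans (le_of_eq ?_) hN
    rw [hβ, ← Set.ncard_coe_finset]
    congr 2
    ext b
    simp
  have hnn : ∀ (W : c.D.Row j → Prop) (ψ : (Y.M.sys c.p).Kc), 0 ≤ c.rdE j W m' ψ := fun W ψ => sf_gp_rdE_nonneg c hs j hj W m' ψ
  -- the decomposition of the union of the groups
  have e1 : (fun ρ : c.D.Row i => ∃ b, Sb b ρ) = fun ρ => (∃ b ∈ β, Sb b ρ) ∨ (∃ b ∈ βᶜ, Sb b ρ) := by
    funext ρ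
    refine propext ⟨fun ⟨b, hb⟩ => ?_, fun h => ?_⟩
    · by_cases hm : b ∈ β
      · exact Or.inl ⟨b, hm, hb⟩
      · exact Or.inr ⟨b, Finset.mem_compl.2 hm, hb⟩
    · rcases h with ⟨b, -, hb⟩ | ⟨b, -, hb⟩ <;> exact ⟨b, hb⟩
  have e2 : c.preR i j (fun ρ => ∃ b, Sb b ρ) m' = ∑ b ∈ β, c.preR i j (Sb b) m' + c.preR i j (fun ρ => ∃ b ∈ βᶜ, Sb b ρ) m' := by
    rw [e1, sf_gp_preR_or c C hob i hi j hj hij, sf_gp_preR_sum c C hob i hi j hj hij β Sb hd]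
    rintro ρ ⟨b, hb, h1⟩ ⟨b', hb', h2⟩
    exact Finset.mem_compl.1 hb' (hd b b' ρ h1 h2 ▸ hb)
  -- the far groups
  have hfar : Real.sqrt (c.rdE j V m' (c.preR i j (fun ρ => ∃ b ∈ βᶜ, Sb b ρ) m')) ≤ z := by
    rw [hz]
    refine sf_gp_far c ϰ hloc i hi j hj hij _ V ?_ m'
    rintro ρ ⟨b, hb, h1⟩ ρ' hρ' hc
    rw [hV] at hρ'
    refine Finset.mem_compl.1 hb ?_
    rw [hβ]
    exact Finset.mem_filter.2 ⟨Finset.mem_univ _, ρ, ρ', h1, hc, hρ'.1, hρ'.2⟩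
  have h1 : Real.sqrt (c.rdE j V m' (c.preR i j (fun ρ => ∃ b, Sb b ρ) m')) ≤ ∑ b ∈ β, Real.sqrt (c.rdE j V m' (c.preR i j (Sb b) m')) + z := by
    rw [e2]
    exact (sf_gp_rdE_tri c hs j hj V m' _ _).trans (add_le_add (sf_gp_rdE_tri_sum c hs j hj V m' β _) hfar)
  have h2 := sf_gp_cs β _ z _ h1 (hnn _ _)
  -- one group: the rows of `U` that it does not reach
  have h3 : ∀ b, c.rdE j V m' (c.preR i j (Sb b) m') ≤ c.rdE j (fun ρ' => c.gpU i j (Sb b) U ρ' ∧ c.sh.lb j ρ' = l) m' (c.preR i j (Sb b) m') + z ^ 2 := by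
    intro b
    have e3 : V = fun ρ' => (c.gpU i j (Sb b) U ρ' ∧ c.sh.lb j ρ' = l) ∨ (V ρ' ∧ ¬ c.gpU i j (Sb b) U ρ') := by
      funext ρ'
      rw [hV]
      refine propext ⟨fun h => ?_, fun h => ?_⟩
      · by_cases hg : c.gpU i j (Sb b) U ρ'
        · exact Or.inl ⟨hg, h.2⟩
        · exact Or.inr ⟨h, hg⟩
      · rcases h with h | h
        · exact ⟨h.1.1, h.2⟩
        · exact h.1
    have h4 : Real.sqrt (c.rdE j (fun ρ' => V ρ' ∧ ¬ c.gpU i j (Sb b) U ρ') m' (c.preR i j (Sb b) m')) ≤ z := by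
      rw [hz]
      refine sf_gp_far c ϰ hloc i hi j hj hij _ _ ?_ m'
      intro ρ hρ ρ' hρ' hc
      rw [hV] at hρ'
      exact hρ'.2 ⟨hρ'.1.1, ρ, hρ, hc⟩
    have h5 : c.rdE j (fun ρ' => V ρ' ∧ ¬ c.gpU i j (Sb b) U ρ') m' (c.preR i j (Sb b) m') ≤ z ^ 2 := by
      rw [← Real.sq_sqrt (hnn _ _)]
      exact pow_le_pow_left₀ (Real.sqrt_nonneg _) h4 2
    calc c.rdE j V m' (c.preR i j (Sb b) m')
        = c.rdE j (fun ρ' => (c.gpU i j (Sb b) U ρ' ∧ c.sh.lb j ρ' = l) ∨ (V ρ' ∧ ¬ c.gpU i j (Sb b) U ρ')) m' (c.preR i j (Sb b) m') := by rw [← e3]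
      _ = _ := sf_gp_rdE_or c hs j hj _ _ (fun ρ' h1 h2 => h2.2 h1.1) m' _
      _ ≤ _ := add_le_add le_rfl h5
  have h6 : ∑ b ∈ β, Real.sqrt (c.rdE j V m' (c.preR i j (Sb b) m')) ^ 2
      ≤ ∑ b, c.rdE j (fun ρ' => c.gpU i j (Sb b) U ρ' ∧ c.sh.lb j ρ' = l) m' (c.preR i j (Sb b) m') + (β.card : ℝ) * z ^ 2 := by
    calc ∑ b ∈ β, Real.sqrt (c.rdE j V m' (c.preR i j (Sb b) m')) ^ 2
        ≤ ∑ b ∈ β, (c.rdE j (fun ρ' => c.gpU i j (Sb b) U ρ' ∧ c.sh.lb j ρ' = l) m' (c.preR i j (Sb b) m') + z ^ 2) :=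
          Finset.sum_le_sum fun b _ => by
            rw [Real.sq_sqrt (hnn _ _)]
            exact h3 b
      _ = ∑ b ∈ β, c.rdE j (fun ρ' => c.gpU i j (Sb b) U ρ' ∧ c.sh.lb j ρ' = l) m' (c.preR i j (Sb b) m') + (β.card : ℝ) * z ^ 2 := by
          rw [Finset.sum_add_distrib, Finset.sum_const, nsmul_eq_mul]
      _ ≤ _ := add_le_add (Finset.sum_le_sum_of_subset_of_nonneg (Finset.subset_univ _) fun b _ _ => hnn _ _) le_rfl
  obtain ⟨Sg, hSg⟩ : ∃ Sg, Sg = ∑ b, c.rdE j (fun ρ' => c.gpU i j (Sb b) U ρ' ∧ c.sh.lb j ρ' = l) m' (c.preR i j (Sb b) m') := ⟨_, rfl⟩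
  have hSg0 : 0 ≤ Sg := by
    rw [hSg]
    exact Finset.sum_nonneg fun b _ => hnn _ _
  rw [← hSg] at h6 ⊢
  rw [← hV]
  have hc0 : (0 : ℝ) ≤ β.card := Nat.cast_nonneg _
  have hz2 : 0 ≤ z ^ 2 := sq_nonneg z
  calc c.rdE j V m' (c.preR i j (fun ρ => ∃ b, Sb b ρ) m')
      ≤ ((β.card : ℝ) + 1) * (∑ b ∈ β, Real.sqrt (c.rdE j V m' (c.preR i j (Sb b) m')) ^ 2 + z ^ 2) := h2
    _ ≤ ((β.card : ℝ) + 1) * (Sg + (β.card : ℝ) * z ^ 2 + z ^ 2) := mul_le_mul_of_nonneg_left (add_le_add h6 le_rfl) (by linarith)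
    _ = ((β.card : ℝ) + 1) * Sg + ((β.card : ℝ) + 1) ^ 2 * z ^ 2 := by ring
    _ ≤ (N + 1) * Sg + (N + 1) ^ 2 * z ^ 2 := by
        refine add_le_add (mul_le_mul_of_nonneg_right (by linarith) hSg0) (mul_le_mul_of_nonneg_right ?_ hz2)
        exact pow_le_pow_left₀ (by linarith) (by linarith) 2

/-- **STEP I2.** -/
theorem sf_gp_groups (C : ℕ) (hob : c.ob C) (ϰ : ℝ) (hloc : c.LocG ϰ) (i : ℝ) (hi : i ∈ c.W.G) (j : ℝ) (hj : j ∈ c.W.G) (hij : i < j) {ι : Type} [Fintype ι]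
    (Sb : ι → c.D.Row i → Prop) (hd : ∀ b b' ρ, Sb b ρ → Sb b' ρ → b = b') (U : c.D.Row j → Prop) (N : ℝ)
    (hN : ∀ l : c.W.Lb j, (({b | ∃ ρ ρ', Sb b ρ ∧ c.D.Conn i j ρ ρ' ∧ U ρ' ∧ c.sh.lb j ρ' = l} : Set ι).ncard : ℝ) ≤ N) :
    c.gpE i j U (fun ρ => ∃ b, Sb b ρ) ≤ (N + 1) * ∑ b, c.gpE i j (c.gpU i j (Sb b) U) (Sb b)
      + (N + 1) ^ 2 * ϰ ^ 2 * ∑ l : c.W.Lb j, ‖c.W.pre i (ancI (c.W.k j) (c.W.k i) (c.W.iv j l))‖ ^ 2 := by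
  have hs := hob.2.2.1
  rw [sf_gp_E_lab c hs i j hj]
  have e : ∀ b, c.gpE i j (c.gpU i j (Sb b) U) (Sb b) = _ := fun b => sf_gp_E_lab c hs i j hj (c.gpU i j (Sb b) U) (Sb b)
  rw [Finset.sum_congr rfl (fun b _ => e b), Finset.sum_comm, Finset.mul_sum, Finset.mul_sum, ← Finset.sum_add_distrib]
  refine Finset.sum_le_sum fun l _ => ?_
  refine (sf_gp_lab1 c C hob ϰ hloc i hi j hj hij Sb hd U N l (hN l) (c.W.iv j l)).trans (le_of_eq ?_)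
  ring

end

end Claimed.Agent.R256
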