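import Claimed.Agent.R256.Soft.MGpTri

/-!
# Row 256 (S0496), unit SOFT, block M6 GP, sub-block SEL-1, file 2: RARITY TRANSPORT FOR ONE PAIR OF GATES      (architect helper213; chief helper206; prefix `sf_gp_`)

ONE PAIR of gates `i < j`, `h ≤ j - i`; NO hypothesis on the mesh.
* `sf_gp_tail`     the readout of the restricted prefix experiment `c.xpR i j S U` (= `sf_core_xp_tail` of `Soft/MCoreSp.lean`, whose proof only uses `(h/2) n ≤ k_j - k_i`, `(h/2) n ≤ k_j - k_0`)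
* `sf_gp_tot`      `0 < tot_i ≤ s^(-a) e s^(-(d i))`
* `sf_gp_hold`     `E(U; S) ≤ (s^(-8a) P_i(S)^(2/3) + s^((2/3) Cb - 8a)) tot_j`      (= the middle of `sf_core_sp_aux`)
* `sf_gp_errL`     `Σ_l ‖pre i (anc (iv l))‖² ≤ s^(-K) tot_j`
-/

set_option autoImplicit false

namespace Claimed.Agent.R256

open MeasureTheory Claimed.Agent.R255

variable {Y : SfCy}

/-- **the readout of `xpR` for one pair of gates** -/
theorem sf_gp_tail (hO : SfCyOk Y) (π : SfPar) (Ls : ℝ) (hE : SfCoreHyp Y π) (t h : ℝ) (ht : 0 < t) (hh : 0 < h) (Cb C : ℕ) :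
    ∃ A n0 : ℕ, ∀ (c : SfCfg Y π.d) (a : ℝ), c.ob C → A ≤ c.A → n0 ≤ c.W.E.n → 0 < a → a ≤ t / 2 → a ≤ 1 → SfMD.Ext Y c.p c.W π.p π.d Ls c.ε a →
      ∀ i ∈ c.W.G, ∀ j ∈ c.W.G, h ≤ j - i → 4 * a ≤ j - i → ∀ (S : c.D.Row i → Prop) (U : c.D.Row j → Prop),
      (c.xpR i j S U).rd ≤ 2 ^ (-((1 / 2 - π.Γ - t) * ((c.W.k j - c.W.k i : ℕ) : ℝ))) * Real.sqrt (c.W.E.s ^ (-t) * c.W.E.ka * c.W.E.s ^ (π.p * i)) *
        ((c.D.P i).pr S * c.W.tot i + c.W.E.s ^ (Cb : ℝ) * c.W.E.e) := by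
  have hG := hE.gen
  obtain ⟨Cr, hCr1, hrep⟩ := hG.rep (C + 1)
  obtain ⟨C', hCC', hpre⟩ := gn_prefix_cls Y.M hG.scale C (h / 2) (by positivity)
  obtain ⟨C2, hC2⟩ : ∃ C2 : ℕ, C2 = max C' (max (C + 1) ⌈(2 * (Cb : ℝ) + 6) / h⌉₊) := ⟨_, rfl⟩
  have hC2a : C' ≤ C2 := by
    rw [hC2]
    exact le_max_left _ _
  have hC2b : C + 1 ≤ C2 := by
    rw [hC2]
    exact (le_max_left _ _).trans (le_max_right _ _)
  have hC2c : (2 * (Cb : ℝ) + 6) / h ≤ C2 := by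
    refine (Nat.le_ceil _).trans ?_
    rw [hC2]
    exact_mod_cast (le_max_right _ _).trans (le_max_right _ _)
  obtain ⟨A, n1, htail⟩ := gn_tail Y.M (1 + Y.η / 2) hG π.Γ hE.rate C2 (h / 2) t (by positivity) ht
  obtain ⟨n2, hn2⟩ := gn_absorb Cr (t / 2) (by positivity)
  obtain ⟨n3, hn3⟩ := gn_absorb Cr 1 one_pos
  refine ⟨A, max (max ⌈2 * (n1 : ℝ) / h⌉₊ n2) n3, fun c a hob hA hn ha0 hat ha1 hext => ?_⟩
  intro i hi j hj hgapij hah S U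
  have hij : i < j := by linarith
  have hs := hext.str
  have hgd : Y.M.gd c.p := (hO.af C c.A c.p c.W.E c.W.Q0 hob.2.1).1
  have hT : (Y.M.sys c.p).Tight := hG.tight c.p hgd
  obtain ⟨hV, hSR, hlen, hgen, hkf, hn', hcut⟩ := sf_core_xp_valid c C hob hT i hi j hj hij S U
  obtain ⟨_, _, _, ⟨hp1, hp3⟩, _⟩ := hE.par.1
  -- depths
  have hN : (0 : ℝ) ≤ c.W.E.n := Nat.cast_nonneg _
  have hi0 : 0 ≤ i := (hs.gate.2 i hi).1
  have hi1 : i ≤ 1 := (hs.gate.2 i hi).2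
  have hk0j : c.W.E.k0 ≤ c.W.k j := (hs.k_rg j hj).1
  have hkij : c.W.k i ≤ c.W.k j := (hs.k_mono i hi j hj hij).1
  have hdi := abs_le.1 (hext.depth i hi)
  have hdj := abs_le.1 (hext.depth j hj)
  have c1 : ((c.W.k j - c.W.E.k0 : ℕ) : ℝ) = (c.W.k j : ℝ) - c.W.E.k0 := Nat.cast_sub hk0j
  have c2 : ((c.W.k j - c.W.k i : ℕ) : ℝ) = (c.W.k j : ℝ) - c.W.k i := Nat.cast_sub hkij
  have D1 : h / 2 * (c.W.E.n : ℝ) ≤ ((c.W.k j - c.W.E.k0 : ℕ) : ℝ) := by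
    rw [c1]
    have : h / 2 * (c.W.E.n : ℝ) ≤ (j - a) * c.W.E.n := mul_le_mul_of_nonneg_right (by linarith) hN
    linarith [hdj.1]
  have D2 : c.W.k j - c.W.E.k0 ≤ c.W.E.n := by
    have := (hs.k_rg j hj).2
    unfold Xp.kf at this
    omega
  have D3 : h / 2 * (c.W.E.n : ℝ) ≤ ((c.W.k j - c.W.k i : ℕ) : ℝ) := by
    rw [c2]
    have : h / 2 * (c.W.E.n : ℝ) ≤ (j - i - 2 * a) * c.W.E.n := mul_le_mul_of_nonneg_right (by linarith) hN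
    linarith [hdj.1, hdi.2]
  -- the class
  have hadm := (hE.adm C c.A c.p c.W.E).2 ⟨c.W.Q0, hob.2.1⟩
  have hcls : Y.M.Cls C c.A c.p c.W.E := ⟨hgd, hs.valid, hob.1, hob.2.2.2.1, hadm.2⟩
  have hcls2 : Y.M.Cls C' A c.p (c.xpR i j S U) :=
    hpre A c.p c.W.E _ (gn_cls_anti Y.M hG.scale hA hcls) hV hSR hlen hgen (by rw [hn']; exact D1) (by rw [hn']; exact D2)
  have hcls3 := gn_cls_mono Y.M hG.scale hC2a hcls2
  -- sizes
  have hna : ⌈2 * (n1 : ℝ) / h⌉₊ ≤ c.W.E.n := ((le_max_left _ _).trans (le_max_left _ _)).trans hn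
  have hnb : n2 ≤ c.W.E.n := ((le_max_right _ _).trans (le_max_left _ _)).trans hn
  have hnc : n3 ≤ c.W.E.n := (le_max_right _ _).trans hn
  have hn1 : n1 ≤ (c.xpR i j S U).n := by
    rw [hn']
    have h1 : 2 * (n1 : ℝ) / h ≤ c.W.E.n := (Nat.le_ceil _).trans (by exact_mod_cast hna)
    rw [div_le_iff₀ hh] at h1
    have : (n1 : ℝ) ≤ ((c.W.k j - c.W.E.k0 : ℕ) : ℝ) := by linarith
    exact_mod_cast this
  obtain ⟨F1, F2, F3, F4⟩ := sf_core_xp_tail_num c.W.E.n ((c.W.k j - c.W.E.k0 : ℕ) : ℝ) h t a Cr c.W.E.ka c.W.E.e (π.p * i) C2 Cb hh hN D1 hC2c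
    (Nat.cast_nonneg _) ha0 ha1 hat hCr1 (hn2 _ hnb) (hn3 _ hnc) hs.valid.ka_pos hs.valid.e_pos (mul_nonneg (by linarith) hi0) (by nlinarith)
  obtain ⟨κ, hκ⟩ : ∃ κ : ℝ, κ = c.W.E.s ^ (-a) * c.W.E.ka * c.W.E.s ^ (π.p * i) := ⟨_, rfl⟩
  have hκ2 : κ = 2 ^ (-(-a * (c.W.E.n : ℝ))) * c.W.E.ka * 2 ^ (-(π.p * i * (c.W.E.n : ℝ))) := by
    rw [hκ, gn_s_rpow, gn_s_rpow]
  rw [← hκ2] at F1 F2 F4
  have hsE : ∀ y : ℝ, (c.xpR i j S U).s ^ y = 2 ^ (-(y * ((c.W.k j - c.W.E.k0 : ℕ) : ℝ))) := by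
    intro y
    rw [gn_s_rpow, hn']
  have key := htail c.p (c.xpR i j S U) hn1 hcls3 (c.W.k i) (c.W.gb i + 1) _ _ (Cr * κ) hcut
    (by
      rw [hkf, hn']
      refine le_trans (mul_le_mul_of_nonneg_left ?_ (by positivity)) D3
      exact_mod_cast D2)
    ((Nat.succ_le_succ (sf_core_gb_le c C hob i hi)).trans hC2b)
    (by
      rw [hsE, hSR.2.2.2.2.1]
      exact F1)
    (by
      rw [hsE, hSR.2.2.2.2.1]
      exact F2)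
    (by
      intro m hm
      rw [sf_core_xp_at]
      exact sf_core_xp_tail_st c hs hT hgd (C + 1) Cr κ hrep i hi (Nat.succ_le_succ (sf_core_gb_le c C hob i hi)) S m (by
        rw [hκ]
        exact hext.reg i hi m hm))
  refine key.trans ?_
  rw [hkf, hsE, hSR.2.2.2.1]
  have hsum : ∑ m ∈ ivs (c.xpR i j S U).k0 (c.xpR i j S U).i0 (c.W.k i),
      ‖(c.xpR i j S U).at' (c.W.k i) m (c.W.E.st.take (c.W.pos i) ++ [c.stgR i S])‖ ^ 2 ≤ (c.D.P i).pr S * c.W.tot i := by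
    rw [sf_core_pr c hs i hi S]
    refine Finset.sum_le_sum fun m _ => ?_
    rw [sf_core_xp_at]
    exact sf_core_synR_le c hs hT i hi S m
  have hsq : Real.sqrt (Cr * κ) ≤ Real.sqrt (c.W.E.s ^ (-t) * c.W.E.ka * c.W.E.s ^ (π.p * i)) := by
    refine Real.sqrt_le_sqrt ?_
    rw [gn_s_rpow, gn_s_rpow]
    exact F4
  have hlast : (2 : ℝ) ^ (-((C2 : ℝ) * ((c.W.k j - c.W.E.k0 : ℕ) : ℝ))) * c.W.E.e ≤ c.W.E.s ^ (Cb : ℝ) * c.W.E.e := by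
    rw [gn_s_rpow]
    exact F3
  have hsum0 : 0 ≤ ∑ m ∈ ivs (c.xpR i j S U).k0 (c.xpR i j S U).i0 (c.W.k i),
      ‖(c.xpR i j S U).at' (c.W.k i) m (c.W.E.st.take (c.W.pos i) ++ [c.stgR i S])‖ ^ 2 := Finset.sum_nonneg fun m _ => sq_nonneg _
  refine mul_le_mul (mul_le_mul_of_nonneg_left hsq (gn_two_pos _).le) (add_le_add hsum hlast) ?_ ?_
  · exact add_nonneg hsum0 (mul_nonneg (gn_two_pos _).le hs.valid.e_pos.le)
  · exact mul_nonneg (gn_two_pos _).le (Real.sqrt_nonneg _)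

/-- the read mass of a gate -/
theorem sf_gp_tot {de : ℝ} (c : SfCfg Y de) (hT : (Y.M.sys c.p).Tight) (pe Ls a : ℝ) (hext : SfMD.Ext Y c.p c.W pe de Ls c.ε a) (i : ℝ) (hi : i ∈ c.W.G) :
    0 < c.W.tot i ∧ c.W.tot i ≤ c.W.E.s ^ (-a) * c.W.E.e * c.W.E.s ^ (-(de * i)) := by
  have hs0 := gn_s_pos c.W.E
  have hstr := hext.str
  have he := hstr.valid.e_pos
  have hp : ∀ y : ℝ, 0 < c.W.E.s ^ y := fun y => Real.rpow_pos_of_pos hs0 y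
  refine ⟨lt_of_lt_of_le (mul_pos (mul_pos (hp _) he) (hp _)) (hext.read i hi), ?_⟩
  have h1 : (c.D.P i).pr (fun _ => True) = 1 := by
    unfold FLaw.pr
    simp only [if_true]
    exact (c.D.P i).sum_one
  have h2 := sf_core_pr c hstr i hi (fun _ => True)
  rw [h1, one_mul] at h2
  rw [h2]
  calc ∑ m ∈ c.W.ivs i, c.rdE i (fun _ => True) m (c.W.pre i m) ≤ ∑ m ∈ c.W.ivs i, ‖c.W.pre i m‖ ^ 2 :=
        Finset.sum_le_sum fun m _ => gn_en_le hT _ _ _ (sf_core_wS_mask c hstr i hi _ m) _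
    _ ≤ c.W.E.s ^ (-a) * c.W.E.e * c.W.E.s ^ (-(de * i)) := hext.en i hi

/-- **rarity transport for one pair of gates, restricted synthesis** -/
theorem sf_gp_hold (hO : SfCyOk Y) (π : SfPar) (Ls : ℝ) (hE : SfCoreHyp Y π) (a : ℝ) (ha : 0 < a ∧ a ≤ 1) (Cb : ℕ) (c : SfCfg Y π.d) (C : ℕ) (hob : c.ob C)
    (hext : SfMD.Ext Y c.p c.W π.p π.d Ls c.ε a) (hn : 1 ≤ c.W.E.n) (i : ℝ) (hi : i ∈ c.W.G) (j : ℝ) (hj : j ∈ c.W.G) (hij : i < j) (S : c.D.Row i → Prop) (U : c.D.Row j → Prop)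
    (htail : (c.xpR i j S U).rd ≤ 2 ^ (-((1 / 2 - π.Γ - a) * ((c.W.k j - c.W.k i : ℕ) : ℝ))) * Real.sqrt (c.W.E.s ^ (-a) * c.W.E.ka * c.W.E.s ^ (π.p * i)) *
        ((c.D.P i).pr S * c.W.tot i + c.W.E.s ^ (Cb : ℝ) * c.W.E.e)) :
    c.gpE i j U S ≤ (c.W.E.s ^ (-(8 * a)) * (c.D.P i).pr S ^ (2 / 3 : ℝ) + c.W.E.s ^ (2 / 3 * (Cb : ℝ) - 8 * a)) * c.W.tot j := by
  have hs := hext.str
  have hs0 := gn_s_pos c.W.E
  have hT : (Y.M.sys c.p).Tight := hE.gen.tight c.p (hO.af _ _ _ _ _ hob.2.1).1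
  obtain ⟨-, -, hΓ, hpp, hdd⟩ := hE.par.1
  have hn0 : (0 : ℝ) < c.W.E.n := by
    have : 0 < c.W.E.n := by omega
    exact_mod_cast this
  have hs1 : c.W.E.s < 1 := by
    have h1 : c.W.E.s = c.W.E.s ^ (1 : ℝ) := (Real.rpow_one _).symm
    rw [h1, gn_s_rpow]
    have h2 : (2 : ℝ) ^ (-(1 * (c.W.E.n : ℝ))) < 2 ^ (0 : ℝ) := Real.rpow_lt_rpow_of_exponent_lt (by norm_num) (by linarith)
    rwa [Real.rpow_zero] at h2
  obtain ⟨hti0, hti⟩ := sf_gp_tot c hT π.p Ls a hext i hi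
  have hPi : 0 ≤ (c.D.P i).pr S := Finset.sum_nonneg fun ρ _ => by
    split_ifs
    · exact (c.D.P i).nonneg ρ
    · exact le_rfl
  obtain ⟨hv, -, -, -, -, -, -⟩ := sf_core_xp_valid c C hob hT i hi j hj hij S U
  have hkij := (hs.k_mono i hi j hj hij).1
  have hξ : |((c.W.k j - c.W.k i : ℕ) : ℝ) / c.W.E.n - (j - i)| ≤ 2 * a := by
    have d1 := hext.depth i hi
    have d2 := hext.depth j hj
    rw [Nat.cast_sub hkij]
    have e1 : ((c.W.k j : ℝ) - c.W.k i) / c.W.E.n - (j - i)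
        = ((((c.W.k j : ℝ) - c.W.E.k0) - j * c.W.E.n) - (((c.W.k i : ℝ) - c.W.E.k0) - i * c.W.E.n)) / c.W.E.n := by
      field_simp
      ring
    rw [e1, abs_div, abs_of_pos hn0, div_le_iff₀ hn0]
    refine (abs_sub _ _).trans ?_
    linarith
  have hrd := htail
  have e2 : (2 : ℝ) ^ (-((1 / 2 - π.Γ - a) * ((c.W.k j - c.W.k i : ℕ) : ℝ)))
      = c.W.E.s ^ ((1 / 2 - π.Γ - a) * (((c.W.k j - c.W.k i : ℕ) : ℝ) / c.W.E.n)) := by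
    rw [gn_s_rpow]
    congr 2
    field_simp
  rw [e2] at hrd
  have htw : (c.xpR i j S U).tw ≤ c.W.E.s ^ (-a) * (c.W.E.e / c.W.E.ka) * c.W.E.s ^ (-((π.p + π.d) * j)) := by
    rw [sf_core_xp_tw]
    exact hext.cnt j hj
  have htw0 : 0 ≤ (c.xpR i j S U).tw := Finset.sum_nonneg fun l _ => (hv.w_pos l).le
  have e3 : c.gpE i j U S = (c.xpR i j S U).tm := (sf_core_xp_tm c hs i hi j hj hij S U).symm
  rw [e3]
  exact sf_sp_num c.W.E.s c.W.E.e c.W.E.ka a π.Γ π.p π.d i j (((c.W.k j - c.W.k i : ℕ) : ℝ) / c.W.E.n) ((c.D.P i).pr S) (c.W.tot i) (c.W.tot j)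
    (c.xpR i j S U).rd (c.xpR i j S U).tw (c.xpR i j S U).tm (Cb : ℝ) ⟨hs0, hs1⟩ hs.valid.e_pos hs.valid.ka_pos ha hΓ hpp hdd (hs.gate.2 i hi).1 hij (hs.gate.2 j hj).2 hξ hPi
    (gn_rd_nonneg _ hv) htw0 hti0.le (sf_xp_holder _ hv) hrd htw hti (hext.read j hj)

/-- the error of STEP I2 summed over the labels of the gate `j` -/
theorem sf_gp_errL (hO : SfCyOk Y) (π : SfPar) (Ls : ℝ) (hE : SfCoreHyp Y π) {c : SfCfg Y π.d} {S : ℕ} {C0 α : ℝ} (hin : SfGeIn Y π Ls c S C0 α) (hα : α ≤ 1)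
    (i j : ℝ) (hj : j ∈ c.W.G) :
    ∑ l : c.W.Lb j, ‖c.W.pre i (ancI (c.W.k j) (c.W.k i) (c.W.iv j l))‖ ^ 2 ≤ c.W.E.s ^ (-(C0 + 4 * (|Ls| + 2) + 6)) * c.W.tot j := by
  have hs := hin.ob.2.2.1
  have hs0 := gn_s_pos c.W.E
  have hT : (Y.M.sys c.p).Tight := hE.gen.tight c.p (hO.af _ _ _ _ _ hin.ob.2.1).1
  have he := hs.valid.e_pos
  have hp : ∀ y : ℝ, 0 < c.W.E.s ^ y := fun y => Real.rpow_pos_of_pos hs0 y
  obtain ⟨-, -, -, -, hdd⟩ := hE.par.1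
  have h1 : ∀ m, ‖c.W.pre i m‖ ^ 2 ≤ c.W.E.e := by
    intro m
    refine le_trans ?_ hs.valid.budget
    refine pow_le_pow_left₀ (norm_nonneg _) ?_ 2
    unfold SfMD.pre
    exact gn_run_norm_le hT _ _ _ (fun σ hσ => gn_valid_stm c.W.E hs.valid σ (List.mem_of_mem_take hσ)) _
  have h2 : c.W.E.e ≤ c.W.E.s ^ (-(1 : ℝ)) * c.W.tot j := by
    have h3 := hin.ext.read j hj
    have h4 : c.W.E.s ^ (1 : ℝ) * c.W.E.e ≤ c.W.E.s ^ α * c.W.E.e * c.W.E.s ^ (-(π.d * j)) := by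
      have h5 : c.W.E.s ^ (1 : ℝ) ≤ c.W.E.s ^ (α + -(π.d * j)) := gn_s_anti _ (by nlinarith [mul_nonneg hdd.1.le (hs.gate.2 j hj).1])
      rw [Real.rpow_add hs0] at h5
      calc c.W.E.s ^ (1 : ℝ) * c.W.E.e ≤ c.W.E.s ^ α * c.W.E.s ^ (-(π.d * j)) * c.W.E.e := mul_le_mul_of_nonneg_right h5 he.le
        _ = _ := by ring
    calc c.W.E.e = c.W.E.s ^ (-(1 : ℝ)) * (c.W.E.s ^ (1 : ℝ) * c.W.E.e) := by
          rw [← mul_assoc, ← Real.rpow_add hs0]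
          simp
      _ ≤ _ := mul_le_mul_of_nonneg_left (h4.trans h3) (hp _).le
  have h6 := sf_ga_cd_lb hO π Ls hE.par.1 hE.par.2.1 hin hα j hj
  calc ∑ l : c.W.Lb j, ‖c.W.pre i (ancI (c.W.k j) (c.W.k i) (c.W.iv j l))‖ ^ 2 ≤ ∑ _l : c.W.Lb j, c.W.E.e := Finset.sum_le_sum fun l _ => h1 _
    _ = (Fintype.card (c.W.Lb j) : ℝ) * c.W.E.e := by rw [Finset.sum_const, Finset.card_univ, nsmul_eq_mul]
    _ ≤ c.W.E.s ^ (-(C0 + 4 * (|Ls| + 2) + 5)) * (c.W.E.s ^ (-(1 : ℝ)) * c.W.tot j) := mul_le_mul h6 h2 he.le (hp _).le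
    _ = _ := by
        rw [← mul_assoc, ← Real.rpow_add hs0]
        congr 2
        ring

end Claimed.Agent.R256
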