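import Mathlib

/-!
# Row 256 (S0496), unit SOFT, block M7 PL, file 1: CELL AVERAGES AND ALLOCATION      (architect helper73; prefix `sf_pl_`)

PAPER FREE, MATHLIB ONLY.   `X = Ω × Z` with the product measure `m.prod lam` (`Ω` = exact indices, `Z` = normal phase plane), `cin : X → ι` = the cell of a row (countably many cells; every cell has the same fibre measure `V`).
* `sfPlAvg lam cin V f`   the density `f` averaged over the cells, fibre by fibre.
* `sf_pl_avg_meas`, `sf_pl_avg_set`, `sf_pl_avg_dens`, `sf_pl_avg_wt`      measurability; mass of a set; joint density; integrals of cell-constant weights are unchanged.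
* `sf_pl_fib`             a set-form inequality between three densities, for all sets of exact indices, gives the inequality of the fibre integrals for a.e. exact index.
* `sf_pl_alloc`           THE ALLOCATION (02 l.858-870): output densities `g l` (one final time) whose mass in every output cell `c ∈ J`, over every set of exact indices, is at most twice the input mass in the neighbouring cells `N c` plus a
                          small multiple of the fibre energy, can be allocated to the input: cell-constant weights `Θ l` with sum `≤ 1`, supported on neighbours of cells met by `g l`, carrying `1/(2K)` of the mass up to a small total error.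
-/

set_option autoImplicit false

namespace Claimed.Agent.R256

open MeasureTheory
open scoped ENNReal

section

variable {Ω Z ι : Type} [MeasurableSpace Ω] [MeasurableSpace Z] [MeasurableSpace ι] [Countable ι] [MeasurableSingletonClass ι]

/-- the cell average of `f` in the fibre variable -/
noncomputable def sfPlAvg (lam : Measure Z) (cin : Ω × Z → ι) (V : ℝ≥0∞) (f : Ω × Z → ℝ≥0∞) (x : Ω × Z) : ℝ≥0∞ :=
  V⁻¹ * ∫⁻ z' in {z' | cin (x.1, z') = cin x}, f (x.1, z') ∂lam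

theorem sf_pl_abs_eqns_cite : True := by
  have := @sfPlAvg.eq_1
  trivial

/-- the fibre identity behind (AVG-S), (AVG-J): swap of `z` and `z'` -/
theorem sf_pl_avg_fib (lam : Measure Z) [SFinite lam] (κ : Z → ι) (hκ : Measurable κ) (V : ℝ≥0∞) (φ : Z → ℝ≥0∞) (hφ : Measurable φ) (A : Set Z)
    (hA : MeasurableSet A) :
    ∫⁻ z in A, V⁻¹ * ∫⁻ z' in {z' | κ z' = κ z}, φ z' ∂lam ∂lam = ∫⁻ z', V⁻¹ * (φ z' * lam {z | z ∈ A ∧ κ z = κ z'}) ∂lam := by
  have hD : MeasurableSet {p : Z × Z | p.1 ∈ A ∧ κ p.1 = κ p.2} :=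
    (measurable_fst hA).inter (measurableSet_eq_fun (hκ.comp measurable_fst) (hκ.comp measurable_snd))
  have mI : Measurable fun p : Z × Z => {p : Z × Z | p.1 ∈ A ∧ κ p.1 = κ p.2}.indicator (fun _ => (1 : ℝ≥0∞)) p := measurable_const.indicator hD
  have mT : Measurable fun p : Z × Z => V⁻¹ * (φ p.2 * {p : Z × Z | p.1 ∈ A ∧ κ p.1 = κ p.2}.indicator (fun _ => (1 : ℝ≥0∞)) p) :=
    ((hφ.comp measurable_snd).mul mI).const_mul _
  have c1 : ∀ z, A.indicator (fun z => V⁻¹ * ∫⁻ z' in {z' | κ z' = κ z}, φ z' ∂lam) z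
      = ∫⁻ z', V⁻¹ * (φ z' * {p : Z × Z | p.1 ∈ A ∧ κ p.1 = κ p.2}.indicator (fun _ => (1 : ℝ≥0∞)) (z, z')) ∂lam := fun z => by
    have mI2 : Measurable fun z' => {p : Z × Z | p.1 ∈ A ∧ κ p.1 = κ p.2}.indicator (fun _ => (1 : ℝ≥0∞)) (z, z') := mI.comp measurable_prodMk_left
    have mI3 : Measurable fun z' => φ z' * {p : Z × Z | p.1 ∈ A ∧ κ p.1 = κ p.2}.indicator (fun _ => (1 : ℝ≥0∞)) (z, z') := hφ.mul mI2
    rw [lintegral_const_mul _ mI3]
    have hset : MeasurableSet {z' | κ z' = κ z} := hκ (measurableSet_singleton (κ z))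
    by_cases hz : z ∈ A
    · rw [Set.indicator_of_mem hz, ← lintegral_indicator hset]
      congr 1
      refine lintegral_congr fun z' => ?_
      by_cases hk : κ z' = κ z
      · have h1 : z' ∈ {z' | κ z' = κ z} := hk
        have h2 : ((z, z') : Z × Z) ∈ {p : Z × Z | p.1 ∈ A ∧ κ p.1 = κ p.2} := ⟨hz, hk.symm⟩
        rw [Set.indicator_of_mem h1, Set.indicator_of_mem h2, mul_one]
      · have h1 : z' ∉ {z' | κ z' = κ z} := hk
        have h2 : ((z, z') : Z × Z) ∉ {p : Z × Z | p.1 ∈ A ∧ κ p.1 = κ p.2} := fun h => hk h.2.symm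
        rw [Set.indicator_of_notMem h1, Set.indicator_of_notMem h2, mul_zero]
    · rw [Set.indicator_of_notMem hz]
      have h0 : ∀ z', φ z' * {p : Z × Z | p.1 ∈ A ∧ κ p.1 = κ p.2}.indicator (fun _ => (1 : ℝ≥0∞)) (z, z') = 0 := fun z' => by
        have h2 : ((z, z') : Z × Z) ∉ {p : Z × Z | p.1 ∈ A ∧ κ p.1 = κ p.2} := fun h => hz h.1
        rw [Set.indicator_of_notMem h2, mul_zero]
      simp only [h0, lintegral_zero, mul_zero]
  have c3 : ∀ z', ∫⁻ z, V⁻¹ * (φ z' * {p : Z × Z | p.1 ∈ A ∧ κ p.1 = κ p.2}.indicator (fun _ => (1 : ℝ≥0∞)) (z, z')) ∂lam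
      = V⁻¹ * (φ z' * lam {z | z ∈ A ∧ κ z = κ z'}) := fun z' => by
    have mI' : Measurable fun z => {p : Z × Z | p.1 ∈ A ∧ κ p.1 = κ p.2}.indicator (fun _ => (1 : ℝ≥0∞)) (z, z') := mI.comp measurable_prodMk_right
    have mI'' : Measurable fun z => φ z' * {p : Z × Z | p.1 ∈ A ∧ κ p.1 = κ p.2}.indicator (fun _ => (1 : ℝ≥0∞)) (z, z') := mI'.const_mul _
    rw [lintegral_const_mul _ mI'', lintegral_const_mul _ mI']
    congr 2
    have hB : MeasurableSet {z | z ∈ A ∧ κ z = κ z'} := hA.inter (hκ (measurableSet_singleton (κ z')))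
    rw [← lintegral_indicator_one hB]
    rfl
  rw [← lintegral_indicator hA]
  calc ∫⁻ z, A.indicator (fun z => V⁻¹ * ∫⁻ z' in {z' | κ z' = κ z}, φ z' ∂lam) z ∂lam
      = ∫⁻ z, ∫⁻ z', V⁻¹ * (φ z' * {p : Z × Z | p.1 ∈ A ∧ κ p.1 = κ p.2}.indicator (fun _ => (1 : ℝ≥0∞)) (z, z')) ∂lam ∂lam := lintegral_congr c1
    _ = ∫⁻ z', ∫⁻ z, V⁻¹ * (φ z' * {p : Z × Z | p.1 ∈ A ∧ κ p.1 = κ p.2}.indicator (fun _ => (1 : ℝ≥0∞)) (z, z')) ∂lam ∂lam :=
        lintegral_lintegral_swap (f := fun z z' => V⁻¹ * (φ z' * {p : Z × Z | p.1 ∈ A ∧ κ p.1 = κ p.2}.indicator (fun _ => (1 : ℝ≥0∞)) (z, z'))) mT.aemeasurable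
    _ = ∫⁻ z', V⁻¹ * (φ z' * lam {z | z ∈ A ∧ κ z = κ z'}) ∂lam := lintegral_congr c3

variable (m : Measure Ω) (lam : Measure Z) [SFinite m] [SFinite lam] (cin : Ω × Z → ι) (hc : Measurable cin) (V : ℝ≥0∞)
  (f : Ω × Z → ℝ≥0∞) (hf : Measurable f)

include hc hf

/-- **(AVG-M)**.   PLAN: `∫⁻ z' in A x, F = ∫⁻ z', indicator`; the set `{(x, z') | cin (x.1, z') = cin x}` is measurable (`measurableSet_eq_fun_of_countable`); `Measurable.lintegral_prod_right'`; `Measurable.const_mul`.   ~40 l. -/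
theorem sf_pl_avg_meas : Measurable (sfPlAvg lam cin V f) := by
  have hD : MeasurableSet {p : (Ω × Z) × Z | cin (p.1.1, p.2) = cin p.1} :=
    measurableSet_eq_fun (hc.comp ((measurable_fst.comp measurable_fst).prodMk measurable_snd)) (hc.comp measurable_fst)
  have mJ : Measurable fun p : (Ω × Z) × Z => {p : (Ω × Z) × Z | cin (p.1.1, p.2) = cin p.1}.indicator (fun p => f (p.1.1, p.2)) p :=
    (hf.comp ((measurable_fst.comp measurable_fst).prodMk measurable_snd)).indicator hD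
  have e : sfPlAvg lam cin V f = fun x => V⁻¹ * ∫⁻ z', {p : (Ω × Z) × Z | cin (p.1.1, p.2) = cin p.1}.indicator (fun p => f (p.1.1, p.2)) (x, z') ∂lam := by
    funext x
    unfold sfPlAvg
    have hset : MeasurableSet {z' | cin (x.1, z') = cin x} := (hc.comp measurable_prodMk_left) (measurableSet_singleton (cin x))
    rw [← lintegral_indicator hset]
    rfl
  rw [e]
  exact mJ.lintegral_prod_right'.const_mul _

/-- the averaged mass of a set, after the swap -/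
theorem sf_pl_avg_swap (S : Set (Ω × Z)) (hS : MeasurableSet S) :
    ∫⁻ x in S, sfPlAvg lam cin V f x ∂(m.prod lam)
      = ∫⁻ ω, ∫⁻ z', V⁻¹ * (f (ω, z') * lam {z | (ω, z) ∈ S ∧ cin (ω, z) = cin (ω, z')}) ∂lam ∂m := by
  have mA := sf_pl_avg_meas lam cin hc V f hf
  rw [← lintegral_indicator hS, lintegral_prod _ (mA.indicator hS).aemeasurable]
  refine lintegral_congr fun ω => ?_
  have hSω : MeasurableSet {z | (ω, z) ∈ S} := measurable_prodMk_left hS
  have h := sf_pl_avg_fib lam (fun z => cin (ω, z)) (hc.comp measurable_prodMk_left) V (fun z => f (ω, z)) (hf.comp measurable_prodMk_left)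
    {z | (ω, z) ∈ S} hSω
  rw [← lintegral_indicator hSω] at h
  exact h

/-- **(AVG-S)** the averaged mass of a set `S` whose part in every cell has fibre measure `≤ c V`; `S'` contains the cells met by `S`.
PLAN: `lintegral_prod` (Tonelli) on `S.indicator`; for fixed `ω` swap `z` and `z'` (`lintegral_lintegral_swap`): `∫_z 1_S(ω,z) V⁻¹ ∫_{z'} 1[cin z' = cin z] f(ω,z') = V⁻¹ ∫_{z'} f(ω,z') lam {z | (ω,z) ∈ S ∧ cin (ω,z) = cin (ω,z')}`;
the inner measure is `≤ c V`, and it is `0` unless `(ω,z') ∈ S'` (the set is empty); `V⁻¹ * (c * V) ≤ c` (`ENNReal.inv_mul_le_one`).   ~150 l. -/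
theorem sf_pl_avg_set (S S' : Set (Ω × Z)) (hS : MeasurableSet S) (hS' : MeasurableSet S') (c : ℝ≥0∞)
    (hsat : ∀ ω z z', (ω, z) ∈ S → cin (ω, z') = cin (ω, z) → (ω, z') ∈ S')
    (hpart : ∀ ω c', lam {z | (ω, z) ∈ S ∧ cin (ω, z) = c'} ≤ c * V) :
    ∫⁻ x in S, sfPlAvg lam cin V f x ∂(m.prod lam) ≤ c * ∫⁻ x in S', f x ∂(m.prod lam) := by
  rw [sf_pl_avg_swap m lam cin hc V f hf S hS, ← lintegral_indicator hS', ← lintegral_const_mul _ (hf.indicator hS'),
    lintegral_prod _ ((hf.indicator hS').const_mul c).aemeasurable]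
  refine lintegral_mono fun ω => lintegral_mono fun z' => ?_
  beta_reduce
  by_cases hz : (ω, z') ∈ S'
  · rw [Set.indicator_of_mem hz]
    calc V⁻¹ * (f (ω, z') * lam {z | (ω, z) ∈ S ∧ cin (ω, z) = cin (ω, z')}) ≤ V⁻¹ * (f (ω, z') * (c * V)) :=
          mul_le_mul' le_rfl (mul_le_mul' le_rfl (hpart ω _))
      _ = c * f (ω, z') * (V⁻¹ * V) := by ring
      _ ≤ c * f (ω, z') * 1 := mul_le_mul' le_rfl (ENNReal.inv_mul_le_one V)
      _ = c * f (ω, z') := mul_one _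
  · have he : {z | (ω, z) ∈ S ∧ cin (ω, z) = cin (ω, z')} = ∅ := by
      ext z
      simp only [Set.mem_ofPred_eq, Set.mem_empty_iff_false, iff_false, not_and]
      intro h1 h2
      exact hz (hsat ω z z' h1 h2.symm)
    rw [he, measure_empty, mul_zero, mul_zero]
    exact zero_le

/-- **(AVG-J)** joint density.   PLAN: as (AVG-S): the inner measure is `≤ lam {z | (ω,z) ∈ S}`.   ~100 l. -/
theorem sf_pl_avg_dens (S : Set (Ω × Z)) (hS : MeasurableSet S) :
    ∫⁻ x in S, sfPlAvg lam cin V f x ∂(m.prod lam) ≤ V⁻¹ * ∫⁻ ω, lam {z | (ω, z) ∈ S} * ∫⁻ z', f (ω, z') ∂lam ∂m := by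
  have m1 : Measurable fun ω => lam {z | (ω, z) ∈ S} := measurable_measure_prodMk_left hS
  have m2 : Measurable fun ω => ∫⁻ z', f (ω, z') ∂lam := hf.lintegral_prod_right'
  have m12 : Measurable fun ω => lam {z | (ω, z) ∈ S} * ∫⁻ z', f (ω, z') ∂lam := m1.mul m2
  rw [sf_pl_avg_swap m lam cin hc V f hf S hS, ← lintegral_const_mul _ m12]
  refine lintegral_mono fun ω => ?_
  beta_reduce
  have m3 : Measurable fun z' => f (ω, z') := hf.comp measurable_prodMk_left
  have m4 : Measurable fun z' => lam {z | (ω, z) ∈ S} * f (ω, z') := m3.const_mul _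
  rw [← lintegral_const_mul _ m3, ← lintegral_const_mul _ m4]
  refine lintegral_mono fun z' => ?_
  beta_reduce
  refine mul_le_mul' le_rfl ?_
  rw [mul_comm]
  exact mul_le_mul' (measure_mono fun z hz => hz.1) le_rfl

/-- **(AVG-Θ)** cell-constant weights do not see the averaging.   PLAN: Tonelli, swap as in (AVG-S): `∫_z Θ(ω, cin z) 1[cin z' = cin z] dlam = Θ(ω, cin z') V`; `V⁻¹ * V = 1`.   ~120 l. -/
theorem sf_pl_avg_wt (hV0 : V ≠ 0) (hVt : V ≠ ∞) (hV : ∀ ω c', lam {z | cin (ω, z) = c'} = V) (Θ : Ω × ι → ℝ≥0∞) (hΘ : Measurable Θ) :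
    ∫⁻ x, Θ (x.1, cin x) * sfPlAvg lam cin V f x ∂(m.prod lam) = ∫⁻ x, Θ (x.1, cin x) * f x ∂(m.prod lam) := by
  have hΘc : Measurable fun x : Ω × Z => Θ (x.1, cin x) := hΘ.comp (measurable_fst.prodMk hc)
  rw [lintegral_prod (fun x : Ω × Z => Θ (x.1, cin x) * sfPlAvg lam cin V f x) (hΘc.mul (sf_pl_avg_meas lam cin hc V f hf)).aemeasurable,
    lintegral_prod (fun x : Ω × Z => Θ (x.1, cin x) * f x) (hΘc.mul hf).aemeasurable]
  refine lintegral_congr fun ω => ?_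
  have hcω : Measurable fun z : Z => cin (ω, z) := hc.comp measurable_prodMk_left
  have hfω : Measurable fun z : Z => f (ω, z) := hf.comp measurable_prodMk_left
  have hΘω : Measurable fun z : Z => Θ (ω, cin (ω, z)) := hΘc.comp measurable_prodMk_left
  have hset : MeasurableSet {p : Z × Z | cin (ω, p.2) = cin (ω, p.1)} :=
    measurableSet_eq_fun (hcω.comp measurable_snd) (hcω.comp measurable_fst)
  have h1 : ∀ z, Θ (ω, cin (ω, z)) * sfPlAvg lam cin V f (ω, z)
      = ∫⁻ z', {p : Z × Z | cin (ω, p.2) = cin (ω, p.1)}.indicator (fun p => Θ (ω, cin (ω, p.2)) * (V⁻¹ * f (ω, p.2))) (z, z') ∂lam := by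
    intro z
    have hs : MeasurableSet {z' | cin (ω, z') = cin (ω, z)} := measurableSet_eq_fun hcω measurable_const
    show Θ (ω, cin (ω, z)) * (V⁻¹ * ∫⁻ z' in {z' | cin (ω, z') = cin (ω, z)}, f (ω, z') ∂lam) = _
    rw [← lintegral_const_mul V⁻¹ hfω, ← lintegral_const_mul _ (hfω.const_mul _), ← lintegral_indicator hs]
    refine lintegral_congr fun z' => ?_
    by_cases hz : cin (ω, z') = cin (ω, z)
    · rw [Set.indicator_of_mem (show z' ∈ {z' | cin (ω, z') = cin (ω, z)} from hz),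
        Set.indicator_of_mem (show (z, z') ∈ {p : Z × Z | cin (ω, p.2) = cin (ω, p.1)} from hz)]
      simp only [hz]
    · rw [Set.indicator_of_notMem (show z' ∉ {z' | cin (ω, z') = cin (ω, z)} from hz),
        Set.indicator_of_notMem (show (z, z') ∉ {p : Z × Z | cin (ω, p.2) = cin (ω, p.1)} from hz)]
  simp only [h1]
  rw [lintegral_lintegral_swap (f := fun z z' => {p : Z × Z | cin (ω, p.2) = cin (ω, p.1)}.indicator
    (fun p => Θ (ω, cin (ω, p.2)) * (V⁻¹ * f (ω, p.2))) (z, z'))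
    (((hΘω.comp measurable_snd).mul ((hfω.comp measurable_snd).const_mul _)).indicator hset).aemeasurable]
  refine lintegral_congr fun z' => ?_
  have hs : MeasurableSet {z | cin (ω, z) = cin (ω, z')} := measurableSet_eq_fun hcω measurable_const
  have h2 : ∀ z, {p : Z × Z | cin (ω, p.2) = cin (ω, p.1)}.indicator (fun p => Θ (ω, cin (ω, p.2)) * (V⁻¹ * f (ω, p.2))) (z, z')
      = {z | cin (ω, z) = cin (ω, z')}.indicator (fun _ => Θ (ω, cin (ω, z')) * (V⁻¹ * f (ω, z'))) z := by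
    intro z
    by_cases hz : cin (ω, z) = cin (ω, z')
    · rw [Set.indicator_of_mem (show z ∈ {z | cin (ω, z) = cin (ω, z')} from hz),
        Set.indicator_of_mem (show (z, z') ∈ {p : Z × Z | cin (ω, p.2) = cin (ω, p.1)} from hz.symm)]
    · rw [Set.indicator_of_notMem (show z ∉ {z | cin (ω, z) = cin (ω, z')} from hz),
        Set.indicator_of_notMem (show (z, z') ∉ {p : Z × Z | cin (ω, p.2) = cin (ω, p.1)} from fun h => hz h.symm)]
  simp only [h2]
  rw [lintegral_indicator hs, setLIntegral_const, hV]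
  calc Θ (ω, cin (ω, z')) * (V⁻¹ * f (ω, z')) * V = Θ (ω, cin (ω, z')) * f (ω, z') * (V⁻¹ * V) := by ring
    _ = Θ (ω, cin (ω, z')) * f (ω, z') := by rw [ENNReal.inv_mul_cancel hV0 hVt, mul_one]

omit hc hf [MeasurableSpace ι] [Countable ι] [MeasurableSingletonClass ι] in
/-- integral over a set of exact indices -/
theorem sf_pl_fib_set (a : Ω × Z → ℝ≥0∞) (ha : Measurable a) (U : Set Ω) :
    ∫⁻ x in {x : Ω × Z | x.1 ∈ U}, a x ∂(m.prod lam) = ∫⁻ ω in U, ∫⁻ z, a (ω, z) ∂lam ∂m := by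
  have e : {x : Ω × Z | x.1 ∈ U} = U ×ˢ (Set.univ : Set Z) := by
    ext x; simp
  rw [e, ← Measure.prod_restrict, Measure.restrict_univ, lintegral_prod _ ha.aemeasurable]

omit hc hf [MeasurableSpace ι] [Countable ι] [MeasurableSingletonClass ι] in
/-- **(FIB)** from sets of exact indices to a.e. exact index.   PLAN: `setLIntegral` over `U ×ˢ univ` = `∫⁻ ω in U, ∫⁻ z, ..` (`lintegral_prod`, `Measure.prod_restrict` or indicators);
`ae_le_of_forall_setLIntegral_le_of_sigmaFinite` (measurability by `Measurable.lintegral_prod_right'`).   ~80 l. -/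
theorem sf_pl_fib [SigmaFinite m] (a b : Ω × Z → ℝ≥0∞) (ha : Measurable a) (hb : Measurable b)
    (h : ∀ U : Set Ω, MeasurableSet U → ∫⁻ x in {x : Ω × Z | x.1 ∈ U}, a x ∂(m.prod lam) ≤ ∫⁻ x in {x : Ω × Z | x.1 ∈ U}, b x ∂(m.prod lam)) :
    ∀ᵐ ω ∂m, ∫⁻ z, a (ω, z) ∂lam ≤ ∫⁻ z, b (ω, z) ∂lam := by
  refine ae_le_of_forall_setLIntegral_le_of_sigmaFinite ha.lintegral_prod_right' fun U hU _ => ?_
  rw [← sf_pl_fib_set m lam a ha U, ← sf_pl_fib_set m lam b hb U]
  exact h U hU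

omit hc hf [MeasurableSpace Z] [MeasurableSpace ι] [Countable ι] [MeasurableSingletonClass ι] [SFinite m] in
/-- the allocation for abstract fibre masses -/
theorem sf_pl_alloc_abs {L : ℕ} (J : Finset ι) (a : Fin L → ι → Ω → ℝ≥0∞) (i : ι → Ω → ℝ≥0∞) (e : Ω → ℝ≥0∞) (ε : ℝ≥0∞) (hε : ε ≠ ∞)
    (ha : ∀ l c, Measurable (a l c)) (hi : ∀ c, Measurable (i c)) (he : Measurable e)
    (hie : ∀ c ω, i c ω ≤ e ω) (hfin : ∀ᵐ ω ∂m, e ω < ∞) (hae : ∀ c ∈ J, ∀ᵐ ω ∂m, ∑ l, a l c ω ≤ 2 * i c ω + ε * e ω) :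
    ∃ w : Fin L → ι → Ω → ℝ≥0∞, (∀ l c, Measurable (w l c)) ∧ (∀ c ω, ∑ l, w l c ω ≤ 1) ∧ (∀ l c ω, w l c ω ≠ 0 → a l c ω ≠ 0) ∧
      ∀ l, ∫⁻ ω, ∑ c ∈ J, a l c ω ∂m ≤ 2 * ∫⁻ ω, ∑ c ∈ J, w l c ω * i c ω ∂m + ∫⁻ ω, ∑ c ∈ J, ε * e ω * w l c ω ∂m := by
  have hD : ∀ c, Measurable fun ω => max (∑ l, a l c ω) (2 * i c ω + ε * e ω) := fun c =>
    (Finset.measurable_sum _ fun l _ => ha l c).max (((hi c).const_mul _).add (he.const_mul _))
  have hw : ∀ l c, Measurable fun ω => a l c ω / max (∑ l, a l c ω) (2 * i c ω + ε * e ω) := fun l c => (ha l c).div (hD c)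
  refine ⟨fun l c ω => a l c ω / max (∑ l, a l c ω) (2 * i c ω + ε * e ω), hw, fun c ω => ?_, fun l c ω h0 h1 => ?_, fun l => ?_⟩
  · simp only [div_eq_mul_inv]
    rw [← Finset.sum_mul, ← div_eq_mul_inv]
    refine ENNReal.div_le_of_le_mul ?_
    rw [one_mul]
    exact le_max_left _ _
  · apply h0
    simp only [h1, ENNReal.zero_div]
  · have hm1 : Measurable fun ω => ∑ c ∈ J, a l c ω / max (∑ l, a l c ω) (2 * i c ω + ε * e ω) * i c ω :=
      Finset.measurable_sum _ fun c _ => (hw l c).mul (hi c)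
    rw [← lintegral_const_mul _ hm1, ← lintegral_add_left (hm1.const_mul _)]
    refine lintegral_mono_ae ?_
    filter_upwards [(Finset.eventually_all J).2 hae, hfin] with ω h1 h2
    rw [Finset.mul_sum, ← Finset.sum_add_distrib]
    refine Finset.sum_le_sum fun c hc => ?_
    have h3 := h1 c hc
    rw [max_eq_right h3]
    have hT : 2 * i c ω + ε * e ω ≠ ∞ := by
      refine ENNReal.add_ne_top.2 ⟨ENNReal.mul_ne_top (by norm_num) (lt_of_le_of_lt (hie c ω) h2).ne, ENNReal.mul_ne_top hε h2.ne⟩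
    have hA : a l c ω ≤ 2 * i c ω + ε * e ω := le_trans (Finset.single_le_sum (f := fun l => a l c ω) (fun _ _ => zero_le) (Finset.mem_univ l)) h3
    by_cases hT0 : 2 * i c ω + ε * e ω = 0
    · rw [hT0] at hA
      exact hA.trans zero_le
    · calc a l c ω = a l c ω / (2 * i c ω + ε * e ω) * (2 * i c ω + ε * e ω) := (ENNReal.div_mul_cancel hT0 hT).symm
        _ = 2 * (a l c ω / (2 * i c ω + ε * e ω) * i c ω) + ε * e ω * (a l c ω / (2 * i c ω + ε * e ω)) := by ring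
        _ ≤ _ := le_rfl

/-- **(ALLOC)**.   NOTATION: `a l c ω = ∫⁻ z in {cout = c}, g l (ω,z)`, `i c ω = ∫⁻ z in {cin ∈ N c}, f (ω,z)`, `e ω = ∫⁻ z, f (ω,z)`, `D c ω = max (∑ l, a l c ω) (2 * i c ω + ε * e ω)`,
`Θ l (ω, c') = (K : ℝ≥0∞)⁻¹ * ∑ c ∈ J with c' ∈ N c, a l c ω / D c ω`,      `δ l = ∫⁻ ω, ∑ c ∈ J, ε * e ω * (a l c ω / D c ω)`.
PLAN.  (1) measurability: `(ω, c') ↦ ..` on `Ω × ι` with `ι` countable (`measurable_from_prod_countable_left`/`_right`), fibre integrals by `Measurable.lintegral_prod_right'`.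
(2) `∑ l, a l c ω / D c ω ≤ 1` (`ENNReal.div_le_of_le_mul`/`ENNReal.div_self_le_one`, `Finset.sum_div`), at most `K` cells `c`: sum `≤ 1`.      (3) support: a nonzero term has `a l c ω ≠ 0`, so the integrand is not identically `0`.
(4) `∫⁻ Θ l (x.1, cin x) f = K⁻¹ ∫⁻ ω, ∑ c ∈ J, (a l c ω / D c ω) * i c ω` (Tonelli; `∫⁻ z, 1[cin (ω,z) ∈ N c] f = i c ω`).      (5) for a.e. `ω` (by `sf_pl_fib` applied to `1[cout = c] ∑ l g l` and `1[cin ∈ N c] 2 f + ε f`, all `c ∈ J`;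
and `e ω < ∞` a.e. by `hfin`): `D c ω = 2 i + ε e < ∞`, hence `a ≤ 2 (a / D) i + ε e (a / D)` (trivial if `D = 0`).      (6) integrate and sum; `∑ l δ l ≤ ∑ c ∈ J ∫⁻ ε e = card J * ε * ∫⁻ f`.   ~500 l. -/
theorem sf_pl_alloc [DecidableEq ι] [SigmaFinite m] (hfin : ∫⁻ x, f x ∂(m.prod lam) ≠ ∞) (cout : Ω × Z → ι) (hco : Measurable cout) {L : ℕ} (g : Fin L → Ω × Z → ℝ≥0∞)
    (hg : ∀ l, Measurable (g l)) (J : Finset ι) (N : ι → Finset ι) (K : ℕ) (hK : 0 < K) (hN : ∀ c', (J.filter fun c => c' ∈ N c).card ≤ K) (ε : ℝ≥0∞) (hε : ε ≠ ∞)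
    (h : ∀ c ∈ J, ∀ U : Set Ω, MeasurableSet U →
      ∫⁻ x in {x : Ω × Z | x.1 ∈ U ∧ cout x = c}, ∑ l, g l x ∂(m.prod lam)
        ≤ 2 * ∫⁻ x in {x : Ω × Z | x.1 ∈ U ∧ cin x ∈ N c}, f x ∂(m.prod lam) + ε * ∫⁻ x in {x : Ω × Z | x.1 ∈ U}, f x ∂(m.prod lam)) :
    ∃ (Θ : Fin L → Ω × ι → ℝ≥0∞) (δ : Fin L → ℝ≥0∞), (∀ l, Measurable (Θ l)) ∧ (∀ y, ∑ l, Θ l y ≤ 1) ∧
      (∀ l ω c', Θ l (ω, c') ≠ 0 → ∃ c ∈ J, c' ∈ N c ∧ ∃ z, cout (ω, z) = c ∧ g l (ω, z) ≠ 0) ∧
      ∑ l, δ l ≤ J.card * ε * ∫⁻ x, f x ∂(m.prod lam) ∧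
      ∀ l, ∫⁻ x in {x : Ω × Z | cout x ∈ J}, g l x ∂(m.prod lam) ≤ 2 * K * ∫⁻ x, Θ l (x.1, cin x) * f x ∂(m.prod lam) + δ l := by
  have hSo : ∀ c, MeasurableSet {x : Ω × Z | cout x = c} := fun c => hco (measurableSet_singleton c)
  have hSi : ∀ c, MeasurableSet {x : Ω × Z | cin x ∈ N c} := fun c => hc (Finset.measurableSet (N c))
  have hSJ : MeasurableSet {x : Ω × Z | cout x ∈ J} := hco (Finset.measurableSet J)
  have hgo : ∀ l c, Measurable ({x : Ω × Z | cout x = c}.indicator (g l)) := fun l c => (hg l).indicator (hSo c)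
  have hfi : ∀ c, Measurable ({x : Ω × Z | cin x ∈ N c}.indicator f) := fun c => hf.indicator (hSi c)
  have hsec : ∀ {u : Ω × Z → ℝ≥0∞}, Measurable u → ∀ ω, Measurable fun z => u (ω, z) := fun hu ω => hu.comp measurable_prodMk_left
  obtain ⟨a, ha_def⟩ : ∃ a : Fin L → ι → Ω → ℝ≥0∞, a = fun l c ω => ∫⁻ z, {x : Ω × Z | cout x = c}.indicator (g l) (ω, z) ∂lam := ⟨_, rfl⟩
  obtain ⟨i, hi_def⟩ : ∃ i : ι → Ω → ℝ≥0∞, i = fun c ω => ∫⁻ z, {x : Ω × Z | cin x ∈ N c}.indicator f (ω, z) ∂lam := ⟨_, rfl⟩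
  obtain ⟨e, he_def⟩ : ∃ e : Ω → ℝ≥0∞, e = fun ω => ∫⁻ z, f (ω, z) ∂lam := ⟨_, rfl⟩
  have ha : ∀ l c, Measurable (a l c) := by
    intro l c; rw [ha_def]; exact (hgo l c).lintegral_prod_right'
  have hi : ∀ c, Measurable (i c) := by
    intro c; rw [hi_def]; exact (hfi c).lintegral_prod_right'
  have he : Measurable e := by
    rw [he_def]; exact hf.lintegral_prod_right'
  have hie : ∀ c ω, i c ω ≤ e ω := by
    intro c ω; rw [hi_def, he_def]; exact lintegral_mono fun z => Set.indicator_le_self _ _ _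
  have hint : ∫⁻ ω, e ω ∂m = ∫⁻ x, f x ∂(m.prod lam) := by
    rw [he_def, lintegral_prod _ hf.aemeasurable]
  have hfin' : ∀ᵐ ω ∂m, e ω < ∞ := ae_lt_top he (by rw [hint]; exact hfin)
  have hae : ∀ c ∈ J, ∀ᵐ ω ∂m, ∑ l, a l c ω ≤ 2 * i c ω + ε * e ω := by
    intro c hcJ
    have hsum : Measurable fun x : Ω × Z => ∑ l, g l x := Finset.measurable_sum _ fun l _ => hg l
    have key := sf_pl_fib m lam ({x : Ω × Z | cout x = c}.indicator fun x => ∑ l, g l x)
      (fun x => 2 * {x : Ω × Z | cin x ∈ N c}.indicator f x + ε * f x) (hsum.indicator (hSo c))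
      (((hfi c).const_mul _).add (hf.const_mul _)) (fun U hU => ?_)
    · filter_upwards [key] with ω hω
      have e1 : ∑ l, a l c ω = ∫⁻ z, {x : Ω × Z | cout x = c}.indicator (fun x => ∑ l, g l x) (ω, z) ∂lam := by
        rw [ha_def]
        simp only
        rw [← lintegral_finsetSum _ (fun l _ => hsec (hgo l c) ω)]
        refine lintegral_congr fun z => ?_
        by_cases hz : cout (ω, z) = c
        · rw [Set.indicator_of_mem (show (ω, z) ∈ {x : Ω × Z | cout x = c} from hz)]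
          refine Finset.sum_congr rfl fun l _ => ?_
          rw [Set.indicator_of_mem (show (ω, z) ∈ {x : Ω × Z | cout x = c} from hz)]
        · rw [Set.indicator_of_notMem (show (ω, z) ∉ {x : Ω × Z | cout x = c} from hz)]
          refine Finset.sum_eq_zero fun l _ => ?_
          rw [Set.indicator_of_notMem (show (ω, z) ∉ {x : Ω × Z | cout x = c} from hz)]
      have e2 : 2 * i c ω + ε * e ω = ∫⁻ z, (2 * {x : Ω × Z | cin x ∈ N c}.indicator f (ω, z) + ε * f (ω, z)) ∂lam := by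
        rw [lintegral_add_left ((hsec (hfi c) ω).const_mul _), lintegral_const_mul _ (hsec (hfi c) ω),
          lintegral_const_mul _ (hsec hf ω), hi_def, he_def]
      rw [e1, e2]
      exact hω
    · rw [setLIntegral_indicator (hSo c), lintegral_add_left ((hfi c).const_mul _), lintegral_const_mul _ (hfi c),
        lintegral_const_mul _ hf, setLIntegral_indicator (hSi c)]
      have s1 : {x : Ω × Z | cout x = c} ∩ {x : Ω × Z | x.1 ∈ U} = {x : Ω × Z | x.1 ∈ U ∧ cout x = c} := by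
        ext x; exact and_comm
      have s2 : {x : Ω × Z | cin x ∈ N c} ∩ {x : Ω × Z | x.1 ∈ U} = {x : Ω × Z | x.1 ∈ U ∧ cin x ∈ N c} := by
        ext x; exact and_comm
      rw [s1, s2]
      exact h c hcJ U hU
  obtain ⟨w, hwm, hw1, hw0, hwI⟩ := sf_pl_alloc_abs m J a i e ε hε ha hi he hie hfin' hae
  have hK0 : (K : ℝ≥0∞) ≠ 0 := by exact_mod_cast hK.ne'
  have hKt : (K : ℝ≥0∞) ≠ ∞ := ENNReal.natCast_ne_top K
  have hΘm : ∀ l, Measurable fun y : Ω × ι => (K : ℝ≥0∞)⁻¹ * ∑ c ∈ J with y.2 ∈ N c, w l c y.1 := by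
    intro l
    refine measurable_from_prod_countable_left fun c' => ?_
    show Measurable fun ω => (K : ℝ≥0∞)⁻¹ * ∑ c ∈ J with c' ∈ N c, w l c ω
    exact (Finset.measurable_sum _ fun c _ => hwm l c).const_mul _
  refine ⟨fun l y => (K : ℝ≥0∞)⁻¹ * ∑ c ∈ J with y.2 ∈ N c, w l c y.1, fun l => ∫⁻ ω, ∑ c ∈ J, ε * e ω * w l c ω ∂m,
    hΘm, ?_, ?_, ?_, ?_⟩
  · intro y
    rw [← Finset.mul_sum, Finset.sum_comm]
    calc (K : ℝ≥0∞)⁻¹ * ∑ c ∈ J with y.2 ∈ N c, ∑ l, w l c y.1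
        ≤ (K : ℝ≥0∞)⁻¹ * ∑ c ∈ J with y.2 ∈ N c, 1 := by
          gcongr
          exact hw1 _ _
      _ = (K : ℝ≥0∞)⁻¹ * ((J.filter fun c => y.2 ∈ N c).card : ℝ≥0∞) := by
          rw [Finset.sum_const, nsmul_eq_mul, mul_one]
      _ ≤ (K : ℝ≥0∞)⁻¹ * K := by
          gcongr
          exact hN y.2
      _ = 1 := ENNReal.inv_mul_cancel hK0 hKt
  · intro l ω c' hne
    have hs : ∑ c ∈ J with c' ∈ N c, w l c ω ≠ 0 := by
      intro h0
      apply hne
      show (K : ℝ≥0∞)⁻¹ * ∑ c ∈ J with c' ∈ N c, w l c ω = 0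
      rw [h0, mul_zero]
    obtain ⟨c, hcm, hcw⟩ := Finset.exists_ne_zero_of_sum_ne_zero hs
    obtain ⟨hcJ, hcN⟩ := Finset.mem_filter.1 hcm
    have ha0 := hw0 l c ω hcw
    refine ⟨c, hcJ, hcN, ?_⟩
    by_contra hcon
    push Not at hcon
    apply ha0
    rw [ha_def]
    show ∫⁻ z, {x : Ω × Z | cout x = c}.indicator (g l) (ω, z) ∂lam = 0
    have hz0 : ∀ z, {x : Ω × Z | cout x = c}.indicator (g l) (ω, z) = 0 := by
      intro z
      by_cases hz : cout (ω, z) = c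
      · rw [Set.indicator_of_mem (show (ω, z) ∈ {x : Ω × Z | cout x = c} from hz)]
        exact hcon z hz
      · exact Set.indicator_of_notMem (show (ω, z) ∉ {x : Ω × Z | cout x = c} from hz) _
    simp only [hz0, lintegral_zero]
  · have hδm : ∀ l, Measurable fun ω => ∑ c ∈ J, ε * e ω * w l c ω := fun l =>
      Finset.measurable_sum _ fun c _ => (he.const_mul _).mul (hwm l c)
    show ∑ l, ∫⁻ ω, ∑ c ∈ J, ε * e ω * w l c ω ∂m ≤ _
    rw [← lintegral_finsetSum _ (fun l _ => hδm l)]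
    calc ∫⁻ ω, ∑ l, ∑ c ∈ J, ε * e ω * w l c ω ∂m ≤ ∫⁻ ω, (J.card * ε) * e ω ∂m := by
          refine lintegral_mono fun ω => ?_
          rw [Finset.sum_comm]
          calc ∑ c ∈ J, ∑ l, ε * e ω * w l c ω = ∑ c ∈ J, ε * e ω * ∑ l, w l c ω := by simp only [Finset.mul_sum]
            _ ≤ ∑ _c ∈ J, ε * e ω * 1 := by
                gcongr
                exact hw1 _ _
            _ = (J.card * ε) * e ω := by
                rw [Finset.sum_const, nsmul_eq_mul, mul_one, mul_assoc]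
      _ = J.card * ε * ∫⁻ x, f x ∂(m.prod lam) := by rw [lintegral_const_mul _ he, hint]
  · intro l
    have hmi : Measurable fun ω => ∑ c ∈ J, w l c ω * i c ω := Finset.measurable_sum _ fun c _ => (hwm l c).mul (hi c)
    have hΘf : ∫⁻ x, ((K : ℝ≥0∞)⁻¹ * ∑ c ∈ J with cin x ∈ N c, w l c x.1) * f x ∂(m.prod lam)
        = (K : ℝ≥0∞)⁻¹ * ∫⁻ ω, ∑ c ∈ J, w l c ω * i c ω ∂m := by
      have hmeas : Measurable fun x : Ω × Z => ((K : ℝ≥0∞)⁻¹ * ∑ c ∈ J with cin x ∈ N c, w l c x.1) * f x :=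
        ((hΘm l).comp (measurable_fst.prodMk hc)).mul hf
      rw [lintegral_prod _ hmeas.aemeasurable, ← lintegral_const_mul _ hmi]
      refine lintegral_congr fun ω => ?_
      have hpt : ∀ z, ((K : ℝ≥0∞)⁻¹ * ∑ c ∈ J with cin (ω, z) ∈ N c, w l c ω) * f (ω, z)
          = (K : ℝ≥0∞)⁻¹ * ∑ c ∈ J, w l c ω * {x : Ω × Z | cin x ∈ N c}.indicator f (ω, z) := by
        intro z
        rw [mul_assoc, Finset.sum_mul, Finset.sum_filter]
        congr 1
        refine Finset.sum_congr rfl fun c _ => ?_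
        by_cases hz : cin (ω, z) ∈ N c
        · rw [if_pos hz, Set.indicator_of_mem (show (ω, z) ∈ {x : Ω × Z | cin x ∈ N c} from hz)]
        · rw [if_neg hz, Set.indicator_of_notMem (show (ω, z) ∉ {x : Ω × Z | cin x ∈ N c} from hz), mul_zero]
      simp only [hpt]
      rw [lintegral_const_mul _ (Finset.measurable_sum _ fun c _ => (hsec (hfi c) ω).const_mul _),
        lintegral_finsetSum _ (fun c _ => (hsec (hfi c) ω).const_mul _)]
      congr 1
      refine Finset.sum_congr rfl fun c _ => ?_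
      rw [lintegral_const_mul _ (hsec (hfi c) ω), hi_def]
    have hL : ∫⁻ x in {x : Ω × Z | cout x ∈ J}, g l x ∂(m.prod lam) = ∫⁻ ω, ∑ c ∈ J, a l c ω ∂m := by
      rw [← lintegral_indicator hSJ, lintegral_prod _ ((hg l).indicator hSJ).aemeasurable]
      refine lintegral_congr fun ω => ?_
      rw [ha_def]
      simp only
      rw [← lintegral_finsetSum _ (fun c _ => hsec (hgo l c) ω)]
      refine lintegral_congr fun z => ?_
      by_cases hz : cout (ω, z) ∈ J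
      · rw [Set.indicator_of_mem (show (ω, z) ∈ {x : Ω × Z | cout x ∈ J} from hz), Finset.sum_eq_single (cout (ω, z))]
        · rw [Set.indicator_of_mem (show (ω, z) ∈ {x : Ω × Z | cout x = cout (ω, z)} from rfl)]
        · intro c _ hne
          exact Set.indicator_of_notMem (show (ω, z) ∉ {x : Ω × Z | cout x = c} from fun h => hne h.symm) _
        · intro hn
          exact absurd hz hn
      · rw [Set.indicator_of_notMem (show (ω, z) ∉ {x : Ω × Z | cout x ∈ J} from hz)]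
        refine (Finset.sum_eq_zero fun c hcJ => ?_).symm
        exact Set.indicator_of_notMem (show (ω, z) ∉ {x : Ω × Z | cout x = c} from fun h => hz (h ▸ hcJ)) _
    rw [hL]
    refine (hwI l).trans ?_
    show _ ≤ 2 * K * ∫⁻ x, ((K : ℝ≥0∞)⁻¹ * ∑ c ∈ J with cin x ∈ N c, w l c x.1) * f x ∂(m.prod lam) + _
    rw [hΘf, ← mul_assoc, mul_assoc 2, ENNReal.mul_inv_cancel hK0 hKt, mul_one]

end

end Claimed.Agent.R256
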