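import Claimed.Agent.R256.Soft.Model
import Claimed.Agent.R256.Gen.Hyp
import Claimed.Agent.R256.Cyl.Kit
import Claimed.Agent.R256.Hyb.Floor
import Claimed.Agent.R256.Hyb.Loc

/-!
# Row 256 (S0496), unit SOFT, block M7 PL, file 2: CELLS OF THE NORMAL PHASE PLANE, BARRIERS      (architect helper73; prefix `sf_pl_`)

Hybrid cylinder `p : ChyPar`, rows `x = (ω, D, N)`.   Fix a frame `Q0`, a root time `T0`, a root length `l0`, a cell size `ζ` (velocity), `l0 ζ` (position).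
* `sfPlPhi p Q0 T0 l0 ζ t x`   the normal coordinates of the row `x` OF THE TIME `t`, relative to the shear of `Q0`, flowed back classically to the time `T0`, in units of the cell:
                              `((N - A0(ω))/ζ, (D - (t - T0) N - S0(ω))/(l0 ζ))`.
* `sfPlIx`    the cell (integer parts);   `sfPlNb c` the nine neighbours;   `sfPlJ R` the cells in `[-R, R)²`.
* `sf_pl_drift`   one correspondence (cyl:correspondence) moves `sfPlPhi` by at most `2 Λ d_f / ζ`  (`d_f = d_ℓ` at the final length).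
* `sf_pl_bar`     barriers `{ψ ∘ sfPlPhi ≤ r}` (`ψ` 1-Lipschitz) along a stack, in the format `Bar` of `Cyl/Kit.lean`.
* `sf_pl_supp`    a root row in a neighbouring cell, flowed classically, lies in the test with the doubled normal width.
-/

set_option autoImplicit false

namespace Claimed.Agent.R256

open MeasureTheory
open scoped ENNReal

/-- normal coordinates of a row of the time `t`, relative to the shear of `Q0`, flowed back to `T0`, in units of the cell -/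
noncomputable def sfPlPhi (p : ChyPar) (Q0 : CyT) (T0 l0 ζ t : ℝ) (x : p.Om × ℝ × ℝ) : ℝ × ℝ :=
  (cyVel Q0 (p.co T0 x) / ζ, (cyPos Q0 (p.co T0 x) - (t - T0) * x.2.2) / (l0 * ζ))

/-- the cell of a row of the time `t` -/
noncomputable def sfPlIx (p : ChyPar) (Q0 : CyT) (T0 l0 ζ t : ℝ) (x : p.Om × ℝ × ℝ) : ℤ × ℤ :=
  (⌊(sfPlPhi p Q0 T0 l0 ζ t x).1⌋, ⌊(sfPlPhi p Q0 T0 l0 ζ t x).2⌋)

/-- the nine neighbours of a cell -/
noncomputable def sfPlNb (c : ℤ × ℤ) : Finset (ℤ × ℤ) := Finset.Icc (c.1 - 1) (c.1 + 1) ×ˢ Finset.Icc (c.2 - 1) (c.2 + 1)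

/-- the cells in `[-R, R)²` -/
noncomputable def sfPlJ (R : ℕ) : Finset (ℤ × ℤ) := Finset.Ico (-(R : ℤ)) R ×ˢ Finset.Ico (-(R : ℤ)) R

/-- the base measure carrying the density of the row measure -/
noncomputable def sfPlMw (p : ChyPar) : Measure p.Om := p.m.withDensity fun ω => ENNReal.ofReal (p.sg ω / (2 * Real.pi * p.H))

/-- the correspondence of the generic locality `L` is contained in the geometric one (= `SfLocC (sfHy η) (1 + η / 2) L` of `Soft/Entry.lean`; follows from `CyHyp.cn`) -/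
def SfPlLoc (η : ℝ) (L : (cylHyb η).Loc (1 + η / 2)) : Prop :=
  ∀ (p : ChyPar) (Λ T : ℝ) (k : ℕ) (T' : ℝ) (k' : ℕ) (x x' : p.Om × ℝ × ℝ), T' + (2 : ℝ)⁻¹ ^ k' ≤ T + (2 : ℝ)⁻¹ ^ k → L.cn p Λ T k T' k' x x' → CutLe T k T' k' →
    sfCn (sfHy η) p Λ T k T' k' x x'

theorem sf_pl_geo_eqns_cite : True := by
  have := @SfPlLoc.eq_1
  have := @sfPlPhi.eq_1
  have := @sfPlIx.eq_1
  have := @sfPlNb.eq_1
  have := @sfPlJ.eq_1
  have := @sfPlMw.eq_1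
  trivial

/-- the row measure is a product measure -/
theorem sf_pl_rw (p : ChyPar) (h : p.Ok) : p.rw = (sfPlMw p).prod (volume : Measure (ℝ × ℝ)) := by
  have := h.sf
  unfold ChyPar.rw sfPlMw
  rw [prod_withDensity_left]
  exact (h.mS.div_const _).ennreal_ofReal

theorem sf_pl_mw_sfin (p : ChyPar) (h : p.Ok) : SigmaFinite (sfPlMw p) := by
  have := h.sf
  unfold sfPlMw
  exact SigmaFinite.withDensity_ofReal _

/-- **LEAF GEO-1.**   `fun_prop` after unfolding (`h.mX`, `h.mB`, `h.mY`, `measurable_fst`, `measurable_snd`); `Int.measurable_floor`.   ~40 l. -/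
theorem sf_pl_phi_meas (p : ChyPar) (h : p.Ok) (Q0 : CyT) (T0 l0 ζ t : ℝ) :
    Measurable (sfPlPhi p Q0 T0 l0 ζ t) ∧ Measurable (sfPlIx p Q0 T0 l0 ζ t) := by
  have hX : Measurable (fun x : p.Om × ℝ × ℝ => p.X x.1) := h.mX.comp measurable_fst
  have hB : Measurable (fun x : p.Om × ℝ × ℝ => p.B x.1) := h.mB.comp measurable_fst
  have hY : Measurable (fun x : p.Om × ℝ × ℝ => p.Y x.1) := h.mY.comp measurable_fst
  have hD : Measurable (fun x : p.Om × ℝ × ℝ => x.2.1) := measurable_fst.comp measurable_snd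
  have hN : Measurable (fun x : p.Om × ℝ × ℝ => x.2.2) := measurable_snd.comp measurable_snd
  have h1 : Measurable (sfPlPhi p Q0 T0 l0 ζ t) := by
    unfold sfPlPhi cyVel cyPos ChyPar.co
    simp only
    refine Measurable.prodMk ?_ ?_
    · fun_prop
    · fun_prop
  refine ⟨h1, ?_⟩
  unfold sfPlIx
  exact Measurable.prodMk (Int.measurable_floor.comp (measurable_fst.comp h1)) (Int.measurable_floor.comp (measurable_snd.comp h1))

/-- **LEAF GEO-1.**   For fixed `ω` the cell is the product of two half-open intervals of lengths `l0 ζ` (variable `D`) and `ζ` (variable `N`): at `t = T0` the map `(D, N) ↦ sfPlPhi` is `((N - a)/ζ, (D - b)/(l0 ζ))`;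
`Int.floor_eq_iff`, `Measure.volume_eq_prod`, `Measure.prod_prod`, `Real.volume_Ico`.   ~80 l. -/
theorem sf_pl_cell_vol (p : ChyPar) (Q0 : CyT) (T0 l0 ζ : ℝ) (hl : 0 < l0) (hζ : 0 < ζ) (ω : p.Om) (c : ℤ × ℤ) :
    (volume : Measure (ℝ × ℝ)) {z | sfPlIx p Q0 T0 l0 ζ T0 (ω, z) = c} = ENNReal.ofReal (ζ * (l0 * ζ)) := by
  set a : ℝ := Q0.c + Q0.al * p.X ω + Q0.be * p.X ω ^ 2 + Q0.K * ((p.Y ω + T0 * p.X ω ^ 2) - 2 * p.X ω * (p.B ω + T0 * p.X ω)) with ha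
  set b : ℝ := Q0.d + Q0.al * (p.B ω + T0 * p.X ω) + Q0.be * (p.Y ω + T0 * p.X ω ^ 2) - Q0.K * (p.B ω + T0 * p.X ω) ^ 2 with hb
  have hlz : 0 < l0 * ζ := mul_pos hl hζ
  have hset : {z : ℝ × ℝ | sfPlIx p Q0 T0 l0 ζ T0 (ω, z) = c}
      = Set.Ico (b + c.2 * (l0 * ζ)) (b + (c.2 + 1) * (l0 * ζ)) ×ˢ Set.Ico (a + c.1 * ζ) (a + (c.1 + 1) * ζ) := by
    ext z
    have e1 : (sfPlPhi p Q0 T0 l0 ζ T0 (ω, z)).1 = (z.2 - a) / ζ := by
      simp only [sfPlPhi, cyVel, ChyPar.co, ha]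
      congr 1
      ring
    have e2 : (sfPlPhi p Q0 T0 l0 ζ T0 (ω, z)).2 = (z.1 - b) / (l0 * ζ) := by
      simp only [sfPlPhi, cyPos, ChyPar.co, hb]
      congr 1
      ring
    simp only [Set.mem_setOf_eq, sfPlIx, e1, e2, Set.mem_prod, Set.mem_Ico]
    rw [Prod.ext_iff]
    simp only
    rw [Int.floor_eq_iff, Int.floor_eq_iff, le_div_iff₀ hζ, div_lt_iff₀ hζ, le_div_iff₀ hlz, div_lt_iff₀ hlz]
    constructor
    · rintro ⟨⟨h1, h2⟩, h3, h4⟩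
      exact ⟨⟨by linarith, by linarith⟩, by linarith, by linarith⟩
    · rintro ⟨⟨h1, h2⟩, h3, h4⟩
      exact ⟨⟨by linarith, by linarith⟩, by linarith, by linarith⟩
  rw [hset, Measure.volume_eq_prod, Measure.prod_prod, Real.volume_Ico, Real.volume_Ico, mul_comm, ← ENNReal.ofReal_mul (by
    have : a + (c.1 + 1) * ζ - (a + c.1 * ζ) = ζ := by ring
    rw [this]; exact hζ.le)]
  congr 1
  ring

/-- **LEAF GEO-1.**   nested dyadic intervals.   `gn_cutle_anc`, `gn_anc_anc`; upper ends: `(a + 1)/2^k' ≤ (a / 2^(k'-k) + 1)/2^k` (`Nat.lt_succ_iff`, `Nat.div_add_mod`).   ~60 l. -/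
theorem sf_pl_nest {k k' kf : ℕ} (h1 : k ≤ k') (h2 : k' ≤ kf) (i : ℕ) :
    tmL k (ancI kf k i) ≤ tmL k' (ancI kf k' i) ∧ tmL k' (ancI kf k' i) + (2 : ℝ)⁻¹ ^ k' ≤ tmL k (ancI kf k i) + (2 : ℝ)⁻¹ ^ k := by
  have e := gn_anc_anc h1 h2 i
  rw [← e]
  set j := ancI kf k' i with hj
  have hc := gn_cutle_anc h1 j
  refine ⟨hc.2.1, ?_⟩
  obtain ⟨d, rfl⟩ := Nat.exists_eq_add_of_le h1
  unfold tmL ancI
  have hd : k + d - k = d := by omega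
  rw [hd]
  have hp : (0 : ℝ) < 2 ^ k := by positivity
  have hpd : (0 : ℝ) < 2 ^ d := by positivity
  have h2' : (j : ℝ) + 1 ≤ (((j / 2 ^ d : ℕ) : ℝ) + 1) * 2 ^ d := by
    have : j < (j / 2 ^ d + 1) * 2 ^ d := by
      rw [mul_comm]; exact Nat.lt_mul_div_succ j (by positivity)
    have h3 : j + 1 ≤ (j / 2 ^ d + 1) * 2 ^ d := this
    exact_mod_cast h3
  rw [inv_pow, inv_pow, pow_add]
  have e1 : (j : ℝ) / (2 ^ k * 2 ^ d) + (2 ^ k * 2 ^ d)⁻¹ = ((j : ℝ) + 1) / (2 ^ k * 2 ^ d) := by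
    field_simp
  have e2 : ((j / 2 ^ d : ℕ) : ℝ) / 2 ^ k + (2 ^ k)⁻¹ = ((((j / 2 ^ d : ℕ) : ℝ) + 1) * 2 ^ d) / (2 ^ k * 2 ^ d) := by
    field_simp
  rw [e1, e2]
  exact div_le_div_of_nonneg_right h2' (by positivity)

/-- **LEAF GEO-2: one correspondence moves the cell coordinates by at most `2 Λ d_f / ζ`.**
`x.1 = x'.1`, so the base parts of `p.co T0 x`, `p.co T0 x'` agree: the first coordinates differ by `(N' - N)/ζ`, the second by `((D' - D - (T'-T) N) - (T' - T0)(N' - N))/(l0 ζ)`;  `|N' - N| ≤ Λ d_k' ≤ Λ d_f` (`hy_lc_dl_mono`),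
`|D' - D - (T'-T)N| ≤ Λ ℓ_k d_k ≤ Λ l0 d_f`, `0 ≤ T' - T0 ≤ l0`;  `Prod.dist_eq`, `Real.dist_eq`.   ~100 l. -/
theorem sf_pl_drift (η : ℝ) (p : ChyPar) (hp : p.Ok) (Q0 : CyT) (T0 l0 ζ Λ T T' : ℝ) (k k' kf : ℕ) (x x' : p.Om × ℝ × ℝ) (hζ : 0 < ζ) (hl0 : 0 < l0) (hΛ : 0 ≤ Λ)
    (hT' : T0 ≤ T') (hT'' : T' ≤ T0 + l0) (hk : k' ≤ kf) (hq : (2 : ℝ)⁻¹ ^ k * p.dl k ≤ l0 * p.dl kf)
    (h : sfCn (sfHy η) p Λ T k T' k' x x') :
    dist (sfPlPhi p Q0 T0 l0 ζ T x) (sfPlPhi p Q0 T0 l0 ζ T' x') ≤ 2 * Λ * p.dl kf / ζ := by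
  obtain ⟨h1, h2, h3, h4, h5⟩ := h
  have h3' : x.1 = x'.1 := h3
  have h4' : |x'.2.2 - x.2.2| ≤ Λ * p.dl k' := h4
  have h5' : |x'.2.1 - x.2.1 - (T' - T) * x.2.2| ≤ Λ * ((2 : ℝ)⁻¹ ^ k * p.dl k) := h5
  have hm := hy_lc_dl_mono p hp hk
  have hd0 : 0 ≤ p.dl kf := Real.sqrt_nonneg _
  have hN : |x'.2.2 - x.2.2| ≤ Λ * p.dl kf := h4'.trans (mul_le_mul_of_nonneg_left hm hΛ)
  have hD : |x'.2.1 - x.2.1 - (T' - T) * x.2.2| ≤ Λ * (l0 * p.dl kf) := h5'.trans (mul_le_mul_of_nonneg_left hq hΛ)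
  have hlz : 0 < l0 * ζ := mul_pos hl0 hζ
  have e1 : (sfPlPhi p Q0 T0 l0 ζ T x).1 - (sfPlPhi p Q0 T0 l0 ζ T' x').1 = -(x'.2.2 - x.2.2) / ζ := by
    simp only [sfPlPhi, cyVel, ChyPar.co, h3']
    ring
  have e2 : (sfPlPhi p Q0 T0 l0 ζ T x).2 - (sfPlPhi p Q0 T0 l0 ζ T' x').2
      = (-(x'.2.1 - x.2.1 - (T' - T) * x.2.2) + (T' - T0) * (x'.2.2 - x.2.2)) / (l0 * ζ) := by
    simp only [sfPlPhi, cyPos, ChyPar.co, h3']
    ring
  rw [Prod.dist_eq, Real.dist_eq, Real.dist_eq, e1, e2]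
  have hΛd : 0 ≤ Λ * p.dl kf := mul_nonneg hΛ hd0
  refine max_le ?_ ?_
  · rw [abs_div, abs_neg, abs_of_pos hζ]
    refine div_le_div_of_nonneg_right ?_ hζ.le
    linarith
  · rw [abs_div, abs_of_pos hlz, div_le_div_iff₀ hlz hζ]
    have hb : |(-(x'.2.1 - x.2.1 - (T' - T) * x.2.2) + (T' - T0) * (x'.2.2 - x.2.2))| ≤ 2 * Λ * p.dl kf * l0 := by
      refine (abs_add_le _ _).trans ?_
      rw [abs_neg, abs_mul, abs_of_nonneg (by linarith : 0 ≤ T' - T0)]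
      have : (T' - T0) * |x'.2.2 - x.2.2| ≤ l0 * (Λ * p.dl kf) :=
        mul_le_mul (by linarith) hN (abs_nonneg _) hl0.le
      nlinarith
    calc _ ≤ 2 * Λ * p.dl kf * l0 * ζ := mul_le_mul_of_nonneg_right hb hζ.le
      _ = 2 * Λ * p.dl kf * (l0 * ζ) := by ring

/-- one step of the stack moves the cell coordinates by at most `δ` -/
theorem sf_pl_bar_step (η : ℝ) (L : (cylHyb η).Loc (1 + η / 2)) (hL : SfPlLoc η L) (p : ChyPar) (hp : p.Ok) (Q0 : CyT) (k0 kf i : ℕ) (ζ Λ δ : ℝ)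
    (hζ : 0 < ζ) (hΛ : 1 ≤ Λ) (hδ : 2 * Λ * p.dl kf ≤ δ * ζ) (k k' : ℕ) (hk0 : k0 ≤ k) (hkk : k ≤ k') (hk' : k' ≤ kf) (x x' : p.Om × ℝ × ℝ)
    (h : L.cn p Λ (tmL k (ancI kf k i)) k (tmL k' (ancI kf k' i)) k' x x') :
    dist (sfPlPhi p Q0 (tmL k0 (ancI kf k0 i)) ((2 : ℝ)⁻¹ ^ k0) ζ (tmL k (ancI kf k i)) x)
      (sfPlPhi p Q0 (tmL k0 (ancI kf k0 i)) ((2 : ℝ)⁻¹ ^ k0) ζ (tmL k' (ancI kf k' i)) x') ≤ δ := by
  have n1 := sf_pl_nest hkk hk' i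
  have n0 := sf_pl_nest (hk0.trans hkk) hk' i
  have hpos : ∀ j : ℕ, (0 : ℝ) < (2 : ℝ)⁻¹ ^ j := fun j => by positivity
  have hc : CutLe (tmL k (ancI kf k i)) k (tmL k' (ancI kf k' i)) k' := ⟨hkk, n1.1, by linarith [n1.2, hpos k']⟩
  have hs := hL p Λ _ k _ k' x x' n1.2 h hc
  have hq : (2 : ℝ)⁻¹ ^ k * p.dl k ≤ (2 : ℝ)⁻¹ ^ k0 * p.dl kf := by
    refine mul_le_mul ?_ (hy_lc_dl_mono p hp (hkk.trans hk')) (Real.sqrt_nonneg _) (hpos k0).le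
    exact pow_le_pow_of_le_one (by norm_num) (by norm_num) hk0
  refine (sf_pl_drift η p hp Q0 _ _ ζ Λ _ _ k k' kf x x' hζ (hpos k0) (by linarith) n0.1 (by linarith [n0.2, hpos k']) hk' hq hs).trans ?_
  rwa [div_le_iff₀ hζ]

/-- **LEAF GEO-3: barriers along a stack.**
Induction on `st` (generalising `k`, `r'`).   `[]`: if `x ∉ B`, `x' ∈ S'` were `Λ`-connected, `hL` (with `sf_pl_nest`, `gn_cutle_anc`, `gn_anc_self`) gives `sfCn`, `sf_pl_drift` gives `dist ≤ δ`, `hψ.dist_le_mul` gives `ψ(Φ x) ≤ ψ(Φ x') + δ ≤ r + δ ≤ r'`.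
`σ :: st`: `B1 = {ψ ∘ Φ_{T1} ≤ r' - δ}` (measurable: `sf_pl_phi_meas`, `hψ.continuous.measurable`), same argument for the first step, induction hypothesis with `k := σ.k`, `r' := r' - δ`.
`hq` of `sf_pl_drift`: `ℓ_k d_k = q_k` decreases (`hy_lc_ql`, `ChyPar.ql`), `d` increases.   ~200 l. -/
theorem sf_pl_bar (η : ℝ) (L : (cylHyb η).Loc (1 + η / 2)) (hL : SfPlLoc η L) (p : ChyPar) (hp : p.Ok) (Q0 : CyT) (k0 kf i : ℕ) (ζ Λ δ : ℝ)
    (hζ : 0 < ζ) (hΛ : 1 ≤ Λ) (hδ : 2 * Λ * p.dl kf ≤ δ * ζ) (ψ : ℝ × ℝ → ℝ) (hψ : LipschitzWith 1 ψ) (st : List (Stg (p.sys η))) (k : ℕ) (r r' : ℝ)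
    (S' : Set (p.Om × ℝ × ℝ)) (hk0 : k0 ≤ k) (hk : k ≤ kf) (hst : ∀ σ ∈ st, k ≤ σ.k ∧ σ.k ≤ kf) (hmono : st.Pairwise fun σ σ' => σ.k ≤ σ'.k)
    (hr : r + ((st.length : ℝ) + 1) * δ ≤ r')
    (hS' : S' ⊆ {x | ψ (sfPlPhi p Q0 (tmL k0 (ancI kf k0 i)) ((2 : ℝ)⁻¹ ^ k0) ζ (tmL kf i) x) ≤ r}) :
    Bar (M := cylHyb η) L p Λ kf i (tmL k (ancI kf k i)) k
      {x | ψ (sfPlPhi p Q0 (tmL k0 (ancI kf k0 i)) ((2 : ℝ)⁻¹ ^ k0) ζ (tmL k (ancI kf k i)) x) ≤ r'} st S' := by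
  have hlip : ∀ a b : ℝ × ℝ, ψ a ≤ ψ b + dist a b := by
    intro a b
    have h1 := hψ.dist_le_mul a b
    rw [Real.dist_eq] at h1
    have h2 := le_abs_self (ψ a - ψ b)
    simp only [NNReal.coe_one, one_mul] at h1
    linarith
  induction st generalizing k r' with
  | nil =>
    intro x hx x' hx' hcn
    apply hx
    have hcn' : L.cn p Λ (tmL k (ancI kf k i)) k (tmL kf (ancI kf kf i)) kf x x' := by
      rw [gn_anc_self]; exact hcn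
    have hd := sf_pl_bar_step η L hL p hp Q0 k0 kf i ζ Λ δ hζ hΛ hδ k kf hk0 hk le_rfl x x' hcn'
    rw [gn_anc_self] at hd
    have h1 := hlip _ _ |>.trans (add_le_add_right hd _)
    have h2 : ψ (sfPlPhi p Q0 (tmL k0 (ancI kf k0 i)) ((2 : ℝ)⁻¹ ^ k0) ζ (tmL kf i) x') ≤ r := hS' hx'
    simp only [List.length_nil, Nat.cast_zero, zero_add, one_mul] at hr
    show ψ _ ≤ r'
    linarith
  | cons σ st ih =>
    have hσ := hst σ (by simp)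
    rw [List.pairwise_cons] at hmono
    refine ⟨{x | ψ (sfPlPhi p Q0 (tmL k0 (ancI kf k0 i)) ((2 : ℝ)⁻¹ ^ k0) ζ (tmL σ.k (ancI kf σ.k i)) x) ≤ r' - δ}, ?_, ?_, ?_⟩
    · exact measurableSet_le (hψ.continuous.measurable.comp (sf_pl_phi_meas p hp Q0 _ _ ζ _).1) measurable_const
    · intro x hx x' hx' hcn
      apply hx
      have hd := sf_pl_bar_step η L hL p hp Q0 k0 kf i ζ Λ δ hζ hΛ hδ k σ.k hk0 hσ.1 hσ.2 x x' hcn
      have h1 := hlip _ _ |>.trans (add_le_add_right hd _)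
      have h2 : ψ (sfPlPhi p Q0 (tmL k0 (ancI kf k0 i)) ((2 : ℝ)⁻¹ ^ k0) ζ (tmL σ.k (ancI kf σ.k i)) x') ≤ r' - δ := hx'
      show ψ _ ≤ r'
      linarith
    · refine ih σ.k (r' - δ) (hk0.trans hσ.1) hσ.2 (fun σ' h' => ⟨hmono.1 σ' h', (hst σ' (by simp [h'])).2⟩) hmono.2 ?_
      simp only [List.length_cons, Nat.cast_add, Nat.cast_one] at hr
      linarith

/-- **LEAF GEO-4.**   cells and the gauge `ψ_c y = dist y (centre of c) - 1/2`; the far region and the gauge `R - dist y 0`.   `Int.floor_eq_iff`, `Prod.dist_eq`, `Real.dist_eq`, `abs_le`, `Finset.mem_product`, `Finset.mem_Icc`, `Int.le_floor`, `Int.floor_lt`.   ~150 l. -/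
theorem sf_pl_gauge (y : ℝ × ℝ) (c : ℤ × ℤ) (R : ℕ) :
    (((⌊y.1⌋, ⌊y.2⌋) : ℤ × ℤ) = c → dist y ((c.1 : ℝ) + 1 / 2, (c.2 : ℝ) + 1 / 2) - 1 / 2 ≤ 0) ∧
    (dist y ((c.1 : ℝ) + 1 / 2, (c.2 : ℝ) + 1 / 2) - 1 / 2 ≤ 1 / 2 → ((⌊y.1⌋, ⌊y.2⌋) : ℤ × ℤ) ∈ sfPlNb c) ∧
    (((⌊y.1⌋, ⌊y.2⌋) : ℤ × ℤ) ∉ sfPlJ R → (R : ℝ) - dist y 0 ≤ 0) ∧
    (∀ c' : ℤ × ℤ, ((sfPlJ R).filter fun c => c' ∈ sfPlNb c).card ≤ 9) ∧ (sfPlJ R).card = (2 * R) ^ 2 := by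
  refine ⟨?_, ?_, ?_, ?_, ?_⟩
  · intro h
    have h1 : ⌊y.1⌋ = c.1 := congrArg Prod.fst h
    have h2 : ⌊y.2⌋ = c.2 := congrArg Prod.snd h
    rw [Int.floor_eq_iff] at h1 h2
    rw [Prod.dist_eq, Real.dist_eq, Real.dist_eq]
    have a1 : |y.1 - ((c.1 : ℝ) + 1 / 2)| ≤ 1 / 2 := by
      rw [abs_le]; constructor <;> linarith [h1.1, h1.2]
    have a2 : |y.2 - ((c.2 : ℝ) + 1 / 2)| ≤ 1 / 2 := by
      rw [abs_le]; constructor <;> linarith [h2.1, h2.2]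
    have := max_le a1 a2
    linarith
  · intro h
    rw [Prod.dist_eq, Real.dist_eq, Real.dist_eq] at h
    have a1 : |y.1 - ((c.1 : ℝ) + 1 / 2)| ≤ 1 := by
      have := le_max_left |y.1 - ((c.1 : ℝ) + 1 / 2)| |y.2 - ((c.2 : ℝ) + 1 / 2)|
      linarith
    have a2 : |y.2 - ((c.2 : ℝ) + 1 / 2)| ≤ 1 := by
      have := le_max_right |y.1 - ((c.1 : ℝ) + 1 / 2)| |y.2 - ((c.2 : ℝ) + 1 / 2)|
      linarith
    rw [abs_le] at a1 a2
    unfold sfPlNb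
    rw [Finset.mem_product, Finset.mem_Icc, Finset.mem_Icc]
    refine ⟨⟨?_, ?_⟩, ⟨?_, ?_⟩⟩
    · rw [Int.le_floor]; push_cast; linarith [a1.1]
    · rw [← Int.lt_add_one_iff, Int.floor_lt]; push_cast; linarith [a1.2]
    · rw [Int.le_floor]; push_cast; linarith [a2.1]
    · rw [← Int.lt_add_one_iff, Int.floor_lt]; push_cast; linarith [a2.2]
  · intro h
    have key : ∀ t : ℝ, ¬ (-(R : ℤ) ≤ ⌊t⌋ ∧ ⌊t⌋ < R) → (R : ℝ) ≤ |t| := by
      intro t ht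
      by_cases h1 : -(R : ℤ) ≤ ⌊t⌋
      · have h2 : (R : ℤ) ≤ ⌊t⌋ := by
          by_contra hlt
          exact ht ⟨h1, not_le.1 hlt⟩
        rw [Int.le_floor] at h2
        push_cast at h2
        exact h2.trans (le_abs_self t)
      · have h2 : ⌊t⌋ < -(R : ℤ) := not_le.1 h1
        rw [Int.floor_lt] at h2
        push_cast at h2
        have := neg_abs_le t
        linarith
    unfold sfPlJ at h
    rw [Finset.mem_product, Finset.mem_Ico, Finset.mem_Ico] at h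
    rw [Prod.dist_eq, Real.dist_eq, Real.dist_eq]
    simp only [Prod.fst_zero, Prod.snd_zero, sub_zero]
    by_cases h1 : -(R : ℤ) ≤ ⌊y.1⌋ ∧ ⌊y.1⌋ < R
    · have h2 : ¬ (-(R : ℤ) ≤ ⌊y.2⌋ ∧ ⌊y.2⌋ < R) := fun h2 => h ⟨h1, h2⟩
      have := (key y.2 h2).trans (le_max_right |y.1| |y.2|)
      linarith
    · have := (key y.1 h1).trans (le_max_left |y.1| |y.2|)
      linarith
  · intro c'
    have hsub : ((sfPlJ R).filter fun c => c' ∈ sfPlNb c) ⊆ sfPlNb c' := by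
      intro d hd
      have h := (Finset.mem_filter.1 hd).2
      unfold sfPlNb at h ⊢
      rw [Finset.mem_product, Finset.mem_Icc, Finset.mem_Icc] at h ⊢
      obtain ⟨⟨h1, h2⟩, h3, h4⟩ := h
      refine ⟨⟨?_, ?_⟩, ?_, ?_⟩ <;> omega
    refine (Finset.card_le_card hsub).trans ?_
    unfold sfPlNb
    rw [Finset.card_product, Int.card_Icc, Int.card_Icc]
    have e1 : c'.1 + 1 + 1 - (c'.1 - 1) = 3 := by ring
    have e2 : c'.2 + 1 + 1 - (c'.2 - 1) = 3 := by ring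
    rw [e1, e2]
    exact le_of_eq (by decide)
  · unfold sfPlJ
    rw [Finset.card_product, Int.card_Ico]
    have e : ((R : ℤ) - -(R : ℤ)).toNat = 2 * R := by omega
    rw [e]
    ring

/-- **LEAF GEO-5: a root row in a neighbouring cell, flowed classically to the time `t`, lies in the test with the doubled normal width.**   `z` = the instantaneous coordinates at the time `t` of the classical ray through the root row `x`.
Same `ω`: the three base inequalities are those of `x'`.   Neighbouring cells: `|Φ(x).j - Φ_t(x').j| < 2`, i.e. `|N - N'| < 2ζ`, `|D - (D' - (t-T0)N')| < 2 l0 ζ`; so `|D + (t-T0)N - D'| < 4 l0 ζ`;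
`cyVel Q z - cyVel Q (p.co t x') = N - N'`, `cyPos Q z - cyPos Q (p.co t x') = D + (t-T0)N - D'`.   ~150 l. -/
theorem sf_pl_supp (p : ChyPar) (Q0 Q : CyT) (T0 l0 ζ t l : ℝ) (x x' : p.Om × ℝ × ℝ) (hω : x.1 = x'.1) (hζ : 0 < ζ) (hl0 : 0 < l0) (ht : T0 ≤ t) (ht' : t ≤ T0 + l0)
    (hnb : sfPlIx p Q0 T0 l0 ζ T0 x ∈ sfPlNb (sfPlIx p Q0 T0 l0 ζ t x')) (hx' : cyIn Q l (p.co t x')) (h1 : 2 * ζ ≤ Q.f) (h2 : 4 * (l0 * ζ) ≤ l * Q.f) :
    cyIn { Q with f := 2 * Q.f } l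
      ⟨p.X x.1, p.B x.1 + t * p.X x.1, p.Y x.1 + t * p.X x.1 ^ 2, x.2.2, x.2.1 - T0 * x.2.2 + t * x.2.2⟩ := by
  obtain ⟨a1, a2, a3, a4, a5⟩ := hx'
  have hlz : 0 < l0 * ζ := mul_pos hl0 hζ
  unfold sfPlNb sfPlIx at hnb
  rw [Finset.mem_product, Finset.mem_Icc, Finset.mem_Icc] at hnb
  simp only at hnb
  obtain ⟨⟨b1, b2⟩, b3, b4⟩ := hnb
  have key : ∀ u v : ℝ, ⌊v⌋ - 1 ≤ ⌊u⌋ → ⌊u⌋ ≤ ⌊v⌋ + 1 → |u - v| < 2 := by
    intro u v c1 c2
    have d1 := Int.floor_le u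
    have d2 := Int.lt_floor_add_one u
    have d3 := Int.floor_le v
    have d4 := Int.lt_floor_add_one v
    have c1' : (⌊v⌋ : ℝ) - 1 ≤ ⌊u⌋ := by exact_mod_cast c1
    have c2' : (⌊u⌋ : ℝ) ≤ ⌊v⌋ + 1 := by exact_mod_cast c2
    rw [abs_lt]
    constructor <;> linarith
  have k1 := key _ _ b1 b2
  have k2 := key _ _ b3 b4
  have e1 : (sfPlPhi p Q0 T0 l0 ζ T0 x).1 - (sfPlPhi p Q0 T0 l0 ζ t x').1 = (x.2.2 - x'.2.2) / ζ := by
    simp only [sfPlPhi, cyVel, ChyPar.co, hω]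
    ring
  have e2 : (sfPlPhi p Q0 T0 l0 ζ T0 x).2 - (sfPlPhi p Q0 T0 l0 ζ t x').2
      = (x.2.1 - (x'.2.1 - (t - T0) * x'.2.2)) / (l0 * ζ) := by
    simp only [sfPlPhi, cyPos, ChyPar.co, hω]
    ring
  rw [e1, abs_div, abs_of_pos hζ, div_lt_iff₀ hζ] at k1
  rw [e2, abs_div, abs_of_pos hlz, div_lt_iff₀ hlz] at k2
  refine ⟨?_, ?_, ?_, ?_, ?_⟩
  · simpa only [ChyPar.co, hω] using a1
  · simpa only [ChyPar.co, hω] using a2
  · simpa only [ChyPar.co, hω, cyTilt] using a3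
  · have e : cyVel { Q with f := 2 * Q.f } ⟨p.X x.1, p.B x.1 + t * p.X x.1, p.Y x.1 + t * p.X x.1 ^ 2, x.2.2, x.2.1 - T0 * x.2.2 + t * x.2.2⟩
        = cyVel Q (p.co t x') + (x.2.2 - x'.2.2) := by
      simp only [cyVel, ChyPar.co, hω]
      ring
    rw [e]
    refine (abs_add_le _ _).trans ?_
    show _ ≤ 2 * Q.f
    linarith
  · have e : cyPos { Q with f := 2 * Q.f } ⟨p.X x.1, p.B x.1 + t * p.X x.1, p.Y x.1 + t * p.X x.1 ^ 2, x.2.2, x.2.1 - T0 * x.2.2 + t * x.2.2⟩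
        = cyPos Q (p.co t x') + ((x.2.1 - (x'.2.1 - (t - T0) * x'.2.2)) + (t - T0) * (x.2.2 - x'.2.2)) := by
      simp only [cyPos, ChyPar.co, hω]
      ring
    rw [e]
    refine (abs_add_le _ _).trans ?_
    show _ ≤ l * (2 * Q.f)
    have hb : |(x.2.1 - (x'.2.1 - (t - T0) * x'.2.2)) + (t - T0) * (x.2.2 - x'.2.2)| ≤ 4 * (l0 * ζ) := by
      refine (abs_add_le _ _).trans ?_
      rw [abs_mul, abs_of_nonneg (by linarith : 0 ≤ t - T0)]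
      have : (t - T0) * |x.2.2 - x'.2.2| ≤ l0 * (2 * ζ) :=
        mul_le_mul (by linarith) k1.le (abs_nonneg _) hl0.le
      nlinarith
    linarith

end Claimed.Agent.R256
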