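import Claimed.Agent.R256.Soft.MPlAbs
import Claimed.Agent.R256.Soft.MPlGeo

/-!
# Row 256 (S0496), unit SOFT, block M7 PL, file 3: THE CLASSICAL COMPARISON EXPERIMENT      (architect helper73; prefix `sf_pl_`)

`E` = a hybrid experiment over `p : ChyPar`, `Q0` a frame, `ζ` a cell size.      INSTEAD OF charts + jitter (02 l.833-845) the root row measure is AVERAGED OVER THE CELLS of the normal phase plane, fibre by fibre:
* `sfPlDen η p E`          the density `|V_ℓ U(T0) v|²` of the root row measure with respect to `p.rw`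
* `sfPlCin η p E Q0 ζ`     the cell of a root row
* `sfPlMu η p E Q0 ζ`      the averaged root row measure
* `sfPlPar p T0 μ`         the classical cylinder whose particles are the rows `(ω, D, N)` of the time `T0`, with the measure `μ`, multiplicity `ℂ`
* `sfPlXp η p E μ κ' th'`  the free classical experiment: root and final scale of `E`, state `1`, labels = the labels of `E` with doubled normal width and the weights `th'`.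
FACTS: `sf_pl_mu_*` (total mass, marginals), `sf_pl_reg` (the averaged measure is `8κ`-regular DOWN TO WIDTH ZERO as soon as `ζ ≥ d_ℓ`: above `ζ` enlarge the test by one cell, below `ζ` use the area ratio `4 f²/ζ²`),
`sf_pl_set` (the classical polynomial setup in the same frame, joint density `(f0/ζ)²`), `sf_pl_cl_valid`.
-/

set_option autoImplicit false

namespace Claimed.Agent.R256

open MeasureTheory
open scoped ENNReal

/-- the classical cylinder carried by the rows of the time `T0` -/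
noncomputable def sfPlPar (p : ChyPar) (T0 : ℝ) (μ : Measure (p.Om × ℝ × ℝ)) : CclPar where
  Om := p.Om × ℝ × ℝ
  m := μ
  Fb := ℂ
  X := fun x => p.X x.1
  B := fun x => p.B x.1
  Y := fun x => p.Y x.1
  N := fun x => x.2.2
  D := fun x => x.2.1 - T0 * x.2.2

/-- the constant state `1` (junk value `0` if the measure is infinite) -/
noncomputable def sfPlOne {X : Type} [MeasurableSpace X] (μ : Measure X) : Lp ℂ 2 μ :=
  open Classical in if h : μ Set.univ ≠ ∞ then indicatorConstLp 2 MeasurableSet.univ h (1 : ℂ) else 0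

/-- the test with the doubled normal width -/
def sfPlDbl (Q : CyT) : CyT := { Q with f := 2 * Q.f }

/-- the free classical comparison experiment -/
noncomputable def sfPlXp (η : ℝ) (p : ChyPar) (E : Xp (p.sys η)) (μ : Measure (p.Om × ℝ × ℝ)) (κ' : ℝ) (th' : Fin E.L → p.Om × ℝ × ℝ → ℝ) :
    Xp ((sfPlPar p (tmL E.k0 E.i0) μ).sys η) where
  k0 := E.k0
  i0 := E.i0
  n := E.n
  v := sfPlOne μ
  e := E.e
  ka := κ'
  b0 := 0
  st := []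
  bT := 0
  L := E.L
  iv := E.iv
  ts := fun l => sfPlDbl (E.ts l)
  th := th'

/-- the density of the root row measure -/
noncomputable def sfPlDen (η : ℝ) (p : ChyPar) (E : Xp (p.sys η)) (x : p.Om × ℝ × ℝ) : ℝ≥0∞ :=
  ‖(p.an (tmL E.k0 E.i0) E.k0 E.v : p.Om × ℝ × ℝ → p.Fb) x‖ₑ ^ 2

/-- the cell of a root row -/
noncomputable def sfPlCin (η : ℝ) (p : ChyPar) (E : Xp (p.sys η)) (Q0 : CyT) (ζ : ℝ) : p.Om × ℝ × ℝ → ℤ × ℤ :=
  sfPlIx p Q0 (tmL E.k0 E.i0) ((2 : ℝ)⁻¹ ^ E.k0) ζ (tmL E.k0 E.i0)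

/-- the root row measure averaged over the cells -/
noncomputable def sfPlMu (η : ℝ) (p : ChyPar) (E : Xp (p.sys η)) (Q0 : CyT) (ζ : ℝ) : Measure (p.Om × ℝ × ℝ) :=
  p.rw.withDensity (sfPlAvg (volume : Measure (ℝ × ℝ)) (sfPlCin η p E Q0 ζ) (ENNReal.ofReal (ζ * ((2 : ℝ)⁻¹ ^ E.k0 * ζ))) (sfPlDen η p E))

theorem sf_pl_cl_eqns_cite : True := by
  have := @sfPlPar.eq_1
  have := @sfPlOne.eq_1
  have := @sfPlDbl.eq_1
  have := @sfPlXp.eq_1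
  have := @sfPlDen.eq_1
  have := @sfPlCin.eq_1
  have := @sfPlMu.eq_1
  trivial

/-! ### the classical system of a finite measure -/

/-- the constant state is `1` a.e. -/
theorem sf_pl_cl_one_ae {X : Type} [MeasurableSpace X] (μ : Measure X) [IsFiniteMeasure μ] : (sfPlOne μ : X → ℂ) =ᵐ[μ] fun _ => 1 := by
  unfold sfPlOne
  rw [dif_pos (measure_ne_top μ Set.univ)]
  filter_upwards [indicatorConstLp_coeFn (p := 2) (hs := MeasurableSet.univ) (hμs := measure_ne_top μ Set.univ) (c := (1 : ℂ))] with x hx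
  rw [hx]
  simp

/-- **LEAF CL-1.**   `CclPar.sys`: `An = id`; `sfPlOne μ = 1` a.e. (`indicatorConstLp_coeFn`, `dif_pos`); `PkSys.en`, `PkSys.ms` unfold to integrals.   ~80 l. -/
theorem sf_pl_cl_en (η : ℝ) (p : ChyPar) (T0 : ℝ) (μ : Measure (p.Om × ℝ × ℝ)) [IsFiniteMeasure μ] (T : ℝ) (k b : ℕ) (θ : p.Om × ℝ × ℝ → ℝ) :
    ((sfPlPar p T0 μ).sys η).en T k b θ (sfPlOne μ) = ∫ x, θ x ∂μ := by
  show ∫ x, θ x * ‖(sfPlOne μ : p.Om × ℝ × ℝ → ℂ) x‖ ^ 2 ∂μ = _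
  refine integral_congr_ae ?_
  filter_upwards [sf_pl_cl_one_ae μ] with x hx
  rw [hx]
  simp

/-- **LEAF CL-1.**   `sf_pl_cl_en` with the indicator; `integral_indicator`, `setIntegral_const` / `Measure.real`.   ~30 l. -/
theorem sf_pl_cl_ms (η : ℝ) (p : ChyPar) (T0 : ℝ) (μ : Measure (p.Om × ℝ × ℝ)) [IsFiniteMeasure μ] (T : ℝ) (k b : ℕ) (S : Set (p.Om × ℝ × ℝ)) (hS : MeasurableSet S) :
    ((sfPlPar p T0 μ).sys η).ms T k b S (sfPlOne μ) = μ.real S := by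
  refine (sf_pl_cl_en η p T0 μ T k b (S.indicator fun _ => 1)).trans ?_
  rw [integral_indicator hS, setIntegral_const]
  simp

/-- **LEAF CL-1.**   `‖1‖² = μ univ` (`norm_indicatorConstLp`, or `gn_norm_sq`).   ~30 l. -/
theorem sf_pl_cl_norm {X : Type} [MeasurableSpace X] (μ : Measure X) [IsFiniteMeasure μ] : ‖sfPlOne μ‖ ^ 2 = μ.real Set.univ := by
  rw [gn_norm_sq]
  rw [integral_congr_ae (g := fun _ => (1 : ℝ))]
  · simp
  · filter_upwards [sf_pl_cl_one_ae μ] with x hx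
    rw [hx]
    simp

theorem sf_pl_cl_ok (p : ChyPar) (h : p.Ok) (T0 : ℝ) (μ : Measure (p.Om × ℝ × ℝ)) [IsFiniteMeasure μ] : (sfPlPar p T0 μ).Ok where
  sf := by
    show SigmaFinite μ
    infer_instance
  mX := h.mX.comp measurable_fst
  mB := h.mB.comp measurable_fst
  mY := h.mY.comp measurable_fst
  mN := measurable_snd.comp measurable_snd
  mD := (measurable_fst.comp measurable_snd).sub ((measurable_snd.comp measurable_snd).const_mul T0)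

/-- at the time `T0` the classical coordinates are the hybrid ones -/
theorem sf_pl_cl_co (p : ChyPar) (T0 : ℝ) (μ : Measure (p.Om × ℝ × ℝ)) (x : p.Om × ℝ × ℝ) : (sfPlPar p T0 μ).co T0 x = p.co T0 x := by
  show (⟨p.X x.1, p.B x.1 + T0 * p.X x.1, p.Y x.1 + T0 * p.X x.1 ^ 2, x.2.2, x.2.1 - T0 * x.2.2 + T0 * x.2.2⟩ : Cy5) = _
  rw [sub_add_cancel]
  rfl

/-! ### the averaged root row measure -/

section

variable (η : ℝ) (p : ChyPar) (hp : p.Ok) (E : Xp (p.sys η)) (Q0 : CyT) (ζ : ℝ) (hζ : 0 < ζ)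

include hp

theorem sf_pl_den_meas : Measurable (sfPlDen η p E) :=
  ((Lp.stronglyMeasurable _).enorm).pow_const 2

include hζ

/-- cell-constant weights (auxiliary form of `sf_pl_mu_wt`) -/
theorem sf_pl_mu_wt_aux (Θ : p.Om × (ℤ × ℤ) → ℝ≥0∞) (hΘ : Measurable Θ) :
    ∫⁻ x, Θ (x.1, sfPlCin η p E Q0 ζ x) ∂(sfPlMu η p E Q0 ζ) = ∫⁻ x, Θ (x.1, sfPlCin η p E Q0 ζ x) * sfPlDen η p E x ∂p.rw := by
  have := sf_pl_mw_sfin p hp
  have hl0 : (0 : ℝ) < (2 : ℝ)⁻¹ ^ E.k0 := by positivity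
  have hc : Measurable (sfPlCin η p E Q0 ζ) := (sf_pl_phi_meas p hp Q0 _ _ ζ _).2
  have hf := sf_pl_den_meas η p hp E
  have hV : 0 < ζ * ((2 : ℝ)⁻¹ ^ E.k0 * ζ) := by positivity
  have hA := sf_pl_avg_meas (volume : Measure (ℝ × ℝ)) (sfPlCin η p E Q0 ζ) hc (ENNReal.ofReal (ζ * ((2 : ℝ)⁻¹ ^ E.k0 * ζ))) (sfPlDen η p E) hf
  have hΘc : Measurable fun x : p.Om × ℝ × ℝ => Θ (x.1, sfPlCin η p E Q0 ζ x) := hΘ.comp (measurable_fst.prodMk hc)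
  unfold sfPlMu
  rw [lintegral_withDensity_eq_lintegral_mul _ hA hΘc, sf_pl_rw p hp]
  have h := sf_pl_avg_wt (sfPlMw p) (volume : Measure (ℝ × ℝ)) (sfPlCin η p E Q0 ζ) hc (ENNReal.ofReal (ζ * ((2 : ℝ)⁻¹ ^ E.k0 * ζ))) (sfPlDen η p E) hf
    (by simpa using hV) ENNReal.ofReal_ne_top (fun ω c' => sf_pl_cell_vol p Q0 _ _ ζ hl0 hζ ω c') Θ hΘ
  rw [← h]
  refine lintegral_congr fun x => ?_
  simp only [Pi.mul_apply]
  rw [mul_comm]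

/-- **LEAF MU-1: sets of exact indices have the same mass; total mass.**   `withDensity_apply`, `sf_pl_rw`, `sf_pl_avg_wt` with `Θ (ω, c) = 1_U ω` (`sf_pl_cell_vol`), `hy_fl_ms_lint`.   ~120 l. -/
theorem sf_pl_mu_base (U : Set p.Om) (hU : MeasurableSet U) :
    sfPlMu η p E Q0 ζ {x | x.1 ∈ U} = ENNReal.ofReal ((p.sys η).ms (tmL E.k0 E.i0) E.k0 E.b0 {x | x.1 ∈ U} E.v) := by
  have hU' : MeasurableSet {x : p.Om × ℝ × ℝ | x.1 ∈ U} := measurable_fst hU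
  have h := sf_pl_mu_wt_aux η p hp E Q0 ζ hζ (fun y => U.indicator (fun _ => 1) y.1) ((measurable_const.indicator hU).comp measurable_fst)
  refine Eq.trans ?_ (hy_fl_ms_lint p hp η (tmL E.k0 E.i0) E.k0 E.b0 _ hU' E.v).symm
  rw [← lintegral_indicator hU', ← lintegral_indicator_one hU']
  refine Eq.trans (lintegral_congr fun x => ?_) (h.trans (lintegral_congr fun x => ?_))
  · by_cases hx : x.1 ∈ U
    · rw [Set.indicator_of_mem (show x ∈ {x : p.Om × ℝ × ℝ | x.1 ∈ U} from hx), Set.indicator_of_mem hx]; rfl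
    · rw [Set.indicator_of_notMem (show x ∉ {x : p.Om × ℝ × ℝ | x.1 ∈ U} from hx), Set.indicator_of_notMem hx]
  · by_cases hx : x.1 ∈ U
    · rw [Set.indicator_of_mem (show x ∈ {x : p.Om × ℝ × ℝ | x.1 ∈ U} from hx), Set.indicator_of_mem hx, one_mul]; rfl
    · rw [Set.indicator_of_notMem (show x ∉ {x : p.Om × ℝ × ℝ | x.1 ∈ U} from hx), Set.indicator_of_notMem hx, zero_mul]

/-- **LEAF MU-1.**   `U = univ`; `gn_ms_le`-type: `ms univ = ‖an v‖² = ‖v‖²` (`hy_an_norm`, `hy_fl_norm_sq`).   ~40 l. -/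
theorem sf_pl_mu_univ : sfPlMu η p E Q0 ζ Set.univ = ENNReal.ofReal (‖E.v‖ ^ 2) := by
  have h := sf_pl_mu_base η p hp E Q0 ζ hζ Set.univ MeasurableSet.univ
  have e : {x : p.Om × ℝ × ℝ | x.1 ∈ (Set.univ : Set p.Om)} = Set.univ := by ext x; simp
  rw [e] at h
  refine h.trans ((hy_fl_ms_lint p hp η (tmL E.k0 E.i0) E.k0 E.b0 {x : p.Om × ℝ × ℝ | x.1 ∈ (Set.univ : Set p.Om)} (e ▸ MeasurableSet.univ) E.v).trans ?_)
  rw [e, Measure.restrict_univ, ← hy_fl_norm_sq]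
  exact congrArg (fun t : ℝ => ENNReal.ofReal (t ^ 2)) (hy_an_norm p hp (tmL E.k0 E.i0) E.k0 E.v)

theorem sf_pl_mu_fin : IsFiniteMeasure (sfPlMu η p E Q0 ζ) :=
  ⟨by rw [sf_pl_mu_univ η p hp E Q0 ζ hζ]; exact ENNReal.ofReal_lt_top⟩

/-- **LEAF MU-2: cell-constant weights.**   `lintegral_withDensity_eq_lintegral_mul`, `sf_pl_rw`, `sf_pl_avg_wt`.   ~60 l. -/
theorem sf_pl_mu_wt (Θ : p.Om × (ℤ × ℤ) → ℝ≥0∞) (hΘ : Measurable Θ) :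
    ∫⁻ x, Θ (x.1, sfPlCin η p E Q0 ζ x) ∂(sfPlMu η p E Q0 ζ) = ∫⁻ x, Θ (x.1, sfPlCin η p E Q0 ζ x) * sfPlDen η p E x ∂p.rw := by
  exact sf_pl_mu_wt_aux η p hp E Q0 ζ hζ Θ hΘ

/-- **LEAF MU-2: the mass of a set** (`sf_pl_avg_set` in the model).   ~60 l. -/
theorem sf_pl_mu_set (S S' : Set (p.Om × ℝ × ℝ)) (hS : MeasurableSet S) (hS' : MeasurableSet S') (c : ℝ) (hc : 0 ≤ c)
    (hsat : ∀ ω z z', (ω, z) ∈ S → sfPlCin η p E Q0 ζ (ω, z') = sfPlCin η p E Q0 ζ (ω, z) → (ω, z') ∈ S')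
    (hpart : ∀ ω c', (volume : Measure (ℝ × ℝ)) {z | (ω, z) ∈ S ∧ sfPlCin η p E Q0 ζ (ω, z) = c'} ≤ ENNReal.ofReal (c * (ζ * ((2 : ℝ)⁻¹ ^ E.k0 * ζ)))) :
    (sfPlMu η p E Q0 ζ).real S ≤ c * (p.sys η).ms (tmL E.k0 E.i0) E.k0 E.b0 S' E.v := by
  have := sf_pl_mw_sfin p hp
  have hcm : Measurable (sfPlCin η p E Q0 ζ) := (sf_pl_phi_meas p hp Q0 _ _ ζ _).2
  have hf := sf_pl_den_meas η p hp E
  have h := sf_pl_avg_set (sfPlMw p) (volume : Measure (ℝ × ℝ)) (sfPlCin η p E Q0 ζ) hcm (ENNReal.ofReal (ζ * ((2 : ℝ)⁻¹ ^ E.k0 * ζ))) (sfPlDen η p E) hf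
    S S' hS hS' (ENNReal.ofReal c) hsat (fun ω c' => by rw [← ENNReal.ofReal_mul hc]; exact hpart ω c')
  rw [← sf_pl_rw p hp] at h
  have h1 : sfPlMu η p E Q0 ζ S ≤ ENNReal.ofReal (c * (p.sys η).ms (tmL E.k0 E.i0) E.k0 E.b0 S' E.v) := by
    rw [ENNReal.ofReal_mul hc, hy_fl_ms_lint p hp η _ _ _ _ hS']
    unfold sfPlMu
    rw [withDensity_apply _ hS]
    exact h
  have hms : 0 ≤ (p.sys η).ms (tmL E.k0 E.i0) E.k0 E.b0 S' E.v := by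
    unfold PkSys.ms PkSys.en
    refine integral_nonneg fun x => mul_nonneg (Set.indicator_nonneg (fun _ _ => zero_le_one) x) (by positivity)
  exact ENNReal.toReal_le_of_le_ofReal (mul_nonneg hc hms) h1

omit hp in
theorem sf_pl_reg_cin (ω : p.Om) (z z' : ℝ × ℝ)
    (h : sfPlCin η p E Q0 ζ (ω, z') = sfPlCin η p E Q0 ζ (ω, z)) :
    |z'.2 - z.2| < ζ ∧ |z'.1 - z.1| < (2 : ℝ)⁻¹ ^ E.k0 * ζ := by
  have hl : (0:ℝ) < (2 : ℝ)⁻¹ ^ E.k0 := by positivity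
  unfold sfPlCin sfPlIx sfPlPhi at h
  simp only [Prod.mk.injEq, sub_self, zero_mul, sub_zero] at h
  obtain ⟨h1, h2⟩ := h
  have a1 := Int.abs_sub_lt_one_of_floor_eq_floor h1
  have a2 := Int.abs_sub_lt_one_of_floor_eq_floor h2
  have e1 : cyVel Q0 (p.co (tmL E.k0 E.i0) (ω, z')) / ζ - cyVel Q0 (p.co (tmL E.k0 E.i0) (ω, z)) / ζ = (z'.2 - z.2) / ζ := by
    simp only [cyVel, ChyPar.co]; ring
  have e2 : cyPos Q0 (p.co (tmL E.k0 E.i0) (ω, z')) / ((2 : ℝ)⁻¹ ^ E.k0 * ζ) - cyPos Q0 (p.co (tmL E.k0 E.i0) (ω, z)) / ((2 : ℝ)⁻¹ ^ E.k0 * ζ)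
      = (z'.1 - z.1) / ((2 : ℝ)⁻¹ ^ E.k0 * ζ) := by
    simp only [cyPos, ChyPar.co]; ring
  rw [e1, abs_div, abs_of_pos hζ, div_lt_one hζ] at a1
  rw [e2, abs_div, abs_of_pos (mul_pos hl hζ), div_lt_one (mul_pos hl hζ)] at a2
  exact ⟨a1, a2⟩

omit hp hζ in
theorem sf_pl_reg_num {η f ζ : ℝ} (h0 : 0 < η) (h1 : η < 1) (hf : 0 < f) (hζ : 0 < ζ) :
    min 1 (4 * f ^ 2 / ζ ^ 2) * (f + ζ) ^ (1 - η) ≤ 8 * f ^ (1 - η) := by
  have he : 0 < 1 - η := by linarith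
  have h2 : (2 : ℝ) ^ (1 - η) ≤ 2 := by
    calc (2 : ℝ) ^ (1 - η) ≤ (2 : ℝ) ^ (1 : ℝ) := Real.rpow_le_rpow_of_exponent_le (by norm_num) (by linarith)
      _ = 2 := Real.rpow_one 2
  have hfp : 0 < f ^ (1 - η) := Real.rpow_pos_of_pos hf _
  have hζp : 0 < ζ ^ (1 - η) := Real.rpow_pos_of_pos hζ _
  rcases le_or_gt ζ f with h | h
  · calc min 1 (4 * f ^ 2 / ζ ^ 2) * (f + ζ) ^ (1 - η) ≤ 1 * (2 * f) ^ (1 - η) := by
          refine mul_le_mul (min_le_left _ _) (Real.rpow_le_rpow (by positivity) (by linarith) he.le) (by positivity) zero_le_one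
      _ = 2 ^ (1 - η) * f ^ (1 - η) := by rw [one_mul, Real.mul_rpow (by norm_num) hf.le]
      _ ≤ 2 * f ^ (1 - η) := by gcongr
      _ ≤ 8 * f ^ (1 - η) := by gcongr; norm_num
  · have e1 : f ^ 2 = f ^ (1 - η) * f ^ (1 + η) := by
      rw [← Real.rpow_add hf, show 1 - η + (1 + η) = (2 : ℕ) by norm_num, Real.rpow_natCast]
    have e2 : ζ ^ 2 = ζ ^ (1 - η) * ζ ^ (1 + η) := by
      rw [← Real.rpow_add hζ, show 1 - η + (1 + η) = (2 : ℕ) by norm_num, Real.rpow_natCast]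
    have e3 : f ^ (1 + η) ≤ ζ ^ (1 + η) := Real.rpow_le_rpow hf.le h.le (by linarith)
    have hζq : 0 < ζ ^ (1 + η) := Real.rpow_pos_of_pos hζ _
    calc min 1 (4 * f ^ 2 / ζ ^ 2) * (f + ζ) ^ (1 - η) ≤ (4 * f ^ 2 / ζ ^ 2) * (2 * ζ) ^ (1 - η) := by
          refine mul_le_mul (min_le_right _ _) (Real.rpow_le_rpow (by positivity) (by linarith) he.le) (by positivity) (by positivity)
      _ = (4 * f ^ 2 / ζ ^ 2) * (2 ^ (1 - η) * ζ ^ (1 - η)) := by rw [Real.mul_rpow (by norm_num) hζ.le]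
      _ ≤ (4 * f ^ 2 / ζ ^ 2) * (2 * ζ ^ (1 - η)) := by gcongr
      _ = 8 * f ^ (1 - η) * (f ^ (1 + η) / ζ ^ (1 + η)) := by
          rw [e1, e2]; field_simp; ring
      _ ≤ 8 * f ^ (1 - η) * 1 := by
          gcongr
          exact (div_le_one hζq).2 e3
      _ = 8 * f ^ (1 - η) := mul_one _

/-- **LEAF REG: the averaged measure is regular down to width zero.**
`Q⁺ = {Q with f := Q.f + ζ}` is admissible (`hd`), `S = cell Q`, `S' = cell Q⁺`.   Saturation: rows of one cell with the same `ω` differ by `< ζ` in `N` and `< l0 ζ` in `D`; `cyVel`, `cyPos` of `Q` change by the same amounts.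
Part in a cell: `≤ min (cell area) (area of the box {|N - a| ≤ f, |D - b| ≤ l0 f}) = min 1 (4 f²/ζ²) · ζ l0 ζ`  (`sf_pl_cell_vol`, `measure_mono`, `Real.volume_Icc`, `Measure.prod_prod`).   `sf_pl_mu_set` + `Valid.reg` for `Q⁺`.
Numerics: `min 1 (4 f²/ζ²) (f + ζ)^(1-η) ≤ 8 f^(1-η)`: if `ζ ≤ f`: `(2f)^(1-η) ≤ 2 f^(1-η)`;  if `f < ζ`: `4 (f/ζ)² (2ζ)^(1-η) ≤ 8 f^(1-η) (f/ζ)^(1+η)`.   ~350 l. -/
theorem sf_pl_reg (h0 : 0 < η) (h1 : η < 1) (hE : E.Valid) (hd : p.dl E.k0 ≤ ζ) (Q : CyT) (hr : 0 < Q.r) (hf : 0 < Q.f) :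
    (sfPlMu η p E Q0 ζ).real {x | cyIn Q ((2 : ℝ)⁻¹ ^ E.k0) (p.co (tmL E.k0 E.i0) x)} ≤ 8 * E.ka * cyWt η Q := by
  have hl : (0:ℝ) < (2 : ℝ)⁻¹ ^ E.k0 := by positivity
  obtain ⟨Qp, hQp⟩ : ∃ Qp : CyT, Qp = { Q with f := Q.f + ζ } := ⟨_, rfl⟩
  obtain ⟨c, hc⟩ : ∃ c : ℝ, c = min 1 (4 * Q.f ^ 2 / ζ ^ 2) := ⟨_, rfl⟩
  have hc0 : 0 ≤ c := by rw [hc]; positivity
  have hmain := sf_pl_mu_set η p hp E Q0 ζ hζ {x | cyIn Q ((2 : ℝ)⁻¹ ^ E.k0) (p.co (tmL E.k0 E.i0) x)}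
    {x | cyIn Qp ((2 : ℝ)⁻¹ ^ E.k0) (p.co (tmL E.k0 E.i0) x)} (hy_fl_cell_meas p hp Q _ _) (hy_fl_cell_meas p hp Qp _ _) c hc0 ?_ ?_
  · have hreg := hE.reg Qp (by
      rw [hQp]
      exact ⟨hr, by positivity, by show p.dl E.k0 ≤ Q.f + ζ; linarith⟩)
    have hreg' : (p.sys η).ms (tmL E.k0 E.i0) E.k0 E.b0 {x | cyIn Qp ((2 : ℝ)⁻¹ ^ E.k0) (p.co (tmL E.k0 E.i0) x)} E.v ≤ E.ka * cyWt η Qp := hreg
    have hnum := sf_pl_reg_num h0 h1 hf hζ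
    have hka := hE.ka_pos
    have hrp : 0 < Q.r ^ (3 + η) := Real.rpow_pos_of_pos hr _
    calc (sfPlMu η p E Q0 ζ).real {x | cyIn Q ((2 : ℝ)⁻¹ ^ E.k0) (p.co (tmL E.k0 E.i0) x)}
        ≤ c * (E.ka * cyWt η Qp) := hmain.trans (mul_le_mul_of_nonneg_left hreg' hc0)
      _ = E.ka * Q.r ^ (3 + η) * (min 1 (4 * Q.f ^ 2 / ζ ^ 2) * (Q.f + ζ) ^ (1 - η)) := by
          rw [hc, hQp]; unfold cyWt; ring
      _ ≤ E.ka * Q.r ^ (3 + η) * (8 * Q.f ^ (1 - η)) := by gcongr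
      _ = 8 * E.ka * cyWt η Q := by unfold cyWt; ring
  · intro ω z z' hz hcz
    obtain ⟨c1, c2⟩ := sf_pl_reg_cin η p E Q0 ζ hζ ω z z' hcz
    obtain ⟨g1, g2, g3, g4, g5⟩ := hz
    rw [hQp]
    refine ⟨g1, g2, g3, ?_, ?_⟩
    · have e : cyVel { Q with f := Q.f + ζ } (p.co (tmL E.k0 E.i0) (ω, z')) = cyVel Q (p.co (tmL E.k0 E.i0) (ω, z)) + (z'.2 - z.2) := by
        simp only [cyVel, ChyPar.co]; ring
      rw [e]
      exact (abs_add_le _ _).trans (add_le_add g4 c1.le)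
    · have e : cyPos { Q with f := Q.f + ζ } (p.co (tmL E.k0 E.i0) (ω, z')) = cyPos Q (p.co (tmL E.k0 E.i0) (ω, z)) + (z'.1 - z.1) := by
        simp only [cyPos, ChyPar.co]; ring
      rw [e]
      refine (abs_add_le _ _).trans ?_
      show _ ≤ (2 : ℝ)⁻¹ ^ E.k0 * (Q.f + ζ)
      rw [mul_add]
      exact add_le_add g5 c2.le
  · intro ω c'
    rcases le_total 1 (4 * Q.f ^ 2 / ζ ^ 2) with hcase | hcase
    · rw [hc, min_eq_left hcase, one_mul, ← sf_pl_cell_vol p Q0 (tmL E.k0 E.i0) _ ζ hl hζ ω c']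
      exact measure_mono fun z hz => hz.2
    · rw [hc, min_eq_right hcase]
      obtain ⟨a, ha⟩ : ∃ a : ℝ, ∀ z : ℝ × ℝ, cyVel Q (p.co (tmL E.k0 E.i0) (ω, z)) = z.2 - a :=
        ⟨-cyVel Q (p.co (tmL E.k0 E.i0) (ω, (0, 0))), fun z => by simp only [cyVel, ChyPar.co]; ring⟩
      obtain ⟨b, hb⟩ : ∃ b : ℝ, ∀ z : ℝ × ℝ, cyPos Q (p.co (tmL E.k0 E.i0) (ω, z)) = z.1 - b :=
        ⟨-cyPos Q (p.co (tmL E.k0 E.i0) (ω, (0, 0))), fun z => by simp only [cyPos, ChyPar.co]; ring⟩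
      have hsub : {z : ℝ × ℝ | (ω, z) ∈ {x | cyIn Q ((2 : ℝ)⁻¹ ^ E.k0) (p.co (tmL E.k0 E.i0) x)} ∧ sfPlCin η p E Q0 ζ (ω, z) = c'}
          ⊆ Set.Icc (b - (2 : ℝ)⁻¹ ^ E.k0 * Q.f) (b + (2 : ℝ)⁻¹ ^ E.k0 * Q.f) ×ˢ Set.Icc (a - Q.f) (a + Q.f) := by
        rintro z ⟨⟨-, -, -, g4, g5⟩, -⟩
        rw [ha] at g4
        rw [hb] at g5
        rw [abs_le] at g4 g5
        exact ⟨⟨by linarith, by linarith⟩, ⟨by linarith, by linarith⟩⟩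
      refine (measure_mono hsub).trans (le_of_eq ?_)
      rw [Measure.volume_eq_prod, Measure.prod_prod, Real.volume_Icc, Real.volume_Icc, ← ENNReal.ofReal_mul (by nlinarith)]
      congr 1
      field_simp
      ring

omit hζ in
theorem sf_pl_set1_base_meas (l T : ℝ) : Measurable fun ω : p.Om => cyBase Q0 l (p.co T (ω, ((0 : ℝ), (0 : ℝ)))) := by
  have h1 := hp.mX
  have h2 := hp.mB
  have h3 := hp.mY
  unfold cyBase cyTilt ChyPar.co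
  fun_prop

omit hζ in
theorem sf_pl_set1_nor_meas (l T : ℝ) : Measurable fun x : p.Om × ℝ × ℝ => cyNor Q0 l (p.co T x) := by
  have h1 : Measurable fun x : p.Om × ℝ × ℝ => p.X x.1 := hp.mX.comp measurable_fst
  have h2 : Measurable fun x : p.Om × ℝ × ℝ => p.B x.1 := hp.mB.comp measurable_fst
  have h3 : Measurable fun x : p.Om × ℝ × ℝ => p.Y x.1 := hp.mY.comp measurable_fst
  unfold cyNor cyVel cyPos ChyPar.co
  fun_prop

omit hp hζ in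
theorem sf_pl_set1_num {s : ℝ} (hs0 : 0 < s) (hs : s ≤ 1 / 2) (C : ℕ) : s ^ (-(C : ℝ)) + s ^ (-((C : ℝ) + 2)) ≤ s ^ (-((C : ℝ) + 3)) := by
  have e1 : s ^ (-((C : ℝ) + 3)) = s ^ (-((C : ℝ) + 2)) * s⁻¹ := by
    rw [← Real.rpow_neg_one s, ← Real.rpow_add hs0]
    congr 1
    ring
  have e2 : s ^ (-(C : ℝ)) ≤ s ^ (-((C : ℝ) + 2)) := Real.rpow_le_rpow_of_exponent_ge hs0 (by linarith) (by linarith)
  have e3 : 2 ≤ s⁻¹ := by
    rw [le_inv_comm₀ (by norm_num) hs0]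
    linarith
  have e4 : 0 < s ^ (-((C : ℝ) + 2)) := Real.rpow_pos_of_pos hs0 _
  rw [e1]
  nlinarith

/-- **LEAF SET-1: support, tails, marginal density** of the averaged measure in the frame `Q0`.
`supp`, `dens`: the sets depend only on `ω` (`cyBase Q0 l (p.co T0 x)` is a function of `x.1`): `sf_pl_mu_base`.      `tail`: `sf_pl_mu_set` with `c = 1`, `S = {s^-(C+3) < cyNorSz}`, `S' = {s^-C < cyNorSz}`: inside a cell `cyNor` moves by `< ζ/f0 ≤ s^-(C+2)`,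
and `s^-C + s^-(C+2) ≤ s^-(C+3)` as `s ≤ 1/2`.   ~250 l. -/
theorem sf_pl_set1 (hE : E.Valid) (C A : ℕ) (h : CySet (p.sys η) p.co η False C A E Q0) (hn : 1 ≤ E.n) (hζ1 : ζ ≤ E.s ^ (-((C : ℝ) + 2)) * Q0.f) :
    sfPlMu η p E Q0 ζ {x | E.s ^ (-(C : ℝ)) < cyBaseSz Q0 ((2 : ℝ)⁻¹ ^ E.k0) (p.co (tmL E.k0 E.i0) x)} = 0 ∧
    (sfPlMu η p E Q0 ζ).real {x | E.s ^ (-((C : ℝ) + 3)) < cyNorSz Q0 ((2 : ℝ)⁻¹ ^ E.k0) (p.co (tmL E.k0 E.i0) x)} ≤ E.s ^ (A : ℝ) * E.e ∧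
    ∀ S : Set (ℝ × ℝ × ℝ), MeasurableSet S →
      sfPlMu η p E Q0 ζ {x | cyBase Q0 ((2 : ℝ)⁻¹ ^ E.k0) (p.co (tmL E.k0 E.i0) x) ∈ S} ≤ ENNReal.ofReal (E.s ^ (-(C : ℝ)) * E.e) * volume S := by
  have hl : (0:ℝ) < (2 : ℝ)⁻¹ ^ E.k0 := by positivity
  have hf0 := h.f_pos
  have hbm := sf_pl_set1_base_meas p hp Q0 ((2 : ℝ)⁻¹ ^ E.k0) (tmL E.k0 E.i0)
  have hnm := sf_pl_set1_nor_meas p hp Q0 ((2 : ℝ)⁻¹ ^ E.k0) (tmL E.k0 E.i0)
  refine ⟨?_, ?_, fun S hS => ?_⟩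
  · have hU : MeasurableSet {ω : p.Om | E.s ^ (-(C : ℝ)) < cyBaseSz Q0 ((2 : ℝ)⁻¹ ^ E.k0) (p.co (tmL E.k0 E.i0) (ω, ((0 : ℝ), (0 : ℝ))))} := by
      refine measurableSet_lt measurable_const ?_
      unfold cyBaseSz
      exact (measurable_fst.comp hbm).abs.max (((measurable_fst.comp (measurable_snd.comp hbm)).abs).max ((measurable_snd.comp (measurable_snd.comp hbm)).abs))
    have := sf_pl_mu_base η p hp E Q0 ζ hζ _ hU
    refine Eq.trans this ?_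
    have h3 := h.supp
    refine Eq.trans (congrArg ENNReal.ofReal h3) ENNReal.ofReal_zero
  · have hms : ∀ c : ℝ, MeasurableSet {x : p.Om × ℝ × ℝ | c < cyNorSz Q0 ((2 : ℝ)⁻¹ ^ E.k0) (p.co (tmL E.k0 E.i0) x)} := fun c => by
      refine measurableSet_lt measurable_const ?_
      unfold cyNorSz
      exact (measurable_fst.comp hnm).abs.max (measurable_snd.comp hnm).abs
    have hs0 : 0 < E.s := by unfold Xp.s; positivity
    have hs1 : E.s ≤ 1 / 2 := by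
      unfold Xp.s
      calc (2 : ℝ)⁻¹ ^ E.n ≤ (2 : ℝ)⁻¹ ^ 1 := pow_le_pow_of_le_one (by norm_num) (by norm_num) hn
        _ = 1 / 2 := by norm_num
    have hnum := sf_pl_set1_num hs0 hs1 C
    have hδ : ζ / Q0.f ≤ E.s ^ (-((C : ℝ) + 2)) := by rwa [div_le_iff₀ hf0]
    have hmain := sf_pl_mu_set η p hp E Q0 ζ hζ _ _ (hms (E.s ^ (-((C : ℝ) + 3)))) (hms (E.s ^ (-(C : ℝ)))) 1 zero_le_one ?_ ?_
    · rw [one_mul] at hmain
      exact hmain.trans h.tail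
    · intro ω z z' hz hcz
      obtain ⟨c1, c2⟩ := sf_pl_reg_cin η p E Q0 ζ hζ ω z z' hcz
      have d1 : |(cyNor Q0 ((2 : ℝ)⁻¹ ^ E.k0) (p.co (tmL E.k0 E.i0) (ω, z))).1 - (cyNor Q0 ((2 : ℝ)⁻¹ ^ E.k0) (p.co (tmL E.k0 E.i0) (ω, z'))).1| ≤ ζ / Q0.f := by
        have e : (cyNor Q0 ((2 : ℝ)⁻¹ ^ E.k0) (p.co (tmL E.k0 E.i0) (ω, z))).1 - (cyNor Q0 ((2 : ℝ)⁻¹ ^ E.k0) (p.co (tmL E.k0 E.i0) (ω, z'))).1
            = -(z'.2 - z.2) / Q0.f := by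
          simp only [cyNor, cyVel, ChyPar.co]; ring
        rw [e, abs_div, abs_neg, abs_of_pos hf0]
        gcongr
      have d2 : |(cyNor Q0 ((2 : ℝ)⁻¹ ^ E.k0) (p.co (tmL E.k0 E.i0) (ω, z))).2 - (cyNor Q0 ((2 : ℝ)⁻¹ ^ E.k0) (p.co (tmL E.k0 E.i0) (ω, z'))).2| ≤ ζ / Q0.f := by
        have e : (cyNor Q0 ((2 : ℝ)⁻¹ ^ E.k0) (p.co (tmL E.k0 E.i0) (ω, z))).2 - (cyNor Q0 ((2 : ℝ)⁻¹ ^ E.k0) (p.co (tmL E.k0 E.i0) (ω, z'))).2
            = -(z'.1 - z.1) / ((2 : ℝ)⁻¹ ^ E.k0 * Q0.f) := by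
          simp only [cyNor, cyPos, ChyPar.co]; ring
        rw [e, abs_div, abs_neg, abs_of_pos (mul_pos hl hf0), div_le_div_iff₀ (mul_pos hl hf0) hf0]
        nlinarith
      have hz' : E.s ^ (-((C : ℝ) + 3)) < max |(cyNor Q0 ((2 : ℝ)⁻¹ ^ E.k0) (p.co (tmL E.k0 E.i0) (ω, z))).1|
          |(cyNor Q0 ((2 : ℝ)⁻¹ ^ E.k0) (p.co (tmL E.k0 E.i0) (ω, z))).2| := hz
      show E.s ^ (-(C : ℝ)) < max |(cyNor Q0 ((2 : ℝ)⁻¹ ^ E.k0) (p.co (tmL E.k0 E.i0) (ω, z'))).1|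
          |(cyNor Q0 ((2 : ℝ)⁻¹ ^ E.k0) (p.co (tmL E.k0 E.i0) (ω, z'))).2|
      rcases lt_max_iff.1 hz' with g | g
      · refine lt_max_of_lt_left ?_
        have := abs_sub_abs_le_abs_sub (cyNor Q0 ((2 : ℝ)⁻¹ ^ E.k0) (p.co (tmL E.k0 E.i0) (ω, z))).1 (cyNor Q0 ((2 : ℝ)⁻¹ ^ E.k0) (p.co (tmL E.k0 E.i0) (ω, z'))).1
        linarith
      · refine lt_max_of_lt_right ?_
        have := abs_sub_abs_le_abs_sub (cyNor Q0 ((2 : ℝ)⁻¹ ^ E.k0) (p.co (tmL E.k0 E.i0) (ω, z))).2 (cyNor Q0 ((2 : ℝ)⁻¹ ^ E.k0) (p.co (tmL E.k0 E.i0) (ω, z'))).2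
        linarith
    · intro ω c'
      rw [one_mul, ← sf_pl_cell_vol p Q0 (tmL E.k0 E.i0) _ ζ hl hζ ω c']
      exact measure_mono fun z hz => hz.2
  · have := sf_pl_mu_base η p hp E Q0 ζ hζ _ (hbm hS)
    refine le_trans (le_of_eq this) ?_
    exact h.dens S hS

omit hp hζ in
theorem sf_pl_set2_aff1 (g : ℝ → ℝ≥0∞) (hg : Measurable g) (b c : ℝ) (hc : 0 < c) :
    ∫⁻ D : ℝ, g ((D - b) / c) = ENNReal.ofReal c * ∫⁻ v, g v := by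
  have h1 : ∫⁻ D : ℝ, g ((D - b) / c) = ∫⁻ D : ℝ, g (D / c) := lintegral_sub_right_eq_self (fun D => g (D / c)) b
  rw [h1]
  have h2 : ∫⁻ D : ℝ, g (D / c) = ∫⁻ y, g y ∂(Measure.map (fun D : ℝ => c⁻¹ * D) volume) := by
    rw [lintegral_map hg (measurable_const_mul _)]
    simp only [div_eq_inv_mul]
  rw [h2, Real.map_volume_mul_left (inv_ne_zero hc.ne'), lintegral_smul_measure, inv_inv, abs_of_pos hc]
  rfl

omit hp hζ in
theorem sf_pl_set2_aff2 (W : Set (ℝ × ℝ)) (hW : MeasurableSet W) (a b c1 c2 : ℝ) (h1 : 0 < c1) (h2 : 0 < c2) :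
    (volume : Measure (ℝ × ℝ)) {z | ((z.2 - a) / c1, (z.1 - b) / c2) ∈ W} = ENNReal.ofReal c1 * ENNReal.ofReal c2 * volume W := by
  have hm : Measurable fun z : ℝ × ℝ => ((z.2 - a) / c1, (z.1 - b) / c2) := by fun_prop
  have hW' : MeasurableSet {z : ℝ × ℝ | ((z.2 - a) / c1, (z.1 - b) / c2) ∈ W} := hm hW
  rw [Measure.volume_eq_prod, Measure.prod_apply hW']
  have e1 : ∀ D : ℝ, volume (Prod.mk D ⁻¹' {z : ℝ × ℝ | ((z.2 - a) / c1, (z.1 - b) / c2) ∈ W})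
      = ENNReal.ofReal c1 * volume ((fun u : ℝ => (u, (D - b) / c2)) ⁻¹' W) := by
    intro D
    have hs : MeasurableSet ((fun u : ℝ => (u, (D - b) / c2)) ⁻¹' W) := measurable_prodMk_right hW
    have hs' : MeasurableSet (Prod.mk D ⁻¹' {z : ℝ × ℝ | ((z.2 - a) / c1, (z.1 - b) / c2) ∈ W}) := measurable_prodMk_left hW'
    have := sf_pl_set2_aff1 (((fun u : ℝ => (u, (D - b) / c2)) ⁻¹' W).indicator 1) (measurable_one.indicator hs) a c1 h1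
    rw [lintegral_indicator_one hs] at this
    rw [← this, ← lintegral_indicator_one hs']
    rfl
  simp only [e1]
  have hg : Measurable fun v : ℝ => volume ((fun u : ℝ => (u, v)) ⁻¹' W) := measurable_measure_prodMk_right hW
  have hgc : Measurable fun D : ℝ => volume ((fun u : ℝ => (u, (D - b) / c2)) ⁻¹' W) :=
    hg.comp (by fun_prop : Measurable fun D : ℝ => (D - b) / c2)
  rw [lintegral_const_mul _ hgc]
  have := sf_pl_set2_aff1 (fun v => volume ((fun u : ℝ => (u, v)) ⁻¹' W)) hg b c2 h2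
  rw [this, Measure.prod_apply_symm hW, mul_assoc]

/-- **LEAF SET-2: joint density** `≤ (f0/ζ)² ×` marginal density.
`sf_pl_avg_dens` (with `sf_pl_rw`): `μ̃ Ŝ ≤ V⁻¹ ∫⁻ ω, vol {z | (ω,z) ∈ Ŝ} e(ω) d mw`, `e(ω) = ∫⁻ z, sfPlDen (ω,z)`.   For fixed `ω`, `z = (D,N) ↦ cyNor = ((N - a)/f0, (D - b)/(l0 f0))` is affine: `vol {z | ..} = f0 · l0 f0 · vol (section of S at cyBase(ω))`
(`Measure.prod_swap`/`volume_preserving_prodComm`, `Real.volume_preimage_mul_left`, `measure_preimage_add`, or `MeasureTheory.Measure.addHaar_preimage_linearMap`; sections: `Measure.prod_apply`).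
The measure `β = map (cyBase ∘ ..) (mw.withDensity e)` satisfies `β ≤ (s^-C e) • volume` (third part of `sf_pl_set1` / `CySet.dens` + `sf_pl_mu_base`; `Measure.le_iff`), so `∫⁻ vol₂(S_b) dβ ≤ s^-C e · vol S` (`lintegral_mono'`, `lintegral_map`, `Measure.prod_apply`).   ~400 l. -/
theorem sf_pl_set2 (hE : E.Valid) (C A : ℕ) (h : CySet (p.sys η) p.co η False C A E Q0) (S : Set ((ℝ × ℝ × ℝ) × (ℝ × ℝ))) (hS : MeasurableSet S) :
    sfPlMu η p E Q0 ζ {x | (cyBase Q0 ((2 : ℝ)⁻¹ ^ E.k0) (p.co (tmL E.k0 E.i0) x), cyNor Q0 ((2 : ℝ)⁻¹ ^ E.k0) (p.co (tmL E.k0 E.i0) x)) ∈ S}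
      ≤ ENNReal.ofReal ((Q0.f / ζ) ^ 2 * (E.s ^ (-(C : ℝ)) * E.e)) * volume S := by
  have hl : (0:ℝ) < (2 : ℝ)⁻¹ ^ E.k0 := by positivity
  have hf0 := h.f_pos
  have hbm := sf_pl_set1_base_meas p hp Q0 ((2 : ℝ)⁻¹ ^ E.k0) (tmL E.k0 E.i0)
  have hnm := sf_pl_set1_nor_meas p hp Q0 ((2 : ℝ)⁻¹ ^ E.k0) (tmL E.k0 E.i0)
  have hsf := sf_pl_mw_sfin p hp
  have hden := sf_pl_den_meas η p hp E
  have hcin : Measurable (sfPlCin η p E Q0 ζ) := (sf_pl_phi_meas p hp Q0 _ _ ζ _).2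
  obtain ⟨β, hβ⟩ : ∃ β : p.Om → ℝ × ℝ × ℝ, β = fun ω => cyBase Q0 ((2 : ℝ)⁻¹ ^ E.k0) (p.co (tmL E.k0 E.i0) (ω, ((0 : ℝ), (0 : ℝ)))) := ⟨_, rfl⟩
  have hβm : Measurable β := by rw [hβ]; exact hbm
  obtain ⟨e, he⟩ : ∃ e : p.Om → ℝ≥0∞, e = fun ω => ∫⁻ z', sfPlDen η p E (ω, z') := ⟨_, rfl⟩
  have hem : Measurable e := by rw [he]; exact hden.lintegral_prod_right'
  obtain ⟨g, hg⟩ : ∃ g : ℝ × ℝ × ℝ → ℝ≥0∞, g = fun b => volume (Prod.mk b ⁻¹' S) := ⟨_, rfl⟩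
  have hgm : Measurable g := by rw [hg]; exact measurable_measure_prodMk_left hS
  obtain ⟨c, hc⟩ : ∃ c : ℝ≥0∞, c = ENNReal.ofReal (E.s ^ (-(C : ℝ)) * E.e) := ⟨_, rfl⟩
  have hSh : MeasurableSet {x : p.Om × ℝ × ℝ | (cyBase Q0 ((2 : ℝ)⁻¹ ^ E.k0) (p.co (tmL E.k0 E.i0) x), cyNor Q0 ((2 : ℝ)⁻¹ ^ E.k0) (p.co (tmL E.k0 E.i0) x)) ∈ S} :=
    ((hbm.comp measurable_fst).prodMk hnm) hS
  -- the sections
  have hsec : ∀ ω : p.Om, (volume : Measure (ℝ × ℝ)) {z | (ω, z) ∈ {x : p.Om × ℝ × ℝ | (cyBase Q0 ((2 : ℝ)⁻¹ ^ E.k0) (p.co (tmL E.k0 E.i0) x),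
      cyNor Q0 ((2 : ℝ)⁻¹ ^ E.k0) (p.co (tmL E.k0 E.i0) x)) ∈ S}} = ENNReal.ofReal Q0.f * ENNReal.ofReal ((2 : ℝ)⁻¹ ^ E.k0 * Q0.f) * g (β ω) := by
    intro ω
    obtain ⟨a, ha⟩ : ∃ a : ℝ, ∀ z : ℝ × ℝ, cyVel Q0 (p.co (tmL E.k0 E.i0) (ω, z)) = z.2 - a :=
      ⟨-cyVel Q0 (p.co (tmL E.k0 E.i0) (ω, (0, 0))), fun z => by simp only [cyVel, ChyPar.co]; ring⟩
    obtain ⟨b, hb⟩ : ∃ b : ℝ, ∀ z : ℝ × ℝ, cyPos Q0 (p.co (tmL E.k0 E.i0) (ω, z)) = z.1 - b :=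
      ⟨-cyPos Q0 (p.co (tmL E.k0 E.i0) (ω, (0, 0))), fun z => by simp only [cyPos, ChyPar.co]; ring⟩
    have := sf_pl_set2_aff2 (Prod.mk (β ω) ⁻¹' S) (measurable_prodMk_left hS) a b Q0.f ((2 : ℝ)⁻¹ ^ E.k0 * Q0.f) hf0 (mul_pos hl hf0)
    rw [hg]
    refine Eq.trans (congrArg _ ?_) this
    ext z
    show (cyBase Q0 ((2 : ℝ)⁻¹ ^ E.k0) (p.co (tmL E.k0 E.i0) (ω, z)), cyNor Q0 ((2 : ℝ)⁻¹ ^ E.k0) (p.co (tmL E.k0 E.i0) (ω, z))) ∈ S ↔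
      (β ω, ((z.2 - a) / Q0.f, (z.1 - b) / ((2 : ℝ)⁻¹ ^ E.k0 * Q0.f))) ∈ S
    rw [hβ, ← ha, ← hb]
    rfl
  -- the push forward of the base density
  have hν : Measure.map β ((sfPlMw p).withDensity e) ≤ c • (volume : Measure (ℝ × ℝ × ℝ)) := by
    rw [Measure.le_iff]
    intro T hT
    rw [Measure.map_apply hβm hT, withDensity_apply _ (hβm hT), he, ← sf_pl_fib_set (sfPlMw p) volume _ hden, ← sf_pl_rw p hp]
    have h1 := hy_fl_ms_lint p hp η (tmL E.k0 E.i0) E.k0 E.b0 {x : p.Om × ℝ × ℝ | x.1 ∈ β ⁻¹' T} (measurable_fst (hβm hT)) E.v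
    have h2 := h.dens T hT
    rw [Measure.smul_apply, smul_eq_mul, hc]
    refine le_trans (le_of_eq ?_) h2
    refine Eq.trans h1.symm ?_
    rw [hβ]
    rfl
  have hV : (ENNReal.ofReal (ζ * ((2 : ℝ)⁻¹ ^ E.k0 * ζ)))⁻¹ = ENNReal.ofReal (ζ * ((2 : ℝ)⁻¹ ^ E.k0 * ζ))⁻¹ :=
    (ENNReal.ofReal_inv_of_pos (by positivity)).symm
  have hgb : Measurable fun ω => g (β ω) := hgm.comp hβm
  unfold sfPlMu
  rw [withDensity_apply _ hSh, sf_pl_rw p hp]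
  refine (sf_pl_avg_dens (sfPlMw p) volume (sfPlCin η p E Q0 ζ) hcin _ (sfPlDen η p E) hden _ hSh).trans ?_
  simp only [hsec]
  calc (ENNReal.ofReal (ζ * ((2 : ℝ)⁻¹ ^ E.k0 * ζ)))⁻¹ * ∫⁻ ω, ENNReal.ofReal Q0.f * ENNReal.ofReal ((2 : ℝ)⁻¹ ^ E.k0 * Q0.f) * g (β ω) *
        (∫⁻ z', sfPlDen η p E (ω, z')) ∂(sfPlMw p)
      = (ENNReal.ofReal (ζ * ((2 : ℝ)⁻¹ ^ E.k0 * ζ)))⁻¹ * (ENNReal.ofReal Q0.f * ENNReal.ofReal ((2 : ℝ)⁻¹ ^ E.k0 * Q0.f) * ∫⁻ ω, e ω * g (β ω) ∂(sfPlMw p)) := by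
        have hegb : Measurable fun ω => e ω * g (β ω) := hem.mul hgb
        rw [← lintegral_const_mul _ hegb, he]
        congr 1
        refine lintegral_congr fun ω => ?_
        ring
    _ = (ENNReal.ofReal (ζ * ((2 : ℝ)⁻¹ ^ E.k0 * ζ)))⁻¹ * (ENNReal.ofReal Q0.f * ENNReal.ofReal ((2 : ℝ)⁻¹ ^ E.k0 * Q0.f) *
          ∫⁻ b, g b ∂(Measure.map β ((sfPlMw p).withDensity e))) := by
        rw [lintegral_map hgm hβm, lintegral_withDensity_eq_lintegral_mul _ hem hgb]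
        rfl
    _ ≤ (ENNReal.ofReal (ζ * ((2 : ℝ)⁻¹ ^ E.k0 * ζ)))⁻¹ * (ENNReal.ofReal Q0.f * ENNReal.ofReal ((2 : ℝ)⁻¹ ^ E.k0 * Q0.f) *
          ∫⁻ b, g b ∂(c • (volume : Measure (ℝ × ℝ × ℝ)))) := by
        gcongr
    _ = (ENNReal.ofReal (ζ * ((2 : ℝ)⁻¹ ^ E.k0 * ζ)))⁻¹ * (ENNReal.ofReal Q0.f * ENNReal.ofReal ((2 : ℝ)⁻¹ ^ E.k0 * Q0.f) * (c * volume S)) := by
        rw [lintegral_smul_measure, hg, Measure.volume_eq_prod (α := ℝ × ℝ × ℝ) (β := ℝ × ℝ), Measure.prod_apply hS]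
        rfl
    _ = ENNReal.ofReal ((Q0.f / ζ) ^ 2 * (E.s ^ (-(C : ℝ)) * E.e)) * volume S := by
        rw [hV, hc, ← mul_assoc, ← mul_assoc, ← mul_assoc, ← ENNReal.ofReal_mul (by positivity), ← ENNReal.ofReal_mul (by positivity),
          ← ENNReal.ofReal_mul (by positivity)]
        congr 2
        field_simp

omit hζ in
theorem sf_pl_m_base (Q : CyT) (l T : ℝ) : Measurable fun x : p.Om × ℝ × ℝ => cyBase Q l (p.co T x) := by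
  have mX : Measurable fun x : p.Om × ℝ × ℝ => p.X x.1 := hp.mX.comp measurable_fst
  have mB : Measurable fun x : p.Om × ℝ × ℝ => p.B x.1 := hp.mB.comp measurable_fst
  have mY : Measurable fun x : p.Om × ℝ × ℝ => p.Y x.1 := hp.mY.comp measurable_fst
  unfold cyBase cyTilt ChyPar.co
  simp only []
  fun_prop

omit hζ in
theorem sf_pl_m_nor (Q : CyT) (l T : ℝ) : Measurable fun x : p.Om × ℝ × ℝ => cyNor Q l (p.co T x) := by
  have mX : Measurable fun x : p.Om × ℝ × ℝ => p.X x.1 := hp.mX.comp measurable_fst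
  have mB : Measurable fun x : p.Om × ℝ × ℝ => p.B x.1 := hp.mB.comp measurable_fst
  have mY : Measurable fun x : p.Om × ℝ × ℝ => p.Y x.1 := hp.mY.comp measurable_fst
  have mD : Measurable fun x : p.Om × ℝ × ℝ => x.2.1 := measurable_fst.comp measurable_snd
  have mN : Measurable fun x : p.Om × ℝ × ℝ => x.2.2 := measurable_snd.comp measurable_snd
  unfold cyNor cyVel cyPos ChyPar.co
  simp only []
  fun_prop

omit hζ in
theorem sf_pl_m_baseSz (Q : CyT) (l T c : ℝ) : MeasurableSet {x : p.Om × ℝ × ℝ | c < cyBaseSz Q l (p.co T x)} := by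
  have h := sf_pl_m_base p hp Q l T
  refine measurableSet_lt measurable_const ?_
  unfold cyBaseSz
  exact (continuous_abs.measurable.comp h.fst).max ((continuous_abs.measurable.comp h.snd.fst).max (continuous_abs.measurable.comp h.snd.snd))

omit hζ in
theorem sf_pl_m_norSz (Q : CyT) (l T c : ℝ) : MeasurableSet {x : p.Om × ℝ × ℝ | c < cyNorSz Q l (p.co T x)} := by
  have h := sf_pl_m_nor p hp Q l T
  refine measurableSet_lt measurable_const ?_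
  unfold cyNorSz
  exact (continuous_abs.measurable.comp h.fst).max (continuous_abs.measurable.comp h.snd)

omit hp hζ in
/-- masses of the classical system at the time `T0` in the hybrid coordinates -/
theorem sf_pl_cl_ms' (T0 : ℝ) (μ : Measure (p.Om × ℝ × ℝ)) [IsFiniteMeasure μ] (k b : ℕ) (Φ : Cy5 → Prop) (hS : MeasurableSet {x : p.Om × ℝ × ℝ | Φ (p.co T0 x)}) :
    ((sfPlPar p T0 μ).sys η).ms T0 k b {x | Φ ((sfPlPar p T0 μ).co T0 x)} (sfPlOne μ) = μ.real {x : p.Om × ℝ × ℝ | Φ (p.co T0 x)} := by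
  have e : ({x | Φ ((sfPlPar p T0 μ).co T0 x)} : Set (p.Om × ℝ × ℝ)) = {x : p.Om × ℝ × ℝ | Φ (p.co T0 x)} :=
    Set.ext fun x => iff_of_eq (congrArg Φ (sf_pl_cl_co p T0 μ x))
  exact (congrArg (fun Z => ((sfPlPar p T0 μ).sys η).ms T0 k b Z (sfPlOne μ)) e).trans (sf_pl_cl_ms η p T0 μ T0 k b _ hS)

/-- **LEAF SET-3: the classical setup** (glue).   `sf_pl_cl_ms`, `sf_pl_cl_co`, `sf_pl_set1`, `sf_pl_set2`; monotonicity of the thresholds (`s^-C ≤ s^-(2C+4)`, sets shrink; `measure_mono`); `ek`: `8 ≤ s^-3`;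
`(f0/ζ)² ≤ f0²/(H 2^k0) ≤ s^-C` from `hd`, `hH` (`ChyPar.dl`, `Real.sq_sqrt`).   ~250 l. -/
theorem sf_pl_set (hE : E.Valid) (C A : ℕ) (h : CySet (p.sys η) p.co η False C A E Q0) (hH : E.s ^ (C : ℝ) ≤ p.H * 2 ^ E.k0 / Q0.f ^ 2) (hn : 1 ≤ E.n)
    (hd : p.dl E.k0 ≤ ζ) (hζ1 : ζ ≤ E.s ^ (-((C : ℝ) + 2)) * Q0.f) (th' : Fin E.L → p.Om × ℝ × ℝ → ℝ) :
    CySet ((sfPlPar p (tmL E.k0 E.i0) (sfPlMu η p E Q0 ζ)).sys η) (sfPlPar p (tmL E.k0 E.i0) (sfPlMu η p E Q0 ζ)).co η True (2 * C + 4) A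
      (sfPlXp η p E (sfPlMu η p E Q0 ζ) (8 * E.ka) th') Q0 := by
  have hfin := sf_pl_mu_fin η p hp E Q0 ζ hζ
  obtain ⟨s1, s2, s3⟩ := sf_pl_set1 η p hp E Q0 ζ hζ hE C A h hn hζ1
  have hs0 : 0 < E.s := by
    unfold Xp.s
    positivity
  have hs2 : E.s ≤ 1 / 2 := by
    unfold Xp.s
    calc ((2 : ℝ)⁻¹) ^ E.n ≤ ((2 : ℝ)⁻¹) ^ 1 := pow_le_pow_of_le_one (by norm_num) (by norm_num) hn
      _ = 1 / 2 := by norm_num
  have hs1 : E.s ≤ 1 := by linarith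
  have hC' : (((2 * C + 4 : ℕ) : ℕ) : ℝ) = 2 * (C : ℝ) + 4 := by push_cast; ring
  have hC0 : (0 : ℝ) ≤ C := Nat.cast_nonneg _
  have hmono : ∀ a b : ℝ, b ≤ a → E.s ^ a ≤ E.s ^ b := fun a b hab => Real.rpow_le_rpow_of_exponent_ge hs0 hs1 hab
  have hwt : 0 < cyWt η Q0 := by
    have a1 := h.r_pos
    have a2 := h.f_pos
    unfold cyWt
    positivity
  have hkw : 0 < E.ka * cyWt η Q0 := mul_pos hE.ka_pos hwt
  have he := hE.e_pos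
  have hth : E.s ^ (-(C : ℝ)) ≤ E.s ^ (-(2 * (C : ℝ) + 4)) := hmono _ _ (by linarith)
  have hth3 : E.s ^ (-((C : ℝ) + 3)) ≤ E.s ^ (-(2 * (C : ℝ) + 4)) := hmono _ _ (by linarith)
  have hsC : 0 < E.s ^ (C : ℝ) := Real.rpow_pos_of_pos hs0 _
  have hfz : (Q0.f / ζ) ^ 2 ≤ E.s ^ (-(C : ℝ)) := by
    have a1 : p.H * 2 ^ E.k0 ≤ ζ ^ 2 := by
      have a2 : 0 ≤ p.H * 2 ^ E.k0 := by
        have := hp.H_pos
        positivity
      calc p.H * 2 ^ E.k0 = Real.sqrt (p.H * 2 ^ E.k0) ^ 2 := (Real.sq_sqrt a2).symm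
        _ ≤ ζ ^ 2 := pow_le_pow_left₀ (Real.sqrt_nonneg _) hd 2
    have a3 : 0 < Q0.f ^ 2 := by
      have := h.f_pos
      positivity
    have a4 : E.s ^ (C : ℝ) * Q0.f ^ 2 ≤ ζ ^ 2 := ((le_div_iff₀ a3).1 hH).trans a1
    rw [Real.rpow_neg hs0.le, div_pow, div_le_iff₀ (by positivity), ← div_eq_inv_mul, le_div_iff₀ hsC]
    linarith
  refine
    { r_pos := h.r_pos
      f_pos := h.f_pos
      ek_lo := ?_
      ek_hi := ?_
      supp := ?_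
      tail := ?_
      dens := ?_
      densJ := ?_ }
  · show E.s ^ (((2 * C + 4 : ℕ) : ℕ) : ℝ) * (8 * E.ka * cyWt η Q0) ≤ E.e
    rw [hC']
    have a1 : E.s ^ (2 * (C : ℝ) + 4) = E.s ^ (C : ℝ) * E.s ^ ((C : ℝ) + 4) := by
      rw [← Real.rpow_add hs0]
      congr 1
      ring
    have a2 : E.s ^ ((C : ℝ) + 4) ≤ 1 / 8 := by
      calc E.s ^ ((C : ℝ) + 4) ≤ E.s ^ (3 : ℝ) := hmono _ _ (by linarith)
        _ = E.s ^ 3 := by exact_mod_cast Real.rpow_natCast E.s 3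
        _ ≤ (1 / 2) ^ 3 := pow_le_pow_left₀ hs0.le hs2 3
        _ = 1 / 8 := by norm_num
    have a3 := h.ek_lo
    have a4 : 0 < E.s ^ (C : ℝ) * (E.ka * cyWt η Q0) := mul_pos hsC hkw
    rw [a1]
    calc E.s ^ (C : ℝ) * E.s ^ ((C : ℝ) + 4) * (8 * E.ka * cyWt η Q0) = (E.s ^ (C : ℝ) * (E.ka * cyWt η Q0)) * (8 * E.s ^ ((C : ℝ) + 4)) := by ring
      _ ≤ (E.s ^ (C : ℝ) * (E.ka * cyWt η Q0)) * 1 := mul_le_mul_of_nonneg_left (by linarith) a4.le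
      _ ≤ E.e := by rw [mul_one]; exact a3
  · show E.e ≤ E.s ^ (-((((2 * C + 4 : ℕ) : ℕ) : ℝ))) * (8 * E.ka * cyWt η Q0)
    rw [hC']
    calc E.e ≤ E.s ^ (-(C : ℝ)) * (E.ka * cyWt η Q0) := h.ek_hi
      _ ≤ E.s ^ (-(2 * (C : ℝ) + 4)) * (8 * E.ka * cyWt η Q0) :=
        mul_le_mul hth (by nlinarith) hkw.le (Real.rpow_nonneg hs0.le _)
  · refine (sf_pl_cl_ms' η p (tmL E.k0 E.i0) (sfPlMu η p E Q0 ζ) E.k0 0 (fun z => E.s ^ (-((((2 * C + 4 : ℕ) : ℕ) : ℝ))) < cyBaseSz Q0 ((2 : ℝ)⁻¹ ^ E.k0) z)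
      (sf_pl_m_baseSz p hp Q0 _ _ _)).trans ?_
    rw [hC', Measure.real]
    have : sfPlMu η p E Q0 ζ {x | E.s ^ (-(2 * (C : ℝ) + 4)) < cyBaseSz Q0 ((2 : ℝ)⁻¹ ^ E.k0) (p.co (tmL E.k0 E.i0) x)} = 0 :=
      measure_mono_null (fun x hx => lt_of_le_of_lt hth hx) s1
    rw [this]
    rfl
  · refine (sf_pl_cl_ms' η p (tmL E.k0 E.i0) (sfPlMu η p E Q0 ζ) E.k0 0 (fun z => E.s ^ (-((((2 * C + 4 : ℕ) : ℕ) : ℝ))) < cyNorSz Q0 ((2 : ℝ)⁻¹ ^ E.k0) z)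
      (sf_pl_m_norSz p hp Q0 _ _ _)).le.trans ?_
    rw [hC']
    exact (measureReal_mono (fun x hx => lt_of_le_of_lt hth3 hx)).trans s2
  · intro S hS
    have e := sf_pl_cl_ms' η p (tmL E.k0 E.i0) (sfPlMu η p E Q0 ζ) E.k0 0 (fun z => cyBase Q0 ((2 : ℝ)⁻¹ ^ E.k0) z ∈ S) (sf_pl_m_base p hp Q0 _ _ hS)
    refine (le_of_eq (congrArg ENNReal.ofReal e)).trans ?_
    rw [ofReal_measureReal]
    refine (s3 S hS).trans ?_
    show _ ≤ ENNReal.ofReal (E.s ^ (-((((2 * C + 4 : ℕ) : ℕ) : ℝ))) * E.e) * volume S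
    rw [hC']
    gcongr
  · intro _ S hS
    have e := sf_pl_cl_ms' η p (tmL E.k0 E.i0) (sfPlMu η p E Q0 ζ) E.k0 0 (fun z => (cyBase Q0 ((2 : ℝ)⁻¹ ^ E.k0) z, cyNor Q0 ((2 : ℝ)⁻¹ ^ E.k0) z) ∈ S)
      (((sf_pl_m_base p hp Q0 _ _).prodMk (sf_pl_m_nor p hp Q0 _ _)) hS)
    refine (le_of_eq (congrArg ENNReal.ofReal e)).trans ?_
    rw [ofReal_measureReal]
    refine (sf_pl_set2 η p hp E Q0 ζ hζ hE C A h S hS).trans ?_
    show _ ≤ ENNReal.ofReal (E.s ^ (-((((2 * C + 4 : ℕ) : ℕ) : ℝ))) * E.e) * volume S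
    rw [hC']
    have a1 : (Q0.f / ζ) ^ 2 * (E.s ^ (-(C : ℝ)) * E.e) ≤ E.s ^ (-(2 * (C : ℝ) + 4)) * E.e := by
      have a2 : E.s ^ (-(C : ℝ)) * E.s ^ (-(C : ℝ)) ≤ E.s ^ (-(2 * (C : ℝ) + 4)) := by
        rw [← Real.rpow_add hs0]
        exact hmono _ _ (by linarith)
      have a3 : 0 < E.s ^ (-(C : ℝ)) := Real.rpow_pos_of_pos hs0 _
      calc (Q0.f / ζ) ^ 2 * (E.s ^ (-(C : ℝ)) * E.e) ≤ E.s ^ (-(C : ℝ)) * (E.s ^ (-(C : ℝ)) * E.e) := mul_le_mul_of_nonneg_right hfz (by positivity)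
        _ = E.s ^ (-(C : ℝ)) * E.s ^ (-(C : ℝ)) * E.e := by ring
        _ ≤ E.s ^ (-(2 * (C : ℝ) + 4)) * E.e := mul_le_mul_of_nonneg_right a2 he.le
    gcongr

/-- **LEAF VALID** (glue).   `budget`: `sf_pl_cl_norm`, `sf_pl_mu_univ`, `Valid.budget`;  `plat`: `An = id`;  `reg`: `sf_pl_cl_ms`, `sf_pl_cl_co`, `sf_pl_reg`;  stack empty;  `ts_ok`, `w_pos`: positivity of `cyWt`.   ~200 l. -/
theorem sf_pl_cl_valid (h0 : 0 < η) (h1 : η < 1) (hE : E.Valid) (hd : p.dl E.k0 ≤ ζ) (th' : Fin E.L → p.Om × ℝ × ℝ → ℝ) (hm : ∀ l, Measurable (th' l)) (hnn : ∀ l x, 0 ≤ th' l x)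
    (hsum : ∀ i x, ∑ l, (if E.iv l = i then th' l x else 0) ≤ 1)
    (hsupp : ∀ l x, th' l x ≠ 0 → cyIn (sfPlDbl (E.ts l)) ((2 : ℝ)⁻¹ ^ E.kf) ((sfPlPar p (tmL E.k0 E.i0) (sfPlMu η p E Q0 ζ)).co (tmL E.kf (E.iv l)) x)) :
    (sfPlXp η p E (sfPlMu η p E Q0 ζ) (8 * E.ka) th').Valid := by
  have := sf_pl_mu_fin η p hp E Q0 ζ hζ
  refine
    { e_pos := hE.e_pos
      ka_pos := mul_pos (by norm_num) hE.ka_pos
      budget := ?_
      plat := fun T k => rfl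
      reg := ?_
      st_dep := fun σ hσ => absurd hσ (List.not_mem_nil)
      st_mono := List.Pairwise.nil
      st_meas := fun σ hσ => absurd hσ (List.not_mem_nil)
      st_bd := fun σ hσ => absurd hσ (List.not_mem_nil)
      iv_in := hE.iv_in
      ts_ok := fun l => ⟨(hE.ts_ok l).1, mul_pos (by norm_num) (hE.ts_ok l).2.1⟩
      w_pos := ?_
      th_meas := hm
      th_nn := hnn
      th_supp := hsupp
      th_sum := hsum }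
  · show ‖sfPlOne (sfPlMu η p E Q0 ζ)‖ ^ 2 ≤ E.e
    rw [sf_pl_cl_norm, Measure.real, sf_pl_mu_univ η p hp E Q0 ζ hζ, ENNReal.toReal_ofReal (by positivity)]
    exact hE.budget
  · intro (Q : CyT) hQ
    have hQ' : 0 < Q.r ∧ 0 < Q.f := hQ
    exact (sf_pl_cl_ms' η p (tmL E.k0 E.i0) (sfPlMu η p E Q0 ζ) E.k0 0 (cyIn Q ((2 : ℝ)⁻¹ ^ E.k0)) (hy_fl_cell_meas p hp Q _ _)).le.trans
      (sf_pl_reg η p hp E Q0 ζ hζ h0 h1 hE hd Q hQ'.1 hQ'.2)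
  · intro l
    show 0 < cyWt η (sfPlDbl (E.ts l))
    have a1 := (hE.ts_ok l).1
    have a2 := (hE.ts_ok l).2.1
    unfold cyWt sfPlDbl
    positivity

end

end Claimed.Agent.R256
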