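import Claimed.Agent.R256.Soft.MPlCl

/-!
# Row 256 (S0496), unit SOFT, block M7 PL, file 4: DEEP BELOW THE PLANCK SCALE THE HYBRID CYLINDER OBEYS THE CLASSICAL RATE      (architect helper73; prefix `sf_pl_`)

**EXIT `sf_pl_cmp`**: hybrid experiments all of whose terminal tests satisfy `H/ℓ_f ≤ s⁴ f²` (`ℓ_f` = final length) obey every rate of the classical cylinder.      (02 l.846-876, "an energy comparison, not a positive packet identity".)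
Chain:  `sf_pl_loc` (barrier inequality over every set of exact indices: `cy_barrier` + `sf_pl_bar` + the operators do not move exact indices `hy_fl_*`)  →  `sf_pl_loc2` (cells, far region)  →  `sf_pl_wts` (weights of the classical assignment: `sf_pl_alloc`
for every final interval, `sf_pl_supp`)  →  `sf_pl_step` (the classical experiment is in the class, `sf_pl_cl_valid`, `sf_pl_set`; comparison of the functionals `sf_pl_val`)  →  `sf_pl_cmp_heavy` (choice of `Λ = 2^(n/4)`, `ζ = 4(C+1)Λ d_f`, `R`, `N`)  →  `sf_pl_cmp` (light labels, `Floor`).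
-/

set_option autoImplicit false

namespace Claimed.Agent.R256

open MeasureTheory
open scoped ENNReal

theorem sf_pl_loc_split {P : PkSys} (k : ℕ) {A : Set P.X} (hA : MeasurableSet A) (F0 : Lp P.Fb 2 (P.rho k)) :
    P.mulR k (A.indicator fun _ => 1) F0 + P.mulR k (Aᶜ.indicator fun _ => 1) F0 = F0 := by
  apply Lp.ext
  filter_upwards [Lp.coeFn_add (P.mulR k (A.indicator fun _ => 1) F0) (P.mulR k (Aᶜ.indicator fun _ => 1) F0),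
    gn_mulR_coe (P := P) k (gn_mask_ind hA) F0, gn_mulR_coe (P := P) k (gn_mask_ind hA.compl) F0] with x h1 h2 h3
  rw [h1, Pi.add_apply, h2, h3]
  by_cases hx : x ∈ A
  · rw [Set.indicator_of_mem hx, Set.indicator_of_notMem (show x ∉ Aᶜ from fun hc => hc hx)]
    simp
  · rw [Set.indicator_of_notMem hx, Set.indicator_of_mem (show x ∈ Aᶜ from hx)]
    simp

theorem sf_pl_loc_off {P : PkSys} (k : ℕ) {A : Set P.X} (hA : MeasurableSet A) (F0 : Lp P.Fb 2 (P.rho k)) :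
    ∫⁻ x in A, ‖(P.mulR k (Aᶜ.indicator fun _ => 1) F0 : P.X → P.Fb) x‖ₑ ^ 2 ∂(P.rho k) = 0 := by
  rw [← lintegral_indicator hA, lintegral_eq_zero_iff']
  · filter_upwards [gn_mulR_coe (P := P) k (gn_mask_ind hA.compl) F0] with x hx
    by_cases hxA : x ∈ A
    · rw [Set.indicator_of_mem hxA, hx, Set.indicator_of_notMem (show x ∉ Aᶜ from fun hc => hc hxA)]
      simp
    · rw [Set.indicator_of_notMem hxA]
      rfl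
  · exact ((Lp.aestronglyMeasurable _).enorm.pow_const 2).indicator hA

/-- the model free part of `sf_pl_loc` -/
theorem sf_pl_loc_abs {P : PkSys} (hT : P.Tight) (T0 : ℝ) (k0 : ℕ) (T : ℝ) (kf i : ℕ) (st : List (Stg P)) (hst : StM st) (v : P.Kc) (hv : v ∈ P.Pl 0)
    (A B S' : Set P.X) (hA : MeasurableSet A) (hB : MeasurableSet B) (hS' : MeasurableSet S') (c : ℝ)
    (hzero : P.ms T kf 0 S' (Xp.run kf i st (ContinuousLinearMap.adjoint (P.An T0 k0 0) (P.mulR k0 (Aᶜ.indicator fun _ => 1) (P.An T0 k0 0 v)))) = 0)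
    (hbd : Real.sqrt (P.ms T kf 0 S' (Xp.run kf i st (ContinuousLinearMap.adjoint (P.An T0 k0 0) (P.mulR k0 (A.indicator fun _ => 1) (P.An T0 k0 0 v)))))
      ≤ Real.sqrt (∫ x in B, ‖(P.mulR k0 (A.indicator fun _ => 1) (P.An T0 k0 0 v) : P.X → P.Fb) x‖ ^ 2 ∂(P.rho k0))
        + c * ‖P.mulR k0 (A.indicator fun _ => 1) (P.An T0 k0 0 v)‖) :
    P.ms T kf 0 S' (Xp.run kf i st v) ≤ 2 * P.ms T0 k0 0 (B ∩ A) v + 2 * c ^ 2 * P.ms T0 k0 0 A v := by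
  obtain ⟨F0, hF0⟩ : ∃ F0, F0 = P.An T0 k0 0 v := ⟨_, rfl⟩
  obtain ⟨F, hF⟩ : ∃ F, F = P.mulR k0 (A.indicator fun _ => 1) F0 := ⟨_, rfl⟩
  obtain ⟨Fc, hFc⟩ : ∃ Fc, Fc = P.mulR k0 (Aᶜ.indicator fun _ => 1) F0 := ⟨_, rfl⟩
  rw [← hF0, ← hFc] at hzero
  rw [← hF0, ← hF] at hbd
  have hsplit : F + Fc = F0 := by
    rw [hF, hFc]
    exact sf_pl_loc_split k0 hA F0
  have hv' : ContinuousLinearMap.adjoint (P.An T0 k0 0) F0 = v := by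
    rw [hF0]
    exact gn_adj_an hT _ _ 0 hv
  have hfin : Xp.run kf i st v = Xp.run kf i st (ContinuousLinearMap.adjoint (P.An T0 k0 0) F)
      + Xp.run kf i st (ContinuousLinearMap.adjoint (P.An T0 k0 0) Fc) := by
    rw [← gn_run_add _ _ _ hst, ← map_add, hsplit, hv']
  obtain ⟨m1, hm1⟩ : ∃ m1 : ℝ, m1 = P.ms T kf 0 S' (Xp.run kf i st v) := ⟨_, rfl⟩
  obtain ⟨m2, hm2⟩ : ∃ m2 : ℝ, m2 = P.ms T0 k0 0 (B ∩ A) v := ⟨_, rfl⟩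
  obtain ⟨m3, hm3⟩ : ∃ m3 : ℝ, m3 = P.ms T0 k0 0 A v := ⟨_, rfl⟩
  have hm2' : ∫ x in B, ‖(F : P.X → P.Fb) x‖ ^ 2 ∂(P.rho k0) = m2 := by
    rw [hF, gn_mulR_ind_setInt k0 hA hB, hm2, gn_ms_eq _ _ _ (hB.inter hA), hF0]
  have hm3' : ‖F‖ ^ 2 = m3 := by
    rw [hF, gn_mulR_ind_normsq k0 hA, hm3, gn_ms_eq _ _ _ hA, hF0]
  have hm20 : 0 ≤ m2 := by rw [hm2]; exact gn_ms_nonneg _ _ _ _ _
  have hm10 : 0 ≤ m1 := by rw [hm1]; exact gn_ms_nonneg _ _ _ _ _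
  rw [← hm1, ← hm2, ← hm3]
  have h1 := gn_en_tri (P := P) T kf 0 (gn_mask_ind hS')
    (Xp.run kf i st (ContinuousLinearMap.adjoint (P.An T0 k0 0) F))
    (Xp.run kf i st (ContinuousLinearMap.adjoint (P.An T0 k0 0) Fc))
  rw [← hfin] at h1
  have h2 : Real.sqrt m1 ≤ Real.sqrt m2 + c * ‖F‖ := by
    rw [hm1, ← hm2']
    refine h1.trans ?_
    have h3 : Real.sqrt (P.en T kf 0 (S'.indicator fun _ => 1)
        (Xp.run kf i st (ContinuousLinearMap.adjoint (P.An T0 k0 0) Fc))) = 0 := by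
      have : P.en T kf 0 (S'.indicator fun _ => 1)
        (Xp.run kf i st (ContinuousLinearMap.adjoint (P.An T0 k0 0) Fc)) = 0 := hzero
      rw [this, Real.sqrt_zero]
    rw [h3, add_zero]
    exact hbd
  have h4 : m1 ≤ (Real.sqrt m2 + c * ‖F‖) ^ 2 := by
    calc m1 = Real.sqrt m1 ^ 2 := (Real.sq_sqrt hm10).symm
      _ ≤ _ := pow_le_pow_left₀ (Real.sqrt_nonneg _) h2 2
  have h5 : (Real.sqrt m2 + c * ‖F‖) ^ 2 ≤ 2 * Real.sqrt m2 ^ 2 + 2 * (c * ‖F‖) ^ 2 := by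
    nlinarith [sq_nonneg (Real.sqrt m2 - c * ‖F‖)]
  rw [Real.sq_sqrt hm20, mul_pow, hm3'] at h5
  linarith

/-- **LEAF LOC-1: the barrier inequality over a set `U` of exact indices.**      `T0 = tmL k0 i0`, `F0 = an T0 k0 v`, `A' = {x | x.1 ∈ U}`.
`Ct` from `cy_barrier (cylHyb η) _ L hG.tight K K N` (its error has `|L.Cl|`: RESTATED by helper21 with `|L.Cl|` here and in `sf_pl_loc2`, `sf_pl_wts`, `sf_pl_step`; use `sf_pl_par` with `Cl := |L.Cl|`, `abs_abs`).      `F = mulR k0 1_{A'} F0`, `Fc = mulR k0 1_{A'ᶜ} F0`, `F + Fc = F0` (`gn_mulR_sum`/`gn_mulR_one`), `v = an† F0` (`gn_adj_an`, all states are plateau states: `hy_an_norm`), so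
`fin i = run (an† F) + run (an† Fc)` (`gn_run_add`, `gn_valid_stm`).      `S' = A' ∩ {ψ ∘ Φ_t ≤ 0}`:  `ms S' (run (an† Fc)) ≤ ms A' (..) = hyE U (..) ≤ hyE U (an† Fc) ≤ ∫⁻_{A'} ‖Fc‖² = 0`  (`hy_fl_ms_base`, `hy_fl_run`, `hy_fl_adj`, `gn_mulR_coe`).
`√ms S' (fin i) ≤ √ms S' (run (an† F))` (`gn_ms_tri_sum` or `gn_en_tri`) `≤ √∫_B ‖F‖² + Ct Λ^-N 2^(Cl n) ‖F‖` (`cy_barrier`, `B = {ψ ∘ Φ_T0 ≤ 1/2}`, `Bar` from `sf_pl_bar` with `k = k0`, `r = 0`, `r' = 1/2`, `δ = 1/(2(K+1))`).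
`∫_B ‖F‖² = ∫_{B ∩ A'} ‖F0‖²`, `‖F‖² = ∫_{A'} ‖F0‖²` (`gn_mulR_ind_setInt`, `gn_mulR_ind_normsq`);  `(a + b)² ≤ 2a² + 2b²`;  pass to `ℝ≥0∞` (`hy_fl_ms_lint`, `ofReal_integral_eq_lintegral_ofReal`).   ~400 l. -/
theorem sf_pl_loc (η : ℝ) (hG : (cylHyb η).Gen (1 + η / 2)) (L : (cylHyb η).Loc (1 + η / 2)) (hL : SfPlLoc η L) (K N : ℕ) :
    ∃ Ct : ℝ, 0 ≤ Ct ∧ ∀ (p : ChyPar) (E : Xp (p.sys η)) (Q0 : CyT) (ζ Λ : ℝ) (i : ℕ) (ψ : ℝ × ℝ → ℝ) (U : Set p.Om),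
      p.Ok → E.Valid → E.st.length ≤ K → E.GenLe K → 0 < ζ → 1 ≤ Λ → 4 * ((K : ℝ) + 1) * Λ * p.dl E.kf ≤ ζ → ancI E.kf E.k0 i = E.i0 →
      LipschitzWith 1 ψ → MeasurableSet U →
      ∫⁻ x in {x | x.1 ∈ U ∧ ψ (sfPlPhi p Q0 (tmL E.k0 E.i0) ((2 : ℝ)⁻¹ ^ E.k0) ζ (tmL E.kf i) x) ≤ 0},
          ‖(p.an (tmL E.kf i) E.kf (E.fin i) : p.Om × ℝ × ℝ → p.Fb) x‖ₑ ^ 2 ∂p.rw
        ≤ 2 * ∫⁻ x in {x | x.1 ∈ U ∧ ψ (sfPlPhi p Q0 (tmL E.k0 E.i0) ((2 : ℝ)⁻¹ ^ E.k0) ζ (tmL E.k0 E.i0) x) ≤ 1 / 2}, sfPlDen η p E x ∂p.rw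
          + ENNReal.ofReal (2 * (Ct * Λ ^ (-(N : ℝ)) * 2 ^ (|L.Cl| * E.n)) ^ 2) * ∫⁻ x in {x | x.1 ∈ U}, sfPlDen η p E x ∂p.rw := by
  obtain ⟨Ct, hCt, H⟩ := cy_barrier (cylHyb η) _ L hG.tight K K N
  refine ⟨Ct, hCt, ?_⟩
  intro p E Q0 ζ Λ i ψ U hp hE hlen hgen hζ hΛ hd hi hψ hU
  have hT : (p.sys η).Tight := hG.tight p hp
  have hstm : StM E.st := gn_valid_stm E hE
  have hkk : E.k0 ≤ E.kf := Nat.le_add_right _ _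
  have hK0 : (0 : ℝ) < (K : ℝ) + 1 := by positivity
  -- the sets
  have hA' : MeasurableSet {x : p.Om × ℝ × ℝ | x.1 ∈ U} := measurable_fst hU
  have hψm : Measurable ψ := hψ.continuous.measurable
  have hBt : ∀ (t r : ℝ), MeasurableSet {x : p.Om × ℝ × ℝ | ψ (sfPlPhi p Q0 (tmL E.k0 E.i0) ((2 : ℝ)⁻¹ ^ E.k0) ζ t x) ≤ r} := fun t r =>
    measurableSet_le (hψm.comp (sf_pl_phi_meas p hp Q0 _ _ ζ t).1) measurable_const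
  have hS' : MeasurableSet {x : p.Om × ℝ × ℝ | x.1 ∈ U ∧ ψ (sfPlPhi p Q0 (tmL E.k0 E.i0) ((2 : ℝ)⁻¹ ^ E.k0) ζ (tmL E.kf i) x) ≤ 0} :=
    hA'.inter (hBt _ _)
  have hS2 : MeasurableSet {x : p.Om × ℝ × ℝ | x.1 ∈ U ∧ ψ (sfPlPhi p Q0 (tmL E.k0 E.i0) ((2 : ℝ)⁻¹ ^ E.k0) ζ (tmL E.k0 E.i0) x) ≤ 1 / 2} :=
    hA'.inter (hBt _ _)
  obtain ⟨A', hA'd⟩ : ∃ A' : Set (p.Om × ℝ × ℝ), A' = {x : p.Om × ℝ × ℝ | x.1 ∈ U} := ⟨_, rfl⟩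
  obtain ⟨S', hS'd⟩ : ∃ S' : Set (p.Om × ℝ × ℝ), S' = {x : p.Om × ℝ × ℝ | x.1 ∈ U ∧ ψ (sfPlPhi p Q0 (tmL E.k0 E.i0) ((2 : ℝ)⁻¹ ^ E.k0) ζ (tmL E.kf i) x) ≤ 0} := ⟨_, rfl⟩
  obtain ⟨S2, hS2d⟩ : ∃ S2 : Set (p.Om × ℝ × ℝ), S2 = {x : p.Om × ℝ × ℝ | x.1 ∈ U ∧ ψ (sfPlPhi p Q0 (tmL E.k0 E.i0) ((2 : ℝ)⁻¹ ^ E.k0) ζ (tmL E.k0 E.i0) x) ≤ 1 / 2} := ⟨_, rfl⟩
  obtain ⟨B, hBd⟩ : ∃ B : Set (p.Om × ℝ × ℝ), B = {x : p.Om × ℝ × ℝ | ψ (sfPlPhi p Q0 (tmL E.k0 E.i0) ((2 : ℝ)⁻¹ ^ E.k0) ζ (tmL E.k0 E.i0) x) ≤ 1 / 2} := ⟨_, rfl⟩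
  have hB : MeasurableSet B := by rw [hBd]; exact hBt _ _
  have hBA : B ∩ A' = S2 := by
    rw [hBd, hA'd, hS2d]
    ext x
    exact and_comm
  have hS'A : S' ⊆ A' := by
    rw [hS'd, hA'd]
    exact fun x hx => hx.1
  rw [← hA'd] at hA' ⊢
  rw [← hS'd] at hS' ⊢
  rw [← hS2d] at hS2 ⊢
  -- the part outside `U` does not contribute
  have hzero : (p.sys η).ms (tmL E.kf i) E.kf 0 S' (Xp.run E.kf i E.st (ContinuousLinearMap.adjoint ((p.sys η).An (tmL E.k0 E.i0) E.k0 0)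
      ((p.sys η).mulR E.k0 (A'ᶜ.indicator fun _ => 1) ((p.sys η).An (tmL E.k0 E.i0) E.k0 0 E.v)))) = 0 := by
    refine le_antisymm ?_ (gn_ms_nonneg _ _ _ _ _)
    refine (gn_ms_mono _ _ _ hS' hA' hS'A _).trans ?_
    rw [← ENNReal.ofReal_eq_zero, hA'd]
    refine (hy_fl_ms_base p hp η _ _ _ U hU _).trans ?_
    refine le_antisymm ?_ (zero_le)
    refine (hy_fl_run p hp η _ _ _ hstm U hU _).trans ((hy_fl_adj p hp _ _ U hU _).trans (le_of_eq ?_))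
    rw [← hA'd]
    exact sf_pl_loc_off (P := p.sys η) E.k0 hA' _
  -- the barrier
  have hΛ0 : 0 < Λ := by linarith
  have hbar : Bar (M := cylHyb η) L p Λ E.kf i (tmL E.k0 (ancI E.kf E.k0 i)) E.k0 B E.st S' := by
    have hδ : 2 * Λ * p.dl E.kf ≤ 1 / (2 * ((K : ℝ) + 1)) * ζ := by
      rw [div_mul_eq_mul_div, one_mul, le_div_iff₀ (by positivity)]
      linarith
    have hr : (0 : ℝ) + ((E.st.length : ℝ) + 1) * (1 / (2 * ((K : ℝ) + 1))) ≤ 1 / 2 := by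
      have h1 : (E.st.length : ℝ) ≤ K := by exact_mod_cast hlen
      rw [zero_add, mul_one_div, div_le_iff₀ (by positivity)]
      linarith
    have h := sf_pl_bar η L hL p hp Q0 E.k0 E.kf i ζ Λ (1 / (2 * ((K : ℝ) + 1))) hζ hΛ hδ ψ hψ E.st E.k0 0 (1 / 2) S' le_rfl hkk
      hE.st_dep hE.st_mono hr (by
        rw [hi, hS'd]
        exact fun x hx => hx.2)
    rw [hBd]
    rw [hi] at h ⊢
    exact h
  have hbd := H p Λ E.k0 E.kf i 0 0 E.st B S' ((p.sys η).mulR E.k0 (A'.indicator fun _ => 1) ((p.sys η).An (tmL E.k0 E.i0) E.k0 0 E.v))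
    hp hΛ hkk ⟨hlen, hE.st_dep, hE.st_mono, hgen.2.2, hstm⟩ (Nat.zero_le _) (Nat.zero_le _) hB hS' hbar
  rw [hi] at hbd
  have hn : (E.kf : ℝ) - E.k0 = E.n := by
    unfold Xp.kf
    push_cast
    ring
  rw [hn] at hbd
  obtain ⟨c, hc⟩ : ∃ c : ℝ, c = Ct * Λ ^ (-(N : ℝ)) * 2 ^ (|L.Cl| * E.n) := ⟨_, rfl⟩
  rw [← hc] at hbd ⊢
  have hreal : (p.sys η).ms (tmL E.kf i) E.kf 0 S' (Xp.run E.kf i E.st E.v)
      ≤ 2 * (p.sys η).ms (tmL E.k0 E.i0) E.k0 0 S2 E.v + 2 * c ^ 2 * (p.sys η).ms (tmL E.k0 E.i0) E.k0 0 A' E.v := by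
    rw [← hBA]
    exact sf_pl_loc_abs (P := p.sys η) hT (tmL E.k0 E.i0) E.k0 (tmL E.kf i) E.kf i E.st hstm E.v (fun T k => hy_an_norm p hp T k E.v)
      A' B S' hA' hB hS' c hzero hbd
  have e1 : ∫⁻ x in S', ‖(p.an (tmL E.kf i) E.kf (E.fin i) : p.Om × ℝ × ℝ → p.Fb) x‖ₑ ^ 2 ∂p.rw
      = ENNReal.ofReal ((p.sys η).ms (tmL E.kf i) E.kf 0 S' (Xp.run E.kf i E.st E.v)) :=
    (hy_fl_ms_lint p hp η _ _ 0 S' hS' _).symm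
  have e2 : ∫⁻ x in S2, sfPlDen η p E x ∂p.rw = ENNReal.ofReal ((p.sys η).ms (tmL E.k0 E.i0) E.k0 0 S2 E.v) :=
    (hy_fl_ms_lint p hp η _ _ 0 S2 hS2 _).symm
  have e3 : ∫⁻ x in A', sfPlDen η p E x ∂p.rw = ENNReal.ofReal ((p.sys η).ms (tmL E.k0 E.i0) E.k0 0 A' E.v) :=
    (hy_fl_ms_lint p hp η _ _ 0 A' hA' _).symm
  have hm20 := gn_ms_nonneg (P := p.sys η) (tmL E.k0 E.i0) E.k0 0 S2 E.v
  have hm30 := gn_ms_nonneg (P := p.sys η) (tmL E.k0 E.i0) E.k0 0 A' E.v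
  rw [e1, e2, e3, ← ENNReal.ofReal_mul (by positivity), show (2 : ℝ≥0∞) = ENNReal.ofReal 2 by simp, ← ENNReal.ofReal_mul (by norm_num),
    ← ENNReal.ofReal_add (by positivity) (by positivity)]
  exact ENNReal.ofReal_le_ofReal hreal

theorem sf_pl_loc2_lip1 (a : ℝ × ℝ) : LipschitzWith 1 (fun y : ℝ × ℝ => dist y a - 1 / 2) := by
  apply LipschitzWith.mk_one
  intro x y
  rw [Real.dist_eq]
  have e : dist x a - 1 / 2 - (dist y a - 1 / 2) = dist x a - dist y a := by ring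
  rw [e]
  exact abs_dist_sub_le x y a

theorem sf_pl_loc2_lip2 (R : ℝ) : LipschitzWith 1 (fun y : ℝ × ℝ => R - dist y 0) := by
  apply LipschitzWith.mk_one
  intro x y
  rw [Real.dist_eq]
  have e : R - dist x 0 - (R - dist y 0) = -(dist x 0 - dist y 0) := by ring
  rw [e, abs_neg]
  exact abs_dist_sub_le x y 0

/-- **LEAF LOC-2: cells and the far region.**   `sf_pl_loc` with `ψ y = dist y (centre of c) - 1/2`, resp. `ψ y = R - dist y 0`, `U = univ` (both 1-Lipschitz: `LipschitzWith.dist_left`/`dist_right`, `.sub_const`, `LipschitzWith.const_sub`-type);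
`sf_pl_gauge`; monotonicity of the set `lintegral` (`lintegral_mono_set`).   ~150 l. -/
theorem sf_pl_loc2 (η : ℝ) (hG : (cylHyb η).Gen (1 + η / 2)) (L : (cylHyb η).Loc (1 + η / 2)) (hL : SfPlLoc η L) (K N : ℕ) :
    ∃ Ct : ℝ, 0 ≤ Ct ∧ ∀ (p : ChyPar) (E : Xp (p.sys η)) (Q0 : CyT) (ζ Λ : ℝ) (i : ℕ),
      p.Ok → E.Valid → E.st.length ≤ K → E.GenLe K → 0 < ζ → 1 ≤ Λ → 4 * ((K : ℝ) + 1) * Λ * p.dl E.kf ≤ ζ → ancI E.kf E.k0 i = E.i0 →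
      (∀ (c : ℤ × ℤ) (U : Set p.Om), MeasurableSet U →
        ∫⁻ x in {x | x.1 ∈ U ∧ sfPlIx p Q0 (tmL E.k0 E.i0) ((2 : ℝ)⁻¹ ^ E.k0) ζ (tmL E.kf i) x = c},
            ‖(p.an (tmL E.kf i) E.kf (E.fin i) : p.Om × ℝ × ℝ → p.Fb) x‖ₑ ^ 2 ∂p.rw
          ≤ 2 * ∫⁻ x in {x | x.1 ∈ U ∧ sfPlCin η p E Q0 ζ x ∈ sfPlNb c}, sfPlDen η p E x ∂p.rw
            + ENNReal.ofReal (2 * (Ct * Λ ^ (-(N : ℝ)) * 2 ^ (|L.Cl| * E.n)) ^ 2) * ∫⁻ x in {x | x.1 ∈ U}, sfPlDen η p E x ∂p.rw) ∧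
      ∀ R : ℕ,
        ∫⁻ x in {x | sfPlIx p Q0 (tmL E.k0 E.i0) ((2 : ℝ)⁻¹ ^ E.k0) ζ (tmL E.kf i) x ∉ sfPlJ R},
            ‖(p.an (tmL E.kf i) E.kf (E.fin i) : p.Om × ℝ × ℝ → p.Fb) x‖ₑ ^ 2 ∂p.rw
          ≤ 2 * ∫⁻ x in {x | (R : ℝ) - 1 / 2 ≤ dist (sfPlPhi p Q0 (tmL E.k0 E.i0) ((2 : ℝ)⁻¹ ^ E.k0) ζ (tmL E.k0 E.i0) x) 0}, sfPlDen η p E x ∂p.rw
            + ENNReal.ofReal (2 * (Ct * Λ ^ (-(N : ℝ)) * 2 ^ (|L.Cl| * E.n)) ^ 2) * ∫⁻ x, sfPlDen η p E x ∂p.rw := by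
  obtain ⟨Ct, hCt, H⟩ := sf_pl_loc η hG L hL K N
  refine ⟨Ct, hCt, ?_⟩
  intro p E Q0 ζ Λ i hp hE hK hGen hζ hΛ hd hi
  refine ⟨?_, ?_⟩
  · intro c U hU
    have h := H p E Q0 ζ Λ i (fun y : ℝ × ℝ => dist y ((c.1 : ℝ) + 1 / 2, (c.2 : ℝ) + 1 / 2) - 1 / 2) U hp hE hK hGen hζ hΛ hd hi (sf_pl_loc2_lip1 _) hU
    refine le_trans (lintegral_mono_set ?_) (h.trans ?_)
    · intro x hx
      exact ⟨hx.1, (sf_pl_gauge (sfPlPhi p Q0 (tmL E.k0 E.i0) ((2 : ℝ)⁻¹ ^ E.k0) ζ (tmL E.kf i) x) c 0).1 hx.2⟩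
    · gcongr ?_ + _
      gcongr 2 * ?_
      apply lintegral_mono_set
      intro x hx
      exact ⟨hx.1, (sf_pl_gauge (sfPlPhi p Q0 (tmL E.k0 E.i0) ((2 : ℝ)⁻¹ ^ E.k0) ζ (tmL E.k0 E.i0) x) c 0).2.1 hx.2⟩
  · intro R
    have h := H p E Q0 ζ Λ i (fun y : ℝ × ℝ => (R : ℝ) - dist y 0) Set.univ hp hE hK hGen hζ hΛ hd hi (sf_pl_loc2_lip2 _) MeasurableSet.univ
    have e : {x : p.Om × ℝ × ℝ | x.1 ∈ (Set.univ : Set p.Om)} = Set.univ := by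
      ext x
      simp
    rw [e, Measure.restrict_univ] at h
    refine le_trans (lintegral_mono_set ?_) (h.trans ?_)
    · intro x hx
      exact ⟨Set.mem_univ _, (sf_pl_gauge (sfPlPhi p Q0 (tmL E.k0 E.i0) ((2 : ℝ)⁻¹ ^ E.k0) ζ (tmL E.kf i) x) 0 R).2.2.1 hx⟩
    · gcongr ?_ + _
      gcongr 2 * ?_
      apply lintegral_mono_set
      intro x hx
      have := hx.2
      show (R : ℝ) - 1 / 2 ≤ _
      have h2 : (R : ℝ) - dist (sfPlPhi p Q0 (tmL E.k0 E.i0) ((2 : ℝ)⁻¹ ^ E.k0) ζ (tmL E.k0 E.i0) x) 0 ≤ 1 / 2 := this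
      linarith

theorem sf_pl_wts_sum_le (η : ℝ) (p : ChyPar) (E : Xp (p.sys η)) (hE : E.Valid) (i : ℕ) (x : p.Om × ℝ × ℝ) (a : ℝ≥0∞) :
    ∑ l, (if E.iv l = i then ENNReal.ofReal (E.th l x) * a else 0) ≤ a := by
  have h1 : ∑ l, (if E.iv l = i then ENNReal.ofReal (E.th l x) * a else 0) = ENNReal.ofReal (∑ l, (if E.iv l = i then E.th l x else 0)) * a := by
    rw [ENNReal.ofReal_sum_of_nonneg (fun l _ => by
      split_ifs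
      · exact hE.th_nn l x
      · exact le_rfl), Finset.sum_mul]
    refine Finset.sum_congr rfl fun l _ => ?_
    split_ifs <;> simp
  rw [h1]
  calc _ ≤ 1 * a := mul_le_mul' (by rw [← ENNReal.ofReal_one]; exact ENNReal.ofReal_le_ofReal (hE.th_sum i x)) le_rfl
    _ = a := one_mul a

theorem sf_pl_wts_th_le (η : ℝ) (p : ChyPar) (E : Xp (p.sys η)) (hE : E.Valid) (l : Fin E.L) (x : p.Om × ℝ × ℝ) : E.th l x ≤ 1 := by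
  refine le_trans ?_ (hE.th_sum (E.iv l) x)
  have := Finset.single_le_sum (f := fun l' => if E.iv l' = E.iv l then E.th l' x else 0) (fun l' _ => by
    show 0 ≤ if E.iv l' = E.iv l then E.th l' x else 0
    split_ifs
    · exact hE.th_nn l' x
    · exact le_rfl) (Finset.mem_univ l)
  simpa using this

/-- **LEAF WTS: the weights of the classical assignment.**      `Ct` from `sf_pl_loc2`.   For every final interval `i` (with `ancI kf k0 i = i0`; the other intervals carry no label, `Valid.iv_in`) apply `sf_pl_alloc` with `m = sfPlMw p`, `lam = volume` (`sf_pl_rw`, `sf_pl_mw_sfin`),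
`f = sfPlDen`, `cin = sfPlCin`, `cout = sfPlIx .. (tmL kf i)`, `g l x = if iv l = i then ofReal (th l x) * ‖an (tmL kf i) kf (fin i) x‖ₑ² else 0` (`∑ l, g l ≤ ‖..‖ₑ²` by `Valid.th_sum`), `J = sfPlJ R`, `N = sfPlNb`, `K = 9` (`sf_pl_gauge`).   `choose Θ δ`.
`th' l x = (Θ (iv l) l (x.1, sfPlCin x)).toReal`,      `ρ l = (δ (iv l) l).toReal + (∫⁻ x in {cout ∉ J}, g l x).toReal`.
Sum `≤ 1`: `ENNReal.toReal_sum`, values `≤ 1`.      Support: `Θ ≠ 0` gives a final row `(ω, z)` with `th l (ω,z) ≠ 0`, hence in the cell of `ts l` (`Valid.th_supp`), in a cell `c` with `sfPlCin x ∈ sfPlNb c`: `sf_pl_supp` (`l0 s = 2^-kf`; times: `sf_pl_nest`).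
Masses: `ofReal (E.m l) = ∫⁻ g l` (`hy_en_lint`), split `{cout ∈ J}`, `{cout ∉ J}`;  `∫ th' l dμ̃ = (∫⁻ Θ (x.1, cin x) dμ̃).toReal = (∫⁻ Θ (..) * sfPlDen d rw).toReal` (`sf_pl_mu_wt`, `integral_toReal`).
Errors: `∑_{iv l = i} δ ≤ card J · ε · ‖v‖²`, `card J = (2R)²`;  far part: second half of `sf_pl_loc2`, `hy_fl_ms_lint`;  `∫⁻ sfPlDen = ofReal ‖v‖²`.   ~600 l. -/
theorem sf_pl_wts (η : ℝ) (hG : (cylHyb η).Gen (1 + η / 2)) (L : (cylHyb η).Loc (1 + η / 2)) (hL : SfPlLoc η L) (K N : ℕ) :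
    ∃ Ct : ℝ, 0 ≤ Ct ∧ ∀ (p : ChyPar) (E : Xp (p.sys η)) (Q0 : CyT) (ζ Λ : ℝ) (R : ℕ),
      p.Ok → E.Valid → E.st.length ≤ K → E.GenLe K → 0 < ζ → 1 ≤ Λ → 4 * ((K : ℝ) + 1) * Λ * p.dl E.kf ≤ ζ → (∀ l, 4 * ζ ≤ E.s * CyT.f (E.ts l)) →
      ∃ (th' : Fin E.L → p.Om × ℝ × ℝ → ℝ) (ρ : Fin E.L → ℝ), (∀ l, Measurable (th' l)) ∧ (∀ l x, 0 ≤ th' l x) ∧
        (∀ i x, ∑ l, (if E.iv l = i then th' l x else 0) ≤ 1) ∧
        (∀ l x, th' l x ≠ 0 → cyIn (sfPlDbl (E.ts l)) ((2 : ℝ)⁻¹ ^ E.kf) ((sfPlPar p (tmL E.k0 E.i0) (sfPlMu η p E Q0 ζ)).co (tmL E.kf (E.iv l)) x)) ∧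
        (∀ l, 0 ≤ ρ l) ∧ (∀ l, E.m l ≤ 18 * ∫ x, th' l x ∂(sfPlMu η p E Q0 ζ) + ρ l) ∧
        ∀ i, ∑ l, (if E.iv l = i then ρ l else 0) ≤ (((2 * R : ℕ) : ℝ) ^ 2 + 1) * (2 * (Ct * Λ ^ (-(N : ℝ)) * 2 ^ (|L.Cl| * E.n)) ^ 2) * ‖E.v‖ ^ 2
          + 2 * (p.sys η).ms (tmL E.k0 E.i0) E.k0 E.b0
              {x | (R : ℝ) - 1 / 2 ≤ dist (sfPlPhi p Q0 (tmL E.k0 E.i0) ((2 : ℝ)⁻¹ ^ E.k0) ζ (tmL E.k0 E.i0) x) 0} E.v := by
  obtain ⟨Ct, hCt, hloc⟩ := sf_pl_loc2 η hG L hL K N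
  refine ⟨Ct, hCt, fun p E Q0 ζ Λ R hp hE hK hGen hζ hΛ hd hf4 => ?_⟩
  have := sf_pl_mw_sfin p hp
  have hrw := sf_pl_rw p hp
  obtain ⟨ε', hε'⟩ : ∃ ε' : ℝ, ε' = 2 * (Ct * Λ ^ (-(N : ℝ)) * 2 ^ (|L.Cl| * E.n)) ^ 2 := ⟨_, rfl⟩
  have hε'0 : 0 ≤ ε' := by rw [hε']; positivity
  rw [← hε']
  obtain ⟨Far, hFar⟩ : ∃ Far : Set (p.Om × ℝ × ℝ), Far = {x | (R : ℝ) - 1 / 2 ≤ dist (sfPlPhi p Q0 (tmL E.k0 E.i0) ((2 : ℝ)⁻¹ ^ E.k0) ζ (tmL E.k0 E.i0) x) 0} := ⟨_, rfl⟩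
  have hFarm : MeasurableSet Far := by
    rw [hFar]
    exact measurableSet_le measurable_const ((sf_pl_phi_meas p hp Q0 _ _ ζ _).1.dist measurable_const)
  obtain ⟨M, hM⟩ : ∃ M : ℝ, M = (p.sys η).ms (tmL E.k0 E.i0) E.k0 E.b0
      {x | (R : ℝ) - 1 / 2 ≤ dist (sfPlPhi p Q0 (tmL E.k0 E.i0) ((2 : ℝ)⁻¹ ^ E.k0) ζ (tmL E.k0 E.i0) x) 0} E.v := ⟨_, rfl⟩
  rw [← hM]
  have hM0 : 0 ≤ M := by rw [hM]; exact gn_ms_nonneg _ _ _ _ _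
  -- the data
  obtain ⟨a, ha⟩ : ∃ a : ℕ → p.Om × ℝ × ℝ → ℝ≥0∞, a = fun i x => ‖(p.an (tmL E.kf i) E.kf (E.fin i) : p.Om × ℝ × ℝ → p.Fb) x‖ₑ ^ 2 := ⟨_, rfl⟩
  obtain ⟨cout, hcout⟩ : ∃ cout : ℕ → p.Om × ℝ × ℝ → ℤ × ℤ, cout = fun i => sfPlIx p Q0 (tmL E.k0 E.i0) ((2 : ℝ)⁻¹ ^ E.k0) ζ (tmL E.kf i) := ⟨_, rfl⟩
  obtain ⟨g, hg⟩ : ∃ g : ℕ → Fin E.L → p.Om × ℝ × ℝ → ℝ≥0∞, g = fun i l x => if E.iv l = i then ENNReal.ofReal (E.th l x) * a i x else 0 := ⟨_, rfl⟩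
  obtain ⟨f, hf⟩ : ∃ f : p.Om × ℝ × ℝ → ℝ≥0∞, f = sfPlDen η p E := ⟨_, rfl⟩
  obtain ⟨cin, hcin⟩ : ∃ cin : p.Om × ℝ × ℝ → ℤ × ℤ, cin = sfPlCin η p E Q0 ζ := ⟨_, rfl⟩
  have hfm : Measurable f := by rw [hf]; exact sf_pl_den_meas η p hp E
  have hcinm : Measurable cin := by
    rw [hcin]
    exact (sf_pl_phi_meas p hp Q0 _ _ ζ _).2
  have ham : ∀ i, Measurable (a i) := fun i => by
    rw [ha]
    exact ((Lp.stronglyMeasurable _).enorm).pow_const 2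
  have hcm : ∀ i, Measurable (cout i) := fun i => by
    rw [hcout]
    exact (sf_pl_phi_meas p hp Q0 _ _ ζ _).2
  have hgm : ∀ i l, Measurable (g i l) := fun i l => by
    rw [hg]
    by_cases h : E.iv l = i
    · simp only [h, if_true]
      exact (hE.th_meas l).ennreal_ofReal.mul (ham i)
    · simp only [h, if_false]
      exact measurable_const
  have hgs : ∀ i x, ∑ l, g i l x ≤ a i x := fun i x => by
    rw [hg]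
    exact sf_pl_wts_sum_le η p E hE i x (a i x)
  have hg0 : ∀ i, ancI E.kf E.k0 i ≠ E.i0 → ∀ l x, g i l x = 0 := fun i hi l x => by
    rw [hg]
    have : E.iv l ≠ i := fun h => hi (h ▸ hE.iv_in l)
    simp only [this, if_false]
  have hl1 : ∀ i, ancI E.kf E.k0 i = E.i0 → ∀ (c : ℤ × ℤ) (U : Set p.Om), MeasurableSet U →
      ∫⁻ x in {x | x.1 ∈ U ∧ cout i x = c}, a i x ∂p.rw
        ≤ 2 * ∫⁻ x in {x | x.1 ∈ U ∧ cin x ∈ sfPlNb c}, f x ∂p.rw + ENNReal.ofReal ε' * ∫⁻ x in {x | x.1 ∈ U}, f x ∂p.rw := fun i hi => by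
    rw [hcout, ha, hcin, hf, hε']
    exact (hloc p E Q0 ζ Λ i hp hE hK hGen hζ hΛ hd hi).1
  have hl2 : ∀ i, ancI E.kf E.k0 i = E.i0 →
      ∫⁻ x in {x | cout i x ∉ sfPlJ R}, a i x ∂p.rw ≤ 2 * ∫⁻ x in Far, f x ∂p.rw + ENNReal.ofReal ε' * ∫⁻ x, f x ∂p.rw := fun i hi => by
    rw [hcout, ha, hFar, hf, hε']
    exact (hloc p E Q0 ζ Λ i hp hE hK hGen hζ hΛ hd hi).2 R
  have hF : ∫⁻ x, f x ∂p.rw = ENNReal.ofReal (‖E.v‖ ^ 2) := by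
    have e : ‖E.v‖ = ‖p.an (tmL E.k0 E.i0) E.k0 E.v‖ := (hy_an_norm p hp _ _ E.v).symm
    rw [hf, e, hy_fl_norm_sq]
    rfl
  have hFF : ∫⁻ x in Far, f x ∂p.rw = ENNReal.ofReal M := by
    have e : M = (p.sys η).ms (tmL E.k0 E.i0) E.k0 E.b0 Far E.v := by
      rw [hM, hFar]
      rfl
    rw [hf, e, hy_fl_ms_lint p hp η _ _ _ Far hFarm]
    rfl
  clear hloc
  have hfin : ∫⁻ x, f x ∂p.rw ≠ ∞ := by rw [hF]; exact ENNReal.ofReal_ne_top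
  have key : ∀ i, ∃ (Θ : Fin E.L → p.Om × (ℤ × ℤ) → ℝ≥0∞) (δ : Fin E.L → ℝ≥0∞), (∀ l, Measurable (Θ l)) ∧ (∀ y, ∑ l, Θ l y ≤ 1) ∧
      (∀ l ω c', Θ l (ω, c') ≠ 0 → ∃ c ∈ sfPlJ R, c' ∈ sfPlNb c ∧ ∃ z, cout i (ω, z) = c ∧ g i l (ω, z) ≠ 0) ∧
      ∑ l, δ l ≤ (sfPlJ R).card * ENNReal.ofReal ε' * ∫⁻ x, f x ∂p.rw ∧
      ∀ l, ∫⁻ x in {x | cout i x ∈ sfPlJ R}, g i l x ∂p.rw ≤ 2 * ((9 : ℕ) : ℝ≥0∞) * ∫⁻ x, Θ l (x.1, cin x) * f x ∂p.rw + δ l := by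
    intro i
    have hh : ∀ c ∈ sfPlJ R, ∀ U : Set p.Om, MeasurableSet U →
        ∫⁻ x in {x | x.1 ∈ U ∧ cout i x = c}, ∑ l, g i l x ∂p.rw
          ≤ 2 * ∫⁻ x in {x | x.1 ∈ U ∧ cin x ∈ sfPlNb c}, f x ∂p.rw + ENNReal.ofReal ε' * ∫⁻ x in {x | x.1 ∈ U}, f x ∂p.rw := by
      intro c _ U hU
      by_cases hi : ancI E.kf E.k0 i = E.i0
      · exact le_trans (lintegral_mono fun x => hgs i x) (hl1 i hi c U hU)
      · simp only [hg0 i hi, Finset.sum_const_zero, lintegral_zero]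
        exact zero_le
    rw [hrw] at hfin hh ⊢
    refine sf_pl_alloc (sfPlMw p) volume cin hcinm f hfm hfin (cout i) (hcm i) (g i) (hgm i) (sfPlJ R) sfPlNb 9 (by norm_num) ?_
      (ENNReal.ofReal ε') ENNReal.ofReal_ne_top hh
    intro c'
    convert (sf_pl_gauge 0 0 R).2.2.2.1 c'
  choose Θ δ hΘm hΘs hΘsupp hδ hmass using key
  have hΘ1 : ∀ i l y, Θ i l y ≤ 1 := fun i l y =>
    (Finset.single_le_sum (f := fun l => Θ i l y) (fun _ _ => zero_le) (Finset.mem_univ l)).trans (hΘs i y)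
  obtain ⟨far, hfar⟩ : ∃ far : ℕ → Fin E.L → ℝ≥0∞, far = fun i l => ∫⁻ x in {x | cout i x ∉ sfPlJ R}, g i l x ∂p.rw := ⟨_, rfl⟩
  have hfs : ∀ i, ∑ l, far i l ≤ 2 * ENNReal.ofReal M + ENNReal.ofReal ε' * ENNReal.ofReal (‖E.v‖ ^ 2) := by
    intro i
    rw [hfar, ← hFF, ← hF]
    simp only
    rw [← lintegral_finsetSum _ (fun l _ => hgm i l)]
    by_cases hi : ancI E.kf E.k0 i = E.i0
    · exact (lintegral_mono fun x => hgs i x).trans (hl2 i hi)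
    · simp only [hg0 i hi, Finset.sum_const_zero, lintegral_zero]
      exact zero_le
  have hδs : ∀ i, ∑ l, δ i l ≤ ENNReal.ofReal (((2 * R : ℕ) : ℝ) ^ 2) * ENNReal.ofReal ε' * ENNReal.ofReal (‖E.v‖ ^ 2) := by
    intro i
    refine (hδ i).trans (le_of_eq ?_)
    rw [hF, (sf_pl_gauge 0 0 R).2.2.2.2]
    congr 2
    rw [← Nat.cast_pow, ENNReal.ofReal_natCast]
  have hδfin : ∀ i l, δ i l ≠ ∞ := fun i l =>
    ne_top_of_le_ne_top (by finiteness) ((Finset.single_le_sum (f := fun l => δ i l) (fun _ _ => zero_le) (Finset.mem_univ l)).trans (hδs i))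
  have hfarfin : ∀ i l, far i l ≠ ∞ := fun i l =>
    ne_top_of_le_ne_top (by finiteness) ((Finset.single_le_sum (f := fun l => far i l) (fun _ _ => zero_le) (Finset.mem_univ l)).trans (hfs i))
  refine ⟨fun l x => (Θ (E.iv l) l (x.1, cin x)).toReal, fun l => (δ (E.iv l) l).toReal + (far (E.iv l) l).toReal,
    fun l => ((hΘm (E.iv l) l).comp (measurable_fst.prodMk hcinm)).ennreal_toReal, fun l x => ENNReal.toReal_nonneg, ?_, ?_,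
    fun l => add_nonneg ENNReal.toReal_nonneg ENNReal.toReal_nonneg, ?_, ?_⟩
  · intro i x
    calc ∑ l, (if E.iv l = i then (Θ (E.iv l) l (x.1, cin x)).toReal else 0) ≤ ∑ l, (Θ i l (x.1, cin x)).toReal := by
          refine Finset.sum_le_sum fun l _ => ?_
          split_ifs with h
          · rw [h]
          · exact ENNReal.toReal_nonneg
      _ = (∑ l, Θ i l (x.1, cin x)).toReal := (ENNReal.toReal_sum fun l _ => ne_top_of_le_ne_top ENNReal.one_ne_top (hΘ1 i l _)).symm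
      _ ≤ 1 := by
          have := ENNReal.toReal_mono ENNReal.one_ne_top (hΘs i (x.1, cin x))
          simpa using this
  · intro l x hx
    have h1 : Θ (E.iv l) l (x.1, cin x) ≠ 0 := by
      intro h0
      apply hx
      show (Θ (E.iv l) l (x.1, cin x)).toReal = 0
      rw [h0]
      rfl
    obtain ⟨c, _, hc, z, hz, hgz⟩ := hΘsupp (E.iv l) l x.1 (cin x) h1
    have hth : E.th l (x.1, z) ≠ 0 := by
      intro h0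
      apply hgz
      rw [hg]
      simp [h0]
    have hcell' : cyIn (E.ts l) ((2 : ℝ)⁻¹ ^ E.kf) (p.co (tmL E.kf (E.iv l)) (x.1, z)) := hE.th_supp l (x.1, z) hth
    have hnest := sf_pl_nest (k := E.k0) (k' := E.kf) (kf := E.kf) (Nat.le_add_right _ _) le_rfl (E.iv l)
    rw [gn_anc_self, hE.iv_in l] at hnest
    have hl0 : (0 : ℝ) < (2 : ℝ)⁻¹ ^ E.k0 := by positivity
    have hlf : (0 : ℝ) < (2 : ℝ)⁻¹ ^ E.kf := by positivity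
    have hs0 : 0 < E.s := by unfold Xp.s; positivity
    have hs1 : E.s ≤ 1 := by unfold Xp.s; exact pow_le_one₀ (by norm_num) (by norm_num)
    have hfpos : 0 < CyT.f (E.ts l) := by
      by_contra hneg
      have h4 := hf4 l
      have := mul_nonpos_of_nonneg_of_nonpos hs0.le (not_lt.1 hneg)
      linarith
    have hkf : (2 : ℝ)⁻¹ ^ E.kf = (2 : ℝ)⁻¹ ^ E.k0 * E.s := by unfold Xp.kf Xp.s; rw [pow_add]
    have hsf : E.s * CyT.f (E.ts l) ≤ CyT.f (E.ts l) := by nlinarith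
    have hnb : sfPlIx p Q0 (tmL E.k0 E.i0) ((2 : ℝ)⁻¹ ^ E.k0) ζ (tmL E.k0 E.i0) x
        ∈ sfPlNb (sfPlIx p Q0 (tmL E.k0 E.i0) ((2 : ℝ)⁻¹ ^ E.k0) ζ (tmL E.kf (E.iv l)) (x.1, z)) := by
      rw [hcout] at hz
      rw [hcin] at hc
      simp only at hz
      rw [hz]
      exact hc
    exact sf_pl_supp p Q0 (E.ts l) (tmL E.k0 E.i0) ((2 : ℝ)⁻¹ ^ E.k0) ζ (tmL E.kf (E.iv l)) ((2 : ℝ)⁻¹ ^ E.kf) x (x.1, z) rfl hζ hl0 hnest.1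
      (by linarith [hnest.2]) hnb hcell' (by linarith [hf4 l]) (by
        rw [hkf, mul_assoc]
        have := mul_le_mul_of_nonneg_left (hf4 l) hl0.le
        linarith)
  · intro l
    have := sf_pl_mu_fin η p hp E Q0 ζ hζ
    obtain ⟨I, hI⟩ : ∃ I : ℝ≥0∞, I = ∫⁻ x, Θ (E.iv l) l (x.1, cin x) ∂(sfPlMu η p E Q0 ζ) := ⟨_, rfl⟩
    have hIfin : I ≠ ∞ := by
      rw [hI]
      refine ne_top_of_le_ne_top (measure_ne_top (sfPlMu η p E Q0 ζ) Set.univ) ?_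
      calc _ ≤ ∫⁻ _, 1 ∂(sfPlMu η p E Q0 ζ) := lintegral_mono fun x => hΘ1 _ _ _
        _ = _ := by simp
    have hint : ∫ x, (Θ (E.iv l) l (x.1, cin x)).toReal ∂(sfPlMu η p E Q0 ζ) = I.toReal := by
      rw [hI]
      exact integral_toReal ((hΘm (E.iv l) l).comp (measurable_fst.prodMk hcinm)).aemeasurable
        (Filter.Eventually.of_forall fun x => lt_of_le_of_lt (hΘ1 _ _ _) ENNReal.one_lt_top)
    have hI2 : I = ∫⁻ x, Θ (E.iv l) l (x.1, cin x) * f x ∂p.rw := by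
      rw [hI, hcin, hf]
      exact sf_pl_mu_wt η p hp E Q0 ζ hζ _ (hΘm (E.iv l) l)
    have hm1 : ENNReal.ofReal (E.m l) = ∫⁻ x, g (E.iv l) l x ∂p.rw := by
      have h5 := hy_en_lint p hp η (tmL E.kf (E.iv l)) E.kf E.bT (E.th l) (hE.th_meas l) (hE.th_nn l) (sf_pl_wts_th_le η p E hE l)
        (E.fin (E.iv l)) _ (Filter.EventuallyEq.refl _ _)
      refine Eq.trans h5 ?_
      rw [hg, ha]
      simp only [if_true]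
      rfl
    have hJm : MeasurableSet {x | cout (E.iv l) x ∈ sfPlJ R} := hcm (E.iv l) (Finset.measurableSet _)
    have hm2 : ENNReal.ofReal (E.m l) ≤ 18 * I + δ (E.iv l) l + far (E.iv l) l := by
      rw [hm1, ← lintegral_add_compl _ hJm]
      refine add_le_add ?_ ?_
      · refine (hmass (E.iv l) l).trans (le_of_eq ?_)
        rw [← hI2]
        norm_num
      · rw [hfar]
        exact le_rfl
    rw [hint]
    have h18 : ENNReal.ofReal (18 * I.toReal + ((δ (E.iv l) l).toReal + (far (E.iv l) l).toReal)) = 18 * I + δ (E.iv l) l + far (E.iv l) l := by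
      rw [ENNReal.ofReal_add (by positivity) (by positivity), ENNReal.ofReal_add ENNReal.toReal_nonneg ENNReal.toReal_nonneg,
        ENNReal.ofReal_mul (by norm_num), ENNReal.ofReal_toReal hIfin, ENNReal.ofReal_toReal (hδfin _ _), ENNReal.ofReal_toReal (hfarfin _ _), add_assoc]
      norm_num
    rw [← h18] at hm2
    exact (ENNReal.ofReal_le_ofReal_iff (by positivity)).1 hm2
  · intro i
    have h1 : ∑ l, (if E.iv l = i then (δ (E.iv l) l).toReal + (far (E.iv l) l).toReal else 0) ≤ (∑ l, δ i l).toReal + (∑ l, far i l).toReal := by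
      rw [ENNReal.toReal_sum fun l _ => hδfin i l, ENNReal.toReal_sum fun l _ => hfarfin i l, ← Finset.sum_add_distrib]
      refine Finset.sum_le_sum fun l _ => ?_
      split_ifs with h
      · rw [h]
      · exact add_nonneg ENNReal.toReal_nonneg ENNReal.toReal_nonneg
    refine h1.trans ?_
    have h2 : (∑ l, δ i l).toReal ≤ ((2 * R : ℕ) : ℝ) ^ 2 * ε' * ‖E.v‖ ^ 2 := by
      have h6 := ENNReal.toReal_mono (by finiteness) (hδs i)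
      rwa [← ENNReal.ofReal_mul (by positivity), ← ENNReal.ofReal_mul (by positivity), ENNReal.toReal_ofReal (by positivity)] at h6
    have h3 : (∑ l, far i l).toReal ≤ 2 * M + ε' * ‖E.v‖ ^ 2 := by
      have h6 := ENNReal.toReal_mono (by finiteness) (hfs i)
      rw [← ENNReal.ofReal_mul hε'0, show (2 : ℝ≥0∞) = ENNReal.ofReal 2 by norm_num, ← ENNReal.ofReal_mul (by norm_num),
        ← ENNReal.ofReal_add (by positivity) (by positivity), ENNReal.toReal_ofReal (by positivity)] at h6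
      exact h6
    have h4 : (((2 * R : ℕ) : ℝ) ^ 2 + 1) * ε' * ‖E.v‖ ^ 2 = ((2 * R : ℕ) : ℝ) ^ 2 * ε' * ‖E.v‖ ^ 2 + ε' * ‖E.v‖ ^ 2 := by ring
    linarith

theorem sf_pl_num_32 {x : ℝ} (hx : 0 ≤ x) : x ^ (3 / 2 : ℝ) = Real.sqrt x * x := by
  have : (3 / 2 : ℝ) = 1 / 2 + 1 := by norm_num
  rw [this, Real.rpow_add_of_nonneg hx (by norm_num) (by norm_num), Real.rpow_one, Real.sqrt_eq_rpow]

theorem sf_pl_num_add {a b : ℝ} (ha : 0 ≤ a) (hb : 0 ≤ b) :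
    (a + b) ^ (3 / 2 : ℝ) ≤ Real.sqrt 2 * (a ^ (3 / 2 : ℝ) + b ^ (3 / 2 : ℝ)) := by
  have h := NNReal.rpow_add_le_mul_rpow_add_rpow ⟨a, ha⟩ ⟨b, hb⟩ (p := 3 / 2) (by norm_num)
  have h2 := NNReal.coe_le_coe.2 h
  push_cast at h2
  have e : (3 / 2 : ℝ) - 1 = 1 / 2 := by norm_num
  rw [e, ← Real.sqrt_eq_rpow] at h2
  exact h2

/-- **LEAF NUM-1** (real numbers only).   `(a + b)^(3/2) ≤ √2 (a^(3/2) + b^(3/2))` (convexity of `t^(3/2)`: `Real.rpow_arith_mean_le_arith_mean2_rpow` or `inner_le_nnorm_mul_nnorm`-free: `(convexOn_rpow ..)`), `√2 · 18^(3/2) = 108`;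
`ρ l ≤ b` (one term of `hsum (iv l)`), `∑ l, ρ l = ∑ i ∈ I, ∑ l, [iv l = i] ρ l ≤ 2^n b`, `ρ^(3/2) = ρ^(1/2) ρ ≤ b^(1/2) ρ`.   ~200 l. -/
theorem sf_pl_num {L : ℕ} (n : ℕ) (m m' ρ w : Fin L → ℝ) (iv : Fin L → ℕ) (I : Finset ℕ) (hI : I.card ≤ 2 ^ n) (hiv : ∀ l, iv l ∈ I) (w0 b : ℝ) (hw0 : 0 < w0)
    (hw : ∀ l, w0 ≤ w l) (hm : ∀ l, 0 ≤ m l) (hm' : ∀ l, 0 ≤ m' l) (hρ : ∀ l, 0 ≤ ρ l) (h : ∀ l, m l ≤ 18 * m' l + ρ l) (hb : 0 ≤ b)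
    (hsum : ∀ i, ∑ l, (if iv l = i then ρ l else 0) ≤ b) :
    ∑ l, m l ^ (3 / 2 : ℝ) / Real.sqrt (w l) ≤ 108 * ∑ l, m' l ^ (3 / 2 : ℝ) / Real.sqrt (w l) + 2 * (2 ^ n * b ^ (3 / 2 : ℝ) / Real.sqrt w0) := by
  have hs0 : 0 < Real.sqrt w0 := Real.sqrt_pos.2 hw0
  have hρb : ∀ l, ρ l ≤ b := by
    intro l
    refine le_trans ?_ (hsum (iv l))
    have := Finset.single_le_sum (f := fun l' => if iv l' = iv l then ρ l' else 0)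
      (fun l' _ => by split_ifs; exacts [hρ l', le_rfl]) (Finset.mem_univ l)
    simpa using this
  have htot : ∑ l, ρ l ≤ 2 ^ n * b := by
    have e : ∑ l, ρ l = ∑ i ∈ I, ∑ l, (if iv l = i then ρ l else 0) := by
      rw [Finset.sum_comm]
      refine Finset.sum_congr rfl fun l _ => ?_
      rw [Finset.sum_ite_eq, if_pos (hiv l)]
    rw [e]
    calc ∑ i ∈ I, ∑ l, (if iv l = i then ρ l else 0) ≤ ∑ _i ∈ I, b := Finset.sum_le_sum fun i _ => hsum i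
      _ = (I.card : ℝ) * b := by rw [Finset.sum_const, nsmul_eq_mul]
      _ ≤ 2 ^ n * b := by
          refine mul_le_mul_of_nonneg_right ?_ hb
          exact_mod_cast hI
  have h108 : Real.sqrt 2 * (18 : ℝ) ^ (3 / 2 : ℝ) = 108 := by
    rw [sf_pl_num_32 (by norm_num), ← mul_assoc, ← Real.sqrt_mul (by norm_num)]
    have : Real.sqrt (2 * 18) = 6 := by
      rw [show (2 * 18 : ℝ) = 6 ^ 2 by norm_num]
      exact Real.sqrt_sq (by norm_num)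
    rw [this]
    norm_num
  have hsq2 : Real.sqrt 2 ≤ 2 := by
    rw [Real.sqrt_le_left (by norm_num)]
    norm_num
  have hterm : ∀ l, m l ^ (3 / 2 : ℝ) / Real.sqrt (w l) ≤
      108 * (m' l ^ (3 / 2 : ℝ) / Real.sqrt (w l)) + 2 * Real.sqrt b / Real.sqrt w0 * ρ l := by
    intro l
    have hwl : 0 < w l := lt_of_lt_of_le hw0 (hw l)
    have hsl : 0 < Real.sqrt (w l) := Real.sqrt_pos.2 hwl
    have hs : Real.sqrt w0 ≤ Real.sqrt (w l) := Real.sqrt_le_sqrt (hw l)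
    have h1 : m l ^ (3 / 2 : ℝ) ≤ 108 * m' l ^ (3 / 2 : ℝ) + 2 * (Real.sqrt b * ρ l) := by
      calc m l ^ (3 / 2 : ℝ) ≤ (18 * m' l + ρ l) ^ (3 / 2 : ℝ) := Real.rpow_le_rpow (hm l) (h l) (by norm_num)
        _ ≤ Real.sqrt 2 * ((18 * m' l) ^ (3 / 2 : ℝ) + ρ l ^ (3 / 2 : ℝ)) :=
            sf_pl_num_add (mul_nonneg (by norm_num) (hm' l)) (hρ l)
        _ = 108 * m' l ^ (3 / 2 : ℝ) + Real.sqrt 2 * ρ l ^ (3 / 2 : ℝ) := by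
            rw [Real.mul_rpow (by norm_num) (hm' l), mul_add, ← mul_assoc, h108]
        _ ≤ 108 * m' l ^ (3 / 2 : ℝ) + 2 * (Real.sqrt b * ρ l) := by
            have h2 : ρ l ^ (3 / 2 : ℝ) ≤ Real.sqrt b * ρ l := by
              rw [sf_pl_num_32 (hρ l)]
              exact mul_le_mul_of_nonneg_right (Real.sqrt_le_sqrt (hρb l)) (hρ l)
            have h3 : 0 ≤ ρ l ^ (3 / 2 : ℝ) := Real.rpow_nonneg (hρ l) _
            have h4 : Real.sqrt 2 * ρ l ^ (3 / 2 : ℝ) ≤ 2 * (Real.sqrt b * ρ l) :=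
              mul_le_mul hsq2 h2 h3 (by norm_num)
            linarith
    calc m l ^ (3 / 2 : ℝ) / Real.sqrt (w l) ≤ (108 * m' l ^ (3 / 2 : ℝ) + 2 * (Real.sqrt b * ρ l)) / Real.sqrt (w l) :=
          div_le_div_of_nonneg_right h1 hsl.le
      _ = 108 * (m' l ^ (3 / 2 : ℝ) / Real.sqrt (w l)) + 2 * (Real.sqrt b * ρ l) / Real.sqrt (w l) := by ring
      _ ≤ 108 * (m' l ^ (3 / 2 : ℝ) / Real.sqrt (w l)) + 2 * (Real.sqrt b * ρ l) / Real.sqrt w0 := by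
          have : 2 * (Real.sqrt b * ρ l) / Real.sqrt (w l) ≤ 2 * (Real.sqrt b * ρ l) / Real.sqrt w0 :=
            div_le_div_of_nonneg_left (mul_nonneg (by norm_num) (mul_nonneg (Real.sqrt_nonneg _) (hρ l))) hs0 hs
          linarith
      _ = _ := by ring
  calc ∑ l, m l ^ (3 / 2 : ℝ) / Real.sqrt (w l)
      ≤ ∑ l, (108 * (m' l ^ (3 / 2 : ℝ) / Real.sqrt (w l)) + 2 * Real.sqrt b / Real.sqrt w0 * ρ l) := Finset.sum_le_sum fun l _ => hterm l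
    _ = 108 * ∑ l, m' l ^ (3 / 2 : ℝ) / Real.sqrt (w l) + 2 * Real.sqrt b / Real.sqrt w0 * ∑ l, ρ l := by
        rw [Finset.sum_add_distrib, ← Finset.mul_sum, ← Finset.mul_sum]
    _ ≤ 108 * ∑ l, m' l ^ (3 / 2 : ℝ) / Real.sqrt (w l) + 2 * Real.sqrt b / Real.sqrt w0 * (2 ^ n * b) := by
        have : 0 ≤ 2 * Real.sqrt b / Real.sqrt w0 := by positivity
        have := mul_le_mul_of_nonneg_left htot this
        linarith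
    _ = _ := by
        rw [sf_pl_num_32 hb]
        ring

theorem sf_pl_val_A (X e κ rd' : ℝ) (hκ : 0 < κ) :
    X / (e * Real.sqrt κ) * (108 * (Real.sqrt 2 * rd')) = 432 * (X / (e * Real.sqrt (8 * κ)) * rd') := by
  have h8 : Real.sqrt (8 * κ) = 2 * Real.sqrt 2 * Real.sqrt κ := by
    rw [show (8 : ℝ) * κ = 2 ^ 2 * (2 * κ) by ring, Real.sqrt_mul (by positivity), Real.sqrt_sq (by norm_num), Real.sqrt_mul (by norm_num)]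
    ring
  have h2 : Real.sqrt 2 * Real.sqrt 2 = 2 := Real.mul_self_sqrt (by norm_num)
  have hs2 : 0 < Real.sqrt 2 := Real.sqrt_pos.mpr (by norm_num)
  have hsk : 0 < Real.sqrt κ := Real.sqrt_pos.mpr hκ
  rw [h8]
  by_cases he : e = 0
  · subst he
    simp
  · field_simp
    rw [Real.sq_sqrt (by norm_num)]
    ring

theorem sf_pl_val_B (n D' : ℕ) (e κ ε1 : ℝ) (he : 0 < e) (hκ : 0 < κ) (hε : 0 ≤ ε1) :
    2 ^ ((n : ℝ) / 2) / (e * Real.sqrt κ) * (2 * (2 ^ n * (ε1 * e) ^ (3 / 2 : ℝ) / Real.sqrt ((2 : ℝ) ^ (-((D' : ℝ) * n)) * e / κ)))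
      = 2 * 2 ^ (3 * (n : ℝ) / 2) * ε1 ^ (3 / 2 : ℝ) * 2 ^ ((D' : ℝ) * n / 2) := by
  have h1 : (ε1 * e) ^ (3 / 2 : ℝ) = ε1 ^ (3 / 2 : ℝ) * (e * Real.sqrt e) := by
    rw [Real.mul_rpow hε he.le]
    congr 1
    rw [show (3 / 2 : ℝ) = 1 + 1 / 2 by norm_num, Real.rpow_add he, Real.rpow_one, Real.sqrt_eq_rpow]
  have h2 : Real.sqrt ((2 : ℝ) ^ (-((D' : ℝ) * n)) * e / κ) = 2 ^ (-((D' : ℝ) * n / 2)) * Real.sqrt e / Real.sqrt κ := by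
    rw [Real.sqrt_div (by positivity), Real.sqrt_mul (by positivity)]
    congr 2
    rw [Real.sqrt_eq_rpow, ← Real.rpow_mul (by norm_num)]
    congr 1
    ring
  have h3 : (2 : ℝ) ^ (3 * (n : ℝ) / 2) = 2 ^ ((n : ℝ) / 2) * 2 ^ n := by
    rw [← Real.rpow_natCast 2 n, ← Real.rpow_add (by norm_num)]
    congr 1
    ring
  have h4 : (2 : ℝ) ^ (-((D' : ℝ) * n / 2)) = (2 ^ ((D' : ℝ) * n / 2))⁻¹ := Real.rpow_neg (by norm_num) _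
  have hse : 0 < Real.sqrt e := Real.sqrt_pos.mpr he
  have hsk : 0 < Real.sqrt κ := Real.sqrt_pos.mpr hκ
  have hp : (0 : ℝ) < 2 ^ ((D' : ℝ) * n / 2) := by positivity
  rw [h1, h2, h3, h4]
  field_simp

theorem sf_pl_val_dbl (η : ℝ) (h0 : 0 < η) (Q : CyT) (hr : 0 < Q.r) (hf : 0 < Q.f) : 0 < cyWt η (sfPlDbl Q) ∧ cyWt η (sfPlDbl Q) ≤ 2 * cyWt η Q := by
  unfold cyWt sfPlDbl
  simp only
  refine ⟨by positivity, ?_⟩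
  rw [Real.mul_rpow (by norm_num) hf.le]
  have h2 : (2 : ℝ) ^ (1 - η) ≤ 2 := by
    calc (2 : ℝ) ^ (1 - η) ≤ 2 ^ (1 : ℝ) := Real.rpow_le_rpow_of_exponent_le (by norm_num) (by linarith)
      _ = 2 := Real.rpow_one 2
  have h3 : 0 < Q.r ^ (3 + η) * Q.f ^ (1 - η) := by positivity
  nlinarith

theorem sf_pl_val_term (X w w' : ℝ) (hX : 0 ≤ X) (hw : 0 < w) (hw' : 0 < w') (h : w' ≤ 2 * w) : X / Real.sqrt w ≤ Real.sqrt 2 * (X / Real.sqrt w') := by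
  have h1 : Real.sqrt w' ≤ Real.sqrt 2 * Real.sqrt w := by
    rw [← Real.sqrt_mul (by norm_num)]
    exact Real.sqrt_le_sqrt h
  have hs : 0 < Real.sqrt w := Real.sqrt_pos.mpr hw
  have hs' : 0 < Real.sqrt w' := Real.sqrt_pos.mpr hw'
  rw [div_le_iff₀ hs]
  calc X = X / Real.sqrt w' * Real.sqrt w' := by field_simp
    _ ≤ X / Real.sqrt w' * (Real.sqrt 2 * Real.sqrt w) := mul_le_mul_of_nonneg_left h1 (by positivity)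
    _ = _ := by ring

/-- **LEAF VAL: comparison of the two functionals.**   `sf_pl_num` with `I = ivs k0 i0 kf` (`gn_ivs_card`, `gn_mem_ivs`, `Valid.iv_in`), `m' l = ∫ th' l dμ̃ = (sfPlXp ..).m l` (`sf_pl_cl_en`; `Xp.m`, `Xp.fin`, `Xp.run` on the empty stack), `w0 = s^D' e/κ`, `b = ε1 e`;
`(sfPlXp ..).w l = cyWt η (sfPlDbl Q) = 2^(1-η) cyWt η Q ≤ 2 E.w l`, so `1/√(E.w l) ≤ √2/√(w' l)`;  `Xp.val`: `2^(n/2)/(e√κ) = √8 · 2^(n/2)/(e√(8κ))`;  `108 · √2 · √8 = 432`;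
error: `2^(n/2)/(e√κ) · 2 · 2^n (ε1 e)^(3/2)/√(s^D' e/κ) = 2 · 2^(3n/2) ε1^(3/2) 2^(D' n/2)` (`gn_s_rpow`).   ~300 l. -/
theorem sf_pl_val (η : ℝ) (h0 : 0 < η) (h1 : η < 1) (p : ChyPar) (hp : p.Ok) (E : Xp (p.sys η)) (hE : E.Valid) (Q0 : CyT) (ζ : ℝ) (hζ : 0 < ζ)
    (th' : Fin E.L → p.Om × ℝ × ℝ → ℝ) (hnn : ∀ l x, 0 ≤ th' l x) (ρ : Fin E.L → ℝ) (hρ : ∀ l, 0 ≤ ρ l) (D' : ℕ) (ε1 : ℝ) (hε1 : 0 ≤ ε1)
    (hw : ∀ l, E.s ^ (D' : ℝ) * E.e ≤ E.ka * E.w l) (h : ∀ l, E.m l ≤ 18 * ∫ x, th' l x ∂(sfPlMu η p E Q0 ζ) + ρ l)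
    (hsum : ∀ i, ∑ l, (if E.iv l = i then ρ l else 0) ≤ ε1 * E.e) :
    E.val ≤ 432 * (sfPlXp η p E (sfPlMu η p E Q0 ζ) (8 * E.ka) th').val + 2 * 2 ^ (3 * (E.n : ℝ) / 2) * ε1 ^ (3 / 2 : ℝ) * 2 ^ ((D' : ℝ) * E.n / 2) := by
  have hfin := sf_pl_mu_fin η p hp E Q0 ζ hζ
  have he := hE.e_pos
  have hκ := hE.ka_pos
  have hm' : ∀ l : Fin E.L, (sfPlXp η p E (sfPlMu η p E Q0 ζ) (8 * E.ka) th').m l = ∫ x, th' l x ∂(sfPlMu η p E Q0 ζ) :=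
    fun l => sf_pl_cl_en η p _ (sfPlMu η p E Q0 ζ) _ _ _ (th' l)
  have hrd' : (sfPlXp η p E (sfPlMu η p E Q0 ζ) (8 * E.ka) th').rd
      = ∑ l : Fin E.L, (∫ x, th' l x ∂(sfPlMu η p E Q0 ζ)) ^ (3 / 2 : ℝ) / Real.sqrt (cyWt η (sfPlDbl (E.ts l))) := by
    unfold Xp.rd
    exact Finset.sum_congr rfl (fun l _ => by rw [hm' l]; rfl)
  have hI : (ivs E.k0 E.i0 E.kf).card ≤ 2 ^ E.n := by
    rw [gn_ivs_card]
    unfold Xp.kf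
    rw [Nat.add_sub_cancel_left]
  have hw0 : 0 < E.s ^ (D' : ℝ) * E.e / E.ka := by
    have := gn_s_pos E
    positivity
  have key := sf_pl_num E.n E.m (fun l => ∫ x, th' l x ∂(sfPlMu η p E Q0 ζ)) ρ E.w E.iv (ivs E.k0 E.i0 E.kf) hI
    (fun l => (gn_mem_ivs _ _ _ _).mpr (hE.iv_in l)) (E.s ^ (D' : ℝ) * E.e / E.ka) (ε1 * E.e) hw0
    (fun l => by
      rw [div_le_iff₀ hκ, mul_comm (E.w l)]
      exact hw l)
    (fun l => gn_m_nonneg E hE l) (fun l => integral_nonneg (hnn l)) hρ h (by positivity) hsum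
  have hS : ∑ l : Fin E.L, (∫ x, th' l x ∂(sfPlMu η p E Q0 ζ)) ^ (3 / 2 : ℝ) / Real.sqrt (E.w l)
      ≤ Real.sqrt 2 * (sfPlXp η p E (sfPlMu η p E Q0 ζ) (8 * E.ka) th').rd := by
    rw [hrd', Finset.mul_sum]
    apply Finset.sum_le_sum
    intro l _
    obtain ⟨hr, hf, -⟩ := hE.ts_ok l
    obtain ⟨a1, a2⟩ := sf_pl_val_dbl η h0 (E.ts l) hr hf
    exact sf_pl_val_term _ _ _ (Real.rpow_nonneg (integral_nonneg (hnn l)) _) (hE.w_pos l) a1 a2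
  have hc0 : 0 ≤ 2 ^ ((E.n : ℝ) / 2) / (E.e * Real.sqrt E.ka) := by positivity
  have e1 := sf_pl_val_A (2 ^ ((E.n : ℝ) / 2)) E.e E.ka (sfPlXp η p E (sfPlMu η p E Q0 ζ) (8 * E.ka) th').rd hκ
  have e2 := sf_pl_val_B E.n D' E.e E.ka ε1 he hκ hε1
  rw [← gn_s_rpow E (D' : ℝ)] at e2
  calc E.val = 2 ^ ((E.n : ℝ) / 2) / (E.e * Real.sqrt E.ka) * E.rd := rfl
    _ ≤ 2 ^ ((E.n : ℝ) / 2) / (E.e * Real.sqrt E.ka) * (108 * (Real.sqrt 2 * (sfPlXp η p E (sfPlMu η p E Q0 ζ) (8 * E.ka) th').rd)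
          + 2 * (2 ^ E.n * (ε1 * E.e) ^ (3 / 2 : ℝ) / Real.sqrt (E.s ^ (D' : ℝ) * E.e / E.ka))) := by
        apply mul_le_mul_of_nonneg_left _ hc0
        refine key.trans ?_
        gcongr
    _ = 432 * (sfPlXp η p E (sfPlMu η p E Q0 ζ) (8 * E.ka) th').val + 2 * 2 ^ (3 * (E.n : ℝ) / 2) * ε1 ^ (3 / 2 : ℝ) * 2 ^ ((D' : ℝ) * E.n / 2) := by
        rw [mul_add, e1, e2]
        rfl

theorem sf_pl_step_dist (p : ChyPar) (Q0 : CyT) (T0 l0 ζ : ℝ) (hl0 : 0 < l0) (hζ : 0 < ζ) (hf : 0 < Q0.f) (x : p.Om × ℝ × ℝ) :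
    dist (sfPlPhi p Q0 T0 l0 ζ T0 x) 0 * ζ = cyNorSz Q0 l0 (p.co T0 x) * Q0.f := by
  rw [Prod.dist_eq, Real.dist_eq, Real.dist_eq]
  unfold cyNorSz cyNor sfPlPhi
  simp only [Prod.fst_zero, Prod.snd_zero, sub_zero, sub_self, zero_mul]
  rw [max_mul_of_nonneg _ _ hζ.le, max_mul_of_nonneg _ _ hf.le]
  congr 1
  · rw [abs_div, abs_div, abs_of_pos hζ, abs_of_pos hf]
    field_simp
  · rw [abs_div, abs_div, abs_of_pos (mul_pos hl0 hζ), abs_of_pos (mul_pos hl0 hf)]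
    field_simp

/-- **LEAF STEP: one hybrid experiment, explicit parameters** (glue, no asymptotics).   `Ct` from `sf_pl_wts η hG L hL C N`.   `pc = sfPlPar p T0 μ̃`, `Ec = sfPlXp η p E μ̃ (8κ) th'`.
`Cls`: `sf_pl_cl_ok` (`sf_pl_mu_fin`), `sf_pl_cl_valid`, empty stack, generations `0`, `adm` = `⟨Q0, sf_pl_set ..⟩`.      `ε1`: `‖v‖² ≤ e` (`Valid.budget`);  the far set lies in `{s^-C < cyNorSz}`: `dist (Φ x) 0 = cyNorSz · f0/ζ` (`Prod.dist_eq`, `cyNor`), `hR`;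
`gn_ms_mono` + `CySet.tail`.      `sf_pl_val`.   ~300 l. -/
theorem sf_pl_step (η : ℝ) (h0 : 0 < η) (h1 : η < 1) (hG : (cylHyb η).Gen (1 + η / 2)) (L : (cylHyb η).Loc (1 + η / 2)) (hL : SfPlLoc η L) (C N : ℕ) :
    ∃ Ct : ℝ, 0 ≤ Ct ∧ ∀ (A D' : ℕ) (p : ChyPar) (E : Xp (p.sys η)) (Q0 : CyT) (ζ Λ : ℝ) (R : ℕ),
      p.Ok → E.Valid → E.st.length ≤ C → E.GenLe C → 1 ≤ E.n → CySet (p.sys η) p.co η False C A E Q0 → E.s ^ (C : ℝ) ≤ p.H * 2 ^ E.k0 / Q0.f ^ 2 →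
      0 < ζ → 1 ≤ Λ → 4 * ((C : ℝ) + 1) * Λ * p.dl E.kf ≤ ζ → (∀ l, 4 * ζ ≤ E.s * CyT.f (E.ts l)) → ζ ≤ E.s ^ (-((C : ℝ) + 2)) * Q0.f →
      E.s ^ (-(C : ℝ)) * Q0.f < ((R : ℝ) - 1 / 2) * ζ → (∀ l, E.s ^ (D' : ℝ) * E.e ≤ E.ka * E.w l) →
      ∃ (pc : CclPar) (Ec : Xp (pc.sys η)), Ec.n = E.n ∧ (cylCl η).Cls (2 * C + 4) A pc Ec ∧
        E.val ≤ 432 * Ec.val + 2 * 2 ^ (3 * (E.n : ℝ) / 2) *
          ((((2 * R : ℕ) : ℝ) ^ 2 + 1) * (2 * (Ct * Λ ^ (-(N : ℝ)) * 2 ^ (|L.Cl| * E.n)) ^ 2) + 2 * E.s ^ (A : ℝ)) ^ (3 / 2 : ℝ) * 2 ^ ((D' : ℝ) * E.n / 2) := by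
  obtain ⟨Ct, hCt, H⟩ := sf_pl_wts η hG L hL C N
  refine ⟨Ct, hCt, ?_⟩
  intro A D' p E Q0 ζ Λ R hp hE hlen hgen hn hset hH hζ hΛ hd hts hζ1 hR hw
  obtain ⟨th', ρ, hmeas, hnn, hsum1, hsupp, hρ, hm, hρsum⟩ := H p E Q0 ζ Λ R hp hE hlen hgen hζ hΛ hd hts
  have hfin := sf_pl_mu_fin η p hp E Q0 ζ hζ
  have hdl0 : 0 ≤ p.dl E.kf := Real.sqrt_nonneg _
  have hd0 : p.dl E.k0 ≤ ζ := by
    have a1 : p.dl E.k0 ≤ p.dl E.kf := hy_lc_dl_mono p hp (Nat.le_add_right _ _)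
    have a2 : (1 : ℝ) ≤ 4 * ((C : ℝ) + 1) * Λ := by
      have : (0 : ℝ) ≤ C := Nat.cast_nonneg C
      nlinarith
    have a3 : 1 * p.dl E.kf ≤ 4 * ((C : ℝ) + 1) * Λ * p.dl E.kf := mul_le_mul_of_nonneg_right a2 hdl0
    linarith
  refine ⟨sfPlPar p (tmL E.k0 E.i0) (sfPlMu η p E Q0 ζ), sfPlXp η p E (sfPlMu η p E Q0 ζ) (8 * E.ka) th', rfl, ?_, ?_⟩
  · refine ⟨sf_pl_cl_ok p hp _ _, sf_pl_cl_valid η p hp E Q0 ζ hζ h0 h1 hE hd0 th' hmeas hnn hsum1 hsupp, Nat.zero_le _, ⟨Nat.zero_le _, Nat.zero_le _, ?_⟩,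
      ⟨Q0, sf_pl_set η p hp E Q0 ζ hζ hE C A hset hH hn hd0 hζ1 th'⟩⟩
    intro σ hσ
    exact absurd hσ (List.not_mem_nil)
  · have hs := gn_s_pos E
    have hl0 : (0 : ℝ) < (2 : ℝ)⁻¹ ^ E.k0 := by positivity
    refine sf_pl_val η h0 h1 p hp E hE Q0 ζ hζ th' hnn ρ hρ D' _ (by positivity) hw hm ?_
    intro i
    refine (hρsum i).trans ?_
    have hΦ := (sf_pl_phi_meas p hp Q0 (tmL E.k0 E.i0) ((2 : ℝ)⁻¹ ^ E.k0) ζ (tmL E.k0 E.i0)).1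
    have hdm : Measurable (fun x : p.Om × ℝ × ℝ => dist (sfPlPhi p Q0 (tmL E.k0 E.i0) ((2 : ℝ)⁻¹ ^ E.k0) ζ (tmL E.k0 E.i0) x) 0) := hΦ.dist measurable_const
    have hS1 : MeasurableSet {x : p.Om × ℝ × ℝ | (R : ℝ) - 1 / 2 ≤ dist (sfPlPhi p Q0 (tmL E.k0 E.i0) ((2 : ℝ)⁻¹ ^ E.k0) ζ (tmL E.k0 E.i0) x) 0} :=
      measurableSet_le measurable_const hdm
    have hS2 : MeasurableSet {x : p.Om × ℝ × ℝ | E.s ^ (-(C : ℝ)) < cyNorSz Q0 ((2 : ℝ)⁻¹ ^ E.k0) (p.co (tmL E.k0 E.i0) x)} := by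
      have e : {x : p.Om × ℝ × ℝ | E.s ^ (-(C : ℝ)) < cyNorSz Q0 ((2 : ℝ)⁻¹ ^ E.k0) (p.co (tmL E.k0 E.i0) x)}
          = {x : p.Om × ℝ × ℝ | E.s ^ (-(C : ℝ)) * Q0.f < dist (sfPlPhi p Q0 (tmL E.k0 E.i0) ((2 : ℝ)⁻¹ ^ E.k0) ζ (tmL E.k0 E.i0) x) 0 * ζ} := by
        ext x
        simp only [Set.mem_ofPred_eq]
        rw [sf_pl_step_dist p Q0 _ _ ζ hl0 hζ hset.f_pos x, mul_lt_mul_iff_left₀ hset.f_pos]
      rw [e]
      exact measurableSet_lt measurable_const (hdm.mul_const ζ)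
    have hsub : {x : p.Om × ℝ × ℝ | (R : ℝ) - 1 / 2 ≤ dist (sfPlPhi p Q0 (tmL E.k0 E.i0) ((2 : ℝ)⁻¹ ^ E.k0) ζ (tmL E.k0 E.i0) x) 0}
        ⊆ {x : p.Om × ℝ × ℝ | E.s ^ (-(C : ℝ)) < cyNorSz Q0 ((2 : ℝ)⁻¹ ^ E.k0) (p.co (tmL E.k0 E.i0) x)} := by
      intro x hx
      have hx' : (R : ℝ) - 1 / 2 ≤ dist (sfPlPhi p Q0 (tmL E.k0 E.i0) ((2 : ℝ)⁻¹ ^ E.k0) ζ (tmL E.k0 E.i0) x) 0 := hx
      have a1 := sf_pl_step_dist p Q0 (tmL E.k0 E.i0) _ ζ hl0 hζ hset.f_pos x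
      have a2 : ((R : ℝ) - 1 / 2) * ζ ≤ dist (sfPlPhi p Q0 (tmL E.k0 E.i0) ((2 : ℝ)⁻¹ ^ E.k0) ζ (tmL E.k0 E.i0) x) 0 * ζ := mul_le_mul_of_nonneg_right hx' hζ.le
      have a3 : E.s ^ (-(C : ℝ)) * Q0.f < cyNorSz Q0 ((2 : ℝ)⁻¹ ^ E.k0) (p.co (tmL E.k0 E.i0) x) * Q0.f := by linarith
      exact lt_of_mul_lt_mul_right a3 hset.f_pos.le
    have hfar := (gn_ms_mono (P := p.sys η) (tmL E.k0 E.i0) E.k0 E.b0 hS1 hS2 hsub E.v).trans hset.tail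
    have hb := hE.budget
    have hc : 0 ≤ (((2 * R : ℕ) : ℝ) ^ 2 + 1) * (2 * (Ct * Λ ^ (-(N : ℝ)) * 2 ^ (|L.Cl| * E.n)) ^ 2) := by positivity
    calc (((2 * R : ℕ) : ℝ) ^ 2 + 1) * (2 * (Ct * Λ ^ (-(N : ℝ)) * 2 ^ (|L.Cl| * E.n)) ^ 2) * ‖E.v‖ ^ 2
          + 2 * (p.sys η).ms (tmL E.k0 E.i0) E.k0 E.b0
              {x | (R : ℝ) - 1 / 2 ≤ dist (sfPlPhi p Q0 (tmL E.k0 E.i0) ((2 : ℝ)⁻¹ ^ E.k0) ζ (tmL E.k0 E.i0) x) 0} E.v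
        ≤ (((2 * R : ℕ) : ℝ) ^ 2 + 1) * (2 * (Ct * Λ ^ (-(N : ℝ)) * 2 ^ (|L.Cl| * E.n)) ^ 2) * E.e + 2 * (E.s ^ (A : ℝ) * E.e) :=
          add_le_add (mul_le_mul_of_nonneg_left hb hc) (mul_le_mul_of_nonneg_left hfar (by norm_num))
      _ = _ := by ring

/-- **LEAF NUM-2: the parameters** (real numbers only; `d = d_f`, `f0` = normal width of the frame, `hp = H 2^k0/f0²`, so `d² = hp f0² 2^n`).      `Λ = 2^(n/4)`, `ζ = 4(C+1)Λ d`, `R = ⌈2^(Cn) f0/ζ⌉₊ + 1`.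
(1) `4ζ ≤ 2^-n f` if `d ≤ 2^(-2n) f`: `16 (C+1) 2^(n/4) ≤ 2^n`.   (2) `ζ ≤ 2^((C+2)n) f0`: `d ≤ 2^((C+1)n/2) f0`.   (3) `2^(Cn) f0 < (R - 1/2) ζ`.   (4) `f0/ζ ≤ f0/d ≤ 2^(Cn/2)` (as `d² ≥ 2^(-Cn) f0²`), so `2R ≤ 2^(2Cn+3)`, `(2R)² + 1 ≤ 2^((4C+7)n)`;
with `N ≥ 2(4C + 7 + 2|Cl| + A1 + 2)` and `2 Ct² ≤ 2^n`: first part of the error `≤ 2^(-(A1+1)n)`; `2 · 2^(-An) ≤ 2^(-(A1+1)n)` as `A ≥ A1 + 2`.   All thresholds by `gn_absorb`.   ~350 l. -/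
theorem sf_pl_par (C A1 : ℕ) (Cl Ct : ℝ) (hCt : 0 ≤ Ct) (N : ℕ) (hN : 2 * (4 * (C : ℝ) + 7 + 2 * |Cl| + A1 + 2) ≤ N) :
    ∃ n0 : ℕ, ∀ (n A : ℕ) (d f0 : ℝ), n0 ≤ n → A1 + 2 ≤ A → 0 < d → 0 < f0 → (2 : ℝ) ^ (-((C : ℝ) * n)) * f0 ^ 2 ≤ d ^ 2 → d ^ 2 ≤ 2 ^ (((C : ℝ) + 1) * n) * f0 ^ 2 →
      ∃ (ζ Λ : ℝ) (R : ℕ), 0 < ζ ∧ 1 ≤ Λ ∧ 4 * ((C : ℝ) + 1) * Λ * d ≤ ζ ∧ (∀ f : ℝ, d ≤ 2 ^ (-(2 * (n : ℝ))) * f → 4 * ζ ≤ 2 ^ (-(n : ℝ)) * f) ∧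
        ζ ≤ 2 ^ (((C : ℝ) + 2) * n) * f0 ∧ 2 ^ ((C : ℝ) * n) * f0 < ((R : ℝ) - 1 / 2) * ζ ∧
        (((2 * R : ℕ) : ℝ) ^ 2 + 1) * (2 * (Ct * Λ ^ (-(N : ℝ)) * 2 ^ (Cl * n)) ^ 2) + 2 * 2 ^ (-((A : ℝ) * n)) ≤ 2 ^ (-((A1 : ℝ) * n)) := by
  obtain ⟨n1, hn1⟩ := gn_absorb (16 * ((C : ℝ) + 1)) (3 / 4) (by norm_num)
  obtain ⟨n2, hn2⟩ := gn_absorb (2 * Ct ^ 2) 1 one_pos
  refine ⟨max 1 (max n1 n2), fun n A d f0 hn hA hd hf0 hlo hhi => ?_⟩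
  have hn1' : 1 ≤ n := (le_max_left _ _).trans hn
  have a1 := hn1 n (((le_max_left _ _).trans (le_max_right _ _)).trans hn)
  have a2 := hn2 n (((le_max_right _ _).trans (le_max_right _ _)).trans hn)
  have hA' : (A1 : ℝ) + 2 ≤ A := by exact_mod_cast hA
  obtain ⟨ν, hνdef⟩ : ∃ ν : ℝ, ν = (n : ℝ) := ⟨_, rfl⟩
  rw [← hνdef] at a1 a2 hlo hhi ⊢
  have hν : 1 ≤ ν := by rw [hνdef]; exact_mod_cast hn1'
  obtain ⟨c, hcdef⟩ : ∃ c : ℝ, c = (C : ℝ) := ⟨_, rfl⟩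
  rw [← hcdef] at a1 hlo hhi hN ⊢
  have hc : 0 ≤ c := by rw [hcdef]; exact Nat.cast_nonneg _
  have hP : ∀ x y : ℝ, (2 : ℝ) ^ x * 2 ^ y = 2 ^ (x + y) := fun x y => (Real.rpow_add two_pos x y).symm
  have hM : ∀ x y : ℝ, x ≤ y → (2 : ℝ) ^ x ≤ 2 ^ y := fun x y h => Real.rpow_le_rpow_of_exponent_le one_le_two h
  have h0 : ∀ x : ℝ, 0 < (2 : ℝ) ^ x := fun x => Real.rpow_pos_of_pos two_pos x
  have hS : ∀ x : ℝ, ((2 : ℝ) ^ x) ^ 2 = 2 ^ (2 * x) := by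
    intro x
    rw [sq, hP]
    congr 1
    ring
  have h1p : ∀ x : ℝ, 0 ≤ x → 1 ≤ (2 : ℝ) ^ x := fun x hx => Real.one_le_rpow one_le_two hx
  have hcν : 0 ≤ c * ν := by positivity
  -- square roots of the hypotheses
  have hd_hi : d ≤ 2 ^ ((c + 1) * ν / 2) * f0 := by
    refine (pow_le_pow_iff_left₀ hd.le (mul_pos (h0 _) hf0).le two_ne_zero).1 ?_
    rw [mul_pow, hS]
    refine hhi.trans (le_of_eq ?_)
    congr 2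
    ring
  have hd_lo : f0 ≤ 2 ^ (c * ν / 2) * d := by
    refine (pow_le_pow_iff_left₀ hf0.le (mul_pos (h0 _) hd).le two_ne_zero).1 ?_
    rw [mul_pow, hS]
    have := mul_le_mul_of_nonneg_left hlo (h0 (c * ν)).le
    rw [← mul_assoc, hP] at this
    have e : c * ν + -(c * ν) = 0 := by ring
    rw [e, Real.rpow_zero, one_mul] at this
    refine this.trans (le_of_eq ?_)
    congr 2
    ring
  obtain ⟨Λ, hΛ⟩ : ∃ Λ : ℝ, Λ = (2 : ℝ) ^ (ν / 4) := ⟨_, rfl⟩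
  have hΛ1 : 1 ≤ Λ := by rw [hΛ]; exact h1p _ (by linarith)
  have hΛ0 : 0 < Λ := by linarith
  obtain ⟨ζ, hζ⟩ : ∃ ζ : ℝ, ζ = 4 * (c + 1) * Λ * d := ⟨_, rfl⟩
  have hζ0 : 0 < ζ := by rw [hζ]; positivity
  have hζd : d ≤ ζ := by
    rw [hζ]
    have : 1 ≤ 4 * (c + 1) * Λ := one_le_mul_of_one_le_of_one_le (by linarith) hΛ1
    exact le_mul_of_one_le_left hd.le this
  obtain ⟨x, hx⟩ : ∃ x : ℝ, x = 2 ^ (c * ν) * f0 / ζ := ⟨_, rfl⟩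
  have hx0 : 0 ≤ x := by rw [hx]; exact (div_pos (mul_pos (h0 _) hf0) hζ0).le
  have hxle : x ≤ 2 ^ (2 * (c * ν)) := by
    rw [hx, div_le_iff₀ hζ0]
    calc 2 ^ (c * ν) * f0 ≤ 2 ^ (c * ν) * (2 ^ (c * ν / 2) * d) := mul_le_mul_of_nonneg_left hd_lo (h0 _).le
      _ = 2 ^ (c * ν + c * ν / 2) * d := by rw [← mul_assoc, hP]
      _ ≤ 2 ^ (2 * (c * ν)) * ζ := mul_le_mul (hM _ _ (by linarith)) hζd hd.le (h0 _).le
  refine ⟨ζ, Λ, ⌈x⌉₊ + 1, hζ0, hΛ1, hζ.ge, fun f hf => ?_, ?_, ?_, ?_⟩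
  · -- (1)
    calc 4 * ζ = (16 * (c + 1)) * (Λ * d) := by rw [hζ]; ring
      _ ≤ 2 ^ (3 / 4 * ν) * (Λ * d) := mul_le_mul_of_nonneg_right a1 (by positivity)
      _ ≤ 2 ^ (3 / 4 * ν) * (Λ * (2 ^ (-(2 * ν)) * f)) := by
          refine mul_le_mul_of_nonneg_left (mul_le_mul_of_nonneg_left hf hΛ0.le) (h0 _).le
      _ = 2 ^ (3 / 4 * ν + ν / 4 + -(2 * ν)) * f := by rw [hΛ, ← hP, ← hP]; ring
      _ = 2 ^ (-ν) * f := by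
          congr 2
          ring
  · -- (2)
    calc ζ = (4 * (c + 1)) * (Λ * d) := by rw [hζ]; ring
      _ ≤ 2 ^ (3 / 4 * ν) * (Λ * d) := mul_le_mul_of_nonneg_right (by linarith) (by positivity)
      _ ≤ 2 ^ (3 / 4 * ν) * (Λ * (2 ^ ((c + 1) * ν / 2) * f0)) := by
          refine mul_le_mul_of_nonneg_left (mul_le_mul_of_nonneg_left hd_hi hΛ0.le) (h0 _).le
      _ = 2 ^ (3 / 4 * ν + ν / 4 + (c + 1) * ν / 2) * f0 := by rw [hΛ, ← hP, ← hP]; ring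
      _ ≤ 2 ^ ((c + 2) * ν) * f0 := by
          refine mul_le_mul_of_nonneg_right (hM _ _ ?_) hf0.le
          linarith
  · -- (3)
    have h1 : x ≤ (⌈x⌉₊ : ℝ) := Nat.le_ceil x
    have h2 : 2 ^ (c * ν) * f0 = x * ζ := by rw [hx]; field_simp
    rw [h2]
    push_cast
    refine mul_lt_mul_of_pos_right ?_ hζ0
    linarith
  · -- (4)
    have hR : (((2 * (⌈x⌉₊ + 1) : ℕ)) : ℝ) ≤ 6 * 2 ^ (2 * (c * ν)) := by
      have h1 := (Nat.ceil_lt_add_one hx0).le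
      have h2 := h1p (2 * (c * ν)) (by positivity)
      push_cast
      linarith
    have hR0 : (0 : ℝ) ≤ (((2 * (⌈x⌉₊ + 1) : ℕ)) : ℝ) := Nat.cast_nonneg _
    have hR2 : (((2 * (⌈x⌉₊ + 1) : ℕ)) : ℝ) ^ 2 + 1 ≤ 2 ^ ((4 * c + 7) * ν) := by
      have h1 := pow_le_pow_left₀ hR0 hR 2
      rw [mul_pow, hS] at h1
      have h2 := h1p (2 * (2 * (c * ν))) (by positivity)
      have h3 : (128 : ℝ) ≤ 2 ^ (7 * ν) := by
        calc (128 : ℝ) = 2 ^ (7 : ℝ) := by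
              rw [show (7 : ℝ) = ((7 : ℕ) : ℝ) by norm_num, Real.rpow_natCast]
              norm_num
          _ ≤ 2 ^ (7 * ν) := hM _ _ (by linarith)
      calc (((2 * (⌈x⌉₊ + 1) : ℕ)) : ℝ) ^ 2 + 1 ≤ 128 * 2 ^ (2 * (2 * (c * ν))) := by linarith
        _ ≤ 2 ^ (7 * ν) * 2 ^ (2 * (2 * (c * ν))) := mul_le_mul_of_nonneg_right h3 (h0 _).le
        _ = 2 ^ ((4 * c + 7) * ν) := by
            rw [hP]
            congr 1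
            ring
    have hE : 2 * (Ct * Λ ^ (-(N : ℝ)) * 2 ^ (Cl * ν)) ^ 2 ≤ 2 ^ (ν + -((N : ℝ) * ν / 2) + 2 * |Cl| * ν) := by
      have e1 : Λ ^ (-(N : ℝ)) = 2 ^ (-((N : ℝ) * ν / 4)) := by
        rw [hΛ, ← Real.rpow_mul two_pos.le]
        congr 1
        ring
      rw [e1, mul_pow, mul_pow, hS, hS]
      calc 2 * (Ct ^ 2 * 2 ^ (2 * -((N : ℝ) * ν / 4)) * 2 ^ (2 * (Cl * ν)))
          = (2 * Ct ^ 2) * (2 ^ (2 * -((N : ℝ) * ν / 4)) * 2 ^ (2 * (Cl * ν))) := by ring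
        _ ≤ 2 ^ (1 * ν) * (2 ^ (2 * -((N : ℝ) * ν / 4)) * 2 ^ (2 * (Cl * ν))) :=
            mul_le_mul_of_nonneg_right a2 (mul_pos (h0 _) (h0 _)).le
        _ = 2 ^ (1 * ν + (2 * -((N : ℝ) * ν / 4) + 2 * (Cl * ν))) := by rw [hP, hP]
        _ ≤ _ := by
            refine hM _ _ ?_
            have : Cl * ν ≤ |Cl| * ν := mul_le_mul_of_nonneg_right (le_abs_self _) (by linarith)
            linarith
    have hpart1 : ((((2 * (⌈x⌉₊ + 1) : ℕ)) : ℝ) ^ 2 + 1) * (2 * (Ct * Λ ^ (-(N : ℝ)) * 2 ^ (Cl * ν)) ^ 2) ≤ 2 ^ (-(((A1 : ℝ) + 1) * ν)) := by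
      calc _ ≤ 2 ^ ((4 * c + 7) * ν) * 2 ^ (ν + -((N : ℝ) * ν / 2) + 2 * |Cl| * ν) :=
            mul_le_mul hR2 hE (by positivity) (h0 _).le
        _ = 2 ^ ((4 * c + 7) * ν + (ν + -((N : ℝ) * ν / 2) + 2 * |Cl| * ν)) := hP _ _
        _ ≤ _ := by
            refine hM _ _ ?_
            have : 2 * (4 * c + 7 + 2 * |Cl| + A1 + 2) * ν ≤ N * ν := mul_le_mul_of_nonneg_right hN (by linarith)
            linarith
    have hpart2 : 2 * 2 ^ (-((A : ℝ) * ν)) ≤ (2 : ℝ) ^ (-(((A1 : ℝ) + 1) * ν)) := by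
      calc 2 * 2 ^ (-((A : ℝ) * ν)) = 2 ^ (1 : ℝ) * 2 ^ (-((A : ℝ) * ν)) := by rw [Real.rpow_one]
        _ = 2 ^ (1 + -((A : ℝ) * ν)) := hP _ _
        _ ≤ _ := by
            refine hM _ _ ?_
            have : ((A1 : ℝ) + 2) * ν ≤ A * ν := mul_le_mul_of_nonneg_right hA' (by linarith)
            linarith
    calc _ ≤ (2 : ℝ) ^ (-(((A1 : ℝ) + 1) * ν)) + 2 ^ (-(((A1 : ℝ) + 1) * ν)) := add_le_add hpart1 hpart2
      _ = 2 ^ (1 : ℝ) * 2 ^ (-(((A1 : ℝ) + 1) * ν)) := by rw [Real.rpow_one]; ring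
      _ = 2 ^ (1 + -(((A1 : ℝ) + 1) * ν)) := hP _ _
      _ ≤ _ := by
          refine hM _ _ ?_
          linarith

/-- the tail order of the classical setup can be lowered -/
theorem sf_pl_hv_anti (η : ℝ) {C A A' : ℕ} (hA : A' ≤ A) {pc : CclPar} {Ec : Xp (pc.sys η)} (h : (cylCl η).Cls C A pc Ec) : (cylCl η).Cls C A' pc Ec := by
  obtain ⟨h1, h2, h3, h4, Q0, h5⟩ := h
  refine ⟨h1, h2, h3, h4, Q0, h5.r_pos, h5.f_pos, h5.ek_lo, h5.ek_hi, h5.supp, ?_, h5.dens, h5.densJ⟩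
  refine h5.tail.trans (mul_le_mul_of_nonneg_right ?_ h2.e_pos.le)
  rw [gn_s_rpow, gn_s_rpow]
  refine Real.rpow_le_rpow_of_exponent_le one_le_two ?_
  have : (A' : ℝ) ≤ A := by exact_mod_cast hA
  have hn : (0 : ℝ) ≤ Ec.n := Nat.cast_nonneg _
  nlinarith

/-- **LEAF HEAVY: the comparison for labels of polynomial weight** (asymptotic glue).
Constants: `A1 = ⌈(3 + D' + 2|γ| + 4)/3 · 2 ...⌉` with `3/2 - 3 A1/2 + D'/2 ≤ γ - 1`;  `N` as in `sf_pl_par`;  `Ct` from `sf_pl_step η .. C N`;  `(Ac, nc)` from `hγ (2C+4) (ε/2)`;  `A = max Ac (A1 + 2)`;  `n0 ≥ nc`, the `n0` of `sf_pl_par`, `1`, and `433 ≤ 2^(ε n/2)`.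
`Cls` gives `p.Ok`, `Valid`, the frame `Q0` (`cylHyb.adm`).   `d = p.dl kf`, `d² = H 2^kf = (H 2^k0/f0²) f0² 2^n` (`Real.sq_sqrt`, `Xp.kf`, `pow_add`), bounds of the Planck parameter; `d ≤ s² f` from `hs` (`Real.sqrt_le_sqrt`, `Real.sqrt_sq`); `gn_s_rpow` translates `E.s ^ y = 2^(-(y n))`.
`sf_pl_step`, `gn_cls_anti` (classical `AdmScale`: instead use `A` directly: `hγ` is applied with the tail order `Ac ≤ A`; monotonicity of `CySet.tail` in `A` is `s^A ≤ s^Ac`) , then `Ec.val ≤ 2^((γ+ε/2) n)`.   ~350 l. -/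
theorem sf_pl_cmp_heavy (η : ℝ) (h0 : 0 < η) (h1 : η < 1) (hG : (cylHyb η).Gen (1 + η / 2)) (L : (cylHyb η).Loc (1 + η / 2)) (hL : SfPlLoc η L)
    (γ : ℝ) (hγ : (cylCl η).Rate γ) (C D' : ℕ) (ε : ℝ) (hε : 0 < ε) :
    ∃ A n0 : ℕ, ∀ (p : ChyPar) (E : Xp (p.sys η)), n0 ≤ E.n → (cylHyb η).Cls C A p E → (∀ l, p.H * 2 ^ E.kf ≤ E.s ^ (4 : ℝ) * CyT.f (E.ts l) ^ 2) →
      (∀ l, E.s ^ (D' : ℝ) * E.e ≤ E.ka * E.w l) → E.val ≤ 2 ^ ((γ + ε) * E.n) := by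
  obtain ⟨A1, hA1⟩ := exists_nat_ge ((3 / 2 + (D' : ℝ) / 2 - γ + 1) * (2 / 3))
  have hA1' : 3 / 2 - 3 * (A1 : ℝ) / 2 + (D' : ℝ) / 2 ≤ γ - 1 := by linarith
  obtain ⟨N, hN⟩ := exists_nat_ge (2 * (4 * (C : ℝ) + 7 + 2 * |L.Cl| + A1 + 2))
  obtain ⟨Ct, hCt, hstep⟩ := sf_pl_step η h0 h1 hG L hL C N
  obtain ⟨Ac, nc, hrate⟩ := hγ (2 * C + 4) (ε / 2) (by positivity)
  obtain ⟨np, hpar⟩ := sf_pl_par C A1 |L.Cl| Ct hCt N (by rwa [abs_abs])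
  obtain ⟨na, habs⟩ := gn_absorb 433 (ε / 2) (by positivity)
  refine ⟨max Ac (A1 + 2), max (max nc np) (max 1 na), fun p E hn hcls hs hw => ?_⟩
  obtain ⟨hgd, hV, hlen, hgen, Q0, hset, hplo, hphi⟩ := hcls
  have hnc : nc ≤ E.n := ((le_max_left _ _).trans (le_max_left _ _)).trans hn
  have hnp : np ≤ E.n := ((le_max_right _ _).trans (le_max_left _ _)).trans hn
  have hn1 : 1 ≤ E.n := ((le_max_left _ _).trans (le_max_right _ _)).trans hn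
  have hna : na ≤ E.n := ((le_max_right _ _).trans (le_max_right _ _)).trans hn
  have hν : (1 : ℝ) ≤ E.n := by exact_mod_cast hn1
  have hP : ∀ x y : ℝ, (2 : ℝ) ^ x * 2 ^ y = 2 ^ (x + y) := fun x y => (Real.rpow_add two_pos x y).symm
  have hM : ∀ x y : ℝ, x ≤ y → (2 : ℝ) ^ x ≤ 2 ^ y := fun x y h => Real.rpow_le_rpow_of_exponent_le one_le_two h
  have hpos : ∀ x : ℝ, 0 < (2 : ℝ) ^ x := fun x => Real.rpow_pos_of_pos two_pos x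
  have hH : 0 < p.H := hgd.H_pos
  have hf0 : 0 < Q0.f := hset.f_pos
  -- the Planck length
  have hd2 : p.dl E.kf ^ 2 = p.H * 2 ^ E.k0 / Q0.f ^ 2 * Q0.f ^ 2 * 2 ^ (E.n : ℝ) := by
    unfold ChyPar.dl
    rw [Real.sq_sqrt (by positivity), Real.rpow_natCast]
    unfold Xp.kf
    rw [pow_add]
    field_simp
  have hd0 : 0 < p.dl E.kf := by
    unfold ChyPar.dl
    exact Real.sqrt_pos.2 (by positivity)
  have hlo : (2 : ℝ) ^ (-((C : ℝ) * E.n)) * Q0.f ^ 2 ≤ p.dl E.kf ^ 2 := by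
    rw [hd2]
    rw [gn_s_rpow] at hplo
    have h2n : (1 : ℝ) ≤ 2 ^ (E.n : ℝ) := Real.one_le_rpow one_le_two (by linarith)
    calc (2 : ℝ) ^ (-((C : ℝ) * E.n)) * Q0.f ^ 2 ≤ p.H * 2 ^ E.k0 / Q0.f ^ 2 * Q0.f ^ 2 :=
          mul_le_mul_of_nonneg_right hplo (by positivity)
      _ ≤ _ := le_mul_of_one_le_right (by positivity) h2n
  have hhi : p.dl E.kf ^ 2 ≤ 2 ^ (((C : ℝ) + 1) * E.n) * Q0.f ^ 2 := by
    rw [hd2]
    rw [gn_s_rpow] at hphi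
    calc p.H * 2 ^ E.k0 / Q0.f ^ 2 * Q0.f ^ 2 * 2 ^ (E.n : ℝ) ≤ 2 ^ (-(-(C : ℝ) * E.n)) * Q0.f ^ 2 * 2 ^ (E.n : ℝ) := by
          gcongr
      _ = (2 ^ (-(-(C : ℝ) * E.n)) * 2 ^ (E.n : ℝ)) * Q0.f ^ 2 := by ring
      _ = _ := by
          rw [hP]
          congr 2
          ring
  obtain ⟨ζ, Λ, R, hζ, hΛ, hζd, hζf, hζ0, hR, herr⟩ := hpar E.n (max Ac (A1 + 2)) (p.dl E.kf) Q0.f hnp (le_max_right _ _) hd0 hf0 hlo hhi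
  have hfl : ∀ l, 4 * ζ ≤ E.s * CyT.f (E.ts l) := by
    intro l
    have hfpos : 0 < CyT.f (E.ts l) := (hV.ts_ok l).2.1
    have e1 : E.s = 2 ^ (-(E.n : ℝ)) := by
      have := gn_s_rpow E 1
      rwa [Real.rpow_one, one_mul] at this
    rw [e1]
    refine hζf _ ?_
    have h4 := hs l
    rw [gn_s_rpow] at h4
    have e2 : (2 : ℝ) ^ (-((4 : ℝ) * E.n)) * CyT.f (E.ts l) ^ 2 = (2 ^ (-(2 * (E.n : ℝ))) * CyT.f (E.ts l)) ^ 2 := by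
      rw [mul_pow, sq ((2 : ℝ) ^ (-(2 * (E.n : ℝ)))), hP]
      congr 2
      ring
    rw [e2] at h4
    unfold ChyPar.dl
    calc Real.sqrt (p.H * 2 ^ E.kf) ≤ Real.sqrt ((2 ^ (-(2 * (E.n : ℝ))) * CyT.f (E.ts l)) ^ 2) := Real.sqrt_le_sqrt h4
      _ = _ := Real.sqrt_sq (mul_pos (hpos _) hfpos).le
  have hζ0' : ζ ≤ E.s ^ (-((C : ℝ) + 2)) * Q0.f := by
    rw [gn_s_rpow]
    refine hζ0.trans (le_of_eq ?_)
    congr 2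
    ring
  have hR' : E.s ^ (-(C : ℝ)) * Q0.f < ((R : ℝ) - 1 / 2) * ζ := by
    rw [gn_s_rpow]
    refine lt_of_eq_of_lt ?_ hR
    congr 2
    ring
  obtain ⟨pc, Ec, hEn, hEcls, hval⟩ := hstep (max Ac (A1 + 2)) D' p E Q0 ζ Λ R hgd hV hlen hgen hn1 hset hplo hζ hΛ hζd hfl hζ0' hR' hw
  have hEc : Ec.val ≤ 2 ^ ((γ + ε / 2) * E.n) := by
    have := hrate pc Ec (by rw [hEn]; exact hnc) (sf_pl_hv_anti η (le_max_left _ _) hEcls)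
    rwa [hEn] at this
  -- the error
  have herr' : (((2 * R : ℕ) : ℝ) ^ 2 + 1) * (2 * (Ct * Λ ^ (-(N : ℝ)) * 2 ^ (|L.Cl| * E.n)) ^ 2) + 2 * E.s ^ ((max Ac (A1 + 2) : ℕ) : ℝ) ≤ 2 ^ (-((A1 : ℝ) * E.n)) := by
    rw [gn_s_rpow]
    exact herr
  have herr0 : 0 ≤ (((2 * R : ℕ) : ℝ) ^ 2 + 1) * (2 * (Ct * Λ ^ (-(N : ℝ)) * 2 ^ (|L.Cl| * E.n)) ^ 2) + 2 * E.s ^ ((max Ac (A1 + 2) : ℕ) : ℝ) := by
    have : 0 ≤ E.s ^ ((max Ac (A1 + 2) : ℕ) : ℝ) := by rw [gn_s_rpow]; exact (hpos _).le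
    positivity
  have herr2 : 2 * 2 ^ (3 * (E.n : ℝ) / 2) *
      ((((2 * R : ℕ) : ℝ) ^ 2 + 1) * (2 * (Ct * Λ ^ (-(N : ℝ)) * 2 ^ (|L.Cl| * E.n)) ^ 2) + 2 * E.s ^ ((max Ac (A1 + 2) : ℕ) : ℝ)) ^ (3 / 2 : ℝ) * 2 ^ ((D' : ℝ) * E.n / 2)
      ≤ 2 ^ ((γ + ε / 2) * E.n) := by
    have h3 := Real.rpow_le_rpow herr0 herr' (show (0 : ℝ) ≤ 3 / 2 by norm_num)
    rw [← Real.rpow_mul two_pos.le] at h3
    calc _ ≤ (2 : ℝ) * (2 : ℝ) ^ (3 * (E.n : ℝ) / 2) * (2 : ℝ) ^ (-((A1 : ℝ) * E.n) * (3 / 2)) * (2 : ℝ) ^ ((D' : ℝ) * E.n / 2) := by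
          gcongr
      _ = (2 : ℝ) ^ (1 + 3 * (E.n : ℝ) / 2 + -((A1 : ℝ) * E.n) * (3 / 2) + (D' : ℝ) * E.n / 2) := by
          rw [← hP, ← hP, ← hP, Real.rpow_one]
      _ ≤ _ := by
          refine hM _ _ ?_
          have h5 := mul_le_mul_of_nonneg_right hA1' (show (0 : ℝ) ≤ E.n by linarith)
          have h6 : 0 ≤ ε / 2 * E.n := by positivity
          nlinarith
  calc E.val ≤ 432 * Ec.val + _ := hval
    _ ≤ 432 * 2 ^ ((γ + ε / 2) * E.n) + 2 ^ ((γ + ε / 2) * E.n) := add_le_add (mul_le_mul_of_nonneg_left hEc (by norm_num)) herr2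
    _ = 433 * 2 ^ ((γ + ε / 2) * E.n) := by ring
    _ ≤ 2 ^ (ε / 2 * E.n) * 2 ^ ((γ + ε / 2) * E.n) := mul_le_mul_of_nonneg_right (habs E.n hna) (hpos _).le
    _ = 2 ^ ((γ + ε) * E.n) := by
        rw [hP]
        congr 1
        ring

/-- **EXIT (CMP)**.   PLAN: `D0 : ℕ` with `(3 - D0)/2 ≤ γ - 1`;  `hG.floor C (D0 + 1)` gives `D', A_F, n_F`;  `sf_pl_cmp_heavy` at `(C, D', ε/2)`;  `gn_two_pieces` with `y = D0`, `B = 2^((γ+ε/2) n)`: for a set `S` of labels with `κ w s^D0 ≤ m`, `E.pick (E.sel S)` is in the class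
(`gn_cls_pick`, `hG.root`), has the tests of `E` (`Xp.pick`), and `s^(D0+1) κ w < κ w s^D0 ≤ m l ≤ ms (cell)` (`gn_m_le_ms`; `Floor` with `k = kf`, `i = iv l`, `b = bT`, `st' = E.st`, `StOk` from `Valid` + `Cls`).   `2^((γ+ε/2)n) + 2^((γ-1)n) ≤ 2^((γ+ε)n)`.   ~250 l. -/
theorem sf_pl_cmp (η : ℝ) (h0 : 0 < η) (h1 : η < 1) (hG : (cylHyb η).Gen (1 + η / 2)) (L : (cylHyb η).Loc (1 + η / 2)) (hL : SfPlLoc η L)
    (γ : ℝ) (hγ : (cylCl η).Rate γ) (C : ℕ) (ε : ℝ) (hε : 0 < ε) :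
    ∃ A n0 : ℕ, ∀ (p : ChyPar) (E : Xp (p.sys η)), n0 ≤ E.n → (cylHyb η).Cls C A p E → (∀ l, p.H * 2 ^ E.kf ≤ E.s ^ (4 : ℝ) * CyT.f (E.ts l) ^ 2) →
      E.val ≤ 2 ^ ((γ + ε) * E.n) := by
  obtain ⟨D0, hD0⟩ := exists_nat_ge (5 - 2 * γ)
  have hD0' : (3 - (D0 : ℝ)) / 2 ≤ γ - 1 := by linarith
  obtain ⟨D', AF, nF, hfloor⟩ := hG.floor C (D0 + 1)
  obtain ⟨AH, nH, hheavy⟩ := sf_pl_cmp_heavy η h0 h1 hG L hL γ hγ C D' (ε / 2) (by positivity)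
  obtain ⟨na, habs⟩ := gn_absorb 2 (ε / 2) (by positivity)
  refine ⟨max AF AH, max (max nF nH) (max 1 na), fun p E hn hcls hs => ?_⟩
  have hnF : nF ≤ E.n := ((le_max_left _ _).trans (le_max_left _ _)).trans hn
  have hnH : nH ≤ E.n := ((le_max_right _ _).trans (le_max_left _ _)).trans hn
  have hn1 : 1 ≤ E.n := ((le_max_left _ _).trans (le_max_right _ _)).trans hn
  have hna : na ≤ E.n := ((le_max_right _ _).trans (le_max_right _ _)).trans hn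
  have hν : (1 : ℝ) ≤ E.n := by exact_mod_cast hn1
  have hclsF : (cylHyb η).Cls C AF p E := gn_cls_anti _ hG.scale (le_max_left _ _) hcls
  have hclsH : (cylHyb η).Cls C AH p E := gn_cls_anti _ hG.scale (le_max_right _ _) hcls
  have hgd := hcls.1
  have hV : E.Valid := hcls.2.1
  have hlen := hcls.2.2.1
  have hgen := hcls.2.2.2.1
  have hT : (p.sys η).Tight := hG.tight p hgd
  have hP : ∀ x y : ℝ, (2 : ℝ) ^ x * 2 ^ y = 2 ^ (x + y) := fun x y => (Real.rpow_add two_pos x y).symm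
  have hM : ∀ x y : ℝ, x ≤ y → (2 : ℝ) ^ x ≤ 2 ^ y := fun x y h => Real.rpow_le_rpow_of_exponent_le one_le_two h
  have hpos : ∀ x : ℝ, 0 < (2 : ℝ) ^ x := fun x => Real.rpow_pos_of_pos two_pos x
  have hst : StOk E.k0 E.kf C C E.st :=
    ⟨hlen, hV.st_dep, hV.st_mono, hgen.2.2, fun σ hσ i => ⟨hV.st_meas σ hσ i, hV.st_bd σ hσ i⟩⟩
  have hw : ∀ l : Fin E.L, E.ka * E.w l * E.s ^ (D0 : ℝ) ≤ E.m l → E.s ^ (D' : ℝ) * E.e ≤ E.ka * E.w l := by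
    intro l hl
    have hkw : 0 < E.ka * E.w l := mul_pos hV.ka_pos (hV.w_pos l)
    have hlt : E.s ^ ((D0 + 1 : ℕ) : ℝ) * (E.ka * E.w l) < E.ka * E.w l * E.s ^ (D0 : ℝ) := by
      rw [mul_comm (E.ka * E.w l)]
      refine mul_lt_mul_of_pos_right ?_ hkw
      rw [gn_s_rpow, gn_s_rpow]
      refine Real.rpow_lt_rpow_of_exponent_lt one_lt_two ?_
      push_cast
      nlinarith
    exact hfloor p E hnF hclsF E.kf (E.iv l) E.bT E.st (E.ts l) (Nat.le_add_right _ _) le_rfl (hV.iv_in l) hgen.2.1 hst (hV.ts_ok l)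
      (lt_of_lt_of_le hlt (hl.trans (gn_m_le_ms hT E hV l)))
  have h2 := gn_two_pieces hT E hV (D0 : ℝ) (2 ^ ((γ + ε / 2) * E.n)) (fun S hS => by
    refine hheavy p (E.pick (E.sel S)) hnH (gn_cls_pick _ hG.root hclsH _ (gn_sel_inj E S)) (fun l => hs (E.sel S l)) (fun l => ?_)
    exact hw (E.sel S l) (hS _ (gn_sel_mem E S l)))
  calc E.val ≤ 2 ^ ((γ + ε / 2) * E.n) + 2 ^ ((3 - (D0 : ℝ)) * E.n / 2) := h2
    _ ≤ 2 ^ ((γ + ε / 2) * E.n) + 2 ^ ((γ + ε / 2) * E.n) := by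
        refine add_le_add le_rfl (hM _ _ ?_)
        have h5 := mul_le_mul_of_nonneg_right hD0' (show (0 : ℝ) ≤ E.n by linarith)
        have h6 : 0 ≤ ε / 2 * E.n := by positivity
        nlinarith
    _ = 2 * 2 ^ ((γ + ε / 2) * E.n) := by ring
    _ ≤ 2 ^ (ε / 2 * E.n) * 2 ^ ((γ + ε / 2) * E.n) := mul_le_mul_of_nonneg_right (habs E.n hna) (hpos _).le
    _ = 2 ^ ((γ + ε) * E.n) := by
        rw [hP]
        congr 1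
        ring

end Claimed.Agent.R256
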