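import Claimed.Agent.R256.Soft.MPlCmp

/-!
# Row 256 (S0496), unit SOFT, block M7 PL, file 5: THE PLANCK FLOOR, MODEL LEVEL      (architect helper73; prefix `sf_pl_`)

**EXIT `sf_pl_floor`** (Prop. cyl:planck-floor, 02 l.817-880, frame free): if the classical cylinder obeys a rate `γ < Γ`, a hybrid experiment all of whose terminal tests satisfy `H/ℓ_f ≤ s^ξ f²` loses a PACKAGE FREE power `τ = τ(ξ, Γ - γ)` against `Γ`.
PROOF.  `h = min ξ 1 / 8`.   Cut at `k = kf - ⌈h n⌉`; a preserving ordinary split (`cy_osplit`) gives a peel level `(β, raw)`;  prefix rate on its heavy tests (`gn_ss2_pre`): `raw √(β/κ) ≤ e ℓ^(1/2-Γ-o(1))`;  the tails are hybrid experiments at the scale `δ = 2^-(kf-k) = s^h` in the class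
(`gn_tail_cls`) with `H/ℓ_f ≤ s^ξ f² ≤ δ⁴ f²`, so they obey the CLASSICAL rate (`sf_pl_cmp`);  `gn_tail_sum`.   Total: `val ≤ s^(-Γ + h(Γ-γ) - o(1))`.      No chart, no jitter, no saturation benchmark is needed.
-/

set_option autoImplicit false

namespace Claimed.Agent.R256

open MeasureTheory
open scoped ENNReal

/-- all hybrid states are plateau states -/
theorem sf_pl_flat (η : ℝ) : (cylHyb η).Flat := by
  intro p hp b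
  ext v
  simp only [Set.mem_univ, iff_true]
  intro T k
  exact hy_an_norm p hp T k v

theorem sf_pl_cut_list {P : PkSys} (k : ℕ) (l : List (Stg P)) (hl : l.Pairwise fun σ σ' => σ.k ≤ σ'.k) :
    ∃ st1 st2 : List (Stg P), l = st1 ++ st2 ∧ (∀ σ ∈ st1, σ.k ≤ k) ∧ (∀ σ ∈ st2, k ≤ σ.k) := by
  induction l with
  | nil => exact ⟨[], [], rfl, by simp, by simp⟩
  | cons σ l ih =>
    rw [List.pairwise_cons] at hl
    by_cases hσ : σ.k ≤ k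
    · obtain ⟨st1, st2, h1, h2, h3⟩ := ih hl.2
      refine ⟨σ :: st1, st2, by rw [h1]; rfl, ?_, h3⟩
      intro σ' hσ'
      rcases List.mem_cons.1 hσ' with rfl | h
      · exact hσ
      · exact h2 _ h
    · refine ⟨[], σ :: l, rfl, by simp, ?_⟩
      intro σ' hσ'
      rcases List.mem_cons.1 hσ' with rfl | h
      · omega
      · have := hl.1 _ h
        omega

/-- **LEAF CUT: the stack can be cut at every depth.**   `st1 = E.st.takeWhile (·.k ≤ k)`, `st2 = E.st.dropWhile ..` (`List.takeWhile_append_dropWhile`, `List.mem_takeWhile_imp`); the head of `st2` has depth `> k` (`List.dropWhile_nthLe_zero_not`/`List.head_dropWhile_not`),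
the others are deeper by `Valid.st_mono` (`List.Pairwise.sublist`, `List.pairwise_cons`); or induction on the list.   ~70 l. -/
theorem sf_pl_cut {P : PkSys} (E : Xp P) (hE : E.Valid) (k : ℕ) (h0 : E.k0 ≤ k) (h1 : k ≤ E.kf) : ∃ st1 st2 : List (Stg P), E.CutAt k st1 st2 := by
  obtain ⟨st1, st2, e, a, b⟩ := sf_pl_cut_list k E.st hE.st_mono
  exact ⟨st1, st2, e, a, b, h0, h1⟩

theorem sf_pl_lvl_sqadd (u v : ℝ) (hu : 0 ≤ u) (hv : 0 ≤ v) : Real.sqrt (u + v) ≤ Real.sqrt u + Real.sqrt v := by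
  rw [Real.sqrt_le_iff]
  refine ⟨by positivity, ?_⟩
  have h1 := Real.sq_sqrt hu
  have h2 := Real.sq_sqrt hv
  have h3 : 0 ≤ Real.sqrt u * Real.sqrt v := by positivity
  nlinarith

theorem sf_pl_lvl_sqrt (κ β κ' Cr t : ℝ) (hκ : 0 < κ) (hβ : 0 < β) (hCr : 1 ≤ Cr) (ht : 0 < t)
    (hκ' : κ' = max (Cr * (2 * β)) (t * κ)) :
    Real.sqrt κ' ≤ (Real.sqrt (2 * Cr) * Real.sqrt (β / κ) + Real.sqrt t) * Real.sqrt κ := by
  have h1 : κ' ≤ Cr * (2 * β) + t * κ := by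
    rw [hκ']
    have : 0 ≤ Cr * (2 * β) := by positivity
    have : 0 ≤ t * κ := by positivity
    exact max_le (by linarith) (by linarith)
  have h2 : Real.sqrt (Cr * (2 * β)) = Real.sqrt (2 * Cr) * Real.sqrt (β / κ) * Real.sqrt κ := by
    rw [mul_assoc, ← Real.sqrt_mul (by positivity) κ, ← Real.sqrt_mul (by positivity)]
    congr 1
    field_simp
  have h3 : Real.sqrt (t * κ) = Real.sqrt t * Real.sqrt κ := Real.sqrt_mul ht.le κ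
  calc Real.sqrt κ' ≤ Real.sqrt (Cr * (2 * β) + t * κ) := Real.sqrt_le_sqrt h1
    _ ≤ Real.sqrt (Cr * (2 * β)) + Real.sqrt (t * κ) := sf_pl_lvl_sqadd _ _ (by positivity) (by positivity)
    _ = _ := by rw [h2, h3]; ring

/-- the bracket -/
theorem sf_pl_lvl_brk (e post raw x a rt t cs y pj : ℝ) (he : 0 < e) (hpr : post ≤ raw) (hx : 0 ≤ x) (ha : 0 ≤ a) (hrt : 0 ≤ rt) (ht : 0 ≤ t)
    (hpre : raw * x ≤ e * y) (hpost : post ≤ pj * e) (hxs : x ≤ cs) :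
    (a * x + rt) * (post + t * e) ≤ e * (a * y + pj * rt + t * (a * cs) + t * rt) := by
  have h1 : post * x ≤ e * y := (mul_le_mul_of_nonneg_right hpr hx).trans hpre
  have h2 : a * (post * x) ≤ a * (e * y) := mul_le_mul_of_nonneg_left h1 ha
  have h3 : rt * post ≤ rt * (pj * e) := mul_le_mul_of_nonneg_left hpost hrt
  have h4 : t * e * a * x ≤ t * e * a * cs := mul_le_mul_of_nonneg_left hxs (by positivity)
  nlinarith

theorem sf_pl_lvl_exp (Γ G γ ε t J N' N : ℝ) (hn : N = J + N') (hJ : 0 ≤ J) (hN' : 0 ≤ N') (hΓ0 : 0 ≤ Γ) (hG : G ≤ Γ) (hε : 0 < ε) (ht0 : 0 < t)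
    (ht : t ≤ 2 ^ (-(3 * N))) (a cs : ℝ) (ha : 0 ≤ a) (hcs : 0 ≤ cs) (hK : a + a * cs + 2 ≤ 2 ^ (3 * ε / 4 * N)) :
    2 ^ (N / 2) * 2 ^ (-((1 / 2 - γ - ε / 4) * N')) * (a * 2 ^ ((G + ε / 4 - 1 / 2) * J) + 2 ^ J * Real.sqrt t + t * (a * cs) + t * Real.sqrt t)
      ≤ 2 ^ (Γ * J + γ * N' + ε * N) := by
  set W : ℝ := 2 ^ (Γ * J + γ * N' + ε / 4 * N) with hW
  have hW0 : 0 < W := gn_two_pos _
  rw [← gn_two_add]
  set P : ℝ := 2 ^ (N / 2 + -((1 / 2 - γ - ε / 4) * N')) with hP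
  have hP0 : 0 < P := gn_two_pos _
  have hrt : Real.sqrt t ≤ 2 ^ (-(3 * N) / 2) := by
    rw [← gn_two_sqrt]
    exact Real.sqrt_le_sqrt ht
  have hrt0 : 0 ≤ Real.sqrt t := Real.sqrt_nonneg _
  have hrt1 : Real.sqrt t ≤ 1 := by
    refine hrt.trans ?_
    rw [show (1 : ℝ) = 2 ^ (0 : ℝ) by simp]
    apply gn_two_mono
    nlinarith
  have hGJ : G * J ≤ Γ * J := mul_le_mul_of_nonneg_right hG hJ
  have hΓJ : 0 ≤ Γ * J := mul_nonneg hΓ0 hJ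
  have hεJ : 0 ≤ ε * J := by positivity
  have hεN : 0 ≤ ε * N' := by positivity
  have h1 : P * 2 ^ ((G + ε / 4 - 1 / 2) * J) ≤ W := by
    rw [hP, ← gn_two_add, hW]
    apply gn_two_mono
    rw [hn]
    nlinarith
  have h2 : P * (2 ^ J * Real.sqrt t) ≤ W := by
    calc P * (2 ^ J * Real.sqrt t) ≤ P * (2 ^ J * 2 ^ (-(3 * N) / 2)) := by gcongr
      _ ≤ W := by
        rw [hP, ← gn_two_add, ← gn_two_add, hW]
        apply gn_two_mono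
        rw [hn]
        nlinarith
  have h3 : P * t ≤ W := by
    calc P * t ≤ P * 2 ^ (-(3 * N)) := by gcongr
      _ ≤ W := by
        rw [hP, ← gn_two_add, hW]
        apply gn_two_mono
        rw [hn]
        nlinarith
  have h4 : P * (t * Real.sqrt t) ≤ W := by
    calc P * (t * Real.sqrt t) ≤ P * (t * 1) := by gcongr
      _ = P * t := by ring
      _ ≤ W := h3
  have h5 : (2 : ℝ) ^ (Γ * J + γ * N' + ε * N) = 2 ^ (3 * ε / 4 * N) * W := by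
    rw [hW, ← gn_two_add]
    congr 1
    ring
  rw [h5]
  calc P * (a * 2 ^ ((G + ε / 4 - 1 / 2) * J) + 2 ^ J * Real.sqrt t + t * (a * cs) + t * Real.sqrt t)
      = a * (P * 2 ^ ((G + ε / 4 - 1 / 2) * J)) + P * (2 ^ J * Real.sqrt t) + a * cs * (P * t) + P * (t * Real.sqrt t) := by ring
    _ ≤ a * W + W + a * cs * W + W := by gcongr
    _ = (a + a * cs + 2) * W := by ring
    _ ≤ 2 ^ (3 * ε / 4 * N) * W := by gcongr

/-- all the numerics of `sf_pl_lvl` -/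
theorem sf_pl_lvl_num (e κ β κ' post raw rd Cr Cs Γ G γ ε t J N' N : ℝ) (hn : N = J + N') (hJ : 0 ≤ J) (hN' : 0 ≤ N')
    (he : 0 < e) (hκ : 0 < κ) (hβ : 0 < β) (hpr : post ≤ raw) (hCr : 1 ≤ Cr)
    (hΓ0 : 0 ≤ Γ) (hG : G ≤ Γ) (hε : 0 < ε)
    (hpre : raw * Real.sqrt (β / κ) ≤ e * 2 ^ ((G + ε / 4 - 1 / 2) * J))
    (hpost : post ≤ 2 ^ J * e) (hβs : β ≤ Cs * κ) (ht0 : 0 < t) (ht : t ≤ 2 ^ (-(3 * N)))
    (hκ' : κ' = max (Cr * (2 * β)) (t * κ))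
    (hrd : rd ≤ 2 ^ (-((1 / 2 - γ - ε / 4) * N')) * Real.sqrt κ' * (post + t * e)) (hp0 : 0 ≤ post)
    (hK : Real.sqrt (2 * Cr) + Real.sqrt (2 * Cr) * Real.sqrt Cs + 2 ≤ 2 ^ (3 * ε / 4 * N)) :
    2 ^ (N / 2) / (e * Real.sqrt κ) * rd ≤ 2 ^ (Γ * J + γ * N' + ε * N) := by
  have hsk : 0 < Real.sqrt κ := Real.sqrt_pos.mpr hκ
  have h1 := sf_pl_lvl_sqrt κ β κ' Cr t hκ hβ hCr ht0 hκ'
  have hxs : Real.sqrt (β / κ) ≤ Real.sqrt Cs := by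
    apply Real.sqrt_le_sqrt
    rw [div_le_iff₀ hκ]
    exact hβs
  have h2 := sf_pl_lvl_brk e post raw (Real.sqrt (β / κ)) (Real.sqrt (2 * Cr)) (Real.sqrt t) t (Real.sqrt Cs) _ _ he hpr (Real.sqrt_nonneg _)
    (Real.sqrt_nonneg _) (Real.sqrt_nonneg _) ht0.le hpre hpost hxs
  have h3 := sf_pl_lvl_exp Γ G γ ε t J N' N hn hJ hN' hΓ0 hG hε ht0 ht (Real.sqrt (2 * Cr)) (Real.sqrt Cs) (Real.sqrt_nonneg _) (Real.sqrt_nonneg _) hK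
  refine le_trans ?_ h3
  have hq : 0 < (2 : ℝ) ^ (-((1 / 2 - γ - ε / 4) * N')) := gn_two_pos _
  have hq2 : 0 < (2 : ℝ) ^ (N / 2) := gn_two_pos _
  have hpt : 0 ≤ post + t * e := by positivity
  calc 2 ^ (N / 2) / (e * Real.sqrt κ) * rd
      ≤ 2 ^ (N / 2) / (e * Real.sqrt κ) * (2 ^ (-((1 / 2 - γ - ε / 4) * N')) * ((Real.sqrt (2 * Cr) * Real.sqrt (β / κ) + Real.sqrt t) * Real.sqrt κ) * (post + t * e)) := by
        gcongr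
        exact hrd.trans (by gcongr)
    _ = 2 ^ (N / 2) * 2 ^ (-((1 / 2 - γ - ε / 4) * N')) * (((Real.sqrt (2 * Cr) * Real.sqrt (β / κ) + Real.sqrt t) * (post + t * e)) / e) := by
        field_simp
    _ ≤ _ := by
        gcongr
        rw [div_le_iff₀ he]
        linarith [h2]

/-- **LEAF LVL: prefix rate × classical tail rate at a peel level.**      `M = cylHyb η`, `j = σ.k - k0`, `n' = kf - σ.k`, `x = β/κ`.   If `E.rd = 0` the claim is trivial (`val = 0`).   Otherwise `0 < post ≤ raw` (`gn_post_pos`, `gn_post_le_raw`), `0 < β` (`gn_lvl_beta_pos`).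
Constants: `C2 = C + 1 + ⌈2γ + 2Γ⌉₊ + 8`;  `Cr` (`gn_lvl_post_reg M _ hG C2`), `Cs` (`gn_ss2_beta_le .. C 1`);  `C'` from `gn_tail_cls M _ hG C2 h`;  `(A', n')` from `sf_pl_cmp .. γ hγ C' (ε/4)`;  `(A, n0)` from `gn_tail_cls`, `gn_ss2_pre M _ hG C h (ε/4)`.
`κ' = max (Cr (2β)) (s^C2 κ)`: `s^C2 κ ≤ κ' ≤ s^-C2 κ` (upper bound: `β ≤ Cs κ`, `2 Cr Cs ≤ 2^n`).   Cut `gn_lvl_cut`, states `φ_i = at' σ.k i (st1 ++ [σ])`, generation `b' = σ.b + 1 ≤ C2`, `gn_reg_mono`.   Every tail `E.tl σ.k i φ_i (eb C2 φ_i) κ' b' st2 (univ ∩ below σ.k i)` is in `Cls C' A'`,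
has `n = kf - σ.k ≥ h n`, `kf` = that of `E` (`gn_tl_kf`), `s = 2⁻¹^(kf - σ.k)`, tests among those of `E`: `sf_pl_cmp` gives `val ≤ B = 2^((γ+ε/4) n')`.   `gn_tail_sum` (`S = univ`, `gn_rd_eq`): `rd ≤ B 2^(-n'/2) √κ' (post + s^C2 e)`.
`√κ' ≤ √(2 Cr β) + s^(C2/2) √κ`;  `raw √x ≤ e 2^((Gam+ε/4-1/2) j)`, `Gam ≤ Γ` (`Mdl.bs_gam_le`);  `post ≤ 2^j e` (`gn_post_le`);  `√x ≤ √Cs`.
`val = 2^(n/2)/(e√κ) rd ≤ 2^(j/2) B [√(2Cr) 2^((Γ+ε/4-1/2) j) + √(2 Cr Cs) s^C2 + 2 s^(C2/2) 2^j]`; the last two terms are `≤ 1 ≤` main term by the choice of `C2`; constants absorbed by `2^(ε n/4)` (`gn_absorb`).   ~500 l. -/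
theorem sf_pl_lvl (η : ℝ) (h0 : 0 < η) (h1 : η < 1) (hG : (cylHyb η).Gen (1 + η / 2)) (L : (cylHyb η).Loc (1 + η / 2)) (hL : SfPlLoc η L)
    (Γ γ : ℝ) (hΓ0 : 0 ≤ Γ) (hΓ : (cylHyb η).Rate Γ) (hγ0 : 0 ≤ γ) (hγ : (cylCl η).Rate γ) (C : ℕ) (h ε : ℝ) (hh : 0 < h) (hε : 0 < ε) :
    ∃ A n0 : ℕ, ∀ (p : ChyPar) (E : Xp (p.sys η)), n0 ≤ E.n → (cylHyb η).Cls C A p E →
      ∀ (st1 st2 : List (Stg (p.sys η))) (σ : Stg (p.sys η)) (β : ℝ), E.LvlAt st1 σ st2 β →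
        h * E.n ≤ ((E.kf - σ.k : ℕ) : ℝ) → h * E.n ≤ ((σ.k - E.k0 : ℕ) : ℝ) →
        (∀ l, p.H * 2 ^ E.kf ≤ ((2 : ℝ)⁻¹ ^ (E.kf - σ.k)) ^ (4 : ℝ) * CyT.f (E.ts l) ^ 2) →
        E.val ≤ 2 ^ (Γ * ((σ.k - E.k0 : ℕ) : ℝ) + γ * ((E.kf - σ.k : ℕ) : ℝ) + ε * E.n) := by
  obtain ⟨Cr, hCr, HR⟩ := gn_lvl_post_reg (cylHyb η) _ hG (C + 3)
  obtain ⟨Cs, hCs, HS⟩ := gn_ss2_beta_le (cylHyb η) _ hG C 1 one_pos
  obtain ⟨A1, n1, HT⟩ := gn_tail_on (cylHyb η) _ hG γ (fun (p : ChyPar) (E : Xp (p.sys η)) => ∀ l, p.H * 2 ^ E.kf ≤ E.s ^ (4 : ℝ) * CyT.f (E.ts l) ^ 2)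
    (fun C ε hε => sf_pl_cmp η h0 h1 hG L hL γ hγ C ε hε) (C + 3) h (ε / 4) hh (by positivity)
  obtain ⟨A2, n2, HP⟩ := gn_ss2_pre (cylHyb η) _ hG C h (ε / 4) hh (by positivity)
  obtain ⟨n3, hn3⟩ := gn_absorb (2 * Cr * Cs) 1 one_pos
  obtain ⟨n4, hn4⟩ := gn_absorb (Real.sqrt (2 * Cr) + Real.sqrt (2 * Cr) * Real.sqrt Cs + 2) (3 * ε / 4) (by positivity)
  refine ⟨max A1 A2, max (max n1 n2) (max n3 n4), fun p E hn hE st1 st2 σ β hl hk1 hk2 hH => ?_⟩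
  have hE1 : (cylHyb η).Cls (C + 3) A1 p E := gn_cls_mono _ hG.scale (by omega) (gn_cls_anti _ hG.scale (le_max_left _ _) hE)
  have hE2 : (cylHyb η).Cls C A2 p E := gn_cls_anti _ hG.scale (le_max_right _ _) hE
  have hT : (p.sys η).Tight := hG.tight p hE.1
  have hV : E.Valid := hE.2.1
  have hsk : 0 < Real.sqrt E.ka := Real.sqrt_pos.mpr hV.ka_pos
  have he := hV.e_pos
  by_cases hrd : 0 < E.rd
  swap
  · refine le_trans ?_ (gn_two_pos _).le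
    unfold Xp.val
    exact mul_nonpos_of_nonneg_of_nonpos (by positivity) (not_lt.1 hrd)
  have hpost := gn_post_pos E hV hl hrd
  have hpr := gn_post_le_raw hT E hV hl
  have hraw : 0 < E.raw st1 σ := lt_of_lt_of_le hpost hpr
  have hβ := gn_lvl_beta_pos hT E hV hl hraw
  have hc := gn_lvl_cut E hl
  have hnn : (E.n : ℝ) = ((σ.k - E.k0 : ℕ) : ℝ) + ((E.kf - σ.k : ℕ) : ℝ) := by
    have h1 := hc.2.2.2.1
    have h2 := hc.2.2.2.2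
    have h3 : E.kf = E.k0 + E.n := rfl
    have : E.n = (σ.k - E.k0) + (E.kf - σ.k) := by omega
    exact_mod_cast this
  have hβs : β ≤ Cs * E.ka := by
    refine (HS p E hE.1 hV hE.2.2.1 hE.2.2.2.1 st1 st2 σ β hl hraw).trans ?_
    have h2 : (2 : ℝ) ^ ((1 - (1 + η / 2)) * ((σ.k - E.k0 : ℕ) : ℝ)) ≤ 1 := by
      rw [show (1 : ℝ) = 2 ^ (0 : ℝ) by simp]
      apply gn_two_mono
      have : (0 : ℝ) ≤ ((σ.k - E.k0 : ℕ) : ℝ) := Nat.cast_nonneg _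
      nlinarith
    have := hV.ka_pos
    calc Cs * 2 ^ ((1 - (1 + η / 2)) * ((σ.k - E.k0 : ℕ) : ℝ)) * E.ka ≤ Cs * 1 * E.ka := by gcongr
      _ = Cs * E.ka := by ring
  have hn1 : n1 ≤ E.n := ((le_max_left _ _).trans (le_max_left _ _)).trans hn
  have hn2 : n2 ≤ E.n := ((le_max_right _ _).trans (le_max_left _ _)).trans hn
  have hn3' : n3 ≤ E.n := ((le_max_left _ _).trans (le_max_right _ _)).trans hn
  have hn4' : n4 ≤ E.n := ((le_max_right _ _).trans (le_max_right _ _)).trans hn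
  have ht0 : 0 < E.s ^ ((C + 3 : ℕ) : ℝ) := Real.rpow_pos_of_pos (gn_s_pos E) _
  have ht : E.s ^ ((C + 3 : ℕ) : ℝ) ≤ 2 ^ (-(3 * (E.n : ℝ))) := by
    rw [gn_s_rpow]
    apply gn_two_mono
    push_cast
    have : (0 : ℝ) ≤ (C : ℝ) * E.n := by positivity
    nlinarith
  have hmem : σ ∈ E.st := by
    rw [hl.cut.1]
    exact List.mem_append_right _ List.mem_cons_self
  have hσb : σ.b ≤ C := hE.2.2.2.1.2.2 σ hmem
  have hTh : ∀ (i : ℕ) (ψ : (p.sys η).Kc) (e' κ' : ℝ) (b' : ℕ) (S : Finset (Fin E.L)) (l : Fin (E.tl σ.k i ψ e' κ' b' st2 S).L),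
      p.H * 2 ^ (E.tl σ.k i ψ e' κ' b' st2 S).kf ≤ (E.tl σ.k i ψ e' κ' b' st2 S).s ^ (4 : ℝ) * CyT.f ((E.tl σ.k i ψ e' κ' b' st2 S).ts l) ^ 2 := by
    intro i ψ e' κ' b' S l
    rw [gn_tl_kf E hc.2.2.2.2]
    exact hH _
  have hup : max (Cr * (2 * β)) (E.s ^ ((C + 3 : ℕ) : ℝ) * E.ka) ≤ E.s ^ (-((C + 3 : ℕ) : ℝ)) * E.ka := by
    have hka := hV.ka_pos
    apply max_le
    · have h3 := hn3 E.n hn3'
      have h4 : (2 : ℝ) ^ ((1 : ℝ) * E.n) ≤ E.s ^ (-((C + 3 : ℕ) : ℝ)) := by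
        rw [gn_s_rpow]
        apply gn_two_mono
        push_cast
        have : (0 : ℝ) ≤ (C : ℝ) * E.n := by positivity
        have : (0 : ℝ) ≤ (E.n : ℝ) := Nat.cast_nonneg _
        nlinarith
      calc Cr * (2 * β) ≤ Cr * (2 * (Cs * E.ka)) := by gcongr
        _ = 2 * Cr * Cs * E.ka := by ring
        _ ≤ _ := by gcongr; exact h3.trans h4
    · refine mul_le_mul_of_nonneg_right (gn_s_anti E ?_) hka.le
      have : (0 : ℝ) ≤ ((C + 3 : ℕ) : ℝ) := Nat.cast_nonneg _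
      linarith
  have hrd' := HT p E hn1 hE1 σ.k (σ.b + 1) (st1 ++ [σ]) st2 (max (Cr * (2 * β)) (E.s ^ ((C + 3 : ℕ) : ℝ) * E.ka)) Finset.univ hc hk1 (by omega)
    (le_max_right _ _) hup
    (fun i hi => ⟨(HR p E hE.1 hV hE1.2.2.2.1 st1 st2 σ β hl i hi).1,
      gn_reg_mono hT ((HR p E hE.1 hV hE1.2.2.2.1 st1 st2 σ β hl i hi).2 (σ.b + 1) (by omega)) (le_max_left _ _)⟩)
    (fun i _ l => hTh i _ _ _ _ _ l)
  have hpre := HP p E hn2 hE2 st1 st2 σ β hl hβ hk2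
  have hpo : E.post st1 σ ≤ 2 ^ (((σ.k - E.k0 : ℕ) : ℝ)) * E.e := by
    rw [gn_two_nat]
    exact gn_post_le hT E hV hl
  exact sf_pl_lvl_num E.e E.ka β _ (E.post st1 σ) (E.raw st1 σ) E.rd Cr Cs Γ (cylHyb η).Gam γ ε (E.s ^ ((C + 3 : ℕ) : ℝ)) _ _ _ hnn (Nat.cast_nonneg _) (Nat.cast_nonneg _)
    he hV.ka_pos hβ hpr hCr hΓ0 ((cylHyb η).bs_gam_le hΓ0 hΓ) hε hpre hpo hβs ht0 ht rfl hrd' hpost.le (hn4 E.n hn4')

/-- the arithmetic of the cut -/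
theorem sf_pl_floor_ar (ξ h : ℝ) (hξ : 0 < ξ) (hh : h = min ξ 1 / 8) (n : ℕ) (hn2 : 2 ≤ n) (hn : 8 / ξ ≤ n) :
    ⌈h * n⌉₊ ≤ n ∧ h * n ≤ (⌈h * n⌉₊ : ℝ) ∧ h * n ≤ ((n - ⌈h * n⌉₊ : ℕ) : ℝ) ∧ 4 * (⌈h * n⌉₊ : ℝ) ≤ ξ * n := by
  have hn0 : (0 : ℝ) ≤ n := Nat.cast_nonneg _
  have hn2' : (2 : ℝ) ≤ n := by exact_mod_cast hn2
  have hh0 : 0 < h := by
    rw [hh]
    have : 0 < min ξ 1 := lt_min hξ one_pos
    positivity
  have hh1 : h ≤ 1 / 8 := by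
    rw [hh]
    have : min ξ 1 ≤ 1 := min_le_right _ _
    linarith
  have hh2 : h ≤ ξ / 8 := by
    rw [hh]
    have : min ξ 1 ≤ ξ := min_le_left _ _
    linarith
  have hc1 : h * n ≤ (⌈h * n⌉₊ : ℝ) := Nat.le_ceil _
  have hc2 : (⌈h * n⌉₊ : ℝ) < h * n + 1 := Nat.ceil_lt_add_one (by positivity)
  have hle : ⌈h * n⌉₊ ≤ n := by
    rw [Nat.ceil_le]
    nlinarith
  refine ⟨hle, hc1, ?_, ?_⟩
  · rw [Nat.cast_sub hle]
    nlinarith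
  · rw [div_le_iff₀ hξ] at hn
    nlinarith

/-- **EXIT (FLOOR)**.   PLAN: `h = min ξ 1 / 8`, `τ = h (Γ - γ)/4` (so `τ ≤ Γ/32`).   Given `C`: `(A1, n1)` from `cy_osplit M _ hG (sf_pl_flat η) h τ C`, `(A2, n2)` from `sf_pl_lvl .. (C+1) h τ`; `A = max`, `n0 ≥ n1, n2, 8/ξ, 8/h`; `gn_cls_anti`.
By contradiction `2^((Γ-τ)n) < val`, so `2^(-Cn) ≤ 1 ≤ val`.   `n' = ⌈h n⌉₊`, `k = kf - n'`, `sf_pl_cut`, `cy_osplit`: `σ, β`, `E' = E.withSt (st1 ++ σ :: st2)`; `E' ∈ Cls (C+1) A` (`hG.root`, `gn_cls_mono`, length `+1`, `σ.b = 0`); `val E ≤ 2^(τn) val E'` (`Xp.val`, same `n, e, κ`).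
`4 n' ≤ ξ n`: `s^ξ ≤ (2⁻¹^n')^4`.   `sf_pl_lvl`: `val E' ≤ 2^(Γ(n-n') + γ n' + τn) ≤ 2^((Γ - 4τ + τ) n)`.   ~300 l. -/
theorem sf_pl_floor (η : ℝ) (h0 : 0 < η) (h1 : η < 1) (hG : (cylHyb η).Gen (1 + η / 2)) (L : (cylHyb η).Loc (1 + η / 2)) (hL : SfPlLoc η L)
    (Γ γ : ℝ) (hΓ : (cylHyb η).Rate Γ) (hγ0 : 0 ≤ γ) (hγ : (cylCl η).Rate γ) (hlt : γ < Γ) (ξ : ℝ) (hξ : 0 < ξ) :
    ∃ τ : ℝ, 0 < τ ∧ ∀ C : ℕ, ∃ A n0 : ℕ, ∀ (p : ChyPar) (E : Xp (p.sys η)), n0 ≤ E.n → (cylHyb η).Cls C A p E →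
      (∀ l, p.H * 2 ^ E.kf ≤ E.s ^ ξ * CyT.f (E.ts l) ^ 2) → E.val ≤ 2 ^ ((Γ - τ) * E.n) := by
  obtain ⟨h, hh⟩ : ∃ h : ℝ, h = min ξ 1 / 8 := ⟨_, rfl⟩
  have hh0 : 0 < h := by
    rw [hh]
    have : 0 < min ξ 1 := lt_min hξ one_pos
    positivity
  have hh1 : h ≤ 1 / 8 := by
    rw [hh]
    have : min ξ 1 ≤ 1 := min_le_right _ _
    linarith
  have hΓ0 : 0 ≤ Γ := hγ0.trans hlt.le
  have hd : 0 < Γ - γ := by linarith
  obtain ⟨τ, hτ⟩ : ∃ τ : ℝ, τ = h * (Γ - γ) / 4 := ⟨_, rfl⟩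
  have hτ0 : 0 < τ := by rw [hτ]; positivity
  have hτΓ : τ ≤ Γ := by
    rw [hτ]
    nlinarith
  refine ⟨τ, hτ0, fun C => ?_⟩
  obtain ⟨A1, n1, HO⟩ : ∃ A n0 : ℕ, ∀ (p : ChyPar) (E : Xp (p.sys η)), n0 ≤ E.n → (cylHyb η).Cls C A p E → 2 ^ (-(C : ℝ) * E.n) ≤ E.val →
      ∀ (k : ℕ) (st1 st2 : List (Stg (p.sys η))), E.CutAt k st1 st2 → h * E.n ≤ ((E.kf - k : ℕ) : ℝ) →
      ∃ (σ : Stg (p.sys η)) (β : ℝ), σ.k = k ∧ σ.b = 0 ∧ (E.withSt (st1 ++ σ :: st2)).LvlAt st1 σ st2 β ∧ (E.withSt (st1 ++ σ :: st2)).Valid ∧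
        E.rd ≤ 2 ^ (τ * E.n) * (E.withSt (st1 ++ σ :: st2)).rd := cy_osplit (cylHyb η) _ hG (sf_pl_flat η) h τ hh0 hτ0 C
  obtain ⟨A2, n2, HL⟩ := sf_pl_lvl η h0 h1 hG L hL Γ γ hΓ0 hΓ hγ0 hγ (C + 1) h τ hh0 hτ0
  refine ⟨max A1 A2, max (max n1 n2) (max 2 ⌈8 / ξ⌉₊), fun p E hn hE hH => ?_⟩
  have hn1 : n1 ≤ E.n := ((le_max_left _ _).trans (le_max_left _ _)).trans hn
  have hn2 : n2 ≤ E.n := ((le_max_right _ _).trans (le_max_left _ _)).trans hn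
  have hn3 : 2 ≤ E.n := ((le_max_left _ _).trans (le_max_right _ _)).trans hn
  have hn4 : 8 / ξ ≤ E.n := (Nat.le_ceil _).trans (by exact_mod_cast ((le_max_right _ _).trans (le_max_right _ _)).trans hn)
  have hV : E.Valid := hE.2.1
  have hnn : (0 : ℝ) ≤ E.n := Nat.cast_nonneg _
  by_cases hval : 2 ^ (-(C : ℝ) * E.n) ≤ E.val
  swap
  · refine (not_le.1 hval).le.trans (gn_two_mono ?_)
    have h2 : 0 ≤ (Γ - τ) * E.n := mul_nonneg (by linarith) hnn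
    have h3 : 0 ≤ (C : ℝ) * E.n := by positivity
    linarith
  obtain ⟨ha1, ha2, ha3, ha4⟩ := sf_pl_floor_ar ξ h hξ hh E.n hn3 hn4
  obtain ⟨n', hn'⟩ : ∃ n' : ℕ, n' = ⌈h * E.n⌉₊ := ⟨_, rfl⟩
  rw [← hn'] at ha1 ha2 ha3 ha4
  have hkf : E.kf = E.k0 + E.n := rfl
  obtain ⟨st1, st2, hc⟩ := sf_pl_cut E hV (E.kf - n') (by omega) (by omega)
  have hk1 : E.kf - (E.kf - n') = n' := by omega
  have hk2 : E.kf - n' - E.k0 = E.n - n' := by omega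
  obtain ⟨σ, β, hσk, hσb, hl, hV', hrd⟩ := HO p E hn1 (gn_cls_anti _ hG.scale (le_max_left _ _) hE) hval (E.kf - n') st1 st2 hc (by rw [hk1]; exact ha2)
  have hst : E.st = st1 ++ st2 := hc.1
  have hE' : (cylHyb η).Cls (C + 1) A2 p (E.withSt (st1 ++ σ :: st2)) := by
    refine ⟨hE.1, hV', ?_, ⟨hE.2.2.2.1.1.trans (Nat.le_succ _), hE.2.2.2.1.2.1.trans (Nat.le_succ _), ?_⟩, ?_⟩
    · have h2 : E.st.length ≤ C := hE.2.2.1
      rw [hst, List.length_append] at h2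
      change (st1 ++ σ :: st2).length ≤ C + 1
      rw [List.length_append, List.length_cons]
      omega
    · intro σ' hσ'
      change σ' ∈ st1 ++ σ :: st2 at hσ'
      rcases List.mem_append.1 hσ' with h2 | h2
      · exact (hE.2.2.2.1.2.2 σ' (by rw [hst]; exact List.mem_append_left _ h2)).trans (Nat.le_succ _)
      · rcases List.mem_cons.1 h2 with rfl | h3
        · omega
        · exact (hE.2.2.2.1.2.2 σ' (by rw [hst]; exact List.mem_append_right _ h3)).trans (Nat.le_succ _)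
    · have h2 := hG.root C _ p E (E.withSt (st1 ++ σ :: st2)) hE.2.2.2.2 ⟨rfl, rfl, rfl, rfl, rfl, rfl⟩ rfl
      exact hG.scale C _ (C + 1) A2 p _ _ hE.1 h2 ⟨rfl, rfl, rfl, rfl, rfl, rfl⟩ (Nat.mul_le_mul_right _ (Nat.le_succ _)) (Nat.mul_le_mul_right _ (le_max_right _ _))
  have hq1 : E.kf - σ.k = n' := by rw [hσk]; exact hk1
  have hq2 : σ.k - E.k0 = E.n - n' := by rw [hσk]; exact hk2
  have hs4 : E.s ^ ξ ≤ ((2 : ℝ)⁻¹ ^ n') ^ (4 : ℝ) := by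
    rw [gn_s_rpow, ← Real.rpow_natCast, ← Real.rpow_mul (by norm_num), Real.inv_rpow (by norm_num), ← Real.rpow_neg (by norm_num)]
    apply gn_two_mono
    linarith
  have hv' := HL p (E.withSt (st1 ++ σ :: st2)) hn2 hE' st1 st2 σ β hl
    (by change h * E.n ≤ ((E.kf - σ.k : ℕ) : ℝ); rw [hq1]; exact ha2)
    (by change h * E.n ≤ ((σ.k - E.k0 : ℕ) : ℝ); rw [hq2]; exact ha3)
    (by
      intro l
      change p.H * 2 ^ E.kf ≤ ((2 : ℝ)⁻¹ ^ (E.kf - σ.k)) ^ (4 : ℝ) * CyT.f (E.ts l) ^ 2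
      rw [hq1]
      refine (hH l).trans ?_
      gcongr)
  change (E.withSt (st1 ++ σ :: st2)).val ≤ 2 ^ (Γ * ((σ.k - E.k0 : ℕ) : ℝ) + γ * ((E.kf - σ.k : ℕ) : ℝ) + τ * E.n) at hv'
  rw [hq1, hq2, Nat.cast_sub ha1] at hv'
  have hvv : E.val ≤ 2 ^ (τ * E.n) * (E.withSt (st1 ++ σ :: st2)).val := by
    have he := hV.e_pos
    have hsk : 0 < Real.sqrt E.ka := Real.sqrt_pos.mpr hV.ka_pos
    have h2 : (E.withSt (st1 ++ σ :: st2)).val = 2 ^ ((E.n : ℝ) / 2) / (E.e * Real.sqrt E.ka) * (E.withSt (st1 ++ σ :: st2)).rd := rfl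
    rw [h2]
    unfold Xp.val
    calc 2 ^ ((E.n : ℝ) / 2) / (E.e * Real.sqrt E.ka) * E.rd
        ≤ 2 ^ ((E.n : ℝ) / 2) / (E.e * Real.sqrt E.ka) * (2 ^ (τ * E.n) * (E.withSt (st1 ++ σ :: st2)).rd) := by gcongr
      _ = _ := by ring
  refine hvv.trans ?_
  calc 2 ^ (τ * E.n) * (E.withSt (st1 ++ σ :: st2)).val ≤ 2 ^ (τ * E.n) * 2 ^ (Γ * ((E.n : ℝ) - n') + γ * n' + τ * E.n) := by
        gcongr
    _ ≤ _ := by
        rw [← gn_two_add]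
        apply gn_two_mono
        have h3 : (Γ - γ) * (h * E.n) ≤ (Γ - γ) * n' := mul_le_mul_of_nonneg_left ha2 hd.le
        have h4 : τ * E.n = (Γ - γ) * (h * E.n) / 4 := by rw [hτ]; ring
        have h5 : 0 ≤ τ * E.n := by positivity
        nlinarith

end Claimed.Agent.R256
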