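import Claimed.Agent.R256.Soft.MCoreDefs
import Claimed.Agent.R256.Cyl.Frm

/-!
# Row 256 (S0496), unit SOFT, M5 PRE (prefix experiments), file 1: DEFINITIONS      (architect helper288; block BP-256-SOFT-PRE; prefix `sf_pr_`)

THE PREFIX `[0, i]` of a documented experiment `W : SfMD P` and of its shadow `D : SfDoc`, `i ∈ W.G`, `0 < i`.      PAPER-FREE (nothing but transport of structure + arithmetic of exponents).
* `sfPa i g = 0 + g * (i - 0)`   the depth of `W` that corresponds to the depth `g` of the prefix (this spelling = the one of `SfDoc.Sub.dep`);   NO CASTS: all families of the prefix are `fun g => (old family) (sfPa i g)`.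
* `sfPrG G i`      the gates `k / i`, `k ∈ G`, `k ≤ i`.
* `SfMD.prE W i`   the prefix experiment: same root, relative length `n' = k i - k0`, stack `st.take (pos i)`, terminal generation `gb i`, final assignment = the labels of the gate `i` (through `Fintype.equivFin`).
                   EVERYTHING is written with `sfPa i 1` instead of `i` (`sfPa i 1 = i` only propositionally: `sf_pr_pa_one`), so that `(W.prW i).Lb 1` is the type of the labels of `prE` by `rfl`.
* `SfMD.prW W i`   the documented prefix; frame `Q0' = { Q0 with r := r i, f := f i }`.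
* `sfPrD D de η i` the shadow of the prefix, DIRECTLY by transport of `D` (also off the mesh): same rows, laws, indices, `Conn`; rays and labels in the dilated frame `sfFrameDil (D.r i) (D.f i)`; scale `D.len i`.
* `sfPrE D i`      the map of rows `⟨g, ρ⟩ ↦ ⟨sfPa i g, ρ⟩`.
* `SfPrAf Y`       the only analytic input: the setup `af` survives a polynomial change of the widths of the frame + a shorter final scale.
-/

set_option autoImplicit false

namespace Claimed.Agent.R256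

open MeasureTheory Claimed.Agent.R255

/-- the depth of the whole experiment that corresponds to the depth `g` of the prefix `[0,i]` -/
abbrev sfPa (i g : ℝ) : ℝ := 0 + g * (i - 0)

/-- the gates of the prefix -/
noncomputable def sfPrG (G : Finset ℝ) (i : ℝ) : Finset ℝ := (G.filter (· ≤ i)).image (· / i)

namespace SfMD

variable {P : PkSys} (W : SfMD P)

/-- the prefix experiment -/
noncomputable def prE (i : ℝ) : Xp P :=
  W.E.pre (W.k (sfPa i 1) - W.E.k0) (W.E.st.take (W.pos (sfPa i 1))) (W.gb (sfPa i 1))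
    (fun a : Fin (Fintype.card (W.Lb (sfPa i 1))) => W.iv (sfPa i 1) ((Fintype.equivFin (W.Lb (sfPa i 1))).symm a))
    (fun a => W.ts (sfPa i 1) ((Fintype.equivFin (W.Lb (sfPa i 1))).symm a))
    (fun a => W.th (sfPa i 1) ((Fintype.equivFin (W.Lb (sfPa i 1))).symm a))

/-- the documented prefix -/
noncomputable def prW (i : ℝ) : SfMD P where
  E := W.prE i
  Q0 := { W.Q0 with r := W.r (sfPa i 1), f := W.f (sfPa i 1) }
  G := sfPrG W.G i
  k := fun g => W.k (sfPa i g)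
  pos := fun g => W.pos (sfPa i g)
  gb := fun g => W.gb (sfPa i g)
  Lb := fun g => W.Lb (sfPa i g)
  fLb := fun g => W.fLb (sfPa i g)
  iv := fun g => W.iv (sfPa i g)
  ts := fun g => W.ts (sfPa i g)
  th := fun g => W.th (sfPa i g)
  r := fun g => W.r (sfPa i g)
  f := fun g => W.f (sfPa i g)

end SfMD

/-- the shadow of the prefix -/
noncomputable def sfPrD (D : SfDoc) (de η i : ℝ) : SfDoc where
  s := D.len i
  G := sfPrG D.G i
  Row := fun g => D.Row (sfPa i g)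
  fin := fun g => D.fin (sfPa i g)
  P := fun g => D.P (sfPa i g)
  mass := fun g => D.mass (sfPa i g) * (D.s ^ (-(de * (g * i))) / D.len i ^ (-(de * g)))
  len := fun g => D.len (sfPa i g)
  r := fun g => D.r (sfPa i g) / D.r i
  f := fun g => D.f (sfPa i g) / D.f i
  ek := D.ek / (D.r i ^ (3 + η) * D.f i ^ (1 - η))
  ray := fun g ρ => (sfFrameDil (D.r i) (D.f i)).ray (D.ray (sfPa i g) ρ)
  lab := fun g ρ => { (sfFrameDil (D.r i) (D.f i)).tst (D.lab (sfPa i g) ρ) with r := D.r (sfPa i g) / D.r i, f := D.f (sfPa i g) / D.f i }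
  Idx := D.Idx
  idx := fun g => D.idx (sfPa i g)
  Conn := fun g g' => D.Conn (sfPa i g) (sfPa i g')

/-- the map of rows -/
def sfPrE (D : SfDoc) (de η i : ℝ) : (sfPrD D de η i).Rw → D.Rw := fun u => ⟨sfPa i u.1, u.2⟩

/-- **the analytic input**: polynomial change of the widths of the frame + shorter final scale `a0 n ≤ n' ≤ n` (same tail order) -/
def SfPrAf (Y : SfCy) : Prop :=
  ∀ (C D : ℕ) (a0 : ℝ), 0 < a0 → ∃ C1 : ℕ, ∀ C' : ℕ, C1 ≤ C' → ∀ (A : ℕ) (p : Y.M.Par) (E E' : Xp (Y.M.sys p)) (Q0 : CyT) (r f : ℝ), Y.af C A p E Q0 →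
    Mdl.SameRoot E E' → a0 * E.n ≤ E'.n → E'.n ≤ E.n →
    E.s ^ (D : ℝ) * Q0.r ≤ r → r ≤ E.s ^ (-(D : ℝ)) * Q0.r → E.s ^ (D : ℝ) * Q0.f ≤ f → f ≤ E.s ^ (-(D : ℝ)) * Q0.f →
    Y.af C' A p E' { Q0 with r := r, f := f }

theorem sf_pr_eqns_cite : True := by
  have := @sfPrG.eq_1
  have := @SfMD.prE.eq_1
  have := @SfMD.prW.eq_1
  have := @sfPrD.eq_1
  have := @sfPrE.eq_1
  have := @SfPrAf.eq_1
  trivial

/-! ## arithmetic of the depths -/

theorem sf_pr_pa (i g : ℝ) : sfPa i g = g * i := by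
  unfold sfPa; ring

theorem sf_pr_pa_one (i : ℝ) : sfPa i 1 = i := by
  unfold sfPa; ring

theorem sf_pr_pa_div {i : ℝ} (hi : i ≠ 0) (k : ℝ) : sfPa i (k / i) = k := by
  rw [sf_pr_pa]; field_simp

theorem sf_pr_pa_inj {i : ℝ} (hi : i ≠ 0) {g g' : ℝ} (h : sfPa i g = sfPa i g') : g = g' := by
  rw [sf_pr_pa, sf_pr_pa] at h
  exact mul_right_cancel₀ hi h

theorem sf_pr_pa_lt {i : ℝ} (hi : 0 < i) {g g' : ℝ} : sfPa i g < sfPa i g' ↔ g < g' := by
  rw [sf_pr_pa, sf_pr_pa]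
  exact mul_lt_mul_iff_left₀ hi

theorem sf_pr_pa_le {i : ℝ} (hi : 0 < i) {g g' : ℝ} : sfPa i g ≤ sfPa i g' ↔ g ≤ g' := by
  rw [sf_pr_pa, sf_pr_pa]
  exact mul_le_mul_iff_left₀ hi

/-- the gates of the prefix -/
theorem sf_pr_mem_G (G : Finset ℝ) {i : ℝ} (hi : 0 < i) (g : ℝ) : g ∈ sfPrG G i ↔ sfPa i g ∈ G ∧ g ≤ 1 := by
  unfold sfPrG
  rw [Finset.mem_image]
  constructor
  · rintro ⟨k, hk, rfl⟩
    rw [Finset.mem_filter] at hk
    rw [sf_pr_pa_div hi.ne']
    exact ⟨hk.1, (div_le_one hi).2 hk.2⟩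
  · rintro ⟨h1, h2⟩
    refine ⟨sfPa i g, Finset.mem_filter.2 ⟨h1, ?_⟩, ?_⟩
    · rw [sf_pr_pa]; nlinarith
    · rw [sf_pr_pa]; field_simp

theorem sf_pr_one_mem (G : Finset ℝ) {i : ℝ} (hi : 0 < i) (h : i ∈ G) : (1 : ℝ) ∈ sfPrG G i :=
  (sf_pr_mem_G G hi 1).2 ⟨by rw [sf_pr_pa_one]; exact h, le_rfl⟩

/-- a row over the depth `k = sfPa i g` is a row of the prefix -/
theorem sf_pr_row_lift {α : ℝ → Type} (i g k : ℝ) (h : sfPa i g = k) (ρ : α k) :
    ∃ ρ' : α (sfPa i g), (⟨sfPa i g, ρ'⟩ : Σ k, α k) = ⟨k, ρ⟩ := by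
  subst h
  exact ⟨ρ, rfl⟩

/-- consecutive gates of the prefix = consecutive gates of the whole mesh -/
theorem sf_pr_next (G : Finset ℝ) {i : ℝ} (hi : 0 < i) (g g' : ℝ) (hg' : g' ≤ 1) :
    sfNext (sfPrG G i) g g' ↔ sfNext G (sfPa i g) (sfPa i g') := by
  unfold sfNext
  constructor
  · rintro ⟨h1, h2, h3, h4⟩
    refine ⟨((sf_pr_mem_G G hi g).1 h1).1, ((sf_pr_mem_G G hi g').1 h2).1, (sf_pr_pa_lt hi).2 h3, fun k hk hh => ?_⟩
    have e : sfPa i (k / i) = k := sf_pr_pa_div hi.ne' k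
    refine h4 (k / i) ((sf_pr_mem_G G hi _).2 ⟨by rw [e]; exact hk, ?_⟩) ⟨?_, ?_⟩
    · have : k / i < g' := by
        rw [← sf_pr_pa_lt hi, e]; exact hh.2
      linarith
    · rw [← sf_pr_pa_lt hi, e]; exact hh.1
    · rw [← sf_pr_pa_lt hi, e]; exact hh.2
  · rintro ⟨h1, h2, h3, h4⟩
    have h3' := (sf_pr_pa_lt hi).1 h3
    refine ⟨(sf_pr_mem_G G hi g).2 ⟨h1, by linarith⟩, (sf_pr_mem_G G hi g').2 ⟨h2, hg'⟩, h3', fun k hk hh => ?_⟩
    exact h4 (sfPa i k) ((sf_pr_mem_G G hi k).1 hk).1 ⟨(sf_pr_pa_lt hi).2 hh.1, (sf_pr_pa_lt hi).2 hh.2⟩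

end Claimed.Agent.R256
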