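import Claimed.Agent.R256.Soft.MPrDef

/-!
# Row 256 (S0496), unit SOFT, M5 PRE (prefix experiments), file 2: THE LEAVES      (architect helper288; block BP-256-SOFT-PRE; prefix `sf_pr_`)

PAPER-FREE.   Definitions: `Soft/MPrDef.lean` (read its header), `Soft/Model.lean` (`SfMD`, `Str`, `Ext`, `SfSh`), `Base/Sys.lean` (`Xp`, `Valid`), `Soft/Frame.lean`.
RULES: prove IN PLACE, statements are FROZEN (a defect: one line to helper288), helper lemmas directly above your theorem with the prefix `sf_pr_aux_<leaf>_`; splice only your theorem on a fresh pull.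
TRICK used everywhere: `i₁ = sfPa i 1` is a gate of `W` (`hi1 : sfPa i 1 ∈ W.G`, from `sf_pr_pa_one`); use the fields of `Str` AT `sfPa i 1`, `sfPa i g` (never cast a label);  `g ∈ sfPrG W.G i ↔ sfPa i g ∈ W.G ∧ g ≤ 1` (`sf_pr_mem_G`);
`sfPa i g ≤ sfPa i 1 ↔ g ≤ 1` (`sf_pr_pa_le`).   `(W.prW i).k g = W.k (sfPa i g)`, `(W.prW i).T g l = W.T (sfPa i g) l`, `(W.prW i).ivs g = W.ivs (sfPa i g)`, `(W.prE i).k0 = W.E.k0` .. : all by `rfl`.
 A  structure:  `sf_pr_mono`, `sf_pr_valid`, `sf_pr_str`, `sf_pr_pre`, `sf_pr_tot`, `sf_pr_gen`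
 B  shadow:     `sf_pr_sc` (scalars), `sf_pr_anc`, `sf_pr_dil_ray`, `sf_pr_dil_tst`, `sf_pr_dil_dist`, `sf_pr_chain`
 C  accuracy:   `sf_pr_exp`, `sf_pr_n`, `sf_pr_pow`, `sf_pr_ext1`, `sf_pr_ext2`
 D  package:    `sf_pr_set_scale`, `sf_pr_af`, `sf_pr_dil_size`
-/

set_option autoImplicit false

namespace Claimed.Agent.R256

open MeasureTheory Claimed.Agent.R255

/-! ## A. structure -/

section A

variable {Y : SfCy} {p : Y.M.Par} (W : SfMD (Y.M.sys p))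

/-- LEAF PR-A0 (~60 l.).   `pos` and `k` along the prefix.   `h.k_mono` (for `sfPa i g < sfPa i 1`), equality if `g = 1`;   `pos (sfPa i 1) ≤ length`: `h.k_one` if `sfPa i 1 = 1`, else `h.k_mono _ _ 1 h.gate.1` (`sfPa i 1 ≤ 1` by `h.gate.2`). -/
theorem sf_pr_mono (h : W.Str (Y.tq p)) (i : ℝ) (hi : i ∈ W.G) (hi0 : 0 < i) :
    W.pos (sfPa i 1) ≤ W.E.st.length ∧ W.E.k0 ≤ W.k (sfPa i 1) ∧ W.k (sfPa i 1) ≤ W.E.kf ∧
    ∀ g ∈ sfPrG W.G i, W.pos (sfPa i g) ≤ W.pos (sfPa i 1) ∧ W.k (sfPa i g) ≤ W.k (sfPa i 1) ∧ W.E.k0 ≤ W.k (sfPa i g) ∧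
      (g < 1 → W.pos (sfPa i g) < W.pos (sfPa i 1)) := by
  have hi1 : sfPa i 1 ∈ W.G := by
    rw [sf_pr_pa_one]
    exact hi
  refine ⟨?_, (h.k_rg _ hi1).1, (h.k_rg _ hi1).2, fun g hg => ?_⟩
  · by_cases e : sfPa i 1 = 1
    · rw [e, h.k_one.2.1]
    · have hlt : sfPa i 1 < 1 := lt_of_le_of_ne (h.gate.2 _ hi1).2 e
      have := (h.k_mono _ hi1 1 h.gate.1 hlt).2
      rw [h.k_one.2.1] at this
      exact this.le
  · obtain ⟨hg1, hg2⟩ := (sf_pr_mem_G W.G hi0 g).1 hg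
    rcases hg2.lt_or_eq with hlt | rfl
    · have := h.k_mono _ hg1 _ hi1 ((sf_pr_pa_lt hi0).2 hlt)
      exact ⟨this.2.le, this.1, (h.k_rg _ hg1).1, fun _ => this.2⟩
    · exact ⟨le_rfl, le_rfl, (h.k_rg _ hi1).1, fun h' => absurd h' (lt_irrefl _)⟩

/-- LEAF PR-A1 (~200 l.).   THE PREFIX EXPERIMENT IS VALID.   `(W.prE i).kf = W.k (sfPa i 1)` (`Xp.kf`, `sf_pr_mono`, `omega`).   Root fields: those of `h.valid` (`rfl` transport).
`st_dep`: `σ ∈ st.take (pos i₁)`;  lower bound `h.valid.st_dep` (`List.mem_of_mem_take`);  upper bound: if `i₁ < 1`, `h.stage i₁` gives `σ₁ = st[pos i₁]` of depth `k i₁`, and `h.valid.st_mono` (`List.pairwise_iff_getElem`) gives `σ.k ≤ σ₁.k`;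
if `i₁ = 1`: `h.k_one`, `h.valid.st_dep`.   `st_mono`: `List.Pairwise.sublist (List.take_sublist ..)`.   `iv_in`: `h.iv_in i₁`, `gn_mem_ivs` (`W.ivs i₁ = ivs k0 i0 (k i₁)` by `rfl`).   `ts_ok, th_meas, th_nn, th_supp`: `h.ok, h.meas, h.nn, h.supp` at `i₁`.
`w_pos`: `hO.wt`, `cyWt`, `h.width`, `h.frame` (`Real.rpow_pos_of_pos`).   `th_sum`: `Equiv.sum_comp (Fintype.equivFin _).symm`, `h.sum_le i₁`. -/
theorem sf_pr_valid (hO : SfCyOk Y) (h : W.Str (Y.tq p)) (i : ℝ) (hi : i ∈ W.G) (hi0 : 0 < i) : (W.prE i).Valid := by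
  have hi1 : sfPa i 1 ∈ W.G := by rw [sf_pr_pa_one]; exact hi
  obtain ⟨hm1, hm2, hm3, -⟩ := sf_pr_mono W h i hi hi0
  have hkf : (W.prE i).kf = W.k (sfPa i 1) := by
    show W.E.k0 + (W.k (sfPa i 1) - W.E.k0) = W.k (sfPa i 1)
    omega
  have hst : (W.prE i).st = W.E.st.take (W.pos (sfPa i 1)) := rfl
  have hle1 : sfPa i 1 ≤ 1 := (h.gate.2 _ hi1).2
  refine
    { e_pos := h.valid.e_pos
      ka_pos := h.valid.ka_pos
      budget := h.valid.budget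
      plat := h.valid.plat
      reg := h.valid.reg
      st_dep := ?_
      st_mono := ?_
      st_meas := fun σ hσ => h.valid.st_meas σ (List.mem_of_mem_take hσ)
      st_bd := fun σ hσ => h.valid.st_bd σ (List.mem_of_mem_take hσ)
      iv_in := ?_
      ts_ok := ?_
      w_pos := ?_
      th_meas := fun l => h.meas _ hi1 _
      th_nn := fun l x => h.nn _ hi1 _ x
      th_supp := ?_
      th_sum := ?_ }
  · intro σ hσ
    rw [hst] at hσ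
    refine ⟨(h.valid.st_dep σ (List.mem_of_mem_take hσ)).1, ?_⟩
    rw [hkf]
    rcases lt_or_eq_of_le hle1 with hlt | heq
    · obtain ⟨σ₁, hσ₁, hk₁, -⟩ := h.stage _ hi1 hlt
      rw [← hk₁]
      obtain ⟨n, hn, rfl⟩ := List.getElem_of_mem hσ
      rw [List.length_take] at hn
      have hn1 : n < W.pos (sfPa i 1) := lt_of_lt_of_le hn (min_le_left _ _)
      have hn2 : n < W.E.st.length := lt_of_lt_of_le hn (min_le_right _ _)
      obtain ⟨hp, hp'⟩ := List.getElem?_eq_some_iff.1 hσ₁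
      rw [List.getElem_take, ← hp']
      exact (List.pairwise_iff_getElem.1 h.valid.st_mono) n (W.pos (sfPa i 1)) hn2 hp hn1
    · rw [heq, h.k_one.1]
      exact (h.valid.st_dep σ (List.mem_of_mem_take hσ)).2
  · exact List.Pairwise.sublist (List.take_sublist _ _) h.valid.st_mono
  · intro l
    rw [hkf]
    exact (gn_mem_ivs _ _ _ _).1 (h.iv_in _ hi1 _)
  · intro l
    rw [hkf]
    exact h.ok _ hi1 _
  · intro l
    show 0 < (Y.M.sys p).wt _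
    rw [hO.wt]
    unfold cyWt
    obtain ⟨w1, w2⟩ := h.width _ hi1 ((Fintype.equivFin (W.Lb (sfPa i 1))).symm l)
    obtain ⟨f1, f2⟩ := h.frame.2.2 _ hi1
    have g1 : 0 < (Y.tq p ((W.prE i).ts l)).r := by
      show 0 < (Y.tq p (W.ts (sfPa i 1) ((Fintype.equivFin (W.Lb (sfPa i 1))).symm l))).r
      rw [w1]; exact f1
    have g2 : 0 < (Y.tq p ((W.prE i).ts l)).f := by
      show 0 < (Y.tq p (W.ts (sfPa i 1) ((Fintype.equivFin (W.Lb (sfPa i 1))).symm l))).f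
      rw [w2]; exact f2
    exact mul_pos (Real.rpow_pos_of_pos g1 _) (Real.rpow_pos_of_pos g2 _)
  · intro l x hx
    rw [hkf]
    exact h.supp _ hi1 _ x hx
  · intro m x
    have e := Equiv.sum_comp (Fintype.equivFin (W.Lb (sfPa i 1))).symm
      (fun l => if W.iv (sfPa i 1) l = m then W.th (sfPa i 1) l x else 0)
    exact (le_of_eq e).trans (h.sum_le _ hi1 m x)

/-- LEAF PR-A2 (~250 l.).   STRUCTURAL VALIDITY OF THE DOCUMENTED PREFIX.   `valid` = `sf_pr_valid`.   `gate`: `sf_pr_one_mem`, `sf_pr_mem_G`, `0 ≤ g` from `0 ≤ sfPa i g = g i`.   `k_one`: `sf_pr_mono`, `List.length_take`, third part `rfl`.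
`k_rg`, `k_mono`: `sf_pr_mono`, `h.k_mono` at `sfPa i g < sfPa i g'` (`sf_pr_pa_lt`).   `stage`: `h.stage (sfPa i g)` (`sfPa i g < sfPa i 1 ≤ 1`), `List.getElem?_take_of_lt` with `sf_pr_mono`.   `final`: `e = Fintype.equivFin (W.Lb (sfPa i 1))`, `Equiv.symm_apply_apply`.
All the other fields: the field of `h` at the gate `sfPa i g`.   `frame`: first two parts `rfl`. -/
theorem sf_pr_str (hO : SfCyOk Y) (h : W.Str (Y.tq p)) (i : ℝ) (hi : i ∈ W.G) (hi0 : 0 < i) : (W.prW i).Str (Y.tq p) := by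
  have hi1 : sfPa i 1 ∈ W.G := by rw [sf_pr_pa_one]; exact hi
  obtain ⟨m1, m2, m3, m4⟩ := sf_pr_mono W h i hi hi0
  have hG : ∀ g ∈ (W.prW i).G, sfPa i g ∈ W.G ∧ g ≤ 1 := fun g hg => (sf_pr_mem_G W.G hi0 g).1 hg
  have hkf : (W.prE i).kf = W.k (sfPa i 1) := by
    show W.E.k0 + (W.k (sfPa i 1) - W.E.k0) = W.k (sfPa i 1)
    omega
  have hlt1 : ∀ g, g < 1 → sfPa i g < 1 := fun g hg =>
    lt_of_lt_of_le ((sf_pr_pa_lt hi0).2 hg) (h.gate.2 _ hi1).2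
  refine
    { valid := sf_pr_valid W hO h i hi hi0
      gate := ⟨sf_pr_one_mem W.G hi0 hi, fun g hg => ⟨?_, (hG g hg).2⟩⟩
      k_one := ⟨hkf.symm, ?_, rfl⟩
      k_rg := fun g hg => ⟨(m4 g hg).2.2.1, by rw [show (W.prW i).E.kf = (W.prE i).kf from rfl, hkf]; exact (m4 g hg).2.1⟩
      k_mono := fun g hg g' hg' hlt => h.k_mono _ (hG g hg).1 _ (hG g' hg').1 ((sf_pr_pa_lt hi0).2 hlt)
      stage := fun g hg hg1 => ?_
      zero_one := fun g hg hg1 => h.zero_one _ (hG g hg).1 (hlt1 g hg1)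
      final := ⟨Fintype.equivFin (W.Lb (sfPa i 1)), fun l => ?_⟩
      meas := fun g hg => h.meas _ (hG g hg).1
      ne := fun g hg => h.ne _ (hG g hg).1
      lb_ne := fun g => h.lb_ne _
      nn := fun g hg => h.nn _ (hG g hg).1
      sum_le := fun g hg => h.sum_le _ (hG g hg).1
      supp := fun g hg => h.supp _ (hG g hg).1
      iv_in := fun g hg => h.iv_in _ (hG g hg).1
      ok := fun g hg => h.ok _ (hG g hg).1
      width := fun g hg => h.width _ (hG g hg).1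
      frame := ⟨rfl, rfl, fun g hg => h.frame.2.2 _ (hG g hg).1⟩ }
  · have h0 := (h.gate.2 _ (hG g hg).1).1
    rw [sf_pr_pa] at h0
    by_contra hneg
    push Not at hneg
    nlinarith
  · show W.pos (sfPa i 1) = (W.E.st.take (W.pos (sfPa i 1))).length
    rw [List.length_take, min_eq_left m1]
  · obtain ⟨σ, s1, s2, s3, s4⟩ := h.stage _ (hG g hg).1 (hlt1 g hg1)
    refine ⟨σ, ?_, s2, s3, s4⟩
    show (W.E.st.take (W.pos (sfPa i 1)))[W.pos (sfPa i g)]? = some σ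
    rw [List.getElem?_take_of_lt ((m4 g hg).2.2.2 hg1)]
    exact s1
  · have key : ∀ l : W.Lb (sfPa i 1), (Fintype.equivFin (W.Lb (sfPa i 1))).symm (Fintype.equivFin (W.Lb (sfPa i 1)) l) = l :=
      fun l => Equiv.symm_apply_apply _ _
    exact ⟨congrArg (W.iv (sfPa i 1)) (key l), congrArg (W.ts (sfPa i 1)) (key l), congrArg (W.th (sfPa i 1)) (key l)⟩

/-- LEAF PR-A3 (~40 l.).   `SfMD.pre`, `(W.prE i).st.take (pos (sfPa i g)) = (st.take (pos i₁)).take (pos (sfPa i g)) = st.take (pos (sfPa i g))` (`List.take_take`, `min_eq_left`, `sf_pr_mono`). -/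
theorem sf_pr_pre (h : W.Str (Y.tq p)) (i : ℝ) (hi : i ∈ W.G) (hi0 : 0 < i) (g : ℝ) (hg : g ∈ sfPrG W.G i) (m : ℕ) :
    (W.prW i).pre g m = W.pre (sfPa i g) m := by
  have hm := ((sf_pr_mono W h i hi hi0).2.2.2 g hg).1
  show Xp.run (W.k (sfPa i g)) m ((W.E.st.take (W.pos (sfPa i 1))).take (W.pos (sfPa i g))) W.E.v
    = Xp.run (W.k (sfPa i g)) m (W.E.st.take (W.pos (sfPa i g))) W.E.v
  rw [List.take_take, min_eq_left hm]

/-- LEAF PR-A4 (~30 l.).   `SfMD.tot`, `SfMD.m`, `sf_pr_pre` under the sum (`Finset.sum_congr`). -/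
theorem sf_pr_tot (h : W.Str (Y.tq p)) (i : ℝ) (hi : i ∈ W.G) (hi0 : 0 < i) (g : ℝ) (hg : g ∈ sfPrG W.G i) :
    (W.prW i).tot g = W.tot (sfPa i g) := by
  unfold SfMD.tot
  refine Finset.sum_congr rfl (fun l _ => ?_)
  unfold SfMD.m
  rw [sf_pr_pre W h i hi hi0 g hg]
  rfl

/-- LEAF PR-A5 (~50 l.).   `b0` unchanged;  stages: `List.mem_of_mem_take`;  `bT' = gb i₁`: if `i₁ < 1` it is the generation of the stage `st[pos i₁]` (`h.stage`, `List.mem_of_getElem?`), if `i₁ = 1` it is `bT` (`h.k_one`). -/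
theorem sf_pr_gen (h : W.Str (Y.tq p)) (i : ℝ) (hi : i ∈ W.G) (hi0 : 0 < i) (C : ℕ) (hg : W.E.GenLe C) : (W.prE i).GenLe C := by
  have hi1 : sfPa i 1 ∈ W.G := by rw [sf_pr_pa_one]; exact hi
  refine ⟨hg.1, ?_, fun σ hσ => hg.2.2 σ (List.mem_of_mem_take hσ)⟩
  show W.gb (sfPa i 1) ≤ C
  rcases lt_or_eq_of_le (h.gate.2 _ hi1).2 with hlt | heq
  · obtain ⟨σ, h1, _, h3, _⟩ := h.stage _ hi1 hlt
    rw [← h3]
    exact hg.2.2 σ (List.mem_of_getElem? h1)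
  · rw [heq, h.k_one.2.2]
    exact hg.2.1

end A

/-! ## B. the shadow -/

/-- LEAF PR-B1 (~200 l.).   THE SCALARS of `SfSh` for the prefix.   `sh.hs, sh.hlen, sh.hr, sh.hf, sh.hek, sh.hmass` at the gates `i`, `sfPa i g`;  `rw [sf_pr_pa_one]` turns `W.k (sfPa i 1)` into `W.k i`.   `Xp.s`, `(W.prE i).n = W.k (sfPa i 1) - W.E.k0`.
Positivity: `h.frame` (`Q0.r = r 1 > 0`, ..).   `ek`: `cyWt`, `Real.div_rpow`.   `mass`: `sf_pr_tot`, `sf_pr_pa : sfPa i g = g * i`, `field_simp` (all powers are positive: `Real.rpow_pos_of_pos`, `gn_s_pos`; `h.valid.e_pos`). -/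
theorem sf_pr_sc {Y : SfCy} {p : Y.M.Par} {W : SfMD (Y.M.sys p)} {de ε μ : ℝ} {D : SfDoc} (sh : SfSh Y p W de ε μ D) (h : W.Str (Y.tq p))
    (i : ℝ) (hi : i ∈ W.G) (hi0 : 0 < i) :
    (sfPrD D de Y.η i).s = (W.prW i).E.s ∧
    (∀ g ∈ (W.prW i).G, (sfPrD D de Y.η i).len g = (2 : ℝ)⁻¹ ^ ((W.prW i).k g - (W.prW i).E.k0)) ∧
    (∀ g ∈ (W.prW i).G, (sfPrD D de Y.η i).r g = (W.prW i).r g / (W.prW i).Q0.r) ∧
    (∀ g ∈ (W.prW i).G, (sfPrD D de Y.η i).f g = (W.prW i).f g / (W.prW i).Q0.f) ∧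
    (sfPrD D de Y.η i).ek = (W.prW i).E.e / ((W.prW i).E.ka * cyWt Y.η (W.prW i).Q0) ∧
    (∀ g ∈ (W.prW i).G, (sfPrD D de Y.η i).mass g = (W.prW i).tot g / ((W.prW i).E.e * (W.prW i).E.s ^ (-(de * g)))) := by
  have hi1 : sfPa i 1 = i := sf_pr_pa_one i
  have hmem : ∀ g ∈ (W.prW i).G, sfPa i g ∈ W.G := fun g hg => ((sf_pr_mem_G W.G hi0 g).1 hg).1
  have hQr : 0 < W.Q0.r := by
    rw [h.frame.1]
    exact (h.frame.2.2 1 h.gate.1).1
  have hQf : 0 < W.Q0.f := by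
    rw [h.frame.2.1]
    exact (h.frame.2.2 1 h.gate.1).2
  have hri : 0 < W.r i := (h.frame.2.2 i hi).1
  have hfi : 0 < W.f i := (h.frame.2.2 i hi).2
  have e1 : D.len i = (W.prW i).E.s := by
    show D.len i = (2 : ℝ)⁻¹ ^ (W.k (sfPa i 1) - W.E.k0)
    rw [hi1, sh.hlen i hi]
  refine ⟨e1, fun g hg => sh.hlen _ (hmem g hg), fun g hg => ?_, fun g hg => ?_, ?_, fun g hg => ?_⟩
  · show D.r (sfPa i g) / D.r i = W.r (sfPa i g) / W.r (sfPa i 1)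
    rw [hi1, sh.hr _ (hmem g hg), sh.hr i hi]
    field_simp
  · show D.f (sfPa i g) / D.f i = W.f (sfPa i g) / W.f (sfPa i 1)
    rw [hi1, sh.hf _ (hmem g hg), sh.hf i hi]
    field_simp
  · show D.ek / (D.r i ^ (3 + Y.η) * D.f i ^ (1 - Y.η)) = W.E.e / (W.E.ka * (W.r (sfPa i 1) ^ (3 + Y.η) * W.f (sfPa i 1) ^ (1 - Y.η)))
    rw [hi1, sh.hek, sh.hr i hi, sh.hf i hi, Real.div_rpow hri.le hQr.le, Real.div_rpow hfi.le hQf.le]
    unfold cyWt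
    have p1 := Real.rpow_pos_of_pos hQr (3 + Y.η)
    have p2 := Real.rpow_pos_of_pos hQf (1 - Y.η)
    have p3 := Real.rpow_pos_of_pos hri (3 + Y.η)
    have p4 := Real.rpow_pos_of_pos hfi (1 - Y.η)
    have p5 := h.valid.ka_pos
    field_simp
  · show D.mass (sfPa i g) * (D.s ^ (-(de * (g * i))) / D.len i ^ (-(de * g))) = (W.prW i).tot g / (W.E.e * (W.prW i).E.s ^ (-(de * g)))
    rw [sf_pr_tot W h i hi hi0 g hg, sh.hmass _ (hmem g hg), sf_pr_pa, sh.hs, e1]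
    have p1 := h.valid.e_pos
    have p2 := Real.rpow_pos_of_pos (gn_s_pos W.E) (-(de * (g * i)))
    have p3 := Real.rpow_pos_of_pos (gn_s_pos (W.prW i).E) (-(de * g))
    generalize W.E.s ^ (-(de * (g * i))) = a at p2 ⊢
    generalize (W.prW i).E.s ^ (-(de * g)) = b at p3 ⊢
    field_simp

/-- LEAF PR-B2 (~100 l.).   `Anc` of the prefix = `Anc` of `W`.   (→) a gate `k ∈ W.G`, `k < sfPa i g`, is `sfPa i (k / i)` (`sf_pr_pa_div`) with `k / i ∈ sfPrG W.G i`; transport the label by rewriting the EQUATION in a generalised statement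
(`obtain ⟨g0, rfl⟩ : ∃ g0, k = sfPa i g0`).   (←) `sf_pr_mem_G`, `sf_pr_pa_lt`. -/
theorem sf_pr_anc {P : PkSys} (W : SfMD P) (i : ℝ) (hi0 : 0 < i) (g : ℝ) (hg : g ≤ 1) (l : W.Lb (sfPa i g)) (x : P.X) :
    (W.prW i).Anc g l x ↔ W.Anc (sfPa i g) l x := by
  constructor
  · intro h k hk hkg
    obtain ⟨g0, rfl⟩ : ∃ g0, k = sfPa i g0 := ⟨k / i, (sf_pr_pa_div hi0.ne' k).symm⟩
    have h1 : g0 < g := (sf_pr_pa_lt hi0).1 hkg
    exact h g0 ((sf_pr_mem_G W.G hi0 g0).2 ⟨hk, by linarith⟩) h1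
  · intro h g0 hg0 hlt
    exact h (sfPa i g0) ((sf_pr_mem_G W.G hi0 g0).1 hg0).1 ((sf_pr_pa_lt hi0).2 hlt)

/-- LEAF PR-B3 (~60 l., pure algebra).   `SfRay.ext`-wise (`SfRay.mk.injEq`): unfold `SfFrame.ray, sfFrameDil, sfFrameOf, sfTestAt, sfZero, SfTest.shA, SfTest.shS, SfTest.beAt, SfRay.Bt, SfRay.Yt, SfRay.Dt`; `field_simp`; `ring`. -/
theorem sf_pr_dil_ray (T0 L : ℝ) (Q0 : CyT) (r f : ℝ) (hL : L ≠ 0) (hr0 : Q0.r ≠ 0) (hf0 : Q0.f ≠ 0) (hr : r ≠ 0) (hf : f ≠ 0) (z : SfRay) :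
    (sfFrameDil (r / Q0.r) (f / Q0.f)).ray ((sfFrameOf T0 L Q0).ray z) = (sfFrameOf T0 L { Q0 with r := r, f := f }).ray z := by
  simp only [SfFrame.ray, sfFrameDil, sfFrameOf, sfTestAt, sfZero, SfTest.shA, SfTest.shS, SfTest.beAt, SfRay.Bt, SfRay.Yt, SfRay.Dt,
    SfRay.mk.injEq]
  refine ⟨?_, ?_, ?_, ?_, ?_⟩ <;> field_simp <;> ring

/-- LEAF PR-B4 (~100 l., pure algebra).   The same for tests: eleven components (`SfTest.mk.injEq`), unfold `SfFrame.tst, SfFrame.bc, SfFrame.yc, ..`; `field_simp`; `ring`. -/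
theorem sf_pr_dil_tst (T0 L : ℝ) (Q0 : CyT) (r f : ℝ) (hL : L ≠ 0) (hr0 : Q0.r ≠ 0) (hf0 : Q0.f ≠ 0) (hr : r ≠ 0) (hf : f ≠ 0) (Q : SfTest) :
    (sfFrameDil (r / Q0.r) (f / Q0.f)).tst ((sfFrameOf T0 L Q0).tst Q) = (sfFrameOf T0 L { Q0 with r := r, f := f }).tst Q := by
  simp only [SfFrame.tst, SfFrame.bc, SfFrame.yc, sfFrameDil, sfFrameOf, sfTestAt, sfZero, SfTest.beAt, SfTest.mk.injEq]
  refine ⟨?_, ?_, ?_, ?_, ?_, ?_, ?_, ?_, ?_, ?_, ?_⟩ <;> field_simp <;> ring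

/-- the components of a dilated ray -/
theorem sf_pr_aux_dil_ray_eq (ρ φ : ℝ) (z : SfRay) :
    (sfFrameDil ρ φ).ray z = ⟨z.X / ρ, z.B / ρ, z.Y / ρ ^ 2, z.N / φ, z.D / φ⟩ := by
  simp only [SfFrame.ray, sfFrameDil, sfZero, SfTest.shA, SfTest.shS, SfTest.beAt, SfRay.Bt, SfRay.Yt, SfRay.Dt, SfRay.mk.injEq]
  refine ⟨?_, ?_, ?_, ?_, ?_⟩ <;> congr 1 <;> ring

/-- a bounded factor -/
theorem sf_pr_aux_dil_fac {c a S V : ℝ} (hc0 : 0 ≤ c) (hc : c ≤ V) (ha : |a| ≤ S) : |c * a| ≤ V * S := by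
  rw [abs_mul, abs_of_nonneg hc0]
  exact mul_le_mul hc ha (abs_nonneg _) (hc0.trans hc)

/-- LEAF PR-B5 (~80 l.).   A dilation multiplies the five differences by `1/ρ, 1/ρ, 1/ρ², 1/φ, 1/φ`   (`(sfFrameDil ρ φ).ray z = ⟨z.X/ρ, z.B/ρ, z.Y/ρ², z.N/φ, z.D/φ⟩` after `simp [SfFrame.ray, sfFrameDil, sfZero, SfTest.shA, ..]`);  `max_le`, `le_max_*`, `abs_div`. -/
theorem sf_pr_dil_dist (ρ φ : ℝ) (hρ : 0 < ρ) (hφ : 0 < φ) (z z' : SfRay) :
    ((sfFrameDil ρ φ).ray z).dist ((sfFrameDil ρ φ).ray z') ≤ max (1 / ρ) (max (1 / ρ ^ 2) (1 / φ)) * z.dist z' := by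
  rw [sf_pr_aux_dil_ray_eq, sf_pr_aux_dil_ray_eq]
  obtain ⟨M, hM⟩ : ∃ M, M = max (1 / ρ) (max (1 / ρ ^ 2) (1 / φ)) := ⟨_, rfl⟩
  rw [← hM]
  have m1 : 1 / ρ ≤ M := by rw [hM]; exact le_max_left _ _
  have m2 : 1 / ρ ^ 2 ≤ M := by rw [hM]; exact (le_max_left _ _).trans (le_max_right _ _)
  have m3 : 1 / φ ≤ M := by rw [hM]; exact (le_max_right _ _).trans (le_max_right _ _)
  have d1 : |z.X - z'.X| ≤ z.dist z' := le_max_left _ _
  have d2 : |z.B - z'.B| ≤ z.dist z' := (le_max_left _ _).trans (le_max_right _ _)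
  have d3 : |z.Y - z'.Y| ≤ z.dist z' := ((le_max_left _ _).trans (le_max_right _ _)).trans (le_max_right _ _)
  have d4 : |z.N - z'.N| ≤ z.dist z' :=
    (((le_max_left _ _).trans (le_max_right _ _)).trans (le_max_right _ _)).trans (le_max_right _ _)
  have d5 : |z.D - z'.D| ≤ z.dist z' :=
    (((le_max_right _ _).trans (le_max_right _ _)).trans (le_max_right _ _)).trans (le_max_right _ _)
  have p1 : 0 ≤ 1 / ρ := by positivity
  have p2 : 0 ≤ 1 / ρ ^ 2 := by positivity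
  have p3 : 0 ≤ 1 / φ := by positivity
  unfold SfRay.dist at d1 d2 d3 d4 d5 ⊢
  simp only
  refine max_le ?_ (max_le ?_ (max_le ?_ (max_le ?_ ?_)))
  · have e : z.X / ρ - z'.X / ρ = 1 / ρ * (z.X - z'.X) := by ring
    rw [e]; exact sf_pr_aux_dil_fac p1 m1 d1
  · have e : z.B / ρ - z'.B / ρ = 1 / ρ * (z.B - z'.B) := by ring
    rw [e]; exact sf_pr_aux_dil_fac p1 m1 d2
  · have e : z.Y / ρ ^ 2 - z'.Y / ρ ^ 2 = 1 / ρ ^ 2 * (z.Y - z'.Y) := by ring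
    rw [e]; exact sf_pr_aux_dil_fac p2 m2 d3
  · have e : z.N / φ - z'.N / φ = 1 / φ * (z.N - z'.N) := by ring
    rw [e]; exact sf_pr_aux_dil_fac p3 m3 d4
  · have e : z.D / φ - z'.D / φ = 1 / φ * (z.D - z'.D) := by ring
    rw [e]; exact sf_pr_aux_dil_fac p3 m3 d5

/-- LEAF PR-B6 (~200 l.).   CHAINS.   `R`, `R'` = the links of the whole mesh / of the prefix; `e u = ⟨sfPa i u.1, u.2⟩`.   `hR` : links go up and live on the mesh;  `hRR'` : a link of the prefix = a link between the images.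
(←) `Relation.TransGen.lift e`.   (→) by induction on the chain (`Relation.TransGen.head_induction_on` or tail induction on the statement `∀ v, TransGen R (e u) v → v.1 ≤ i → ∃ v', e v' = v ∧ TransGen R' u v'`):
every row of the chain has a depth `≤` the depth of the end point `≤ i`, so it is `e` of a row of the prefix (`sf_pr_row_lift`, `sf_pr_pa_div`);  at the end `e v' = e ⟨g', ρ'⟩ ⟹ v' = ⟨g', ρ'⟩` (`sf_pr_pa_inj`, `Sigma.mk.injEq`, `eq_of_heq`). -/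
theorem sf_pr_chain {α : ℝ → Type} (G : Finset ℝ) (i : ℝ) (hi0 : 0 < i) (R : (Σ k, α k) → (Σ k, α k) → Prop)
    (R' : (Σ g, α (sfPa i g)) → (Σ g, α (sfPa i g)) → Prop) (hR : ∀ u v, R u v → u.1 < v.1)
    (hRR' : ∀ u v : Σ g, α (sfPa i g), v.1 ≤ 1 → (R' u v ↔ R ⟨sfPa i u.1, u.2⟩ ⟨sfPa i v.1, v.2⟩))
    (g g' : ℝ) (hg' : g' ≤ 1) (ρ : α (sfPa i g)) (ρ' : α (sfPa i g')) :
    Relation.TransGen R ⟨sfPa i g, ρ⟩ ⟨sfPa i g', ρ'⟩ ↔ Relation.TransGen R' ⟨g, ρ⟩ ⟨g', ρ'⟩ := by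
  obtain ⟨e, he⟩ : ∃ e : (Σ g, α (sfPa i g)) → (Σ k, α k), e = fun u => ⟨sfPa i u.1, u.2⟩ := ⟨_, rfl⟩
  have he1 : ∀ u, (e u).1 = sfPa i u.1 := fun u => by rw [he]
  have hsurj : ∀ c : Σ k, α k, ∃ w, e w = c := by
    rintro ⟨k, r⟩
    obtain ⟨r', hr'⟩ := sf_pr_row_lift (α := α) i (k / i) k (sf_pr_pa_div hi0.ne' k) r
    exact ⟨⟨k / i, r'⟩, by rw [he]; exact hr'⟩
  have hlink : ∀ u v : Σ g, α (sfPa i g), v.1 ≤ 1 → (R' u v ↔ R (e u) (e v)) := by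
    intro u v hv
    rw [he]
    exact hRR' u v hv
  have hA : ∀ v : Σ g, α (sfPa i g), v.1 ≤ 1 → ∀ a, Relation.TransGen R a (e v) →
      a.1 < (e v).1 ∧ ∀ u, e u = a → Relation.TransGen R' u v := by
    intro v hv a h
    induction h using Relation.TransGen.head_induction_on with
    | single h =>
      refine ⟨hR _ _ h, fun u hu => ?_⟩
      subst hu
      exact Relation.TransGen.single ((hlink u v hv).2 h)
    | @head a c h' _ ih =>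
      obtain ⟨h1, h2⟩ := ih
      refine ⟨(hR _ _ h').trans h1, fun u hu => ?_⟩
      subst hu
      obtain ⟨w, rfl⟩ := hsurj c
      have hw : w.1 ≤ 1 := by
        rw [he1, he1, sf_pr_pa_lt hi0] at h1
        linarith
      exact Relation.TransGen.head ((hlink u w hw).2 h') (h2 w rfl)
  have hB : ∀ v : Σ g, α (sfPa i g), v.1 ≤ 1 → ∀ u, Relation.TransGen R' u v →
      u.1 < v.1 ∧ Relation.TransGen R (e u) (e v) := by
    intro v hv u h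
    induction h using Relation.TransGen.head_induction_on with
    | single h =>
      have h1 := (hlink _ v hv).1 h
      have h2 := hR _ _ h1
      rw [he1, he1, sf_pr_pa_lt hi0] at h2
      exact ⟨h2, Relation.TransGen.single h1⟩
    | @head a c h' _ ih =>
      obtain ⟨h1, h2⟩ := ih
      have h3 := (hlink a c (by linarith)).1 h'
      have h4 := hR _ _ h3
      rw [he1, he1, sf_pr_pa_lt hi0] at h4
      exact ⟨h4.trans h1, Relation.TransGen.head h3 h2⟩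
  have e1 : (⟨sfPa i g, ρ⟩ : Σ k, α k) = e ⟨g, ρ⟩ := by rw [he]
  have e2 : (⟨sfPa i g', ρ'⟩ : Σ k, α k) = e ⟨g', ρ'⟩ := by rw [he]
  rw [e1, e2]
  constructor
  · intro h
    exact (hA ⟨g', ρ'⟩ hg' _ h).2 _ rfl
  · intro h
    exact (hB ⟨g', ρ'⟩ hg' _ h).2

/-! ## C. the accuracy of the prefix -/

/-- LEAF PR-C0 (~30 l., pure reals).   `n' = i n + θ`, `|θ| ≤ a n`:  `(t + c g) n' - (a + c g i) n = t n' - a n + c g θ ≥ t n' - a n - |c| a n`   (`abs_le`, `abs_mul`, `|c g θ| ≤ |c| a n`). -/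
theorem sf_pr_exp (n n' a t i c g : ℝ) (hn : 0 ≤ n) (hθ : |n' - i * n| ≤ a * n) (hg0 : 0 ≤ g) (hg1 : g ≤ 1) (h : (a + |c| * a) * n ≤ t * n') :
    (a + c * (g * i)) * n ≤ (t + c * g) * n' := by
  have han : 0 ≤ a * n := (abs_nonneg _).trans hθ
  have h1 : |c * g * (n' - i * n)| ≤ |c| * (a * n) := by
    rw [abs_mul, abs_mul, abs_of_nonneg hg0]
    calc |c| * g * |n' - i * n| ≤ |c| * 1 * (a * n) := by
          gcongr
      _ = |c| * (a * n) := by ring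
  have h2 := (abs_le.1 h1).1
  nlinarith

/-- LEAF PR-C1 (~80 l.).   THE LENGTH OF THE PREFIX.   `(W.prE i).n = W.k (sfPa i 1) - W.E.k0` (natural subtraction, `k0 ≤ k`: `h.str.k_rg`), `h.depth i hi`, `rw [sf_pr_pa_one]`;  `n' ≥ (i - a) n ≥ (i0 / 2) n`;  `n' ≤ n`: `h.str.k_rg` (`kf = k0 + n`). -/
theorem sf_pr_n {Y : SfCy} {p : Y.M.Par} (W : SfMD (Y.M.sys p)) (pe de Ls ε a i0 i : ℝ) (ha2 : 2 * a ≤ i0) (h : SfMD.Ext Y p W pe de Ls ε a)
    (hi : i ∈ W.G) (hi0 : i0 ≤ i) :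
    |((W.prE i).n : ℝ) - i * W.E.n| ≤ a * W.E.n ∧ i0 / 2 * W.E.n ≤ (W.prE i).n ∧ (W.prE i).n ≤ W.E.n := by
  have hn : (W.prE i).n = W.k i - W.E.k0 := by
    show W.k (sfPa i 1) - W.E.k0 = _
    rw [sf_pr_pa_one]
  obtain ⟨hk0, hkf⟩ := h.str.k_rg i hi
  have hcast : ((W.prE i).n : ℝ) = (W.k i : ℝ) - W.E.k0 := by
    rw [hn, Nat.cast_sub hk0]
  have hd := h.depth i hi
  have hnn : (0 : ℝ) ≤ W.E.n := Nat.cast_nonneg _
  refine ⟨by rw [hcast]; exact hd, ?_, ?_⟩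
  · rw [hcast]
    have h1 := (abs_le.1 hd).1
    nlinarith
  · rw [hn]
    have : W.E.kf = W.E.k0 + W.E.n := rfl
    omega

/-- LEAF PR-C2 (~60 l.).   POWERS.   `gn_s_rpow : E.s ^ y = 2 ^ (-(y * E.n))`, `gn_two_mono`, `sf_pr_exp` with `sf_pr_n`;   `(a + |c| a) n ≤ t n'` from `hat`, `n ≤ (2 / i0) n'`. -/
theorem sf_pr_pow {Y : SfCy} {p : Y.M.Par} (W : SfMD (Y.M.sys p)) (pe de Ls ε a t i0 i B : ℝ) (ha : 0 < a) (h0 : 0 < i0) (ha2 : 2 * a ≤ i0)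
    (hat : 2 * a * (1 + B) ≤ t * i0) (h : SfMD.Ext Y p W pe de Ls ε a) (hi : i ∈ W.G) (hi0 : i0 ≤ i) (c g : ℝ) (hc : |c| ≤ B) (hg0 : 0 ≤ g) (hg1 : g ≤ 1) :
    (W.prE i).s ^ (t + c * g) ≤ W.E.s ^ (a + c * (g * i)) ∧ W.E.s ^ (-(a + c * (g * i))) ≤ (W.prE i).s ^ (-(t + c * g)) := by
  obtain ⟨h1, h2, -⟩ := sf_pr_n W pe de Ls ε a i0 i ha2 h hi hi0
  have hnn : (0 : ℝ) ≤ W.E.n := Nat.cast_nonneg _
  have hB : 0 ≤ B := (abs_nonneg c).trans hc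
  have ht : 0 < t := by
    by_contra hcon
    have : t * i0 ≤ 0 := mul_nonpos_of_nonpos_of_nonneg (not_lt.1 hcon) h0.le
    have : 0 < 2 * a * (1 + B) := by positivity
    linarith
  have hkey : (a + |c| * a) * (W.E.n : ℝ) ≤ t * ((W.prE i).n : ℝ) := by
    calc (a + |c| * a) * (W.E.n : ℝ) ≤ (a * (1 + B)) * W.E.n := by
          have : a + |c| * a ≤ a * (1 + B) := by nlinarith
          exact mul_le_mul_of_nonneg_right this hnn
      _ ≤ (t * i0 / 2) * W.E.n := by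
          have : a * (1 + B) ≤ t * i0 / 2 := by linarith
          exact mul_le_mul_of_nonneg_right this hnn
      _ = t * (i0 / 2 * W.E.n) := by ring
      _ ≤ t * ((W.prE i).n : ℝ) := mul_le_mul_of_nonneg_left h2 ht.le
  have hexp := sf_pr_exp (W.E.n : ℝ) ((W.prE i).n : ℝ) a t i c g hnn h1 hg0 hg1 hkey
  constructor
  · rw [gn_s_rpow, gn_s_rpow]
    exact gn_two_mono (by linarith)
  · rw [gn_s_rpow, gn_s_rpow]
    exact gn_two_mono (by linarith)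

theorem sf_pr_aux_c3_split {s : ℝ} (hs : 0 < s) (a X y : ℝ) : s ^ (-a) * X * s ^ (-y) = X * s ^ (-(a + y)) := by
  rw [neg_add, Real.rpow_add hs]
  ring

theorem sf_pr_aux_c3_split' {s : ℝ} (hs : 0 < s) (a X y : ℝ) : s ^ a * X * s ^ y = X * s ^ (a + y) := by
  rw [Real.rpow_add hs]
  ring

/-- LEAF PR-C3 (~250 l.).   `depth cnt en reg read` of `Ext` for the prefix.   All sums, states, label families of `W.prW i` at `g` are those of `W` at `sfPa i g = g * i` (`rfl`, `sf_pr_pre`, `sf_pr_tot`, `sf_pr_pa`).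
`depth`: `|(k (g i) - k0) - g n'| ≤ a n + g |n' - i n| ≤ 2 a n ≤ (4 a / i0) n' ≤ t n'`.   The other four: split `s^(-a) * X * s^(∓ c (g i)) = X * s^(-(a ± ..))` (`Real.rpow_add (gn_s_pos _)`), then `sf_pr_pow` with `c = pe + de, de, -pe, -de`.
`reg`: monotone in `κ` as in `sf_ext_mono` (`0 ≤ wt Q` is forced by `gn_ms_nonneg`). -/
theorem sf_pr_ext1 {Y : SfCy} {p : Y.M.Par} (W : SfMD (Y.M.sys p)) (pe de Ls ε a t i0 i : ℝ) (ha : 0 < a) (h0 : 0 < i0) (ha2 : 2 * a ≤ i0)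
    (hat : 4 * a * (1 + |pe| + |de| + |Ls|) ≤ t * i0) (h : SfMD.Ext Y p W pe de Ls ε a) (hi : i ∈ W.G) (hi0 : i0 ≤ i) :
    (∀ g ∈ (W.prW i).G, |(((W.prW i).k g : ℝ) - (W.prW i).E.k0) - g * (W.prW i).E.n| ≤ t * (W.prW i).E.n) ∧
    (∀ g ∈ (W.prW i).G, ∑ l, (Y.M.sys p).wt ((W.prW i).ts g l) ≤ (W.prW i).E.s ^ (-t) * ((W.prW i).E.e / (W.prW i).E.ka) * (W.prW i).E.s ^ (-((pe + de) * g))) ∧
    (∀ g ∈ (W.prW i).G, ∑ m ∈ (W.prW i).ivs g, ‖(W.prW i).pre g m‖ ^ 2 ≤ (W.prW i).E.s ^ (-t) * (W.prW i).E.e * (W.prW i).E.s ^ (-(de * g))) ∧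
    (∀ g ∈ (W.prW i).G, ∀ m ∈ (W.prW i).ivs g, (Y.M.sys p).Reg (tmL ((W.prW i).k g) m) ((W.prW i).k g) ((W.prW i).gb g)
      ((W.prW i).E.s ^ (-t) * (W.prW i).E.ka * (W.prW i).E.s ^ (pe * g)) ((W.prW i).pre g m)) ∧
    (∀ g ∈ (W.prW i).G, (W.prW i).E.s ^ t * (W.prW i).E.e * (W.prW i).E.s ^ (-(de * g)) ≤ (W.prW i).tot g) := by
  have hip : 0 < i := lt_of_lt_of_le h0 hi0
  have hB0 : 0 ≤ |pe| + |de| + |Ls| := by positivity
  have hat' : 2 * a * (1 + (|pe| + |de| + |Ls|)) ≤ t * i0 := by nlinarith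
  have hs0 := gn_s_pos W.E
  have hs0' := gn_s_pos (W.prE i)
  have he := h.str.valid.e_pos
  have hka := h.str.valid.ka_pos
  have hmem : ∀ g ∈ (W.prW i).G, sfPa i g ∈ W.G ∧ 0 ≤ g ∧ g ≤ 1 := by
    intro g hg
    obtain ⟨h1, h2⟩ := (sf_pr_mem_G W.G hip g).1 hg
    refine ⟨h1, ?_, h2⟩
    have := (h.str.gate.2 _ h1).1
    rw [sf_pr_pa] at this
    exact nonneg_of_mul_nonneg_left this hip
  have hpow := fun (c g : ℝ) (hc : |c| ≤ |pe| + |de| + |Ls|) (hg0 : 0 ≤ g) (hg1 : g ≤ 1) =>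
    sf_pr_pow W pe de Ls ε a t i0 i (|pe| + |de| + |Ls|) ha h0 ha2 hat' h hi hi0 c g hc hg0 hg1
  obtain ⟨hn1, hn2, hn3⟩ := sf_pr_n W pe de Ls ε a i0 i ha2 h hi hi0
  refine ⟨fun g hg => ?_, fun g hg => ?_, fun g hg => ?_, fun g hg m hm Q hQ => ?_, fun g hg => ?_⟩
  · obtain ⟨hG, hg0, hg1⟩ := hmem g hg
    have hd := h.depth _ hG
    rw [sf_pr_pa] at hd
    change |((W.k (sfPa i g) : ℝ) - W.E.k0) - g * (W.prE i).n| ≤ t * (W.prE i).n
    rw [sf_pr_pa]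
    have hnn : (0 : ℝ) ≤ W.E.n := Nat.cast_nonneg _
    have hnn' : (0 : ℝ) ≤ (W.prE i).n := Nat.cast_nonneg _
    have h4 : 4 * a ≤ t * i0 := by nlinarith
    have h5 : 2 * a * W.E.n ≤ t * (W.prE i).n := by
      have : 2 * a * W.E.n * i0 ≤ t * (W.prE i).n * i0 := by nlinarith
      exact le_of_mul_le_mul_right this h0
    have h6 : |g * ((W.prE i).n - i * W.E.n)| ≤ a * W.E.n := by
      rw [abs_mul, abs_of_nonneg hg0]
      calc g * |((W.prE i).n : ℝ) - i * W.E.n| ≤ 1 * |((W.prE i).n : ℝ) - i * W.E.n| := mul_le_mul_of_nonneg_right hg1 (abs_nonneg _)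
        _ ≤ a * W.E.n := by rw [one_mul]; exact hn1
    have e : ((W.k (g * i) : ℝ) - W.E.k0) - g * (W.prE i).n = (((W.k (g * i) : ℝ) - W.E.k0) - g * i * W.E.n) - g * ((W.prE i).n - i * W.E.n) := by ring
    rw [e]
    calc _ ≤ |((W.k (g * i) : ℝ) - W.E.k0) - g * i * W.E.n| + |g * ((W.prE i).n - i * W.E.n)| := abs_sub _ _
      _ ≤ a * W.E.n + a * W.E.n := add_le_add hd h6
      _ ≤ _ := by linarith
  · obtain ⟨hG, hg0, hg1⟩ := hmem g hg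
    have hc := h.cnt _ hG
    change ∑ l, (Y.M.sys p).wt (W.ts (sfPa i g) l) ≤ (W.prE i).s ^ (-t) * (W.E.e / W.E.ka) * (W.prE i).s ^ (-((pe + de) * g))
    refine hc.trans ?_
    rw [sf_pr_aux_c3_split hs0, sf_pr_aux_c3_split hs0', sf_pr_pa]
    refine mul_le_mul_of_nonneg_left (hpow (pe + de) g ?_ hg0 hg1).2 (div_pos he hka).le
    have := abs_add_le pe de
    have := abs_nonneg Ls
    linarith
  · obtain ⟨hG, hg0, hg1⟩ := hmem g hg
    have hc := h.en _ hG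
    have e : ∑ m ∈ (W.prW i).ivs g, ‖(W.prW i).pre g m‖ ^ 2 = ∑ m ∈ W.ivs (sfPa i g), ‖W.pre (sfPa i g) m‖ ^ 2 :=
      Finset.sum_congr rfl fun m _ => by rw [sf_pr_pre W h.str i hi hip g hg m]
    rw [e]
    change _ ≤ (W.prE i).s ^ (-t) * W.E.e * (W.prE i).s ^ (-(de * g))
    refine hc.trans ?_
    rw [sf_pr_aux_c3_split hs0, sf_pr_aux_c3_split hs0', sf_pr_pa]
    refine mul_le_mul_of_nonneg_left (hpow de g ?_ hg0 hg1).2 he.le
    have := abs_nonneg pe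
    have := abs_nonneg Ls
    linarith
  · obtain ⟨hG, hg0, hg1⟩ := hmem g hg
    have h1 := h.reg _ hG m hm Q hQ
    rw [sf_pr_pre W h.str i hi hip g hg m]
    change (Y.M.sys p).ms (tmL (W.k (sfPa i g)) m) (W.k (sfPa i g)) (W.gb (sfPa i g)) ((Y.M.sys p).cell Q (tmL (W.k (sfPa i g)) m) (W.k (sfPa i g))) (W.pre (sfPa i g) m)
      ≤ (W.prE i).s ^ (-t) * W.E.ka * (W.prE i).s ^ (pe * g) * (Y.M.sys p).wt Q
    have h0' := gn_ms_nonneg (P := Y.M.sys p) (tmL (W.k (sfPa i g)) m) (W.k (sfPa i g)) (W.gb (sfPa i g))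
      ((Y.M.sys p).cell Q (tmL (W.k (sfPa i g)) m) (W.k (sfPa i g))) (W.pre (sfPa i g) m)
    have hκ : 0 < W.E.s ^ (-a) * W.E.ka * W.E.s ^ (pe * sfPa i g) :=
      mul_pos (mul_pos (Real.rpow_pos_of_pos hs0 _) hka) (Real.rpow_pos_of_pos hs0 _)
    have hwt : 0 ≤ (Y.M.sys p).wt Q := by
      by_contra hcon
      rw [not_le] at hcon
      have := mul_neg_of_pos_of_neg hκ hcon
      linarith
    refine h1.trans (mul_le_mul_of_nonneg_right ?_ hwt)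
    have e1 : pe * sfPa i g = -((-pe) * (g * i)) := by rw [sf_pr_pa]; ring
    have e2 : pe * g = -((-pe) * g) := by ring
    rw [e1, e2, sf_pr_aux_c3_split hs0, sf_pr_aux_c3_split hs0']
    refine mul_le_mul_of_nonneg_left (hpow (-pe) g ?_ hg0 hg1).2 hka.le
    rw [abs_neg]
    have := abs_nonneg de
    have := abs_nonneg Ls
    linarith
  · obtain ⟨hG, hg0, hg1⟩ := hmem g hg
    have hc := h.read _ hG
    rw [sf_pr_tot W h.str i hi hip g hg]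
    change (W.prE i).s ^ t * W.E.e * (W.prE i).s ^ (-(de * g)) ≤ _
    refine le_trans ?_ hc
    rw [sf_pr_aux_c3_split' hs0, sf_pr_aux_c3_split' hs0', sf_pr_pa]
    have e1 : -(de * (g * i)) = (-de) * (g * i) := by ring
    have e2 : -(de * g) = (-de) * g := by ring
    rw [e1, e2]
    refine mul_le_mul_of_nonneg_left (hpow (-de) g ?_ hg0 hg1).1 he.le
    rw [abs_neg]
    have := abs_nonneg pe
    have := abs_nonneg Ls
    linarith

theorem sf_pr_aux_ext2_pw {Y : SfCy} {p : Y.M.Par} (W : SfMD (Y.M.sys p)) (pe de Ls ε a t i0 i : ℝ) (ha : 0 < a) (h0 : 0 < i0) (ha2 : 2 * a ≤ i0)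
    (hat : 4 * a * (1 + |pe| + |de| + |Ls|) ≤ t * i0) (h : SfMD.Ext Y p W pe de Ls ε a) (hi : i ∈ W.G) (hi0 : i0 ≤ i)
    (g g' : ℝ) (hn : sfNext (W.prW i).G g g') :
    sfNext W.G (sfPa i g) (sfPa i g') ∧ (W.prW i).E.s ^ (Ls * (g' - g) + t) ≤ W.E.s ^ (Ls * (sfPa i g' - sfPa i g) + a) ∧
      W.E.s ^ (-(Ls * (sfPa i g' - sfPa i g) + a)) ≤ (W.prW i).E.s ^ (-(Ls * (g' - g) + t)) := by
  have hip : 0 < i := lt_of_lt_of_le h0 hi0
  have hn' : sfNext (sfPrG W.G i) g g' := hn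
  have hg'1 : g' ≤ 1 := ((sf_pr_mem_G W.G hip g').mp hn'.2.1).2
  have hgG : sfPa i g ∈ W.G := ((sf_pr_mem_G W.G hip g).mp hn'.1).1
  have hg0 : 0 ≤ g := by
    have h1 := (h.str.gate.2 _ hgG).1
    rw [sf_pr_pa] at h1
    by_contra hc
    push Not at hc
    nlinarith
  have hlt : g < g' := hn'.2.2.1
  have hB : 2 * a * (1 + (|pe| + |de| + |Ls|)) ≤ t * i0 := by
    have : 0 ≤ a * (1 + |pe| + |de| + |Ls|) := by positivity
    nlinarith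
  have hc : |Ls| ≤ |pe| + |de| + |Ls| := by
    have := abs_nonneg pe
    have := abs_nonneg de
    linarith
  obtain ⟨p1, p2⟩ := sf_pr_pow W pe de Ls ε a t i0 i (|pe| + |de| + |Ls|) ha h0 ha2 hB h hi hi0 Ls (g' - g) hc (by linarith) (by linarith)
  have e1 : Ls * (sfPa i g' - sfPa i g) + a = a + Ls * ((g' - g) * i) := by
    rw [sf_pr_pa, sf_pr_pa]; ring
  have e2 : Ls * (g' - g) + t = t + Ls * (g' - g) := by ring
  refine ⟨(sf_pr_next W.G hip g g' hg'1).mp hn', ?_, ?_⟩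
  · rw [e1, e2]; exact p1
  · rw [e1, e2]; exact p2
/-- LEAF PR-C4 (~200 l.).   `wr`, `mm` of `Ext` for the prefix.   `sfNext (sfPrG W.G i) g g' ⟹ sfNext W.G (sfPa i g) (sfPa i g')` (`sf_pr_next`, `g' ≤ 1` by `sf_pr_mem_G`);  `sfPa i g' - sfPa i g = (g' - g) * i`;
`sf_pr_pow` with `c = Ls`, `g := g' - g ∈ [0,1]`;  the truncation is the same number (`hε`);  prefactors `f j / r j ^ 2`, `f j / r j ≥ 0` (`h.str.frame`). -/
theorem sf_pr_ext2 {Y : SfCy} {p : Y.M.Par} (W : SfMD (Y.M.sys p)) (pe de Ls ε ε' a t i0 i : ℝ) (ha : 0 < a) (h0 : 0 < i0) (ha2 : 2 * a ≤ i0)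
    (hat : 4 * a * (1 + |pe| + |de| + |Ls|) ≤ t * i0) (h : SfMD.Ext Y p W pe de Ls ε a) (hi : i ∈ W.G) (hi0 : i0 ≤ i)
    (hε : (W.prE i).s ^ (-ε') = W.E.s ^ (-ε)) :
    (∀ g g', sfNext (W.prW i).G g g' → (W.prW i).E.s ^ (Ls * (g' - g) + t) ≤ (W.prW i).r g / (W.prW i).r g' ∧ (W.prW i).r g / (W.prW i).r g' ≤ 1 ∧
      (W.prW i).E.s ^ (Ls * (g' - g) + t) ≤ (W.prW i).f g / (W.prW i).f g' ∧ (W.prW i).f g / (W.prW i).f g' ≤ (W.prW i).E.s ^ (-(Ls * (g' - g) + t))) ∧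
    (∀ g g', sfNext (W.prW i).G g g' → ∀ (l : (W.prW i).Lb g) (l' : (W.prW i).Lb g') (x x' : (Y.M.sys p).X), (W.prW i).th g l x ≠ 0 → (W.prW i).th g' l' x' ≠ 0 →
      sfCn Y p ((W.prW i).E.s ^ (-ε')) ((W.prW i).T g l) ((W.prW i).k g) ((W.prW i).T g' l') ((W.prW i).k g') x x' →
      |(sfTestAt ((W.prW i).T g l) (Y.tq p ((W.prW i).ts g l))).be - (sfTestAt ((W.prW i).T g' l') (Y.tq p ((W.prW i).ts g' l'))).beAt ((W.prW i).T g l)|
          + (2 : ℝ)⁻¹ ^ (W.prW i).k g * |(Y.tq p ((W.prW i).ts g l)).K - (Y.tq p ((W.prW i).ts g' l')).K|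
        ≤ (W.prW i).f g' / (W.prW i).r g' ^ 2 * (W.prW i).E.s ^ (-(Ls * (g' - g) + t)) ∧
      |(sfTestAt ((W.prW i).T g l) (Y.tq p ((W.prW i).ts g l))).Pd (sfRayAt ((W.prW i).T g l) (Y.co p ((W.prW i).T g l) x))
          - (sfTestAt ((W.prW i).T g' l') (Y.tq p ((W.prW i).ts g' l'))).Pd (sfRayAt ((W.prW i).T g l) (Y.co p ((W.prW i).T g l) x))|
        ≤ (W.prW i).f g' / (W.prW i).r g' * (W.prW i).E.s ^ (-(Ls * (g' - g) + t))) := by
  constructor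
  · intro g g' hn
    obtain ⟨n1, p1, p2⟩ := sf_pr_aux_ext2_pw W pe de Ls ε a t i0 i ha h0 ha2 hat h hi hi0 g g' hn
    obtain ⟨w1, w2, w3, w4⟩ := h.wr _ _ n1
    exact ⟨p1.trans w1, w2, p1.trans w3, w4.trans p2⟩
  · intro g g' hn l l' x x' t1 t2 hc
    obtain ⟨n1, p1, p2⟩ := sf_pr_aux_ext2_pw W pe de Ls ε a t i0 i ha h0 ha2 hat h hi hi0 g g' hn
    have hc' : sfCn Y p (W.E.s ^ (-ε)) (W.T (sfPa i g) l) (W.k (sfPa i g)) (W.T (sfPa i g') l') (W.k (sfPa i g')) x x' := by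
      rw [← hε]; exact hc
    obtain ⟨m1, m2⟩ := h.mm _ _ n1 l l' x x' t1 t2 hc'
    have hfr := h.str.frame.2.2 _ n1.2.1
    refine ⟨m1.trans ?_, m2.trans ?_⟩
    · exact mul_le_mul_of_nonneg_left p2 (div_nonneg hfr.2.le (pow_nonneg hfr.1.le 2))
    · exact mul_le_mul_of_nonneg_left p2 (div_nonneg hfr.2.le hfr.1.le)

/-! ## D. the package -/

/-- LEAF PR-D1 (~150 l.).   THE SETUP IN A FIXED FRAME IS MONOTONE IN THE FINAL SCALE.   Model: `cy_cl_scale` (`Cyl/ClAdm.lean`) and `cy_frm_set` (`Cyl/Frm.lean`).   Rewrite the root data by `hroot`.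
`E'.s^C' ≤ E.s^C`, `E.s^(-C) ≤ E'.s^(-C')`, `E.s^A ≤ E'.s^A'` (`gn_s_rpow`, `gn_two_mono`, casts).   `0 ≤ e` (field `tail`, `gn_ms_nonneg`), `0 ≤ ka * cyWt η Q0` (field `ek_hi`).
`supp`, `tail`: `gn_ms_mono` on the measurable sets `{c < cyBaseSz ..}`, `{c < cyNorSz ..}` (`measurableSet_lt measurable_const (cy_frm_meas_base hm _ _)`, `cy_frm_meas_nor`).   `dens`, `densJ`: `ENNReal.ofReal_le_ofReal`, `mul_le_mul'`. -/
theorem sf_pr_set_scale {P : PkSys} {co : ℝ → P.X → Cy5} {η : ℝ} {jt : Prop} {C A C' A' : ℕ} {E E' : Xp P} {Q0 : CyT}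
    (hm : Measurable fun x => cyVec (co (tmL E.k0 E.i0) x)) (h : CySet P co η jt C A E Q0) (hroot : Mdl.SameRoot E E')
    (hC : C * E.n ≤ C' * E'.n) (hA : A' * E'.n ≤ A * E.n) : CySet P co η jt C' A' E' Q0 := by
  obtain ⟨e1, e2, e3, e4, e5, e6⟩ := hroot
  have hsA : 0 < E.s ^ (A : ℝ) := Real.rpow_pos_of_pos (gn_s_pos E) _
  have he : 0 ≤ E.e := nonneg_of_mul_nonneg_right ((gn_ms_nonneg _ _ _ _ _).trans h.tail) hsA
  have hsC : 0 < E.s ^ (-(C : ℝ)) := Real.rpow_pos_of_pos (gn_s_pos E) _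
  have hX : 0 ≤ E.ka * cyWt η Q0 := nonneg_of_mul_nonneg_right (he.trans h.ek_hi) hsC
  have hC' : ((C : ℝ) * E.n) ≤ (C' : ℝ) * E'.n := by exact_mod_cast hC
  have hA' : ((A' : ℝ) * E'.n) ≤ (A : ℝ) * E.n := by exact_mod_cast hA
  have p1 : E'.s ^ (C' : ℝ) ≤ E.s ^ (C : ℝ) := by
    rw [gn_s_rpow, gn_s_rpow]; exact gn_two_mono (by linarith)
  have p2 : E.s ^ (-(C : ℝ)) ≤ E'.s ^ (-(C' : ℝ)) := by
    rw [gn_s_rpow, gn_s_rpow]; exact gn_two_mono (by linarith)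
  have p3 : E.s ^ (A : ℝ) ≤ E'.s ^ (A' : ℝ) := by
    rw [gn_s_rpow, gn_s_rpow]; exact gn_two_mono (by linarith)
  refine ⟨h.r_pos, h.f_pos, ?_, ?_, ?_, ?_, ?_, ?_⟩
  · rw [e4, e5]; exact (mul_le_mul_of_nonneg_right p1 hX).trans h.ek_lo
  · rw [e4, e5]; exact h.ek_hi.trans (mul_le_mul_of_nonneg_right p2 hX)
  · rw [e1, e2, e3, e6]
    apply le_antisymm _ (gn_ms_nonneg _ _ _ _ _)
    rw [← h.supp]
    apply gn_ms_mono _ _ _ (measurableSet_lt measurable_const (cy_frm_meas_base hm _ _))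
      (measurableSet_lt measurable_const (cy_frm_meas_base hm _ _))
    intro x hx
    exact lt_of_le_of_lt p2 hx
  · rw [e1, e2, e3, e4, e6]
    refine (gn_ms_mono _ _ _ (measurableSet_lt measurable_const (cy_frm_meas_nor hm _ _))
      (measurableSet_lt measurable_const (cy_frm_meas_nor hm _ _)) ?_ _).trans (h.tail.trans (mul_le_mul_of_nonneg_right p3 he))
    intro x hx
    exact lt_of_le_of_lt p2 hx
  · intro S hS
    rw [e1, e2, e3, e4, e6]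
    exact (h.dens S hS).trans (mul_le_mul' (ENNReal.ofReal_le_ofReal (mul_le_mul_of_nonneg_right p2 he)) le_rfl)
  · intro hj S hS
    rw [e1, e2, e3, e4, e6]
    exact (h.densJ hj S hS).trans (mul_le_mul' (ENNReal.ofReal_le_ofReal (mul_le_mul_of_nonneg_right p2 he)) le_rfl)

/-- the constant of `sf_pr_af` -/
theorem sf_pr_aux_af_num (C D : ℕ) (a0 : ℝ) (h0 : 0 < a0) (C' n n' : ℕ) (hC : ⌈((C : ℝ) + 6 * D) / a0⌉₊ + C + 6 * D ≤ C') (hn : a0 * n ≤ n') :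
    (C + 6 * D) * n ≤ C' * n' := by
  have h1 : ((C : ℝ) + 6 * D) / a0 ≤ C' := by
    refine (Nat.le_ceil _).trans ?_
    exact_mod_cast (by omega : ⌈((C : ℝ) + 6 * D) / a0⌉₊ ≤ C')
  rw [div_le_iff₀ h0] at h1
  have h2 : (((C + 6 * D) * n : ℕ) : ℝ) ≤ ((C' * n' : ℕ) : ℝ) := by
    push_cast
    calc ((C : ℝ) + 6 * D) * n ≤ (C' * a0) * n := mul_le_mul_of_nonneg_right h1 (Nat.cast_nonneg _)
      _ = C' * (a0 * n) := by ring
      _ ≤ C' * n' := mul_le_mul_of_nonneg_left hn (Nat.cast_nonneg _)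
  exact_mod_cast h2

/-- the range of the Planck parameter after a polynomial change of the normal width (pure reals: `a = s^C`, `v = s^D`) -/
theorem sf_pr_aux_af_pl (a v h f0 f : ℝ) (ha : 0 < a) (hv : 0 < v) (hv1 : v ≤ 1) (hf0 : 0 < f0) (g1 : a ≤ h / f0 ^ 2) (g2 : h / f0 ^ 2 ≤ a⁻¹)
    (h3 : v * f0 ≤ f) (h4 : f ≤ v⁻¹ * f0) : a * v ^ 6 ≤ h / f ^ 2 ∧ h / f ^ 2 ≤ (a * v ^ 6)⁻¹ := by
  have hf : 0 < f := lt_of_lt_of_le (by positivity) h3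
  have hh0 : 0 < h := by
    have t : 0 < h / f0 ^ 2 := lt_of_lt_of_le ha g1
    have := mul_pos t (pow_pos hf0 2)
    rwa [div_mul_cancel₀ _ (pow_pos hf0 2).ne'] at this
  have h4' : v * f ≤ f0 := by
    have := mul_le_mul_of_nonneg_left h4 hv.le
    rwa [← mul_assoc, mul_inv_cancel₀ hv.ne', one_mul] at this
  have q1 : v ^ 2 * f ^ 2 ≤ f0 ^ 2 := by
    have := pow_le_pow_left₀ (by positivity) h4' 2
    rwa [mul_pow] at this
  have q2 : v ^ 2 * f0 ^ 2 ≤ f ^ 2 := by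
    have := pow_le_pow_left₀ (by positivity) h3 2
    rwa [mul_pow] at this
  have hv62 : v ^ 6 ≤ v ^ 2 := pow_le_pow_of_le_one hv.le hv1 (by norm_num)
  rw [le_div_iff₀ (pow_pos hf0 2)] at g1
  rw [div_le_iff₀ (pow_pos hf0 2)] at g2
  constructor
  · rw [le_div_iff₀ (pow_pos hf 2)]
    calc a * v ^ 6 * f ^ 2 ≤ a * v ^ 2 * f ^ 2 := by gcongr
      _ = a * (v ^ 2 * f ^ 2) := by ring
      _ ≤ a * f0 ^ 2 := mul_le_mul_of_nonneg_left q1 ha.le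
      _ ≤ h := g1
  · rw [div_le_iff₀ (pow_pos hf 2), mul_inv]
    have e : a⁻¹ * f0 ^ 2 = a⁻¹ * (v ^ 2)⁻¹ * (v ^ 2 * f0 ^ 2) := by field_simp
    calc h ≤ a⁻¹ * f0 ^ 2 := g2
      _ = a⁻¹ * (v ^ 2)⁻¹ * (v ^ 2 * f0 ^ 2) := e
      _ ≤ a⁻¹ * (v ^ 2)⁻¹ * f ^ 2 := mul_le_mul_of_nonneg_left q2 (by positivity)
      _ ≤ a⁻¹ * (v ^ 6)⁻¹ * f ^ 2 := by
        apply mul_le_mul_of_nonneg_right _ (by positivity)
        apply mul_le_mul_of_nonneg_left _ (by positivity)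
        exact inv_anti₀ (by positivity) hv62

theorem sf_pr_aux_af_cl (η : ℝ) (hη : 0 < η ∧ η < 1) (C D C' A : ℕ) (p : CclPar) (E E' : Xp (CclPar.sys η p)) (Q0 : CyT) (r f : ℝ)
    (haf : CclPar.Ok p ∧ CySet (CclPar.sys η p) (CclPar.co p) η True C A E Q0) (hroot : Mdl.SameRoot E E')
    (hnum : (C + 6 * D) * E.n ≤ C' * E'.n) (hn2 : E'.n ≤ E.n)
    (h1 : E.s ^ (D : ℝ) * Q0.r ≤ r) (h2 : r ≤ E.s ^ (-(D : ℝ)) * Q0.r) (h3 : E.s ^ (D : ℝ) * Q0.f ≤ f) (h4 : f ≤ E.s ^ (-(D : ℝ)) * Q0.f) :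
    CclPar.Ok p ∧ CySet (CclPar.sys η p) (CclPar.co p) η True C' A E' { Q0 with r := r, f := f } := by
  obtain ⟨hp, hset⟩ := haf
  have hm : Measurable fun x => cyVec (CclPar.co p (tmL E.k0 E.i0) x) := by
    have := hp.mX; have := hp.mB; have := hp.mY; have := hp.mN; have := hp.mD
    unfold cyVec CclPar.co
    fun_prop
  exact ⟨hp, sf_pr_set_scale hm (cy_frm_set hη hm hset h1 h2 h3 h4) hroot hnum (Nat.mul_le_mul_left _ hn2)⟩

theorem sf_pr_aux_af_hy (η : ℝ) (hη : 0 < η ∧ η < 1) (C D C' A : ℕ) (p : ChyPar) (E E' : Xp (ChyPar.sys p η)) (Q0 : CyT) (r f : ℝ)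
    (haf : ChyPar.Ok p ∧ CySet (ChyPar.sys p η) (ChyPar.co p) η False C A E Q0 ∧
      E.s ^ (C : ℝ) ≤ ChyPar.H p * 2 ^ E.k0 / Q0.f ^ 2 ∧ ChyPar.H p * 2 ^ E.k0 / Q0.f ^ 2 ≤ E.s ^ (-(C : ℝ))) (hroot : Mdl.SameRoot E E')
    (hnum : (C + 6 * D) * E.n ≤ C' * E'.n) (hn2 : E'.n ≤ E.n)
    (h1 : E.s ^ (D : ℝ) * Q0.r ≤ r) (h2 : r ≤ E.s ^ (-(D : ℝ)) * Q0.r) (h3 : E.s ^ (D : ℝ) * Q0.f ≤ f) (h4 : f ≤ E.s ^ (-(D : ℝ)) * Q0.f) :
    ChyPar.Ok p ∧ CySet (ChyPar.sys p η) (ChyPar.co p) η False C' A E' { Q0 with r := r, f := f } ∧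
      E'.s ^ (C' : ℝ) ≤ ChyPar.H p * 2 ^ E'.k0 / f ^ 2 ∧ ChyPar.H p * 2 ^ E'.k0 / f ^ 2 ≤ E'.s ^ (-(C' : ℝ)) := by
  obtain ⟨hp, hset, g1, g2⟩ := haf
  have hm : Measurable fun x => cyVec (ChyPar.co p (tmL E.k0 E.i0) x) := by
    have := hp.mX; have := hp.mB; have := hp.mY
    unfold cyVec ChyPar.co
    fun_prop
  refine ⟨hp, sf_pr_set_scale hm (cy_frm_set hη hm hset h1 h2 h3 h4) hroot hnum (Nat.mul_le_mul_left _ hn2), ?_⟩
  have hs0 : 0 < E.s := gn_s_pos E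
  have hs1 : E.s ≤ 1 := by
    unfold Xp.s
    exact pow_le_one₀ (by norm_num) (by norm_num)
  have hnum' : (((C + 6 * D : ℕ) : ℝ) * E.n) ≤ (C' : ℝ) * E'.n := by exact_mod_cast hnum
  have p1 : E'.s ^ (C' : ℝ) ≤ E.s ^ ((C + 6 * D : ℕ) : ℝ) := by
    rw [gn_s_rpow, gn_s_rpow]; exact gn_two_mono (by linarith)
  have p2 : E.s ^ (-((C + 6 * D : ℕ) : ℝ)) ≤ E'.s ^ (-(C' : ℝ)) := by
    rw [gn_s_rpow, gn_s_rpow]; exact gn_two_mono (by linarith)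
  have eN : E.s ^ ((C + 6 * D : ℕ) : ℝ) = E.s ^ (C : ℝ) * (E.s ^ (D : ℝ)) ^ 6 := by
    rw [Real.rpow_natCast, Real.rpow_natCast, Real.rpow_natCast, pow_add, mul_comm 6 D, pow_mul]
  have eN' : E.s ^ (-((C + 6 * D : ℕ) : ℝ)) = (E.s ^ (C : ℝ) * (E.s ^ (D : ℝ)) ^ 6)⁻¹ := by
    rw [Real.rpow_neg hs0.le, eN]
  rw [Real.rpow_neg hs0.le] at g2 h4
  have key := sf_pr_aux_af_pl (E.s ^ (C : ℝ)) (E.s ^ (D : ℝ)) (ChyPar.H p * 2 ^ E.k0) Q0.f f (Real.rpow_pos_of_pos hs0 _)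
    (Real.rpow_pos_of_pos hs0 _) (Real.rpow_le_one hs0.le hs1 (Nat.cast_nonneg _)) hset.f_pos g1 g2 h3 h4
  rw [← eN, ← Real.rpow_neg hs0.le] at key
  rw [hroot.1]
  exact ⟨p1.trans key.1, key.2.trans p2⟩

/-- LEAF PR-D2 (~200 l.).   `C1 = ⌈(C + 6 D) / a0⌉₊ + C + 6 D`, any `C' ≥ C1`.   Two cases of `hY`, `subst`; `af` unfolds (`sfCl`, `sfHy`) to `Ok p ∧ CySet ..` (`∧` the range of the Planck parameter).   `cy_frm_set` (frame, package `C + 6 D`, at the scale of `E`),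
then `sf_pr_set_scale` (`(C + 6 D) n ≤ C' n'` as in `gn_prefix_cls`; `A n' ≤ A n`).   Measurability: `cy_cl_vec_meas`, `cy_hy_vec_meas` (`Cyl/InstCl.lean`, `Cyl/InstHy.lean`; if the import is too heavy: `SfCyOk.meas` + `Measurable.prodMk`).
Planck (hybrid): as the end of the proof of `cy_frm`, then `E.s^(C+6D) ≥ E'.s^C'`. -/
theorem sf_pr_af (Y : SfCy) (hY : (∃ η, Y = sfCl η) ∨ ∃ η, Y = sfHy η) (hη : 0 < Y.η ∧ Y.η < 1) : SfPrAf Y := by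
  intro C D a0 h0
  refine ⟨⌈((C : ℝ) + 6 * D) / a0⌉₊ + C + 6 * D, ?_⟩
  intro C' hC' A p E E' Q0 r f haf hroot hn1 hn2 h1 h2 h3 h4
  have hnum : (C + 6 * D) * E.n ≤ C' * E'.n := sf_pr_aux_af_num C D a0 h0 C' E.n E'.n hC' hn1
  rcases hY with ⟨η, rfl⟩ | ⟨η, rfl⟩
  · exact sf_pr_aux_af_cl η hη C D C' A p E E' Q0 r f haf hroot hnum hn2 h1 h2 h3 h4
  · exact sf_pr_aux_af_hy η hη C D C' A p E E' Q0 r f haf hroot hnum hn2 h1 h2 h3 h4

/-- LEAF PR-D3 (~150 l.).   SIZES UNDER A DILATION.   Components of `(sfFrameDil ρ φ).ray z` : `z.X/ρ, z.B/ρ, z.Y/ρ², z.N/φ, z.D/φ`;  of `(sfFrameDil ρ φ).tst Q` : `x/ρ, b/ρ, y/ρ², c/φ, d/φ, ρ al/φ, be ρ²/φ, K ρ²/φ` (after `simp` with the definitions).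
Every factor is `≤ v³`  (`1/ρ ≤ v`, `ρ ≤ v`, `1/φ ≤ v`, `1 ≤ v`). -/
theorem sf_pr_dil_size (ρ φ v : ℝ) (hv : 1 ≤ v) (hρ : 0 < ρ) (hφ : 0 < φ) (h1 : 1 / ρ ≤ v) (h2 : ρ ≤ v) (h3 : 1 / φ ≤ v) (r' f' : ℝ) :
    (∀ z : SfRay, ((sfFrameDil ρ φ).ray z).size ≤ v ^ 3 * z.size) ∧
    ∀ Q : SfTest, SfTest.size { (sfFrameDil ρ φ).tst Q with r := r', f := f' } ≤ v ^ 3 * Q.size := by
  have hv0 : 0 ≤ v := by linarith
  have v2 : v ≤ v ^ 2 := by nlinarith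
  have v3 : v ^ 2 ≤ v ^ 3 := by nlinarith [sq_nonneg v]
  have p1 : 0 ≤ 1 / ρ := by positivity
  have p3 : 0 ≤ 1 / φ := by positivity
  have c1 : 1 / ρ ≤ v ^ 3 := by linarith
  have c3 : 1 / φ ≤ v ^ 3 := by linarith
  have c2 : 1 / ρ ^ 2 ≤ v ^ 3 := by
    have : 1 / ρ ^ 2 = (1 / ρ) * (1 / ρ) := by field_simp
    rw [this]
    have := mul_le_mul h1 h1 p1 hv0
    nlinarith
  have c4 : ρ * (1 / φ) ≤ v ^ 3 := by
    have := mul_le_mul h2 h3 p3 hv0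
    nlinarith
  have c5 : ρ ^ 2 * (1 / φ) ≤ v ^ 3 := by
    have a1 : ρ ^ 2 ≤ v ^ 2 := pow_le_pow_left₀ hρ.le h2 2
    have := mul_le_mul a1 h3 p3 (by positivity)
    calc ρ ^ 2 * (1 / φ) ≤ v ^ 2 * v := this
      _ = v ^ 3 := by ring
  refine ⟨fun z => ?_, fun Q => ?_⟩
  · rw [sf_pr_aux_dil_ray_eq]
    have d1 : |z.X| ≤ z.size := le_max_left _ _
    have d2 : |z.B| ≤ z.size := (le_max_left _ _).trans (le_max_right _ _)
    have d3 : |z.Y| ≤ z.size := ((le_max_left _ _).trans (le_max_right _ _)).trans (le_max_right _ _)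
    have d4 : |z.N| ≤ z.size :=
      (((le_max_left _ _).trans (le_max_right _ _)).trans (le_max_right _ _)).trans (le_max_right _ _)
    have d5 : |z.D| ≤ z.size :=
      (((le_max_right _ _).trans (le_max_right _ _)).trans (le_max_right _ _)).trans (le_max_right _ _)
    obtain ⟨S, hS⟩ : ∃ S, S = z.size := ⟨_, rfl⟩
    rw [← hS] at d1 d2 d3 d4 d5 ⊢
    unfold SfRay.size
    simp only
    refine max_le ?_ (max_le ?_ (max_le ?_ (max_le ?_ ?_)))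
    · have e : z.X / ρ = 1 / ρ * z.X := by ring
      rw [e]; exact sf_pr_aux_dil_fac p1 c1 d1
    · have e : z.B / ρ = 1 / ρ * z.B := by ring
      rw [e]; exact sf_pr_aux_dil_fac p1 c1 d2
    · have e : z.Y / ρ ^ 2 = 1 / ρ ^ 2 * z.Y := by ring
      rw [e]; exact sf_pr_aux_dil_fac (by positivity) c2 d3
    · have e : z.N / φ = 1 / φ * z.N := by ring
      rw [e]; exact sf_pr_aux_dil_fac p3 c3 d4
    · have e : z.D / φ = 1 / φ * z.D := by ring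
      rw [e]; exact sf_pr_aux_dil_fac p3 c3 d5
  · have d1 : |Q.x| ≤ Q.size := le_max_left _ _
    have d2 : |Q.b| ≤ Q.size := (le_max_left _ _).trans (le_max_right _ _)
    have d3 : |Q.y| ≤ Q.size := ((le_max_left _ _).trans (le_max_right _ _)).trans (le_max_right _ _)
    have d4 : |Q.c| ≤ Q.size :=
      (((le_max_left _ _).trans (le_max_right _ _)).trans (le_max_right _ _)).trans (le_max_right _ _)
    have d5 : |Q.d| ≤ Q.size :=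
      ((((le_max_left _ _).trans (le_max_right _ _)).trans (le_max_right _ _)).trans (le_max_right _ _)).trans (le_max_right _ _)
    have d6 : |Q.al| ≤ Q.size :=
      (((((le_max_left _ _).trans (le_max_right _ _)).trans (le_max_right _ _)).trans (le_max_right _ _)).trans
        (le_max_right _ _)).trans (le_max_right _ _)
    have d7 : |Q.be| ≤ Q.size :=
      ((((((le_max_left _ _).trans (le_max_right _ _)).trans (le_max_right _ _)).trans (le_max_right _ _)).trans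
        (le_max_right _ _)).trans (le_max_right _ _)).trans (le_max_right _ _)
    have d8 : |Q.K| ≤ Q.size :=
      ((((((le_max_right _ _).trans (le_max_right _ _)).trans (le_max_right _ _)).trans (le_max_right _ _)).trans
        (le_max_right _ _)).trans (le_max_right _ _)).trans (le_max_right _ _)
    obtain ⟨S, hS⟩ : ∃ S, S = Q.size := ⟨_, rfl⟩
    rw [← hS] at d1 d2 d3 d4 d5 d6 d7 d8 ⊢
    unfold SfTest.size
    simp only [SfFrame.tst, SfFrame.bc, SfFrame.yc, sfFrameDil, sfZero, SfTest.beAt]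
    refine max_le ?_ (max_le ?_ (max_le ?_ (max_le ?_ (max_le ?_ (max_le ?_ (max_le ?_ ?_))))))
    · refine le_of_eq_of_le (congrArg _ ?_) (sf_pr_aux_dil_fac p1 c1 d1)
      ring
    · refine le_of_eq_of_le (congrArg _ ?_) (sf_pr_aux_dil_fac p1 c1 d2)
      ring
    · refine le_of_eq_of_le (congrArg _ ?_) (sf_pr_aux_dil_fac (by positivity) c2 d3)
      ring
    · refine le_of_eq_of_le (congrArg _ ?_) (sf_pr_aux_dil_fac p3 c3 d4)
      ring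
    · refine le_of_eq_of_le (congrArg _ ?_) (sf_pr_aux_dil_fac p3 c3 d5)
      ring
    · refine le_of_eq_of_le (congrArg _ ?_) (sf_pr_aux_dil_fac (by positivity) c4 d6)
      ring
    · refine le_of_eq_of_le (congrArg _ ?_) (sf_pr_aux_dil_fac (by positivity) c5 d7)
      ring
    · refine le_of_eq_of_le (congrArg _ ?_) (sf_pr_aux_dil_fac (by positivity) c5 d8)
      ring

end Claimed.Agent.R256
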