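import Claimed.Agent.R256.Soft.MResDef

/-!
# Row 256 (S0496), unit SOFT, M4 RES, file 4: THE SHADOW OF A REFINEMENT      (architect helper200; block BP-256-SOFT-RES; prefix `sf_res_`)

PAPER FREE (sets, finite types, `ancI`).   DATA: a shadow `sh : SfSh Y p W de ε μ D`, a refinement `F : SfRn W' W i0 R` with `hR : SfRs sh i0 R` (the row sets are saturated for the atoms), `hS : W.Str`, `hS' : W'.Str`.
EXIT: `sfResAt sh F .. : SfAt Y p W' μ` = the set-level data of a shadow of `W'`:  rows = the old rows that SURVIVE (`sfResKeep`: the label survives, the atom lies in the rows that the new shadow has to cover), SAME atoms, representatives, exact index.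
KEY: `sf_res_sat` (all or nothing): an old atom that meets `sfDocSup Y p W' j l'` lies in it   (hybrid: saturation of `R`; classical: atoms are full cells of the exact index, so an atom of the gate `j` is an atom of every earlier gate).
LEAVES `L-256-RES-B*`: prove IN PLACE, statement verbatim, helpers directly above.
-/

set_option autoImplicit false

namespace Claimed.Agent.R256

open MeasureTheory Claimed.Agent.R255

section

variable {Y : SfCy} {p : Y.M.Par} {W W' : SfMD (Y.M.sys p)} {de ε μ : ℝ} {D : SfDoc} (sh : SfSh Y p W de ε μ D) {i0 : ℝ}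
  {R : ∀ j, W.Lb j → Set (Y.M.sys p).X} (F : SfRn W' W i0 R)

/-- the old row survives -/
def sfResKeep (j : ℝ) (ρ : D.Row j) : Prop := j ∈ W.G → ∃ l', F.g j l' = sh.lb j ρ ∧ sh.atm j ρ ⊆ sfDocSup Y p W' j l'

/-- the new label of a surviving row (junk value off the mesh) -/
noncomputable def sfResLb (hl : ∀ j, Nonempty (W'.Lb j)) (j : ℝ) (ρ : {ρ : D.Row j // sfResKeep sh F j ρ}) : W'.Lb j :=
  open Classical in if h : ∃ l', F.g j l' = sh.lb j ρ.1 then h.choose else (hl j).some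

theorem sf_res_at_eqns_cite : True := by
  have := @sfResKeep.eq_1
  have := @sfResLb.eq_1
  trivial

theorem sf_res_lb_g (hl : ∀ j, Nonempty (W'.Lb j)) {j : ℝ} (hj : j ∈ W.G) (ρ : {ρ : D.Row j // sfResKeep sh F j ρ}) :
    F.g j (sfResLb sh F hl j ρ) = sh.lb j ρ.1 := by
  obtain ⟨l', h1, -⟩ := ρ.2 hj
  have h : ∃ l', F.g j l' = sh.lb j ρ.1 := ⟨l', h1⟩
  unfold sfResLb
  rw [dif_pos h]
  exact h.choose_spec

theorem sf_res_lb_sup (hl : ∀ j, Nonempty (W'.Lb j)) {j : ℝ} (hj : j ∈ W.G) (ρ : {ρ : D.Row j // sfResKeep sh F j ρ}) :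
    sh.atm j ρ.1 ⊆ sfDocSup Y p W' j (sfResLb sh F hl j ρ) := by
  obtain ⟨l', h1, h2⟩ := ρ.2 hj
  have e : sfResLb sh F hl j ρ = l' := F.inj j ((sf_res_lb_g sh F hl hj ρ).trans h1.symm)
  rw [e]
  exact h2

/-! ## LEAF L-256-RES-B1 : transport of the model-level vocabulary along a refinement -/

omit sh in
/-- times, frames, rays, labels.   PLAN: unfold `SfMD.T`, `SfMD.fr`, `sfDocRay`, `sfDocLab`, `Xp.s`; rewrite `F.hk`, `F.iv`, `F.ts`, `F.hk0`, `F.hi0`, `F.hq0`, `F.hn`. -/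
theorem sf_res_tr (j : ℝ) (l' : W'.Lb j) : W'.T j l' = W.T j (F.g j l') ∧ W'.fr = W.fr ∧ W'.E.s = W.E.s ∧
    (∀ x, sfDocRay Y p W' j l' x = sfDocRay Y p W j (F.g j l') x) ∧ sfDocLab Y p W' j l' = sfDocLab Y p W j (F.g j l') := by
  have e1 : W'.T j l' = W.T j (F.g j l') := by
    unfold SfMD.T
    rw [F.hk, F.iv]
  have e2 : W'.fr = W.fr := by
    unfold SfMD.fr
    rw [F.hk0, F.hi0, F.hq0]
  have e3 : W'.E.s = W.E.s := by
    unfold Xp.s
    rw [F.hn]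
  refine ⟨e1, e2, e3, fun x => ?_, ?_⟩
  · unfold sfDocRay
    rw [e1, e2]
  · unfold sfDocLab
    rw [e1, e2, F.ts]

omit sh in
/-- a row retained by the new label is retained by the old one and lies in the row set.   PLAN: `F.th`, `Set.indicator_apply`, `by_cases x ∈ R ..`. -/
theorem sf_res_th_ne {j : ℝ} {l' : W'.Lb j} {x : (Y.M.sys p).X} : W'.th j l' x ≠ 0 ↔ (x ∈ R j (F.g j l') ∧ W.th j (F.g j l') x ≠ 0) := by
  rw [F.th]
  by_cases hx : x ∈ R j (F.g j l')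
  · rw [Set.indicator_of_mem hx]
    exact ⟨fun h => ⟨hx, h⟩, fun h => h.2⟩
  · rw [Set.indicator_of_notMem hx]
    exact ⟨fun h => absurd rfl h, fun h => absurd h.1 hx⟩

omit sh in
/-- PLAN: unfold `SfMD.Anc`; `F.hG`; the label `l0'` goes to `F.g g l0'`; `F.iv`, `F.hk`; `sf_res_th_ne`. -/
theorem sf_res_anc {j : ℝ} {l' : W'.Lb j} {x : (Y.M.sys p).X} (h : W'.Anc j l' x) : W.Anc j (F.g j l') x := by
  intro g hg hgj
  obtain ⟨l0, h1, h2⟩ := h g (F.hG.symm ▸ hg) hgj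
  refine ⟨F.g g l0, ?_, ((sf_res_th_ne F).1 h2).2⟩
  rw [← F.iv, h1, F.hk, F.iv]

omit sh in
/-- PLAN: `sfDocSup`, `sf_res_th_ne`, `sf_res_anc`. -/
theorem sf_res_sup_sub {j : ℝ} {l' : W'.Lb j} {x : (Y.M.sys p).X} (h : x ∈ sfDocSup Y p W' j l') :
    x ∈ sfDocSup Y p W j (F.g j l') ∧ x ∈ R j (F.g j l') := by
  obtain ⟨h1, h2⟩ := h
  obtain ⟨h3, h4⟩ := (sf_res_th_ne F).1 h1
  exact ⟨⟨h4, fun hc => sf_res_anc F (h2 hc)⟩, h3⟩

/-! ## LEAF L-256-RES-B2 : saturation -/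

/-- an atom that meets its row set lies in it.   PLAN: `by_cases j = i0`: `subst`, `hR.sat ρ`, the second alternative contradicts `hx, hxR` (`Set.disjoint_left`);  else `hR.univ`. -/
theorem sf_res_sat_R (hR : SfRs sh i0 R) {j : ℝ} (ρ : D.Row j) {x : (Y.M.sys p).X} (hx : x ∈ sh.atm j ρ) (hxR : x ∈ R j (sh.lb j ρ)) :
    sh.atm j ρ ⊆ R j (sh.lb j ρ) := by
  by_cases hji : j = i0
  · subst hji
    rcases hR.sat ρ with h | h
    · exact h
    · exact absurd hxR (Set.disjoint_left.1 h hx)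
  · rw [hR.univ j hji]
    exact Set.subset_univ _

/-- classical: a row of an atom of the gate `j` lies, at an earlier gate `g`, in an atom with the same points, whose label is the retaining label on the ancestor interval.
PLAN: `x ∈ sfDocSup Y p W j (lb ρ)` (`sh.at_cov` ←), so `W.Anc j (lb ρ) x`.   `x ∈ sfDocSup Y p W g l0`: `hx0` and `W.Anc g l0 x`: for `g1 < g` take the label of `W.Anc j ..` at `g1`; its interval is `ancI (k j) (k g1) (iv j ..) = ancI (k g) (k g1) (iv g l0)` (`hiv`, `gn_anc_anc`, `hS.k_mono`).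
`sh.at_cov` → gives `ρ0`.   `sh.ia_mem` twice + `sh.ia_disj`: `D.idx g ρ0 = D.idx j ρ`;  for `y ∈ atm j ρ`: `sh.ia_mem`, rewrite, `sh.ia_full hc`. -/
theorem sf_res_cl_back (hS : W.Str (Y.tq p)) (hc : Y.hyb = false) {j g : ℝ} (hj : j ∈ W.G) (hg : g ∈ W.G) (hgj : g < j) (ρ : D.Row j) {x : (Y.M.sys p).X}
    (hx : x ∈ sh.atm j ρ) (l0 : W.Lb g) (hiv : W.iv g l0 = ancI (W.k j) (W.k g) (W.iv j (sh.lb j ρ))) (hx0 : W.th g l0 x ≠ 0) :
    ∃ ρ0 : D.Row g, sh.lb g ρ0 = l0 ∧ x ∈ sh.atm g ρ0 ∧ sh.atm j ρ ⊆ sh.atm g ρ0 := by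
  have h1 := (sh.at_cov j hj (sh.lb j ρ) x).2 ⟨ρ, rfl, hx⟩
  have hA : W.Anc j (sh.lb j ρ) x := h1.2 hc
  have hA0 : W.Anc g l0 x := by
    intro g1 hg1 hg1g
    obtain ⟨l1, h2, h3⟩ := hA g1 hg1 (hg1g.trans hgj)
    refine ⟨l1, ?_, h3⟩
    rw [h2, hiv, gn_anc_anc (hS.k_mono g1 hg1 g hg hg1g).1 (hS.k_mono g hg j hj hgj).1]
  obtain ⟨ρ0, h4, h5⟩ := (sh.at_cov g hg l0 x).1 ⟨hx0, fun _ => hA0⟩
  refine ⟨ρ0, h4, h5, fun y hy => ?_⟩
  have h6 := sh.ia_mem j hj ρ x hx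
  have h7 := sh.ia_mem g hg ρ0 x h5
  have h8 : D.idx g ρ0 = D.idx j ρ := by
    by_contra hne
    exact Set.disjoint_left.1 (sh.ia_disj _ _ hne) h7 h6
  have h9 := sh.ia_mem j hj ρ y hy
  rw [← h8] at h9
  exact sh.ia_full hc g hg ρ0 y h9

/-- **ALL OR NOTHING**.   PLAN: let `y ∈ atm j ρ`.   `W'.th j l' y ≠ 0`: `sf_res_th_ne`, `hl`, `sf_res_sat_R` (with `x`, `sf_res_sup_sub`), `sh.at_cov` ←.
`W'.Anc j l' y` (if `hyb = false`): for `g < j` the label `l0'` of `W'.Anc j l' x`; `sf_res_th_ne` gives `x ∈ R g (F.g g l0')`, `W.th g (F.g g l0') x ≠ 0`; `sf_res_cl_back` (interval: `F.iv`, `F.hk`, `hl`) gives `ρ0` with `y ∈ atm g ρ0`; `sf_res_sat_R` at `ρ0`, `sh.at_cov` ←; `sf_res_th_ne`. -/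
theorem sf_res_sat (hR : SfRs sh i0 R) (hS : W.Str (Y.tq p)) {j : ℝ} (hj : j ∈ W.G) (ρ : D.Row j) (l' : W'.Lb j) (hl : F.g j l' = sh.lb j ρ) {x : (Y.M.sys p).X}
    (hx : x ∈ sh.atm j ρ) (hx' : x ∈ sfDocSup Y p W' j l') : sh.atm j ρ ⊆ sfDocSup Y p W' j l' := by
  intro y hy
  obtain ⟨hxs, hxR⟩ := sf_res_sup_sub F hx'
  rw [hl] at hxR
  have hyR := sf_res_sat_R sh hR ρ hx hxR hy
  have hy1 := (sh.at_cov j hj (sh.lb j ρ) y).2 ⟨ρ, rfl, hy⟩
  refine ⟨(sf_res_th_ne F).2 ⟨by rw [hl]; exact hyR, by rw [hl]; exact hy1.1⟩, fun hc g hg hgj => ?_⟩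
  have hg' : g ∈ W.G := F.hG ▸ hg
  obtain ⟨l0', h1, h2⟩ := hx'.2 hc g hg hgj
  obtain ⟨h3, h4⟩ := (sf_res_th_ne F).1 h2
  have hiv : W.iv g (F.g g l0') = ancI (W.k j) (W.k g) (W.iv j (sh.lb j ρ)) := by
    rw [← F.iv, h1, F.hk, F.iv, hl]
  obtain ⟨ρ0, h5, h6, h7⟩ := sf_res_cl_back sh hS hc hj hg' hgj ρ hx (F.g g l0') hiv h4
  have h8 : x ∈ R g (sh.lb g ρ0) := by rw [h5]; exact h3
  have h9 := sf_res_sat_R sh hR ρ0 h6 h8 (h7 hy)
  have h10 := (sh.at_cov g hg' (sh.lb g ρ0) y).2 ⟨ρ0, rfl, h7 hy⟩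
  refine ⟨l0', h1, (sf_res_th_ne F).2 ⟨?_, ?_⟩⟩
  · rw [← h5]
    exact h9
  · rw [← h5]
    exact h10.1

/-! ## LEAF L-256-RES-B3 : the covering property -/

/-- PLAN: (→) `sf_res_sup_sub`, `sh.at_cov` → gives `ρ` with `lb ρ = F.g j l'`, `x ∈ atm ρ`; it survives by `sf_res_sat`; its new label is `l'` (`F.inj`, `sf_res_lb_g`).   (←) `sf_res_lb_sup`. -/
theorem sf_res_cov (hR : SfRs sh i0 R) (hS : W.Str (Y.tq p)) (hl : ∀ j, Nonempty (W'.Lb j)) {j : ℝ} (hj : j ∈ W.G) (l' : W'.Lb j) (x : (Y.M.sys p).X) :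
    x ∈ sfDocSup Y p W' j l' ↔ ∃ ρ : {ρ : D.Row j // sfResKeep sh F j ρ}, sfResLb sh F hl j ρ = l' ∧ x ∈ sh.atm j ρ.1 := by
  constructor
  · intro hx
    obtain ⟨h1, h2⟩ := sf_res_sup_sub F hx
    obtain ⟨ρ, h3, h4⟩ := (sh.at_cov j hj (F.g j l') x).1 h1
    have hk : sfResKeep sh F j ρ := fun _ => ⟨l', h3.symm, sf_res_sat sh F hR hS hj ρ l' h3.symm h4 hx⟩
    refine ⟨⟨ρ, hk⟩, F.inj j ?_, h4⟩
    rw [sf_res_lb_g sh F hl hj ⟨ρ, hk⟩]
    exact h3
  · rintro ⟨ρ, rfl, hx⟩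
    exact sf_res_lb_sup sh F hl hj ρ hx

/-- every gate keeps a row.   PLAN: `j ∉ G`: `sfResKeep` is vacuous; `D.Row j` is nonempty since `(D.P j).sum_one` (an empty sum is `0`).   `j ∈ G`: `hne`, `sf_res_cov`. -/
theorem sf_res_row_ne (hR : SfRs sh i0 R) (hS : W.Str (Y.tq p)) (hl : ∀ j, Nonempty (W'.Lb j)) (hne : ∀ j ∈ W.G, ∃ l', (sfDocSup Y p W' j l').Nonempty) (j : ℝ) :
    Nonempty {ρ : D.Row j // sfResKeep sh F j ρ} := by
  by_cases hj : j ∈ W.G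
  · obtain ⟨l', x, hx⟩ := hne j hj
    obtain ⟨ρ, -, -⟩ := (sf_res_cov sh F hR hS hl hj l' x).1 hx
    exact ⟨ρ⟩
  · have hne' : Nonempty (D.Row j) := by
      by_contra h
      rw [not_nonempty_iff] at h
      have h1 := (D.P j).sum_one
      rw [Finset.sum_of_isEmpty] at h1
      exact zero_ne_one h1
    obtain ⟨ρ⟩ := hne'
    exact ⟨⟨ρ, fun h => absurd h hj⟩⟩

/-- **the set-level data of the shadow of the refinement** -/
noncomputable def sfResAt (hR : SfRs sh i0 R) (hS : W.Str (Y.tq p)) (hl : ∀ j, Nonempty (W'.Lb j)) (hne : ∀ j ∈ W.G, ∃ l', (sfDocSup Y p W' j l').Nonempty) :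
    SfAt Y p W' μ where
  R := fun j => {ρ : D.Row j // sfResKeep sh F j ρ}
  fR := fun _ => Fintype.ofFinite _
  neR := sf_res_row_ne sh F hR hS hl hne
  lb := sfResLb sh F hl
  atm := fun j ρ => sh.atm j ρ.1
  rp := fun j ρ => sh.rp j ρ.1
  Idx := D.Idx
  idx := fun j ρ => D.idx j ρ.1
  ia := sh.ia
  at_meas := fun j hj ρ => sh.at_meas j (F.hG ▸ hj) ρ.1
  at_disj := fun j hj ρ ρ' h hne' => by
    have hj' : j ∈ W.G := F.hG ▸ hj
    refine sh.at_disj j hj' ρ.1 ρ'.1 ?_ (fun h' => hne' (Subtype.ext h'))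
    rw [← sf_res_lb_g sh F hl hj' ρ, ← sf_res_lb_g sh F hl hj' ρ', h]
  at_ne := fun j hj ρ => sh.at_ne j (F.hG ▸ hj) ρ.1
  at_cov := fun j hj l' x => sf_res_cov sh F hR hS hl (F.hG ▸ hj) l' x
  rp_cell := fun j hj ρ => by
    have hj' : j ∈ W.G := F.hG ▸ hj
    have h := sh.rp_cell j hj' ρ.1
    rw [F.ts, (sf_res_tr F j _).1, F.hk, sf_res_lb_g sh F hl hj' ρ]
    exact h
  rp_cl := fun hc i hi j hj ρ ρ' h => sh.rp_cl hc i (F.hG ▸ hi) j (F.hG ▸ hj) ρ.1 ρ'.1 h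
  small := fun j hj ρ x hx => by
    have hj' : j ∈ W.G := F.hG ▸ hj
    have h := sh.small j hj' ρ.1 x hx
    rw [sh.hray j hj' ρ.1] at h
    obtain ⟨-, -, e3, e4, -⟩ := sf_res_tr F j (sfResLb sh F hl j ρ)
    rw [e4, e4, e3, sf_res_lb_g sh F hl hj' ρ]
    exact h
  ia_disj := sh.ia_disj
  ia_mem := fun j hj ρ x hx => sh.ia_mem j (F.hG ▸ hj) ρ.1 x hx
  ia_full := fun hc j hj ρ x hx => sh.ia_full hc j (F.hG ▸ hj) ρ.1 x hx

theorem sf_res_at2_eqns_cite : True := by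
  have := @sfResAt.eq_1
  trivial

end

/-! ## LEAF L-256-RES-B4 : a gate that reads mass has rows to cover (any documented experiment) -/

/-- PLAN: by contradiction all `sfDocSup` are empty.   Hybrid (`hyb = true`): `hS.lb_ne`, `hS.ne` give a retained row, which lies in `sfDocSup` (the second clause is vacuous).
Classical: for every `l` the weight equals `{x | ¬ Anc}.indicator (th l)` (`funext`; a row with `th ≠ 0` and `Anc` would lie in `sfDocSup`), so `W.m j l = 0` by `hO`; `W.tot j = 0`. -/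
theorem sf_res_sup_ne {Y : SfCy} {p : Y.M.Par} {W : SfMD (Y.M.sys p)} (hS : W.Str (Y.tq p)) (hO : Y.hyb = false → W.NoOrph) {j : ℝ} (hj : j ∈ W.G) (hpos : 0 < W.tot j) :
    ∃ l, (sfDocSup Y p W j l).Nonempty := by
  by_contra hcon
  cases hh : Y.hyb with
  | true =>
    obtain ⟨l⟩ := hS.lb_ne j
    obtain ⟨x, hx⟩ := hS.ne j hj l
    exact hcon ⟨l, x, hx, fun hc => by
      rw [hh] at hc
      exact absurd hc (by simp)⟩
  | false =>
    have hm : ∀ l, W.m j l = 0 := by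
      intro l
      have e : W.th j l = {x | ¬ W.Anc j l x}.indicator (W.th j l) := by
        funext x
        by_cases hA : W.Anc j l x
        · rw [Set.indicator_of_notMem (fun h : ¬ W.Anc j l x => h hA)]
          by_contra h0
          exact hcon ⟨l, x, h0, fun _ => hA⟩
        · rw [Set.indicator_of_mem (show x ∈ {x | ¬ W.Anc j l x} from hA)]
      unfold SfMD.m
      rw [e]
      exact hO hh j hj l
    have h0 : W.tot j = 0 := by
      unfold SfMD.tot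
      exact Finset.sum_eq_zero fun l _ => hm l
    linarith

end Claimed.Agent.R256
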