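import Claimed.Agent.R256.Soft.MDocMk
import Claimed.Agent.R256.Cyl.Kit

/-!
# Row 256 (S0496), unit SOFT, M4 RES, file 1: DEFINITIONS      (architect helper200; block BP-256-SOFT-RES; prefix `sf_res_`)

RESTRICTION OF ONE GATE of a documented experiment `W : SfMD P` to row sets `R j l` (`R j l = univ` off the gate `i0`):
* `SfMD.Kp R j l`     the label `l` keeps a row (labels without a retained row are dropped: `Str.ne`);
* `SfMD.rsW R E'`     the documented experiment with the labels `{l // Kp}`, the weights `1_R th`, and the experiment `E'`;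
* `SfMD.rsS R i0`     `i0 < 1`: `E' = W.E` with the mask of the stage `pos i0` replaced by `rsM R i0` = sum of the restricted weights;
* `SfMD.rsF R`        `i0 = 1`: `E' = W.E` with the final assignment replaced by the restricted one;
* `SfRn W' W i0 R`    ABSTRACT RELATION "`W'` is `W` with the weights restricted to `R`, and nothing changes BEFORE the synthesis of the gate `i0`" (stable under forward preparation: `SfRn.fwd`).
  Everything about shadows (files `MResAt`, `MResLaw`) is proved from `SfRn` only.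
* `SfRs sh i0 R`      `R` is measurable, trivial off `i0`, and SATURATED for the atoms of the shadow `sh`;   `sfResR sh i0 Kp` = the union of the atoms `ρ` of the gate `i0` with `Kp ρ`.
-/

set_option autoImplicit false

namespace Claimed.Agent.R256

open MeasureTheory Claimed.Agent.R255

namespace SfMD

variable {P : PkSys} (W : SfMD P) (R : ∀ j, W.Lb j → Set P.X)

/-- the label keeps a row (off the mesh: every label is kept) -/
def Kp (j : ℝ) (l : W.Lb j) : Prop := j ∈ W.G → ∃ x ∈ R j l, W.th j l x ≠ 0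

end SfMD

noncomputable instance sfKpFintype {P : PkSys} (W : SfMD P) (R : ∀ j, W.Lb j → Set P.X) (j : ℝ) : Fintype {l : W.Lb j // W.Kp R j l} :=
  Fintype.ofFinite _

namespace SfMD

variable {P : PkSys} (W : SfMD P) (R : ∀ j, W.Lb j → Set P.X)

/-- restricted labels and weights over a new experiment -/
noncomputable def rsW (E' : Xp P) : SfMD P where
  E := E'
  Q0 := W.Q0
  G := W.G
  k := W.k
  pos := W.pos
  gb := W.gb
  Lb := fun j => {l : W.Lb j // W.Kp R j l}
  fLb := fun j => sfKpFintype W R j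
  iv := fun j l => W.iv j l.1
  ts := fun j l => W.ts j l.1
  th := fun j l => (R j l.1).indicator (W.th j l.1)
  r := W.r
  f := W.f

/-- the restricted mask of the gate `i0` -/
noncomputable def rsM (i0 : ℝ) (m : ℕ) (x : P.X) : ℝ := ∑ l : W.Lb i0, if W.iv i0 l = m then (R i0 l).indicator (W.th i0 l) x else 0

/-- the stack with the restricted mask at the gate `i0 < 1` -/
noncomputable def rsSt (i0 : ℝ) : List (Stg P) :=
  W.E.st.take (W.pos i0) ++ ⟨W.k i0, W.gb i0, W.rsM R i0⟩ :: W.E.st.drop (W.pos i0 + 1)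

/-- restriction of a gate `i0 < 1` -/
noncomputable def rsS (i0 : ℝ) : SfMD P := W.rsW R (W.E.withSt (W.rsSt R i0))

/-- the experiment with the restricted final assignment -/
noncomputable def rsFE : Xp P :=
  { W.E with
    L := Fintype.card {l : W.Lb 1 // W.Kp R 1 l}
    iv := fun a => W.iv 1 ((Fintype.equivFin {l : W.Lb 1 // W.Kp R 1 l}).symm a).1
    ts := fun a => W.ts 1 ((Fintype.equivFin {l : W.Lb 1 // W.Kp R 1 l}).symm a).1
    th := fun a => (R 1 ((Fintype.equivFin {l : W.Lb 1 // W.Kp R 1 l}).symm a).1).indicator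
      (W.th 1 ((Fintype.equivFin {l : W.Lb 1 // W.Kp R 1 l}).symm a).1) }

/-- restriction of the final gate -/
noncomputable def rsF : SfMD P := W.rsW R (W.rsFE R)

end SfMD

/-- **`W'` is `W` with the weights restricted to `R`**; the states entering the gates `≤ i0` are unchanged -/
structure SfRn {P : PkSys} (W' W : SfMD P) (i0 : ℝ) (R : ∀ j, W.Lb j → Set P.X) where
  g : ∀ j, W'.Lb j → W.Lb j
  inj : ∀ j, Function.Injective (g j)
  rng : ∀ j ∈ W.G, ∀ l, (∃ l', g j l' = l) ↔ ∃ x ∈ R j l, W.th j l x ≠ 0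
  hk0 : W'.E.k0 = W.E.k0
  hi0 : W'.E.i0 = W.E.i0
  hn : W'.E.n = W.E.n
  hv : W'.E.v = W.E.v
  he : W'.E.e = W.E.e
  hka : W'.E.ka = W.E.ka
  hb0 : W'.E.b0 = W.E.b0
  hq0 : W'.Q0 = W.Q0
  hG : W'.G = W.G
  hk : W'.k = W.k
  hgb : W'.gb = W.gb
  hr : W'.r = W.r
  hf : W'.f = W.f
  iv : ∀ j l, W'.iv j l = W.iv j (g j l)
  ts : ∀ j l, W'.ts j l = W.ts j (g j l)
  th : ∀ j l, W'.th j l = (R j (g j l)).indicator (W.th j (g j l))
  old : ∀ j ∈ W.G, j ≤ i0 → ∀ m, W'.pre j m = W.pre j m

/-- the row sets are measurable, trivial off the gate `i0`, saturated for the atoms of the shadow -/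
structure SfRs {Y : SfCy} {p : Y.M.Par} {W : SfMD (Y.M.sys p)} {de ε μ : ℝ} {D : SfDoc} (sh : SfSh Y p W de ε μ D) (i0 : ℝ)
    (R : ∀ j, W.Lb j → Set (Y.M.sys p).X) : Prop where
  meas : ∀ j l, MeasurableSet (R j l)
  univ : ∀ j, j ≠ i0 → ∀ l, R j l = Set.univ
  sat : ∀ ρ : D.Row i0, sh.atm i0 ρ ⊆ R i0 (sh.lb i0 ρ) ∨ Disjoint (sh.atm i0 ρ) (R i0 (sh.lb i0 ρ))

/-- the union of the atoms `ρ` of the gate `i0` with `Kp ρ`, sorted by their labels (off the gate `i0`: everything) -/
def sfResR {Y : SfCy} {p : Y.M.Par} {W : SfMD (Y.M.sys p)} {de ε μ : ℝ} {D : SfDoc} (sh : SfSh Y p W de ε μ D) (i0 : ℝ) (Kp : D.Row i0 → Prop)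
    (j : ℝ) (l : W.Lb j) : Set (Y.M.sys p).X :=
  {x | j = i0 → ∃ ρ : D.Row i0, Kp ρ ∧ HEq (sh.lb i0 ρ) l ∧ x ∈ sh.atm i0 ρ}

theorem sf_res_def_eqns_cite : True := by
  have := @SfMD.Kp.eq_1
  have := @SfMD.rsW.eq_1
  have := @SfMD.rsM.eq_1
  have := @SfMD.rsSt.eq_1
  have := @SfMD.rsS.eq_1
  have := @SfMD.rsFE.eq_1
  have := @SfMD.rsF.eq_1
  have := @sfResR.eq_1
  trivial

end Claimed.Agent.R256
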