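import Claimed.Agent.R256.Soft.MResDef

/-!
# Row 256 (S0496), unit SOFT, M4 RES, file 2: RESTRICTION OF ONE GATE (model level, no shadow)      (architect helper200; block BP-256-SOFT-RES; prefix `sf_res_`)

PAPER FREE.   `W : SfMD P` with `hS : W.Str tq`, a gate `i0 ∈ W.G`, row sets `R j l` (measurable, `= univ` off `i0`, some label of `i0` keeps a row).
EXITS: `sf_res_s_str`, `sf_res_f_str` (the restricted experiment is structurally valid), `sfResRfS`, `sfResRfF`, `SfRn.fwd` (the relation `SfRn`), `sf_res_pick` (the `l^3` triangle inequality picks a class).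
LEAVES `L-256-RES-A*`: prove IN PLACE, statement verbatim, helpers directly above (prefix `sf_res_`).   Toolbox: `Gen/Bas{A,B,C}`, `Gen/Tri`, `Cyl/Kit` (`cy_split_mask`), `List.take/drop/getElem?` lemmas, `Finset.sum_subtype`-type lemmas.
-/

set_option autoImplicit false

namespace Claimed.Agent.R256

open MeasureTheory Claimed.Agent.R255

section

variable {P : PkSys} (W : SfMD P) (R : ∀ j, W.Lb j → Set P.X) {tq : P.Tst → CyT}

/-- hypotheses on the row sets (no shadow) -/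
structure SfRh (i0 : ℝ) : Prop where
  meas : ∀ j l, MeasurableSet (R j l)
  univ : ∀ j, j ≠ i0 → ∀ l, R j l = Set.univ
  ne : ∃ l, ∃ x ∈ R i0 l, W.th i0 l x ≠ 0

/-! ## LEAF L-256-RES-A0 : sums over the kept labels, kept labels off the gate -/

/-- a sum over the kept labels = the sum over all labels, if the dropped labels do not contribute.   PLAN: `Finset.sum_subtype`/`Finset.sum_coe_sort` after `Finset.sum_filter`: `∑ l : {l // Kp}, F l.1 = ∑ l ∈ univ.filter Kp, F l` (`Finset.sum_subtype (univ.filter _) (by simp)`, classical),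
then `Finset.sum_filter_of_ne` / `Finset.sum_subset` with `h0`.   NOTE the `Fintype` instance of the subtype is `sfKpFintype` (= `Fintype.ofFinite`): use `Finset.sum_congr`/`Fintype.sum_equiv (Equiv.refl _)` or `Subsingleton.elim` on instances if needed. -/
theorem sf_res_sum_kp (j : ℝ) (F : W.Lb j → ℝ) (h0 : ∀ l, ¬ W.Kp R j l → F l = 0) : ∑ l : {l : W.Lb j // W.Kp R j l}, F l.1 = ∑ l, F l := by
  classical
  rw [← Finset.sum_subtype (Finset.univ.filter fun l => W.Kp R j l) (fun l => by simp) F]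
  exact Finset.sum_filter_of_ne fun l _ hl => by
    by_contra hk
    exact hl (h0 l hk)

/-- a dropped label has the restricted weight `0`.   PLAN: unfold `Kp`, push the negation; `Set.indicator_apply`, cases on `x ∈ R j l`. -/
theorem sf_res_drop_zero {j : ℝ} {l : W.Lb j} (h : ¬ W.Kp R j l) (x : P.X) : (R j l).indicator (W.th j l) x = 0 := by
  by_cases hx : x ∈ R j l
  · rw [Set.indicator_of_mem hx]
    by_contra hne
    exact h fun _ => ⟨x, hx, hne⟩
  · exact Set.indicator_of_notMem hx _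

/-- off the gate `i0` every label is kept.   PLAN: `Str.ne`, `hR.univ`. -/
theorem sf_res_kp_off (hS : W.Str tq) {i0 : ℝ} (hR : SfRh W R i0) {j : ℝ} (hj : j ≠ i0) (l : W.Lb j) : W.Kp R j l := by
  intro hjG
  obtain ⟨x, hx⟩ := hS.ne j hjG l
  exact ⟨x, by rw [hR.univ j hj l]; trivial, hx⟩

/-- every gate keeps a label.   PLAN: `j = i0`: `hR.ne`;  `j ≠ i0`: `hS.lb_ne j`, `sf_res_kp_off`. -/
theorem sf_res_lb_ne (hS : W.Str tq) {i0 : ℝ} (hR : SfRh W R i0) (j : ℝ) : Nonempty {l : W.Lb j // W.Kp R j l} := by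
  by_cases hj : j = i0
  · subst hj
    obtain ⟨l, h⟩ := hR.ne
    exact ⟨⟨l, fun _ => h⟩⟩
  · obtain ⟨l⟩ := hS.lb_ne j
    exact ⟨⟨l, sf_res_kp_off W R hS hR hj l⟩⟩

/-! ## LEAF L-256-RES-A1 : the fields of `Str` that do not see the experiment -/

/-- PLAN: one field at a time; `(W.rsW R E').X` reduces by `rfl` to the data of `W` (`show`), `SfMD.T`, `SfMD.ivs` unfold to `W.k`, `W.iv`, `E'.k0`, `E'.i0` (rewrite `h0 h1 hn`; `Xp.kf = k0 + n`).
`zero_one`, `nn`, `supp`: `Set.indicator_apply`, cases on `x ∈ R`;  `meas`: `Measurable.indicator (hS.meas ..) (hR.meas ..)`;  `ne`: `l.2 hi`;  `lb_ne`: `sf_res_lb_ne`;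
`sum_le`: `sf_res_sum_kp` (+ `sf_res_drop_zero`), then termwise `indicator ≤ th` (`hS.nn`) and `hS.sum_le`. -/
theorem sf_res_str_of (hS : W.Str tq) {i0 : ℝ} (hR : SfRh W R i0) (E' : Xp P) (hv : E'.Valid) (h0 : E'.k0 = W.E.k0) (h1 : E'.i0 = W.E.i0) (hn : E'.n = W.E.n)
    (hlen : E'.st.length = W.E.st.length) (hbT : E'.bT = W.E.bT)
    (hst : ∀ i ∈ W.G, i < 1 → ∃ σ : Stg P, E'.st[W.pos i]? = some σ ∧ σ.k = W.k i ∧ σ.b = W.gb i ∧
      ∀ m x, σ.M m x = ∑ l : {l : W.Lb i // W.Kp R i l}, if W.iv i l.1 = m then (R i l.1).indicator (W.th i l.1) x else 0)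
    (hfin : ∃ e : {l : W.Lb 1 // W.Kp R 1 l} ≃ Fin E'.L, ∀ l, E'.iv (e l) = W.iv 1 l.1 ∧ E'.ts (e l) = W.ts 1 l.1 ∧
      E'.th (e l) = (R 1 l.1).indicator (W.th 1 l.1)) : (W.rsW R E').Str tq := by
  have hkf : E'.kf = W.E.kf := by
    unfold Xp.kf
    rw [h0, hn]
  refine ⟨hv, hS.gate, ⟨?_, ?_, ?_⟩, fun i hi => ⟨?_, ?_⟩, hS.k_mono, hst, fun i hi hi1 l x => ?_, hfin, fun i hi l => ?_, fun i hi l => ?_,
    fun i => sf_res_lb_ne W R hS hR i, fun i hi l x => ?_, fun i hi m x => ?_, fun i hi l x hx => ?_, fun i hi l => ?_, fun i hi l => hS.ok i hi l.1,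
    fun i hi l => hS.width i hi l.1, hS.frame⟩
  · show W.k 1 = E'.kf
    rw [hkf]
    exact hS.k_one.1
  · show W.pos 1 = E'.st.length
    rw [hlen]
    exact hS.k_one.2.1
  · show W.gb 1 = E'.bT
    rw [hbT]
    exact hS.k_one.2.2
  · show E'.k0 ≤ W.k i
    rw [h0]
    exact (hS.k_rg i hi).1
  · show W.k i ≤ E'.kf
    rw [hkf]
    exact (hS.k_rg i hi).2
  · show (R i l.1).indicator (W.th i l.1) x = 0 ∨ (R i l.1).indicator (W.th i l.1) x = 1
    by_cases hx : x ∈ R i l.1
    · rw [Set.indicator_of_mem hx]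
      exact hS.zero_one i hi hi1 l.1 x
    · left
      exact Set.indicator_of_notMem hx _
  · show Measurable ((R i l.1).indicator (W.th i l.1))
    exact (hS.meas i hi l.1).indicator (hR.meas i l.1)
  · show ∃ x, (R i l.1).indicator (W.th i l.1) x ≠ 0
    obtain ⟨x, hx, hx0⟩ := l.2 hi
    exact ⟨x, by rwa [Set.indicator_of_mem hx]⟩
  · show 0 ≤ (R i l.1).indicator (W.th i l.1) x
    exact Set.indicator_nonneg (fun y _ => hS.nn i hi l.1 y) x
  · show ∑ l : {l : W.Lb i // W.Kp R i l}, (if W.iv i l.1 = m then (R i l.1).indicator (W.th i l.1) x else 0) ≤ 1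
    rw [sf_res_sum_kp W R i (fun l => if W.iv i l = m then (R i l).indicator (W.th i l) x else 0) (fun l hl => by
      rw [sf_res_drop_zero W R hl x]
      simp)]
    refine le_trans (Finset.sum_le_sum fun l _ => ?_) (hS.sum_le i hi m x)
    split_ifs
    · exact Set.indicator_le_self' (fun y _ => hS.nn i hi l y) x
    · exact le_rfl
  · show x ∈ P.cell (W.ts i l.1) (W.T i l.1) (W.k i)
    have hx' : (R i l.1).indicator (W.th i l.1) x ≠ 0 := hx
    apply hS.supp i hi l.1 x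
    intro h
    apply hx'
    by_cases hxR : x ∈ R i l.1
    · rw [Set.indicator_of_mem hxR, h]
    · exact Set.indicator_of_notMem hxR _
  · show W.iv i l.1 ∈ Finset.Ico (E'.i0 * 2 ^ (W.k i - E'.k0)) ((E'.i0 + 1) * 2 ^ (W.k i - E'.k0))
    rw [h0, h1]
    exact hS.iv_in i hi l.1

/-! ## LEAF L-256-RES-A2 : the stack with the restricted mask -/

/-- the gate `i0 < 1` splits the stack.   PLAN: `hS.stage`; `List.getElem?_eq_some_iff` gives `pos i0 < length`; `List.take_append_drop`, `List.drop_eq_getElem_cons`; `List.length_take`, `min_eq_left`. -/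
theorem sf_res_split (hS : W.Str tq) {i0 : ℝ} (hi : i0 ∈ W.G) (h1 : i0 < 1) :
    ∃ σ : Stg P, W.E.st = W.E.st.take (W.pos i0) ++ σ :: W.E.st.drop (W.pos i0 + 1) ∧ (W.E.st.take (W.pos i0)).length = W.pos i0 ∧ σ.k = W.k i0 ∧ σ.b = W.gb i0 ∧
      ∀ m x, σ.M m x = ∑ l, if W.iv i0 l = m then W.th i0 l x else 0 := by
  obtain ⟨σ, h2, h3, h4, h5⟩ := hS.stage i0 hi h1
  obtain ⟨hlt, hget⟩ := List.getElem?_eq_some_iff.1 h2
  refine ⟨σ, ?_, ?_, h3, h4, h5⟩
  · conv_lhs => rw [← List.take_append_drop (W.pos i0) W.E.st]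
    rw [List.drop_eq_getElem_cons hlt, hget]
  · rw [List.length_take, min_eq_left hlt.le]

/-- the restricted mask is a mask.   PLAN: measurable: `Finset.measurable_sum`, `Measurable.ite` is not needed (the condition does not depend on `x`: `split_ifs`), `Measurable.indicator`;  `0 ≤`: `Finset.sum_nonneg`;  `≤ 1`: termwise `≤` the unrestricted sum, `hS.sum_le`. -/
theorem sf_res_mask (hS : W.Str tq) {i0 : ℝ} (hi : i0 ∈ W.G) (hm : ∀ l, MeasurableSet (R i0 l)) (m : ℕ) : IsMask (W.rsM R i0 m) := by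
  refine ⟨?_, fun x => ⟨?_, ?_⟩⟩
  · unfold SfMD.rsM
    refine Finset.measurable_fun_sum _ fun l _ => ?_
    split_ifs
    · exact (hS.meas i0 hi l).indicator (hm l)
    · exact measurable_const
  · unfold SfMD.rsM
    refine Finset.sum_nonneg fun l _ => ?_
    split_ifs
    · exact Set.indicator_nonneg (fun y _ => hS.nn i0 hi l y) x
    · exact le_rfl
  · unfold SfMD.rsM
    refine le_trans (Finset.sum_le_sum fun l _ => ?_) (hS.sum_le i0 hi m x)
    split_ifs
    · exact Set.indicator_le_self' (fun y _ => hS.nn i0 hi l y) x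
    · exact le_rfl

theorem sf_res_len (hS : W.Str tq) {i0 : ℝ} (hi : i0 ∈ W.G) (h1 : i0 < 1) : (W.rsSt R i0).length = W.E.st.length := by
  obtain ⟨σ, e, -⟩ := sf_res_split W hS hi h1
  conv_rhs => rw [e]
  simp [SfMD.rsSt]

/-- PLAN: `sf_res_split` gives `st = t ++ σ :: d`; all fields but the four `st_*` are those of `hS.valid` (`Xp.withSt` changes only `st`; `Xp.kf`, `Xp.w` are unchanged by `rfl`).
`st_dep, st_meas, st_bd`: `List.mem_append`, `List.mem_cons`: members of `t`, `d` are members of `st` (rewrite `e`), the new stage: `hS.k_rg`, `sf_res_mask`.   `st_mono`: rewrite `hS.valid.st_mono` with `e`, `List.pairwise_append`, `List.pairwise_cons`; the new stage has the depth of `σ`. -/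
theorem sf_res_s_valid (hS : W.Str tq) {i0 : ℝ} (hi : i0 ∈ W.G) (h1 : i0 < 1) (hm : ∀ l, MeasurableSet (R i0 l)) : (W.E.withSt (W.rsSt R i0)).Valid := by
  obtain ⟨σ, e, -, hk, -, -⟩ := sf_res_split W hS hi h1
  have hV := hS.valid
  have hmem : ∀ τ ∈ W.rsSt R i0, τ ∈ W.E.st ∨ τ = ⟨W.k i0, W.gb i0, W.rsM R i0⟩ := by
    intro τ hτ
    unfold SfMD.rsSt at hτ
    rcases List.mem_append.1 hτ with h | h
    · exact Or.inl (List.mem_of_mem_take h)
    · rcases List.mem_cons.1 h with h | h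
      · exact Or.inr h
      · exact Or.inl (List.mem_of_mem_drop h)
  refine ⟨hV.e_pos, hV.ka_pos, hV.budget, hV.plat, hV.reg, fun τ hτ => ?_, ?_, fun τ hτ i => ?_, fun τ hτ i x => ?_, hV.iv_in, hV.ts_ok, hV.w_pos,
    hV.th_meas, hV.th_nn, hV.th_supp, hV.th_sum⟩
  · rcases hmem τ hτ with h | h
    · exact hV.st_dep τ h
    · rw [h]
      exact hS.k_rg i0 hi
  · have h2 := hV.st_mono
    rw [e, List.pairwise_append, List.pairwise_cons] at h2
    show (W.rsSt R i0).Pairwise fun σ σ' => σ.k ≤ σ'.k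
    unfold SfMD.rsSt
    rw [List.pairwise_append, List.pairwise_cons]
    refine ⟨h2.1, ⟨fun a ha => ?_, h2.2.1.2⟩, fun a ha b hb => ?_⟩
    · have := h2.2.1.1 a ha
      rw [hk] at this
      exact this
    · rcases List.mem_cons.1 hb with h | h
      · rw [h]
        have := h2.2.2 a ha σ List.mem_cons_self
        rw [hk] at this
        exact this
      · exact h2.2.2 a ha b (List.mem_cons_of_mem _ h)
  · rcases hmem τ hτ with h | h
    · exact hV.st_meas τ h i
    · rw [h]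
      exact (sf_res_mask W R hS hi hm i).1
  · rcases hmem τ hτ with h | h
    · exact hV.st_bd τ h i x
    · rw [h]
      exact (sf_res_mask W R hS hi hm i).2 x

/-- generations.   PLAN: as above; the new stage has the generation of `σ ∈ st`. -/
theorem sf_res_s_gen (hS : W.Str tq) {i0 : ℝ} (hi : i0 ∈ W.G) (h1 : i0 < 1) (C : ℕ) (hC : W.E.GenLe C) : (W.E.withSt (W.rsSt R i0)).GenLe C := by
  obtain ⟨σ, e, -, -, hb, -⟩ := sf_res_split W hS hi h1
  refine ⟨hC.1, hC.2.1, fun τ hτ => ?_⟩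
  have hτ' : τ ∈ W.rsSt R i0 := hτ
  unfold SfMD.rsSt at hτ'
  rcases List.mem_append.1 hτ' with h | h
  · exact hC.2.2 τ (List.mem_of_mem_take h)
  · rcases List.mem_cons.1 h with h | h
    · rw [h]
      show W.gb i0 ≤ C
      rw [← hb]
      apply hC.2.2 σ
      rw [e]
      exact List.mem_append_right _ List.mem_cons_self
    · exact hC.2.2 τ (List.mem_of_mem_drop h)

/-! ## LEAF L-256-RES-A3 : the gates of the restricted stack -/

/-- replacing one entry of a list does not change the other entries -/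
theorem sf_res_getElem_ne {α : Type} (t d : List α) (a b : α) (n : ℕ) (h : n ≠ t.length) :
    (t ++ a :: d)[n]? = (t ++ b :: d)[n]? := by
  rcases lt_or_gt_of_ne h with h | h
  · rw [List.getElem?_append_left h, List.getElem?_append_left h]
  · rw [List.getElem?_append_right h.le, List.getElem?_append_right h.le]
    obtain ⟨k, hk⟩ : ∃ k, n - t.length = k + 1 := ⟨n - t.length - 1, by omega⟩
    rw [hk, List.getElem?_cons_succ, List.getElem?_cons_succ]

/-- off the gate `i0` the sum over the kept labels of the restricted weights is the old mask -/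
theorem sf_res_sum_off (hS : W.Str tq) {i0 : ℝ} (hR : SfRh W R i0) {i : ℝ} (hi : i ≠ i0) (m : ℕ) (x : P.X) :
    ∑ l : {l : W.Lb i // W.Kp R i l}, (if W.iv i l.1 = m then (R i l.1).indicator (W.th i l.1) x else 0)
      = ∑ l, if W.iv i l = m then W.th i l x else 0 := by
  rw [sf_res_sum_kp W R i (fun l => if W.iv i l = m then (R i l).indicator (W.th i l) x else 0)
    (fun l hl => absurd (sf_res_kp_off W R hS hR hi l) hl)]
  refine Finset.sum_congr rfl fun l _ => ?_
  rw [hR.univ i hi l, Set.indicator_univ]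

/-- PLAN: `i = i0`: `List.getElem?_append_right` + `sf_res_split` (length of the first part), the new stage, `rsM` and `sf_res_sum_kp` (+ `sf_res_drop_zero`; the summand is `if .. then indicator .. else 0`).
`i ≠ i0`: `pos i ≠ pos i0` (`hS.k_mono`, `lt_or_gt_of_ne`);  `pos i < pos i0`: `List.getElem?_append_left`, `List.getElem?_take`;  `pos i > pos i0`: `List.getElem?_append_right`, `List.getElem?_cons`, `List.getElem?_drop`: in both cases `rsSt[pos i]? = st[pos i]?`;
then `hS.stage`, `hR.univ` (`Set.indicator_univ`), `sf_res_sum_kp` with `sf_res_kp_off` (no label is dropped). -/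
theorem sf_res_s_stage (hS : W.Str tq) {i0 : ℝ} (hi0 : i0 ∈ W.G) (h1 : i0 < 1) (hR : SfRh W R i0) :
    ∀ i ∈ W.G, i < 1 → ∃ σ : Stg P, (W.rsSt R i0)[W.pos i]? = some σ ∧ σ.k = W.k i ∧ σ.b = W.gb i ∧
      ∀ m x, σ.M m x = ∑ l : {l : W.Lb i // W.Kp R i l}, if W.iv i l.1 = m then (R i l.1).indicator (W.th i l.1) x else 0 := by
  intro i hi hi1
  obtain ⟨σ0, e, hlen, -⟩ := sf_res_split W hS hi0 h1
  by_cases hii : i = i0
  · subst hii
    refine ⟨⟨W.k i, W.gb i, W.rsM R i⟩, ?_, rfl, rfl, fun m x => ?_⟩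
    · unfold SfMD.rsSt
      rw [List.getElem?_append_right (le_of_eq hlen), hlen, Nat.sub_self, List.getElem?_cons_zero]
    · show W.rsM R i m x = _
      unfold SfMD.rsM
      refine (sf_res_sum_kp W R i (fun l => if W.iv i l = m then (R i l).indicator (W.th i l) x else 0) fun l hl => ?_).symm
      rw [sf_res_drop_zero W R hl x, ite_self]
  · have hpos : W.pos i ≠ (W.E.st.take (W.pos i0)).length := by
      rw [hlen]
      rcases lt_or_gt_of_ne hii with h | h
      · exact ((hS.k_mono i hi i0 hi0 h).2).ne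
      · exact ((hS.k_mono i0 hi0 i hi h).2).ne'
    obtain ⟨σ, h1', h2, h3, h4⟩ := hS.stage i hi hi1
    refine ⟨σ, ?_, h2, h3, fun m x => ?_⟩
    · unfold SfMD.rsSt
      rw [sf_res_getElem_ne _ _ _ σ0 _ hpos, ← e]
      exact h1'
    · rw [h4, sf_res_sum_off W R hS hR hii]

/-- PLAN: `1 ≠ i0`; `(Equiv.subtypeUnivEquiv (sf_res_kp_off ..)).trans e` with `e` from `hS.final`; `hR.univ`, `Set.indicator_univ`. -/
theorem sf_res_s_final (hS : W.Str tq) {i0 : ℝ} (h1 : i0 < 1) (hR : SfRh W R i0) :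
    ∃ e : {l : W.Lb 1 // W.Kp R 1 l} ≃ Fin W.E.L, ∀ l, W.E.iv (e l) = W.iv 1 l.1 ∧ W.E.ts (e l) = W.ts 1 l.1 ∧
      W.E.th (e l) = (R 1 l.1).indicator (W.th 1 l.1) := by
  have hne : (1 : ℝ) ≠ i0 := h1.ne'
  obtain ⟨e, he⟩ := hS.final
  refine ⟨(Equiv.subtypeUnivEquiv (sf_res_kp_off W R hS hR hne)).trans e, fun l => ?_⟩
  show W.E.iv (e l.1) = _ ∧ W.E.ts (e l.1) = _ ∧ W.E.th (e l.1) = _
  rw [hR.univ 1 hne l.1, Set.indicator_univ]
  exact he l.1

/-- **the restriction of a gate `i0 < 1` is structurally valid** -/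
theorem sf_res_s_str (hS : W.Str tq) {i0 : ℝ} (hi : i0 ∈ W.G) (h1 : i0 < 1) (hR : SfRh W R i0) : (W.rsS R i0).Str tq :=
  sf_res_str_of W R hS hR _ (sf_res_s_valid W R hS hi h1 (hR.meas i0)) rfl rfl rfl (sf_res_len W R hS hi h1) rfl
    (sf_res_s_stage W R hS hi h1 hR) (sf_res_s_final W R hS h1 hR)

/-! ## LEAF L-256-RES-A4 : the restricted final assignment -/

/-- PLAN: only the label fields change.   Write `u a := (Fintype.equivFin _).symm a` (a kept label of the gate `1`), `e` from `hS.final`: `W.iv 1 l = W.E.iv (e l)` etc.;  `iv_in, ts_ok, w_pos` from `hS.valid` at `e (u a).1`;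
`th_meas`: `Measurable.indicator`;  `th_nn`, `th_supp`: `Set.indicator_apply`;  `th_sum`: reindex by `Fintype.equivFin` (`Equiv.sum_comp`), `sf_res_sum_kp`, termwise `≤`, `hS.sum_le 1`. -/
theorem sf_res_f_valid (hS : W.Str tq) (hm : ∀ l, MeasurableSet (R 1 l)) : (W.rsFE R).Valid := by
  obtain ⟨e, he⟩ := hS.final
  have hv := hS.valid
  have h1G := hS.gate.1
  refine ⟨hv.e_pos, hv.ka_pos, hv.budget, hv.plat, hv.reg, hv.st_dep, hv.st_mono, hv.st_meas, hv.st_bd,
    fun a => ?_, fun a => ?_, fun a => ?_, fun a => ?_, fun a x => ?_, fun a x hx => ?_, fun i x => ?_⟩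
  · show ancI W.E.kf W.E.k0 (W.iv 1 ((Fintype.equivFin {l : W.Lb 1 // W.Kp R 1 l}).symm a).1) = W.E.i0
    rw [← (he _).1]
    exact hv.iv_in _
  · show P.ok (W.ts 1 ((Fintype.equivFin {l : W.Lb 1 // W.Kp R 1 l}).symm a).1) W.E.kf
    rw [← (he _).2.1]
    exact hv.ts_ok _
  · show 0 < P.wt (W.ts 1 ((Fintype.equivFin {l : W.Lb 1 // W.Kp R 1 l}).symm a).1)
    rw [← (he _).2.1]
    exact hv.w_pos _
  · exact (hS.meas 1 h1G _).indicator (hm _)
  · exact Set.indicator_nonneg (fun y _ => hS.nn 1 h1G _ y) x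
  · show x ∈ P.cell (W.ts 1 ((Fintype.equivFin {l : W.Lb 1 // W.Kp R 1 l}).symm a).1)
      (tmL W.E.kf (W.iv 1 ((Fintype.equivFin {l : W.Lb 1 // W.Kp R 1 l}).symm a).1)) W.E.kf
    have hx' : W.th 1 ((Fintype.equivFin {l : W.Lb 1 // W.Kp R 1 l}).symm a).1 x ≠ 0 := by
      intro h0
      apply hx
      show (R 1 ((Fintype.equivFin {l : W.Lb 1 // W.Kp R 1 l}).symm a).1).indicator
        (W.th 1 ((Fintype.equivFin {l : W.Lb 1 // W.Kp R 1 l}).symm a).1) x = 0
      by_cases hxR : x ∈ R 1 ((Fintype.equivFin {l : W.Lb 1 // W.Kp R 1 l}).symm a).1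
      · rw [Set.indicator_of_mem hxR, h0]
      · exact Set.indicator_of_notMem hxR _
    rw [← (he _).2.2] at hx'
    have := hv.th_supp _ x hx'
    rwa [(he _).1, (he _).2.1] at this
  · show ∑ a : Fin (Fintype.card {l : W.Lb 1 // W.Kp R 1 l}),
      (if W.iv 1 ((Fintype.equivFin {l : W.Lb 1 // W.Kp R 1 l}).symm a).1 = i then
        (R 1 ((Fintype.equivFin {l : W.Lb 1 // W.Kp R 1 l}).symm a).1).indicator
          (W.th 1 ((Fintype.equivFin {l : W.Lb 1 // W.Kp R 1 l}).symm a).1) x else 0) ≤ 1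
    rw [Equiv.sum_comp (Fintype.equivFin {l : W.Lb 1 // W.Kp R 1 l}).symm
      (fun l : {l : W.Lb 1 // W.Kp R 1 l} => if W.iv 1 l.1 = i then (R 1 l.1).indicator (W.th 1 l.1) x else 0),
      sf_res_sum_kp W R 1 (fun l => if W.iv 1 l = i then (R 1 l).indicator (W.th 1 l) x else 0) (fun l hl => by
        rw [sf_res_drop_zero W R hl x, ite_self])]
    refine le_trans (Finset.sum_le_sum fun l _ => ?_) (hS.sum_le 1 h1G i x)
    by_cases hi : W.iv 1 l = i
    · rw [if_pos hi, if_pos hi]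
      exact Set.indicator_le_self' (fun y _ => hS.nn 1 h1G l y) x
    · rw [if_neg hi, if_neg hi]

/-- PLAN: `i ≠ 1`; `(W.rsFE R).st = W.E.st` by `rfl`; `hS.stage`, `hR.univ`, `Set.indicator_univ`, `sf_res_sum_kp` with `sf_res_kp_off`. -/
theorem sf_res_f_stage (hS : W.Str tq) (hR : SfRh W R 1) :
    ∀ i ∈ W.G, i < 1 → ∃ σ : Stg P, (W.rsFE R).st[W.pos i]? = some σ ∧ σ.k = W.k i ∧ σ.b = W.gb i ∧
      ∀ m x, σ.M m x = ∑ l : {l : W.Lb i // W.Kp R i l}, if W.iv i l.1 = m then (R i l.1).indicator (W.th i l.1) x else 0 := by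
  intro i hi hi1
  obtain ⟨σ, h1', h2, h3, h4⟩ := hS.stage i hi hi1
  refine ⟨σ, h1', h2, h3, fun m x => ?_⟩
  rw [h4, sf_res_sum_off W R hS hR hi1.ne]

theorem sf_res_f_final :
    ∃ e : {l : W.Lb 1 // W.Kp R 1 l} ≃ Fin (W.rsFE R).L, ∀ l, (W.rsFE R).iv (e l) = W.iv 1 l.1 ∧ (W.rsFE R).ts (e l) = W.ts 1 l.1 ∧
      (W.rsFE R).th (e l) = (R 1 l.1).indicator (W.th 1 l.1) := by
  refine ⟨Fintype.equivFin _, fun l => ⟨?_, ?_, ?_⟩⟩
  · show W.iv 1 ((Fintype.equivFin _).symm (Fintype.equivFin _ l)).1 = _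
    rw [Equiv.symm_apply_apply]
  · show W.ts 1 ((Fintype.equivFin _).symm (Fintype.equivFin _ l)).1 = _
    rw [Equiv.symm_apply_apply]
  · show (R 1 ((Fintype.equivFin _).symm (Fintype.equivFin _ l)).1).indicator (W.th 1 ((Fintype.equivFin _).symm (Fintype.equivFin _ l)).1) = _
    rw [Equiv.symm_apply_apply]

/-- **the restriction of the final gate is structurally valid** -/
theorem sf_res_f_str (hS : W.Str tq) (hR : SfRh W R 1) : (W.rsF R).Str tq :=
  sf_res_str_of W R hS hR _ (sf_res_f_valid W R hS (hR.meas 1)) rfl rfl rfl rfl rfl (sf_res_f_stage W R hS hR) (sf_res_f_final W R)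

/-! ## LEAF L-256-RES-A5 : the relation `SfRn` -/

/-- the states entering the gates `≤ i0` do not see the restricted mask.   PLAN: `SfMD.pre`, `(W.rsS R i0).E.st = W.rsSt R i0`, `.pos = W.pos`, `.k = W.k`, `.E.v = W.E.v` by `rfl` (`show`);  `pos j ≤ pos i0` (`hS.k_mono`, or `j = i0`);
`List.take_append_of_le_length` (length of the first part `= pos i0`: `sf_res_split`), `List.take_take`, `min_eq_left`. -/
theorem sf_res_s_old (hS : W.Str tq) {i0 : ℝ} (hi : i0 ∈ W.G) (h1 : i0 < 1) : ∀ j ∈ W.G, j ≤ i0 → ∀ m, (W.rsS R i0).pre j m = W.pre j m := by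
  intro j hj hji m
  obtain ⟨σ0, e, hlen, -⟩ := sf_res_split W hS hi h1
  have hpos : W.pos j ≤ W.pos i0 := by
    rcases eq_or_lt_of_le hji with h | h
    · rw [h]
    · exact (hS.k_mono j hj i0 hi h).2.le
  show Xp.run (W.k j) m ((W.rsSt R i0).take (W.pos j)) W.E.v = Xp.run (W.k j) m (W.E.st.take (W.pos j)) W.E.v
  unfold SfMD.rsSt
  rw [List.take_append_of_le_length (by rw [hlen]; exact hpos), List.take_take, min_eq_left hpos]

theorem sf_res_rng (j : ℝ) (hj : j ∈ W.G) (l : W.Lb j) : (∃ l' : {l : W.Lb j // W.Kp R j l}, l'.1 = l) ↔ ∃ x ∈ R j l, W.th j l x ≠ 0 := by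
  constructor
  · rintro ⟨l', rfl⟩
    exact l'.2 hj
  · intro h
    exact ⟨⟨l, fun _ => h⟩, rfl⟩

/-- the relation for a gate `i0 < 1` -/
noncomputable def sfResRfS (hS : W.Str tq) {i0 : ℝ} (hi : i0 ∈ W.G) (h1 : i0 < 1) : SfRn (W.rsS R i0) W i0 R where
  g := fun _ l => l.1
  inj := fun _ => Subtype.val_injective
  rng := sf_res_rng W R
  hk0 := rfl
  hi0 := rfl
  hn := rfl
  hv := rfl
  he := rfl
  hka := rfl
  hb0 := rfl
  hq0 := rfl
  hG := rfl
  hk := rfl
  hgb := rfl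
  hr := rfl
  hf := rfl
  iv := fun _ _ => rfl
  ts := fun _ _ => rfl
  th := fun _ _ => rfl
  old := sf_res_s_old W R hS hi h1

/-- the relation for the final gate -/
noncomputable def sfResRfF : SfRn (W.rsF R) W 1 R where
  g := fun _ l => l.1
  inj := fun _ => Subtype.val_injective
  rng := sf_res_rng W R
  hk0 := rfl
  hi0 := rfl
  hn := rfl
  hv := rfl
  he := rfl
  hka := rfl
  hb0 := rfl
  hq0 := rfl
  hG := rfl
  hk := rfl
  hgb := rfl
  hr := rfl
  hf := rfl
  iv := fun _ _ => rfl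
  ts := fun _ _ => rfl
  th := fun _ _ => rfl
  old := fun _ _ _ _ => rfl

end

/-- forward preparation does not change the states entering the gates `≤ i0`.   PLAN: `SfMD.pre` of the new record is `Xp.run (W'.k j) m (st'.take (pos' j)) W'.E.v` (`show`); `pos' j = W'.pos j`; `st'.take n = (st'.take (n+1)).take n` (`List.take_take`, `min_eq_left (Nat.le_succ n)`), rewrite `h`, back. -/
theorem sf_res_fwd_old {P : PkSys} (W' : SfMD P) (i0 : ℝ) (st' : List (Stg P)) (pos' : ℝ → ℕ)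
    (h : ∀ j ∈ W'.G, j ≤ i0 → pos' j = W'.pos j ∧ st'.take (W'.pos j + 1) = W'.E.st.take (W'.pos j + 1)) :
    ∀ j ∈ W'.G, j ≤ i0 → ∀ m, SfMD.pre { W' with E := W'.E.withSt st', pos := pos' } j m = W'.pre j m := by
  intro j hj hji m
  obtain ⟨h1, h2⟩ := h j hj hji
  show Xp.run (W'.k j) m (st'.take (pos' j)) W'.E.v = Xp.run (W'.k j) m (W'.E.st.take (W'.pos j)) W'.E.v
  rw [h1]
  have e : ∀ l : List (Stg P), l.take (W'.pos j) = (l.take (W'.pos j + 1)).take (W'.pos j) := by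
    intro l
    rw [List.take_take, min_eq_left (Nat.le_succ _)]
  rw [e st', h2, ← e]

/-- **the relation is stable under forward preparation** -/
noncomputable def SfRn.fwd {P : PkSys} {W' W : SfMD P} {i0 : ℝ} {R : ∀ j, W.Lb j → Set P.X} (F : SfRn W' W i0 R) (st' : List (Stg P)) (pos' : ℝ → ℕ)
    (h : ∀ j ∈ W'.G, j ≤ i0 → pos' j = W'.pos j ∧ st'.take (W'.pos j + 1) = W'.E.st.take (W'.pos j + 1)) :
    SfRn { W' with E := W'.E.withSt st', pos := pos' } W i0 R where
  g := F.g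
  inj := F.inj
  rng := F.rng
  hk0 := F.hk0
  hi0 := F.hi0
  hn := F.hn
  hv := F.hv
  he := F.he
  hka := F.hka
  hb0 := F.hb0
  hq0 := F.hq0
  hG := F.hG
  hk := F.hk
  hgb := F.hgb
  hr := F.hr
  hf := F.hf
  iv := F.iv
  ts := F.ts
  th := F.th
  old := fun j hj hji m => (sf_res_fwd_old W' i0 st' pos' h j (F.hG ▸ hj) hji m).trans (F.old j hj hji m)

theorem sf_res_gate_eqns_cite : True := by
  have := @sfResRfS.eq_1
  have := @sfResRfF.eq_1
  have := @SfRn.fwd.eq_1
  trivial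

end Claimed.Agent.R256
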